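import Vale.Agent.P366.T2.Alg

open MeasureTheory Metric Filter Topology Set
open scoped ContDiff ENNReal

noncomputable section
namespace Vale.Agent.P366.T2
open Vale.Agent.P366.Stmt

variable {n : ℕ}

/-- `d` is the partial derivative of `f` at `x` in the direction `k`. -/
def HP (k : Fin n) (f : E n → ℝ) (d : ℝ) (x : E n) : Prop :=
  HasLineDerivAt ℝ f d x (EuclideanSpace.single k 1)

lemma HP.pd {k : Fin n} {f : E n → ℝ} {d : ℝ} {x : E n} (h : HP k f d x) : pd k f x = d :=
  HasLineDerivAt.lineDeriv h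

lemma HP.of_diff {k : Fin n} {f : E n → ℝ} {x : E n} (h : DifferentiableAt ℝ f x) :
    HP k f (Stmt.pd k f x) x := by
  have := h.hasFDerivAt.hasLineDerivAt (EuclideanSpace.single k (1 : ℝ))
  unfold HP Stmt.pd
  rw [HasLineDerivAt.lineDeriv this]
  exact this

lemma HP.congr {k : Fin n} {f g : E n → ℝ} {d : ℝ} {x : E n} (h : HP k f d x)
    (hfg : g =ᶠ[𝓝 x] f) : HP k g d x :=
  HasLineDerivAt.congr_of_eventuallyEq h hfg

lemma HP.const (k : Fin n) (c : ℝ) (x : E n) : HP k (fun _ => c) 0 x := by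
  unfold HP HasLineDerivAt
  exact hasDerivAt_const _ _

lemma HP.coord (k i : Fin n) (x : E n) : HP k (fun y => y i) (if i = k then 1 else 0) x := by
  unfold HP HasLineDerivAt
  have h : ∀ t : ℝ, (x + t • EuclideanSpace.single k (1 : ℝ)) i =
      x i + t * (if i = k then 1 else 0) := by
    intro t
    simp [EuclideanSpace.single]
  simp only [h]
  simpa using ((hasDerivAt_id (0 : ℝ)).mul_const (if i = k then (1 : ℝ) else 0)).const_add (x i)

lemma HP.add {k : Fin n} {f g : E n → ℝ} {d e : ℝ} {x : E n} (hf : HP k f d x)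
    (hg : HP k g e x) : HP k (fun y => f y + g y) (d + e) x := HasDerivAt.add hf hg

lemma HP.sub {k : Fin n} {f g : E n → ℝ} {d e : ℝ} {x : E n} (hf : HP k f d x)
    (hg : HP k g e x) : HP k (fun y => f y - g y) (d - e) x := HasDerivAt.sub hf hg

lemma HP.neg {k : Fin n} {f : E n → ℝ} {d : ℝ} {x : E n} (hf : HP k f d x) :
    HP k (fun y => -f y) (-d) x := HasDerivAt.neg hf

lemma HP.mul {k : Fin n} {f g : E n → ℝ} {d e : ℝ} {x : E n} (hf : HP k f d x)
    (hg : HP k g e x) : HP k (fun y => f y * g y) (d * g x + f x * e) x := by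
  have := HasDerivAt.mul (hf : HasDerivAt _ _ _) (hg : HasDerivAt _ _ _)
  simp only [zero_smul, add_zero] at this
  exact this

lemma HP.const_mul {k : Fin n} {f : E n → ℝ} {d : ℝ} {x : E n} (c : ℝ) (hf : HP k f d x) :
    HP k (fun y => c * f y) (c * d) x := HasDerivAt.const_mul c hf

lemma HP.sum {ι : Type*} (s : Finset ι) {k : Fin n} {f : ι → E n → ℝ} {d : ι → ℝ} {x : E n}
    (h : ∀ a ∈ s, HP k (f a) (d a) x) : HP k (fun y => ∑ a ∈ s, f a y) (∑ a ∈ s, d a) x :=
  HasDerivAt.fun_sum h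

lemma HP.Y (Q : Quat n) (a : Fin 3) (k i : Fin n) (x : E n) :
    HP k (fun y => Q.Y a y i) (Q.J a i k) x := by
  have h := HP.sum (k := k) (x := x) Finset.univ (f := fun j y => Q.J a i j * y j)
    (d := fun j => Q.J a i j * (if j = k then 1 else 0))
    (fun j _ => (HP.coord k j x).const_mul _)
  have e : ∑ j, Q.J a i j * (if j = k then (1 : ℝ) else 0) = Q.J a i k := by simp
  rw [e] at h
  exact h

lemma len_ne {x : E n} (hx : x ≠ 0) : len x ≠ 0 := by simp [len, hx]

lemma hasFDerivAt_len {x : E n} (hx : x ≠ 0) :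
    HasFDerivAt (fun y : E n => len y) ((len x)⁻¹ • (innerSL ℝ x)) x := by
  unfold len
  have h1 := (contDiffAt_norm ℝ (n := 1) hx).differentiableAt (by norm_num)
  have h2 : HasFDerivAt (fun y : E n => ‖y‖ ^ 2) ((2 : ℝ) • innerSL ℝ x) x := by
    have := (hasStrictFDerivAt_norm_sq x).hasFDerivAt
    rwa [two_nsmul, ← two_smul ℝ] at this
  have h3 : HasFDerivAt (fun y : E n => ‖y‖ ^ 2) ((2 * ‖x‖) • fderiv ℝ (fun y : E n => ‖y‖) x) x := by
    have := h1.hasFDerivAt.pow 2
    simpa [mul_comm] using this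
  have h4 := h3.unique h2
  have h5 : fderiv ℝ (fun y : E n => ‖y‖) x = ‖x‖⁻¹ • innerSL ℝ x := by
    have hx' : ‖x‖ ≠ 0 := norm_ne_zero_iff.mpr hx
    ext v
    have := congrArg (fun L => L v) h4
    simp only [smul_apply, smul_eq_mul] at this ⊢
    field_simp
    linarith
  rw [← h5]
  exact h1.hasFDerivAt

lemma HP.radial {f : ℝ → ℝ} {f' : ℝ} {x : E n} (hx : x ≠ 0) (hf : HasDerivAt f f' (len x))
    (k : Fin n) : HP k (fun y => f (len y)) (f' / len x * x k) x := by
  have h := (hf.comp_hasFDerivAt x (hasFDerivAt_len hx)).hasLineDerivAt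
    (EuclideanSpace.single k (1 : ℝ))
  have e : (f' • (len x)⁻¹ • (innerSL ℝ x)) (EuclideanSpace.single k (1 : ℝ)) =
      f' / len x * x k := by
    simp [EuclideanSpace.inner_single_right]
    ring
  rw [e] at h
  exact h

lemma pd_radial {f : ℝ → ℝ} {x : E n} (hx : x ≠ 0) (hf : DifferentiableAt ℝ f (len x))
    (k : Fin n) : pd k (fun y => f (len y)) x = deriv f (len x) / len x * x k :=
  (HP.radial hx hf.hasDerivAt k).pd

end Vale.Agent.P366.T2
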