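import Vale.Agent.P366.T2.Alg

open MeasureTheory Metric Filter Topology Set
open scoped ContDiff ENNReal

noncomputable section
namespace Vale.Agent.P366.T2
open Vale.Agent.P366.Stmt

variable {n : ℕ}

namespace Data

variable (D : Data n)

/-- fibre matrix of `g` -/
def qm (r : ℝ) : Matrix (Fin 3) (Fin 3) ℝ := Matrix.of fun a b => D.q a b r

/-- inverse fibre matrix -/
def iq (r : ℝ) : Matrix (Fin 3) (Fin 3) ℝ := (D.qm r)⁻¹

lemma qm_pd {r : ℝ} (hr : D.R ≤ r) : (D.qm r).PosDef := D.q_pos r hr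

lemma qm_det_pos {r : ℝ} (hr : D.R ≤ r) : 0 < (D.qm r).det := (D.qm_pd hr).det_pos

lemma qm_det_ne {r : ℝ} (hr : D.R ≤ r) : (D.qm r).det ≠ 0 := (D.qm_det_pos hr).ne'

lemma qm_symm (r : ℝ) : (D.qm r).transpose = D.qm r := by
  ext a b; simp [qm, Matrix.transpose_apply, D.q_symm b a]

lemma iq_symm (r : ℝ) : (D.iq r).transpose = D.iq r := by
  unfold iq
  rw [Matrix.transpose_nonsing_inv, D.qm_symm]

lemma iq_symm_apply (r : ℝ) (a b : Fin 3) : D.iq r a b = D.iq r b a := by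
  have := congrFun (congrFun (D.iq_symm r) b) a
  simpa [Matrix.transpose_apply] using this

lemma qm_mul_iq {r : ℝ} (hr : D.R ≤ r) : D.qm r * D.iq r = 1 :=
  Matrix.mul_nonsing_inv _ (isUnit_iff_ne_zero.mpr (D.qm_det_ne hr))

lemma iq_mul_qm {r : ℝ} (hr : D.R ≤ r) : D.iq r * D.qm r = 1 :=
  Matrix.nonsing_inv_mul _ (isUnit_iff_ne_zero.mpr (D.qm_det_ne hr))

lemma q_iq {r : ℝ} (hr : D.R ≤ r) (a c : Fin 3) :
    ∑ b, D.q a b r * D.iq r b c = if a = c then 1 else 0 := by
  have := congrFun (congrFun (D.qm_mul_iq hr) a) c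
  rw [Matrix.mul_apply, Matrix.one_apply] at this
  exact this

/-- the components of the inverse metric -/
def U (x : E n) (i j : Fin n) : ℝ :=
  D.Q.ten (fun r => 1 / D.al r) (fun r => 1 / D.p r) (fun _ _ => 0) (fun a b r => D.iq r a b) x i j

end Data

lemma len_pos_of {D : Data n} {x : E n} (hx : D.R ≤ len x) : x ≠ 0 := by
  have := D.hR
  intro h
  rw [h] at hx
  simp [len] at hx
  linarith

variable {D : Data n} {g K : Field n}

lemma g_mul_U (h : Fits D g K) {x : E n} (hx : D.R ≤ len x) :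
    mat g x * Matrix.of (D.U x) = 1 := by
  have hx0 := len_pos_of hx
  have hr : len x ≠ 0 := by simp [len, hx0]
  have hal := (D.al_pos _ hx).ne'
  have hp := (D.p_pos _ hx).ne'
  ext i k
  rw [Matrix.mul_apply]
  have e0 : ∀ j, mat g x i j * Matrix.of (D.U x) j k =
      D.Q.ten D.al D.p (fun _ _ => 0) D.q x i j *
        D.Q.ten (fun r => 1 / D.al r) (fun r => 1 / D.p r) (fun _ _ => 0)
          (fun a b r => D.iq r a b) x j k := by
    intro j
    rw [show mat g x i j = g x i j from rfl, h.hg x hx]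
    rfl
  simp only [e0]
  rw [D.Q.ten_mul_ten _ _ _ hx0]
  have hsym : ∀ j, D.Q.ten (fun r => 1 / D.al r) (fun r => 1 / D.p r) (fun _ _ => 0)
      (fun a b r => D.iq r a b) x j k = D.Q.ten (fun r => 1 / D.al r) (fun r => 1 / D.p r)
      (fun _ _ => 0) (fun a b r => D.iq r a b) x k j := fun j =>
    D.Q.ten_symm _ _ _ _ (fun a b => by ext r; exact D.iq_symm_apply r a b) x j k
  have e1 : ∑ j, (D.p (len x) * x j) * D.Q.ten (fun r => 1 / D.al r) (fun r => 1 / D.p r)
      (fun _ _ => 0) (fun a b r => D.iq r a b) x j k = x k := by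
    have : ∀ j, (D.p (len x) * x j) * D.Q.ten (fun r => 1 / D.al r) (fun r => 1 / D.p r)
      (fun _ _ => 0) (fun a b r => D.iq r a b) x j k = D.p (len x) *
      (D.Q.ten (fun r => 1 / D.al r) (fun r => 1 / D.p r)
      (fun _ _ => 0) (fun a b r => D.iq r a b) x k j * x j) := by
      intro j; rw [hsym j]; ring
    simp only [this, ← Finset.mul_sum, D.Q.ten_x _ _ _ _ hx0]
    simp
    field_simp
  have e2 : ∀ b, ∑ j, D.Q.Y b x j * D.Q.ten (fun r => 1 / D.al r) (fun r => 1 / D.p r)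
      (fun _ _ => 0) (fun a b r => D.iq r a b) x j k = ∑ c, D.iq (len x) c b * D.Q.Y c x k := by
    intro b
    have : ∀ j, D.Q.Y b x j * D.Q.ten (fun r => 1 / D.al r) (fun r => 1 / D.p r)
      (fun _ _ => 0) (fun a b r => D.iq r a b) x j k = 
      D.Q.ten (fun r => 1 / D.al r) (fun r => 1 / D.p r)
      (fun _ _ => 0) (fun a b r => D.iq r a b) x k j * D.Q.Y b x j := by
      intro j; rw [hsym j]; ring
    simp only [this, D.Q.ten_Y _ _ _ _ hx0]
    simp
  have e3 : ∀ a, ∑ j, (∑ b, D.q a b (len x) * D.Q.Y b x j) *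
      D.Q.ten (fun r => 1 / D.al r) (fun r => 1 / D.p r)
      (fun _ _ => 0) (fun a b r => D.iq r a b) x j k = D.Q.Y a x k := by
    intro a
    have : ∀ j, (∑ b, D.q a b (len x) * D.Q.Y b x j) *
      D.Q.ten (fun r => 1 / D.al r) (fun r => 1 / D.p r)
      (fun _ _ => 0) (fun a b r => D.iq r a b) x j k = ∑ b, D.q a b (len x) * (D.Q.Y b x j *
      D.Q.ten (fun r => 1 / D.al r) (fun r => 1 / D.p r)
      (fun _ _ => 0) (fun a b r => D.iq r a b) x j k) := by
      intro j; rw [Finset.sum_mul]; exact Finset.sum_congr rfl fun b _ => by ring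
    simp only [this]
    rw [Finset.sum_comm]
    simp only [← Finset.mul_sum, e2]
    have e4 : ∑ b, D.q a b (len x) * ∑ c, D.iq (len x) c b * D.Q.Y c x k =
        ∑ c, (∑ b, D.q a b (len x) * D.iq (len x) b c) * D.Q.Y c x k := by
      simp only [Finset.mul_sum, Finset.sum_mul]
      rw [Finset.sum_comm]
      refine Finset.sum_congr rfl fun c _ => Finset.sum_congr rfl fun b _ => ?_
      rw [D.iq_symm_apply (len x) c b]; ring
    rw [e4]
    simp only [D.q_iq hx]
    simp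
  simp only [e1, e3]
  rw [Quat.Pi, Matrix.one_apply]
  field_simp
  split_ifs <;> ring

lemma up_eq (h : Fits D g K) {x : E n} (hx : D.R ≤ len x) (i j : Fin n) :
    up g i j x = D.U x i j := by
  unfold up
  rw [Matrix.inv_eq_right_inv (g_mul_U h hx)]
  rfl

lemma U_symm (x : E n) (i j : Fin n) : D.U x i j = D.U x j i :=
  D.Q.ten_symm _ _ _ _ (fun a b => by ext r; exact D.iq_symm_apply r a b) x i j

lemma U_x {x : E n} (hx : x ≠ 0) (i : Fin n) :
    ∑ j, D.U x i j * x j = x i / D.p (len x) := by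
  unfold Data.U
  rw [D.Q.ten_x _ _ _ _ hx]
  simp
  ring

lemma U_Y {x : E n} (hx : x ≠ 0) (c : Fin 3) (i : Fin n) :
    ∑ j, D.U x i j * D.Q.Y c x j = ∑ a, D.iq (len x) a c * D.Q.Y a x i := by
  unfold Data.U
  rw [D.Q.ten_Y _ _ _ _ hx]
  simp

end Vale.Agent.P366.T2
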