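import Vale.Agent.P366.T2.Defs

open MeasureTheory Metric Filter Topology Set
open scoped ContDiff ENNReal

noncomputable section
namespace Vale.Agent.P366.T2
open Vale.Agent.P366.Stmt

variable {n : ℕ}

/-- The Levi-Civita symbol. -/
def eps (a b c : Fin 3) : ℝ :=
  (![![![0, 0, 0], ![0, 0, 1], ![0, -1, 0]], ![![0, 0, -1], ![0, 0, 0], ![1, 0, 0]],
    ![![0, 1, 0], ![-1, 0, 0], ![0, 0, 0]]] : Fin 3 → Fin 3 → Fin 3 → ℝ) a b c

lemma eps_swap (a b c : Fin 3) : eps b a c = -eps a b c := by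
  fin_cases a <;> fin_cases b <;> fin_cases c <;> simp [eps]

lemma eps_cyc (a b c : Fin 3) : eps b c a = eps a b c := by
  fin_cases a <;> fin_cases b <;> fin_cases c <;> simp [eps]

namespace Quat

variable (Q : Quat n)

lemma h10 : Q.J 1 * Q.J 0 = -Q.J 2 := by
  have := congrArg Matrix.transpose Q.h01
  rw [Matrix.transpose_mul, Q.skew, Q.skew, Q.skew, neg_mul_neg] at this
  exact this

lemma h21 : Q.J 2 * Q.J 1 = -Q.J 0 := by
  have := congrArg Matrix.transpose Q.h12
  rw [Matrix.transpose_mul, Q.skew, Q.skew, Q.skew, neg_mul_neg] at this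
  exact this

lemma h02 : Q.J 0 * Q.J 2 = -Q.J 1 := by
  have := congrArg Matrix.transpose Q.h20
  rw [Matrix.transpose_mul, Q.skew, Q.skew, Q.skew, neg_mul_neg] at this
  exact this

lemma J_mul (a b : Fin 3) :
    Q.J a * Q.J b = (if a = b then (-1 : Matrix (Fin n) (Fin n) ℝ) else 0) +
      ∑ c, eps a b c • Q.J c := by
  fin_cases a <;> fin_cases b <;>
    simp [eps, Fin.sum_univ_three, Q.sq, Q.h01, Q.h12, Q.h20, Q.h10, Q.h21, Q.h02]

lemma J_mul_apply (a b : Fin 3) (i k : Fin n) :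
    ∑ j, Q.J a i j * Q.J b j k =
      (if a = b then (if i = k then -1 else 0) else 0) + ∑ c, eps a b c * Q.J c i k := by
  have := congrFun (congrFun (Q.J_mul a b) i) k
  rw [Matrix.mul_apply, Matrix.add_apply, Matrix.sum_apply] at this
  rw [this]
  congr 1
  by_cases h : a = b
  · simp only [h, if_true, Matrix.neg_apply, Matrix.one_apply]
    split_ifs <;> simp
  · simp [h]

lemma skew_apply (a : Fin 3) (i j : Fin n) : Q.J a j i = -Q.J a i j := by
  have := congrFun (congrFun (Q.skew a) i) j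
  simpa [Matrix.transpose_apply] using this

lemma diag (a : Fin 3) (i : Fin n) : Q.J a i i = 0 := by
  have := Q.skew_apply a i i
  linarith

lemma trace_J (a : Fin 3) : ∑ i, Q.J a i i = 0 := by simp [Q.diag]

lemma sum_sq (x : E n) : ∑ i, x i * x i = len x ^ 2 := by
  unfold len
  rw [EuclideanSpace.norm_eq, Real.sq_sqrt (Finset.sum_nonneg fun i _ => sq_nonneg _)]
  exact Finset.sum_congr rfl fun i _ => by rw [Real.norm_eq_abs, sq_abs]; ring

/-- a skew form vanishes on the diagonal -/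
lemma skew_form (a : Fin 3) (y : Fin n → ℝ) : ∑ i, ∑ j, y i * (Q.J a i j * y j) = 0 := by
  have h : ∑ i, ∑ j, y i * (Q.J a i j * y j) = -∑ i, ∑ j, y i * (Q.J a i j * y j) := by
    conv_lhs => rw [Finset.sum_comm]
    rw [← Finset.sum_neg_distrib]
    refine Finset.sum_congr rfl fun i _ => ?_
    rw [← Finset.sum_neg_distrib]
    refine Finset.sum_congr rfl fun j _ => ?_
    rw [Q.skew_apply a i j]; ring
  linarith

lemma x_Y (a : Fin 3) (x : E n) : ∑ i, x i * Q.Y a x i = 0 := by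
  have := Q.skew_form a (fun i => x i)
  simpa [Quat.Y, Finset.mul_sum] using this

lemma Y_x (a : Fin 3) (x : E n) : ∑ i, Q.Y a x i * x i = 0 := by
  rw [← Q.x_Y a x]; exact Finset.sum_congr rfl fun i _ => mul_comm _ _

lemma J_Y (a b : Fin 3) (x : E n) (i : Fin n) :
    ∑ j, Q.J a i j * Q.Y b x j =
      (if a = b then -x i else 0) + ∑ c, eps a b c * Q.Y c x i := by
  have h1 : ∑ j, Q.J a i j * Q.Y b x j = ∑ k, (∑ j, Q.J a i j * Q.J b j k) * x k := by
    simp only [Quat.Y, Finset.mul_sum, Finset.sum_mul]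
    rw [Finset.sum_comm]
    exact Finset.sum_congr rfl fun k _ => Finset.sum_congr rfl fun j _ => by ring
  rw [h1]
  simp only [Q.J_mul_apply, add_mul, Finset.sum_add_distrib]
  congr 1
  · by_cases h : a = b
    · simp only [h, if_true]
      rw [Finset.sum_eq_single i]
      · simp
      · intro k _ hk; rw [if_neg (Ne.symm hk)]; ring
      · simp
    · simp [h]
  · simp only [Quat.Y, Finset.sum_mul, Finset.mul_sum]
    rw [Finset.sum_comm]
    exact Finset.sum_congr rfl fun k _ => Finset.sum_congr rfl fun j _ => by ring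

lemma JT_Y (a b : Fin 3) (x : E n) (i : Fin n) :
    ∑ j, Q.J a j i * Q.Y b x j =
      (if a = b then x i else 0) - ∑ c, eps a b c * Q.Y c x i := by
  have h : ∑ j, Q.J a j i * Q.Y b x j = -∑ j, Q.J a i j * Q.Y b x j := by
    rw [← Finset.sum_neg_distrib]
    exact Finset.sum_congr rfl fun j _ => by rw [Q.skew_apply a i j]; ring
  rw [h, Q.J_Y]
  split_ifs <;> ring

lemma JT_x (a : Fin 3) (x : E n) (i : Fin n) : ∑ j, Q.J a j i * x j = -Q.Y a x i := by
  rw [Quat.Y, ← Finset.sum_neg_distrib]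
  exact Finset.sum_congr rfl fun j _ => by rw [Q.skew_apply a i j]; ring

lemma J_x (a : Fin 3) (x : E n) (i : Fin n) : ∑ j, Q.J a i j * x j = Q.Y a x i := rfl

lemma Y_Y (a b : Fin 3) (x : E n) :
    ∑ i, Q.Y a x i * Q.Y b x i = if a = b then len x ^ 2 else 0 := by
  have h1 : ∑ i, Q.Y a x i * Q.Y b x i = ∑ j, x j * (∑ i, Q.J a i j * Q.Y b x i) := by
    simp only [Finset.mul_sum]
    rw [Finset.sum_comm]
    refine Finset.sum_congr rfl fun i _ => ?_
    rw [Quat.Y, Finset.sum_mul]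
    exact Finset.sum_congr rfl fun j _ => by ring
  rw [h1]
  simp only [Q.JT_Y, mul_sub, Finset.sum_sub_distrib]
  have h2 : ∑ j, x j * (∑ c, eps a b c * Q.Y c x j) = 0 := by
    simp only [Finset.mul_sum]
    rw [Finset.sum_comm]
    refine Finset.sum_eq_zero fun c _ => ?_
    have : ∑ j, x j * (eps a b c * Q.Y c x j) = eps a b c * ∑ j, x j * Q.Y c x j := by
      rw [Finset.mul_sum]; exact Finset.sum_congr rfl fun j _ => by ring
    rw [this, Q.x_Y, mul_zero]
  rw [h2, sub_zero]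
  split_ifs with h
  · exact sum_sq x
  · simp

include Q in
/-- `n` is at least four. -/
lemma four_le (hn : 0 < n) : 4 ≤ n := by
  classical
  set x : E n := EuclideanSpace.single ⟨0, hn⟩ 1 with hx
  have hlen : len x = 1 := by simp [hx, len]
  -- four orthonormal vectors
  let w : Fin 4 → (Fin n → ℝ) := ![fun i => x i, Q.Y 0 x, Q.Y 1 x, Q.Y 2 x]
  have horth : ∀ a b, ∑ i, w a i * w b i = if a = b then 1 else 0 := by
    intro a b
    fin_cases a <;> fin_cases b <;>
      simp [w, Q.x_Y, Q.Y_x, Q.Y_Y, sum_sq, hlen]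
  have hli : LinearIndependent ℝ w := by
    rw [Fintype.linearIndependent_iff]
    intro c hc a
    have := congrArg (fun v => ∑ i, w a i * v i) hc
    simp only [Pi.zero_apply, mul_zero, Finset.sum_const_zero, Finset.sum_apply, Pi.smul_apply,
      smul_eq_mul, Finset.mul_sum] at this
    rw [Finset.sum_comm] at this
    have h2 : ∀ b, ∑ i, w a i * (c b * w b i) = c b * (if a = b then 1 else 0) := by
      intro b
      rw [← horth a b, Finset.mul_sum]
      exact Finset.sum_congr rfl fun i _ => by ring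
    simpa [h2] using this
  have := hli.fintype_card_le_finrank
  simpa using this

/-! ### Contractions of the invariant tensors -/

variable (f u : ℝ → ℝ) (w : Fin 3 → ℝ → ℝ) (s : Fin 3 → Fin 3 → ℝ → ℝ)

/-- the projection to the horizontal space -/
def Pi (x : E n) (i j : Fin n) : ℝ :=
  (if i = j then 1 else 0) - (x i * x j + ∑ a, Q.Y a x i * Q.Y a x j) / len x ^ 2

lemma ten_eq (x : E n) (i j : Fin n) : Q.ten f u w s x i j = f (len x) * Q.Pi x i j +
    (u (len x) * x i * x j + ∑ a, w a (len x) * (x i * Q.Y a x j + Q.Y a x i * x j) +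
      ∑ a, ∑ b, s a b (len x) * Q.Y a x i * Q.Y b x j) / len x ^ 2 := rfl

lemma Pi_symm (x : E n) (i j : Fin n) : Q.Pi x i j = Q.Pi x j i := by
  unfold Quat.Pi
  simp only [eq_comm (a := i) (b := j), mul_comm (x i) (x j), mul_comm (Q.Y _ x i) (Q.Y _ x j)]

lemma Pi_x {x : E n} (hx : x ≠ 0) (i : Fin n) : ∑ j, Q.Pi x i j * x j = 0 := by
  have hr : len x ≠ 0 := by simp [len, hx]
  have h1 : ∑ j, Q.Pi x i j * x j = x i - (x i * ∑ j, x j * x j +
      ∑ a, Q.Y a x i * ∑ j, Q.Y a x j * x j) / len x ^ 2 := by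
    have h0 : ∀ j, Q.Pi x i j * x j = (if i = j then x j else 0) -
        (x i * (x j * x j) + ∑ a, Q.Y a x i * (Q.Y a x j * x j)) / len x ^ 2 := by
      intro j
      unfold Quat.Pi
      have : (∑ a, Q.Y a x i * (Q.Y a x j * x j)) = (∑ a, Q.Y a x i * Q.Y a x j) * x j := by
        rw [Finset.sum_mul]; exact Finset.sum_congr rfl fun a _ => by ring
      rw [this]
      split_ifs <;> ring
    simp only [h0, Finset.sum_sub_distrib, ← Finset.sum_div, Finset.sum_add_distrib,
      ← Finset.mul_sum]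
    rw [Finset.sum_comm]
    simp only [← Finset.mul_sum]
    simp
  rw [h1]
  simp only [sum_sq, Q.Y_x, mul_zero, Finset.sum_const_zero, add_zero]
  field_simp
  ring

lemma Pi_Y {x : E n} (hx : x ≠ 0) (c : Fin 3) (i : Fin n) : ∑ j, Q.Pi x i j * Q.Y c x j = 0 := by
  have hr : len x ≠ 0 := by simp [len, hx]
  have h1 : ∑ j, Q.Pi x i j * Q.Y c x j = Q.Y c x i - (x i * ∑ j, x j * Q.Y c x j +
      ∑ a, Q.Y a x i * ∑ j, Q.Y a x j * Q.Y c x j) / len x ^ 2 := by
    have h0 : ∀ j, Q.Pi x i j * Q.Y c x j = (if i = j then Q.Y c x j else 0) -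
        (x i * (x j * Q.Y c x j) + ∑ a, Q.Y a x i * (Q.Y a x j * Q.Y c x j)) / len x ^ 2 := by
      intro j
      unfold Quat.Pi
      have : (∑ a, Q.Y a x i * (Q.Y a x j * Q.Y c x j)) =
          (∑ a, Q.Y a x i * Q.Y a x j) * Q.Y c x j := by
        rw [Finset.sum_mul]; exact Finset.sum_congr rfl fun a _ => by ring
      rw [this]
      split_ifs <;> ring
    simp only [h0, Finset.sum_sub_distrib, ← Finset.sum_div, Finset.sum_add_distrib,
      ← Finset.mul_sum]
    rw [Finset.sum_comm]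
    simp only [← Finset.mul_sum]
    simp
  rw [h1]
  simp only [Q.x_Y, Q.Y_Y, mul_zero, zero_add]
  have : ∑ a, Q.Y a x i * (if a = c then len x ^ 2 else 0) = Q.Y c x i * len x ^ 2 := by
    simp
  rw [this]
  field_simp
  ring

lemma ten_x {x : E n} (hx : x ≠ 0) (i : Fin n) :
    ∑ j, Q.ten f u w s x i j * x j = u (len x) * x i + ∑ a, w a (len x) * Q.Y a x i := by
  have hr : len x ≠ 0 := by simp [len, hx]
  have h0 : ∀ j, Q.ten f u w s x i j * x j = f (len x) * (Q.Pi x i j * x j) +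
      (u (len x) * x i * (x j * x j) + ∑ a, (w a (len x) * x i * (Q.Y a x j * x j) +
        w a (len x) * Q.Y a x i * (x j * x j)) +
      ∑ a, ∑ b, s a b (len x) * Q.Y a x i * (Q.Y b x j * x j)) / len x ^ 2 := by
    intro j
    rw [Q.ten_eq]
    have e1 : ∑ a, (w a (len x) * x i * (Q.Y a x j * x j) + w a (len x) * Q.Y a x i * (x j * x j))
        = (∑ a, w a (len x) * (x i * Q.Y a x j + Q.Y a x i * x j)) * x j := by
      rw [Finset.sum_mul]; exact Finset.sum_congr rfl fun a _ => by ring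
    have e2 : ∑ a, ∑ b, s a b (len x) * Q.Y a x i * (Q.Y b x j * x j)
        = (∑ a, ∑ b, s a b (len x) * Q.Y a x i * Q.Y b x j) * x j := by
      rw [Finset.sum_mul]; refine Finset.sum_congr rfl fun a _ => ?_
      rw [Finset.sum_mul]; exact Finset.sum_congr rfl fun b _ => by ring
    rw [e1, e2]; ring
  simp only [h0, Finset.sum_add_distrib, ← Finset.mul_sum, ← Finset.sum_div, Q.Pi_x hx]
  have e3 : ∑ j, ∑ a, w a (len x) * x i * (Q.Y a x j * x j) = 0 := by
    rw [Finset.sum_comm]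
    simp only [← Finset.mul_sum, Q.Y_x, mul_zero, Finset.sum_const_zero]
  have e4 : ∑ j, ∑ a, w a (len x) * Q.Y a x i * (x j * x j) =
      (∑ a, w a (len x) * Q.Y a x i) * len x ^ 2 := by
    rw [Finset.sum_comm]
    simp only [← Finset.mul_sum, sum_sq, Finset.sum_mul]
  have e5 : ∑ j, ∑ a, ∑ b, s a b (len x) * Q.Y a x i * (Q.Y b x j * x j) = 0 := by
    rw [Finset.sum_comm]
    refine Finset.sum_eq_zero fun a _ => ?_
    rw [Finset.sum_comm]
    refine Finset.sum_eq_zero fun b _ => ?_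
    rw [← Finset.mul_sum, Q.Y_x, mul_zero]
  rw [e3, e4, e5, sum_sq]
  field_simp
  ring

lemma ten_Y {x : E n} (hx : x ≠ 0) (c : Fin 3) (i : Fin n) :
    ∑ j, Q.ten f u w s x i j * Q.Y c x j = w c (len x) * x i + ∑ a, s a c (len x) * Q.Y a x i := by
  have hr : len x ≠ 0 := by simp [len, hx]
  have h0 : ∀ j, Q.ten f u w s x i j * Q.Y c x j = f (len x) * (Q.Pi x i j * Q.Y c x j) +
      (u (len x) * x i * (x j * Q.Y c x j) + ∑ a, (w a (len x) * x i * (Q.Y a x j * Q.Y c x j) +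
        w a (len x) * Q.Y a x i * (x j * Q.Y c x j)) +
      ∑ a, ∑ b, s a b (len x) * Q.Y a x i * (Q.Y b x j * Q.Y c x j)) / len x ^ 2 := by
    intro j
    rw [Q.ten_eq]
    have e1 : ∑ a, (w a (len x) * x i * (Q.Y a x j * Q.Y c x j) +
          w a (len x) * Q.Y a x i * (x j * Q.Y c x j))
        = (∑ a, w a (len x) * (x i * Q.Y a x j + Q.Y a x i * x j)) * Q.Y c x j := by
      rw [Finset.sum_mul]; exact Finset.sum_congr rfl fun a _ => by ring
    have e2 : ∑ a, ∑ b, s a b (len x) * Q.Y a x i * (Q.Y b x j * Q.Y c x j)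
        = (∑ a, ∑ b, s a b (len x) * Q.Y a x i * Q.Y b x j) * Q.Y c x j := by
      rw [Finset.sum_mul]; refine Finset.sum_congr rfl fun a _ => ?_
      rw [Finset.sum_mul]; exact Finset.sum_congr rfl fun b _ => by ring
    rw [e1, e2]; ring
  simp only [h0, Finset.sum_add_distrib, ← Finset.mul_sum, ← Finset.sum_div, Q.Pi_Y hx, Q.x_Y]
  have e3 : ∑ j, ∑ a, w a (len x) * x i * (Q.Y a x j * Q.Y c x j) =
      w c (len x) * x i * len x ^ 2 := by
    rw [Finset.sum_comm]
    simp only [← Finset.mul_sum, Q.Y_Y]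
    simp
  have e4 : ∑ j, ∑ a, w a (len x) * Q.Y a x i * (x j * Q.Y c x j) = 0 := by
    rw [Finset.sum_comm]
    simp only [← Finset.mul_sum, Q.x_Y, mul_zero, Finset.sum_const_zero]
  have e5 : ∑ j, ∑ a, ∑ b, s a b (len x) * Q.Y a x i * (Q.Y b x j * Q.Y c x j) =
      (∑ a, s a c (len x) * Q.Y a x i) * len x ^ 2 := by
    rw [Finset.sum_comm, Finset.sum_mul]
    refine Finset.sum_congr rfl fun a _ => ?_
    rw [Finset.sum_comm]
    simp only [← Finset.mul_sum, Q.Y_Y]
    simp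
  rw [e3, e4, e5]
  field_simp
  ring

lemma Pi_Pi {x : E n} (hx : x ≠ 0) (i k : Fin n) :
    ∑ j, Q.Pi x i j * Q.Pi x j k = Q.Pi x i k := by
  have h0 : ∀ j, Q.Pi x i j * Q.Pi x j k = (if j = k then Q.Pi x i j else 0) -
      ((Q.Pi x i j * x j) * x k + ∑ a, (Q.Pi x i j * Q.Y a x j) * Q.Y a x k) / len x ^ 2 := by
    intro j
    have : ∑ a, (Q.Pi x i j * Q.Y a x j) * Q.Y a x k =
        Q.Pi x i j * ∑ a, Q.Y a x j * Q.Y a x k := by
      rw [Finset.mul_sum]; exact Finset.sum_congr rfl fun a _ => by ring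
    rw [this]
    conv_lhs => rw [show Q.Pi x j k = (if j = k then 1 else 0) -
      (x j * x k + ∑ a, Q.Y a x j * Q.Y a x k) / len x ^ 2 from rfl]
    split_ifs <;> ring
  simp only [h0, Finset.sum_sub_distrib, ← Finset.sum_div, Finset.sum_add_distrib,
    ← Finset.sum_mul, Q.Pi_x hx]
  rw [Finset.sum_comm]
  simp [← Finset.sum_mul, Q.Pi_Y hx]

lemma trace_Pi {x : E n} (hx : x ≠ 0) : ∑ i, Q.Pi x i i = (n : ℝ) - 4 := by
  have hr : len x ≠ 0 := by simp [len, hx]
  have h0 : ∀ i, Q.Pi x i i = 1 - (x i * x i + ∑ a, Q.Y a x i * Q.Y a x i) / len x ^ 2 := by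
    intro i; simp [Quat.Pi]
  simp only [h0, Finset.sum_sub_distrib, ← Finset.sum_div, Finset.sum_add_distrib, sum_sq]
  rw [Finset.sum_comm]
  simp only [Q.Y_Y]
  simp
  field_simp
  ring

/-- product of a tensor without mixed part and a general one -/
lemma Pi_ten {x : E n} (hx : x ≠ 0) (i k : Fin n) :
    ∑ j, Q.Pi x i j * Q.ten f u w s x j k = f (len x) * Q.Pi x i k := by
  have h0 : ∀ j, Q.Pi x i j * Q.ten f u w s x j k = f (len x) * (Q.Pi x i j * Q.Pi x j k) +
      (u (len x) * x k * (Q.Pi x i j * x j) + ∑ a, (w a (len x) * Q.Y a x k * (Q.Pi x i j * x j) +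
        w a (len x) * x k * (Q.Pi x i j * Q.Y a x j)) +
      ∑ a, ∑ b, s a b (len x) * Q.Y b x k * (Q.Pi x i j * Q.Y a x j)) / len x ^ 2 := by
    intro j
    rw [Q.ten_eq]
    have e1 : ∑ a, (w a (len x) * Q.Y a x k * (Q.Pi x i j * x j) +
          w a (len x) * x k * (Q.Pi x i j * Q.Y a x j))
        = Q.Pi x i j * (∑ a, w a (len x) * (x j * Q.Y a x k + Q.Y a x j * x k)) := by
      rw [Finset.mul_sum]; exact Finset.sum_congr rfl fun a _ => by ring
    have e2 : ∑ a, ∑ b, s a b (len x) * Q.Y b x k * (Q.Pi x i j * Q.Y a x j)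
        = Q.Pi x i j * (∑ a, ∑ b, s a b (len x) * Q.Y a x j * Q.Y b x k) := by
      rw [Finset.mul_sum]; refine Finset.sum_congr rfl fun a _ => ?_
      rw [Finset.mul_sum]; exact Finset.sum_congr rfl fun b _ => by ring
    rw [e1, e2]; ring
  simp only [h0, Finset.sum_add_distrib, ← Finset.mul_sum, ← Finset.sum_div, Q.Pi_x hx,
    Q.Pi_Pi hx]
  have e3 : ∑ j, ∑ a, w a (len x) * Q.Y a x k * (Q.Pi x i j * x j) = 0 := by
    rw [Finset.sum_comm]
    simp only [← Finset.mul_sum, Q.Pi_x hx, mul_zero, Finset.sum_const_zero]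
  have e4 : ∑ j, ∑ a, w a (len x) * x k * (Q.Pi x i j * Q.Y a x j) = 0 := by
    rw [Finset.sum_comm]
    simp only [← Finset.mul_sum, Q.Pi_Y hx, mul_zero, Finset.sum_const_zero]
  have e5 : ∑ j, ∑ a, ∑ b, s a b (len x) * Q.Y b x k * (Q.Pi x i j * Q.Y a x j) = 0 := by
    rw [Finset.sum_comm]
    refine Finset.sum_eq_zero fun a _ => ?_
    rw [Finset.sum_comm]
    refine Finset.sum_eq_zero fun b _ => ?_
    rw [← Finset.mul_sum, Q.Pi_Y hx, mul_zero]
  rw [e3, e4, e5]
  simp

lemma ten_symm (hs : ∀ a b, s a b = s b a) (x : E n) (i j : Fin n) :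
    Q.ten f u w s x i j = Q.ten f u w s x j i := by
  rw [Q.ten_eq, Q.ten_eq, Q.Pi_symm x i j]
  have e1 : ∑ a, w a (len x) * (x i * Q.Y a x j + Q.Y a x i * x j) =
      ∑ a, w a (len x) * (x j * Q.Y a x i + Q.Y a x j * x i) :=
    Finset.sum_congr rfl fun a _ => by ring
  have e2 : ∑ a, ∑ b, s a b (len x) * Q.Y a x i * Q.Y b x j =
      ∑ a, ∑ b, s a b (len x) * Q.Y a x j * Q.Y b x i := by
    rw [Finset.sum_comm]
    refine Finset.sum_congr rfl fun a _ => Finset.sum_congr rfl fun b _ => ?_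
    rw [hs b a]; ring
  rw [e1, e2]; ring

/-- the product of two invariant tensors, the first without mixed part -/
lemma ten_mul_ten {x : E n} (hx : x ≠ 0) (f' u' : ℝ → ℝ) (w' : Fin 3 → ℝ → ℝ)
    (s' : Fin 3 → Fin 3 → ℝ → ℝ) (i k : Fin n) :
    ∑ j, Q.ten f u (fun _ _ => 0) s x i j * Q.ten f' u' w' s' x j k =
      f (len x) * f' (len x) * Q.Pi x i k +
      (x i * (∑ j, (u (len x) * x j) * Q.ten f' u' w' s' x j k) +
        ∑ a, Q.Y a x i * (∑ j, (∑ b, s a b (len x) * Q.Y b x j) * Q.ten f' u' w' s' x j k)) /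
          len x ^ 2 := by
  have h0 : ∀ j, Q.ten f u (fun _ _ => 0) s x i j * Q.ten f' u' w' s' x j k =
      f (len x) * (Q.Pi x i j * Q.ten f' u' w' s' x j k) +
      (x i * ((u (len x) * x j) * Q.ten f' u' w' s' x j k) +
        ∑ a, Q.Y a x i * ((∑ b, s a b (len x) * Q.Y b x j) * Q.ten f' u' w' s' x j k)) /
          len x ^ 2 := by
    intro j
    have e1 : ∑ a, Q.Y a x i * ((∑ b, s a b (len x) * Q.Y b x j) * Q.ten f' u' w' s' x j k) =
        (∑ a, ∑ b, s a b (len x) * Q.Y a x i * Q.Y b x j) * Q.ten f' u' w' s' x j k := by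
      rw [Finset.sum_mul]
      refine Finset.sum_congr rfl fun a _ => ?_
      rw [← mul_assoc, Finset.mul_sum]
      congr 1
      exact Finset.sum_congr rfl fun b _ => by ring
    rw [e1, Q.ten_eq f u]
    simp only [zero_mul, Finset.sum_const_zero]
    ring
  simp only [h0, Finset.sum_add_distrib, ← Finset.mul_sum, ← Finset.sum_div, Q.Pi_ten _ _ _ _ hx]
  rw [Finset.sum_comm]
  simp only [← Finset.mul_sum]
  ring

end Quat

end Vale.Agent.P366.T2
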