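import Vale.Agent.P366.T2.Area

open MeasureTheory Metric Filter Topology Set
open scoped BigOperators ENNReal ContDiff

noncomputable section
namespace Vale.Agent.P366.T2

variable {n : ℕ} (D : Data n)

/-- the orthonormal frame of the fibre directions and the radial direction -/
def fr (D : Data n) (x : E n) : Matrix (Fin n) (Unit ⊕ Fin 3) ℝ :=
  Matrix.of fun i a => Sum.elim (fun _ => x i / Stmt.len x) (fun a => D.Q.Y a x i / Stmt.len x) a

lemma fr_orth {x : E n} (hx : x ≠ 0) : (fr D x).transpose * fr D x = 1 := by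
  have hr : Stmt.len x ≠ 0 := by simp [Stmt.len, hx]
  ext a b
  rw [Matrix.mul_apply, Matrix.one_apply]
  rcases a with a | a <;> rcases b with b | b
  · have h : ∀ i, (fr D x).transpose (Sum.inl a) i * fr D x i (Sum.inl b) =
        (x i * x i) / Stmt.len x ^ 2 := by
      intro i; simp only [fr, Matrix.transpose_apply, Matrix.of_apply, Sum.elim_inl]; ring
    simp only [h, ← Finset.sum_div, Quat.sum_sq]
    rw [div_self (pow_ne_zero 2 hr)]
    simp
  · have h : ∀ i, (fr D x).transpose (Sum.inl a) i * fr D x i (Sum.inr b) =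
        (x i * D.Q.Y b x i) / Stmt.len x ^ 2 := by
      intro i
      simp only [fr, Matrix.transpose_apply, Matrix.of_apply, Sum.elim_inl, Sum.elim_inr]; ring
    simp only [h, ← Finset.sum_div, D.Q.x_Y]
    simp
  · have h : ∀ i, (fr D x).transpose (Sum.inr a) i * fr D x i (Sum.inl b) =
        (D.Q.Y a x i * x i) / Stmt.len x ^ 2 := by
      intro i
      simp only [fr, Matrix.transpose_apply, Matrix.of_apply, Sum.elim_inl, Sum.elim_inr]; ring
    simp only [h, ← Finset.sum_div, D.Q.Y_x]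
    simp
  · have h : ∀ i, (fr D x).transpose (Sum.inr a) i * fr D x i (Sum.inr b) =
        (D.Q.Y a x i * D.Q.Y b x i) / Stmt.len x ^ 2 := by
      intro i
      simp only [fr, Matrix.transpose_apply, Matrix.of_apply, Sum.elim_inr]; ring
    simp only [h, ← Finset.sum_div, D.Q.Y_Y]
    by_cases hab : a = b
    · simp only [hab, if_true]
      rw [div_self (pow_ne_zero 2 hr)]
    · simp [hab]

/-- `g - al` in the frame -/
def blk (D : Data n) (r : ℝ) : Matrix (Unit ⊕ Fin 3) (Unit ⊕ Fin 3) ℝ :=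
  Matrix.fromBlocks (Matrix.of fun _ _ => D.p r) 0 0 (D.qm r)

lemma mat_eq {g K : Stmt.Field n} (h : Fits D g K) {x : E n} (hx : D.R ≤ Stmt.len x) :
    Stmt.mat g x = D.al (Stmt.len x) • (1 : Matrix (Fin n) (Fin n) ℝ) +
      fr D x * (blk D (Stmt.len x) - D.al (Stmt.len x) • 1) * (fr D x).transpose := by
  have hx0 := len_pos_of hx
  have hr : Stmt.len x ≠ 0 := by simp [Stmt.len, hx0]
  ext i j
  rw [show Stmt.mat g x i j = g x i j from rfl, h.hg x hx, D.Q.ten_eq, Matrix.add_apply,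
    Matrix.smul_apply, Matrix.one_apply, Matrix.mul_apply]
  simp only [Matrix.mul_apply, Fintype.sum_sum_type, Finset.univ_unique, Finset.sum_singleton,
    Matrix.transpose_apply, fr, Matrix.of_apply, Sum.elim_inl, Sum.elim_inr, blk,
    Matrix.sub_apply, Matrix.smul_apply, Matrix.one_apply, Matrix.fromBlocks_apply₁₁,
    Matrix.fromBlocks_apply₁₂, Matrix.fromBlocks_apply₂₁, Matrix.fromBlocks_apply₂₂,
    Matrix.zero_apply, Sum.inr.injEq, reduceCtorEq, if_false, if_true,
    smul_eq_mul, mul_zero, sub_zero, mul_one, zero_mul, Finset.sum_const_zero, add_zero, zero_add,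
    Data.qm, Quat.Pi, Fin.sum_univ_three, Fin.isValue]
  by_cases hij : i = j
  · simp [hij]
    field_simp
    ring
  · simp [hij]
    field_simp
    ring

lemma det_eq {g K : Stmt.Field n} (hn : 4 ≤ n) (h : Fits D g K) {x : E n}
    (hx : D.R ≤ Stmt.len x) :
    (Stmt.mat g x).det = D.al (Stmt.len x) ^ (n - 4) * (D.p (Stmt.len x) *
      (D.qm (Stmt.len x)).det) := by
  have hx0 := len_pos_of hx
  set r := Stmt.len x with hrdef
  have hal := D.al_pos r hx
  set a := D.al r with ha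
  have h1 : Stmt.mat g x = a • (1 + (fr D x) * ((a⁻¹ • (blk D r - a • 1)) *
      (fr D x).transpose)) := by
    rw [mat_eq D h hx, smul_add, ← hrdef, ← ha]
    congr 1
    rw [Matrix.smul_mul, Matrix.mul_smul, smul_smul, mul_inv_cancel₀ hal.ne', one_smul,
      Matrix.mul_assoc]
  rw [h1, Matrix.det_smul, Fintype.card_fin, Matrix.det_one_add_mul_comm, Matrix.mul_assoc,
    fr_orth D hx0, Matrix.mul_one]
  have h2 : (1 : Matrix (Unit ⊕ Fin 3) (Unit ⊕ Fin 3) ℝ) + a⁻¹ • (blk D r - a • 1) =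
      a⁻¹ • blk D r := by
    rw [smul_sub, smul_smul, inv_mul_cancel₀ hal.ne', one_smul]; abel
  rw [h2, Matrix.det_smul]
  have h3 : Fintype.card (Unit ⊕ Fin 3) = 4 := by simp
  rw [h3, blk, Matrix.det_fromBlocks_zero₂₁]
  have h4 : (Matrix.of fun (_ : Unit) (_ : Unit) => D.p r).det = D.p r := by
    simp
  rw [h4]
  have h5 : a ^ n = a ^ (n - 4) * a ^ 4 := by rw [← pow_add]; congr 1; omega
  rw [h5, inv_pow]
  field_simp

/-- `g(v, v) ≥ p (v·N)²` -/
lemma g_ge {g K : Stmt.Field n} (h : Fits D g K) {x : E n} (hx : D.R ≤ Stmt.len x)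
    (v : Fin n → ℝ) :
    D.p (Stmt.len x) * (∑ i, v i * (x i / Stmt.len x)) ^ 2 ≤ ∑ i, ∑ j, g x i j * v i * v j := by
  have hx0 := len_pos_of hx
  have hr : Stmt.len x ≠ 0 := by simp [Stmt.len, hx0]
  have hal := (D.al_pos _ hx).le
  have hq := (D.qm_pd hx).posSemidef
  -- horizontal part
  have hPi : 0 ≤ ∑ i, ∑ j, D.Q.Pi x i j * v i * v j := by
    have : ∑ i, ∑ j, D.Q.Pi x i j * v i * v j = ∑ k, (∑ i, D.Q.Pi x k i * v i) ^ 2 := by
      have e1 : ∀ i j, D.Q.Pi x i j * v i * v j =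
          ∑ k, (D.Q.Pi x k i * v i) * (D.Q.Pi x k j * v j) := by
        intro i j
        rw [← D.Q.Pi_Pi hx0 i j]
        rw [Finset.sum_mul, Finset.sum_mul]
        refine Finset.sum_congr rfl fun k _ => ?_
        rw [D.Q.Pi_symm x i k]; ring
      simp only [e1]
      have e2 : ∀ k, (∑ i, D.Q.Pi x k i * v i) ^ 2 =
          ∑ i, ∑ j, (D.Q.Pi x k i * v i) * (D.Q.Pi x k j * v j) := by
        intro k; rw [sq, Finset.sum_mul_sum]
      simp only [e2]
      calc ∑ i, ∑ j, ∑ k, D.Q.Pi x k i * v i * (D.Q.Pi x k j * v j)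
          = ∑ i, ∑ k, ∑ j, D.Q.Pi x k i * v i * (D.Q.Pi x k j * v j) :=
            Finset.sum_congr rfl fun i _ => Finset.sum_comm
        _ = ∑ k, ∑ i, ∑ j, D.Q.Pi x k i * v i * (D.Q.Pi x k j * v j) := Finset.sum_comm
    rw [this]
    exact Finset.sum_nonneg fun k _ => sq_nonneg _
  -- fibre part
  set y : Fin 3 → ℝ := fun a => ∑ i, v i * (D.Q.Y a x i / Stmt.len x) with hy
  have hfib : 0 ≤ ∑ a, ∑ b, D.q a b (Stmt.len x) * y a * y b := by
    have := hq.dotProduct_mulVec_nonneg y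
    simp only [dotProduct, Matrix.mulVec, Data.qm, Matrix.of_apply, star_trivial,
      Finset.mul_sum] at this
    refine this.trans (le_of_eq ?_)
    refine Finset.sum_congr rfl fun a _ => Finset.sum_congr rfl fun b _ => ?_
    ring
  have hdec : ∑ i, ∑ j, g x i j * v i * v j =
      D.al (Stmt.len x) * (∑ i, ∑ j, D.Q.Pi x i j * v i * v j) +
      D.p (Stmt.len x) * (∑ i, v i * (x i / Stmt.len x)) ^ 2 +
      ∑ a, ∑ b, D.q a b (Stmt.len x) * y a * y b := by
    have e0 : ∀ i j, g x i j * v i * v j =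
        D.al (Stmt.len x) * (D.Q.Pi x i j * v i * v j) +
        D.p (Stmt.len x) * ((v i * (x i / Stmt.len x)) * (v j * (x j / Stmt.len x))) +
        ∑ a, ∑ b, D.q a b (Stmt.len x) * ((v i * (D.Q.Y a x i / Stmt.len x)) *
          (v j * (D.Q.Y b x j / Stmt.len x))) := by
      intro i j
      rw [h.hg x hx, D.Q.ten_eq]
      simp only [Fin.sum_univ_three]
      field_simp
      ring
    simp only [e0, Finset.sum_add_distrib]
    congr 1
    · congr 1
      · simp only [Finset.mul_sum]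
      · rw [sq, Finset.sum_mul_sum, Finset.mul_sum]
        refine Finset.sum_congr rfl fun i _ => ?_
        rw [Finset.mul_sum]
    · have e1 : ∀ a b, ∑ i, ∑ j, D.q a b (Stmt.len x) * (v i * (D.Q.Y a x i / Stmt.len x) *
          (v j * (D.Q.Y b x j / Stmt.len x))) = D.q a b (Stmt.len x) * y a * y b := by
        intro a b
        rw [hy, mul_assoc, Finset.sum_mul_sum, Finset.mul_sum]
        refine Finset.sum_congr rfl fun i _ => ?_
        rw [Finset.mul_sum]
      calc ∑ i, ∑ j, ∑ a, ∑ b, D.q a b (Stmt.len x) * (v i * (D.Q.Y a x i / Stmt.len x) *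
          (v j * (D.Q.Y b x j / Stmt.len x)))
          = ∑ i, ∑ a, ∑ j, ∑ b, D.q a b (Stmt.len x) * (v i * (D.Q.Y a x i / Stmt.len x) *
          (v j * (D.Q.Y b x j / Stmt.len x))) :=
            Finset.sum_congr rfl fun i _ => Finset.sum_comm
        _ = ∑ a, ∑ i, ∑ b, ∑ j, D.q a b (Stmt.len x) * (v i * (D.Q.Y a x i / Stmt.len x) *
          (v j * (D.Q.Y b x j / Stmt.len x))) := by
            rw [Finset.sum_comm]
            exact Finset.sum_congr rfl fun a _ => Finset.sum_congr rfl fun i _ =>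
              Finset.sum_comm
        _ = ∑ a, ∑ b, ∑ i, ∑ j, D.q a b (Stmt.len x) * (v i * (D.Q.Y a x i / Stmt.len x) *
          (v j * (D.Q.Y b x j / Stmt.len x))) :=
            Finset.sum_congr rfl fun a _ => Finset.sum_comm
        _ = _ := Finset.sum_congr rfl fun a _ => Finset.sum_congr rfl fun b _ => e1 a b
  rw [hdec]
  have := mul_nonneg hal hPi
  linarith

/-- **Block C2.** -/
theorem Amin_le (hn : 4 ≤ n) {X : Stmt.Exterior n} (h : Fits D X.g X.K)
    (hR : IsGreatest {r | ∃ x, X.F x = 0 ∧ Stmt.len x = r} D.R) {r : ℝ} (hr : D.R ≤ r) :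
    X.Amin ≤ ENNReal.ofReal (Stmt.omega n * D.ar r) := by
  have hr0 : 0 < r := D.hR.trans_le hr
  have hal := D.al_pos r hr
  have hp := D.p_pos r hr
  have hdq := D.qm_det_pos hr
  have hA : ∀ x : E n, ‖x‖ = r → ∀ v : Fin n → ℝ, ∑ i, ∑ j, X.g x i j * v i * v j ≤ 1 →
      -(√((Stmt.mat X.g x).det) * ∑ i, v i * (x i / ‖x‖)) ≤
        √(D.al r ^ (n - 4) * (D.qm r).det) := by
    intro x hx v hv
    have hlen : Stmt.len x = r := hx
    have hxR : D.R ≤ Stmt.len x := by rw [hlen]; exact hr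
    have h1 := (g_ge D h hxR v).trans hv
    rw [det_eq D hn h hxR]
    rw [hlen] at h1 ⊢
    rw [show ‖x‖ = r from hx]
    set t := ∑ i, v i * (x i / r) with ht
    have h2 : √(D.al r ^ (n - 4) * (D.p r * (D.qm r).det)) =
        √(D.al r ^ (n - 4) * (D.qm r).det) * √(D.p r) := by
      rw [← Real.sqrt_mul (by positivity)]
      congr 1; ring
    have h3 : √(D.p r) * |t| ≤ 1 := by
      have : (√(D.p r) * |t|) ^ 2 ≤ 1 := by
        rw [mul_pow, Real.sq_sqrt hp.le, sq_abs]; exact h1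
      have h0 : 0 ≤ √(D.p r) * |t| := by positivity
      nlinarith
    calc -(√(D.al r ^ (n - 4) * (D.p r * (D.qm r).det)) * t)
        = √(D.al r ^ (n - 4) * (D.qm r).det) * (√(D.p r) * (-t)) := by rw [h2]; ring
      _ ≤ √(D.al r ^ (n - 4) * (D.qm r).det) * (√(D.p r) * |t|) := by
          gcongr
          exact neg_le_abs t
      _ ≤ √(D.al r ^ (n - 4) * (D.qm r).det) * 1 := by gcongr
      _ = _ := mul_one _
  have h1 := Amin_le_general (by omega) X hR hr hA
  refine h1.trans (le_of_eq ?_)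
  rw [omega_eq]
  congr 2
  unfold Data.ar Data.Yh Data.b
  have e1 : (D.qh r).det = r ^ 6 * (D.qm r).det := by
    have : D.qh r = (r ^ 2) • D.qm r := by
      ext a b; simp [Data.qh, Data.qm]
    rw [this, Matrix.det_smul, Fintype.card_fin]
    ring
  rw [e1, Real.sqrt_mul (by positivity), Real.sqrt_mul (by positivity)]
  have e2 : √(r ^ 6) = r ^ 3 := by
    rw [show r ^ 6 = (r ^ 3) ^ 2 by ring]
    exact Real.sqrt_sq (by positivity)
  have e3 : √(D.al r ^ (n - 4)) = D.al r ^ (((n : ℝ) - 4) / 2) := by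
    rw [Real.sqrt_eq_rpow, ← Real.rpow_natCast, ← Real.rpow_mul hal.le]
    congr 1
    rw [Nat.cast_sub hn]
    push_cast
    ring
  have e4 : (r ^ 2 * D.al r) ^ (((n : ℝ) - 4) / 2) = r ^ (n - 4) * D.al r ^ (((n : ℝ) - 4) / 2) := by
    rw [Real.mul_rpow (by positivity) hal.le]
    congr 1
    rw [← Real.rpow_natCast r 2, ← Real.rpow_mul hr0.le, ← Real.rpow_natCast r (n - 4)]
    congr 1
    rw [Nat.cast_sub hn]
    push_cast
    ring
  rw [e2, e3, e4]
  have e5 : r ^ (n - 1) = r ^ 3 * r ^ (n - 4) := by rw [← pow_add]; congr 1; omega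
  rw [e5]
  ring

end Vale.Agent.P366.T2
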