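import Vale.Agent.P366.T2.Up
import Vale.Agent.P366.Bdl.B1

open MeasureTheory Metric Filter Topology Set
open scoped BigOperators ENNReal ContDiff

noncomputable section
namespace Vale.Agent.P366.T2

variable {n : ℕ}

/-- Upper bound for the flux of admissible test fields through round spheres, for a general
metric. -/
theorem flux_test_le (hn : 2 ≤ n) (D : Exterior n) {R1 R : ℝ}
    (hR1 : IsGreatest (norm '' frontier D.Ω) R1) (hR : R1 ≤ R) {A : ℝ}
    (hA : ∀ x : E n, ‖x‖ = R → ∀ v : Fin n → ℝ, ∑ i, ∑ j, D.g x i j * v i * v j ≤ 1 →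
      -(√((D.g x).det) * ∑ i, v i * (x i / ‖x‖)) ≤ A)
    {X : E n → E n} (hX : ContDiff ℝ ∞ X) (hXc : HasCompactSupport X)
    (hXb : ∀ x : E n, ‖x‖ = R → ∑ i, ∑ j, D.g x i j * X x i * X x j ≤ 1) :
    ∫ x in {x : E n | R ≤ ‖x‖}, ∑ i, pd i (fun y => √((D.g y).det) * X y i) x ≤
      omega n * (R ^ (n - 1) * A) := by
  have hn0 : 0 < n := by omega
  have : Nonempty (Fin n) := ⟨⟨0, hn0⟩⟩
  have : Nontrivial (E n) := inferInstance
  obtain ⟨b, hb, hbR1, hbU⟩ := D.exists_b hn hR1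
  have hbR : b < R := hbR1.trans_le hR
  have hR0 : 0 < R := (D.R1_pos hn hR1).trans_le hR
  set W : Fin n → E n → ℝ := fun i x => √((D.g x).det) * X x i with hW
  have hdet : ContDiffOn ℝ ∞ (fun x : E n => √((D.g x).det)) {x | b < ‖x‖} := by
    intro x hx
    have hxU : x ∈ D.U := hbU hx
    have h1 : ContDiffAt ℝ ∞ (fun y => (D.g y).det) x :=
      Bridge.contDiffAt_det fun i j =>
        (D.g_smooth i j).contDiffAt (D.isOpen_U.mem_nhds hxU)
    exact (h1.sqrt (D.g_pos x hxU).det_pos.ne').contDiffWithinAt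
  have hWs : ∀ i, ContDiffOn ℝ 1 (W i) {x | b < ‖x‖} := by
    intro i
    have h1 : ContDiff ℝ ∞ (fun x => X x i) :=
      (EuclideanSpace.proj (𝕜 := ℝ) i).contDiff.comp hX
    exact (hdet.mul h1.contDiffOn).of_le (by norm_cast)
  obtain ⟨C, hC⟩ := hXc.isCompact.isBounded.subset_closedBall (0 : E n)
  have hWz : ∀ i x, C < ‖x‖ → W i x = 0 := by
    intro i x hx
    have h1 : x ∉ tsupport X := by
      intro h
      have := hC h
      simp only [mem_closedBall, dist_zero_right] at this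
      linarith only [this, hx]
    simp only [hW]
    rw [image_eq_zero_of_notMem_tsupport h1]
    simp
  have hsphere : (volume : Measure (E n)) (sphere (0 : E n) R) = 0 :=
    Measure.addHaar_sphere_of_ne_zero volume (0 : E n) hR0.ne'
  have hae : ({x : E n | R ≤ ‖x‖} : Set (E n)) =ᵐ[volume] ({x : E n | R < ‖x‖} : Set (E n)) := by
    have h1 : {x : E n | R < ‖x‖} ⊆ {x : E n | R ≤ ‖x‖} := fun x (hx : R < ‖x‖) => hx.le
    refine (LE.le.eventuallyLE h1).antisymm ?_ |>.symm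
    rw [ae_le_set]
    refine measure_mono_null ?_ hsphere
    intro x hx
    have h2 : R ≤ ‖x‖ := hx.1
    have h3 : ¬ R < ‖x‖ := hx.2
    simp only [mem_sphere_iff_norm, sub_zero]
    linarith only [h2, h3]
  rw [setIntegral_congr_set hae]
  have h1 : ∫ x in {x : E n | R < ‖x‖}, ∑ i, pd i (fun y => √((D.g y).det) * X y i) x =
      ∫ x in {x : E n | R < ‖x‖}, dvg W x := rfl
  rw [h1, integral_dvg_outside hb hWs hWz hbR]
  unfold flux
  have h2 : -(R ^ (n - 1) * sphI (fun x => ∑ i, W i x * (x i / ‖x‖)) R) =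
      R ^ (n - 1) * ∫ θ : sphere (0 : E n) 1,
        (-(∑ i, W i (R • (θ : E n)) * ((R • (θ : E n)) i / ‖R • (θ : E n)‖))) ∂(sphM n) := by
    unfold sphI
    rw [integral_neg]; ring
  rw [h2]
  have hpt : ∀ θ : sphere (0 : E n) 1,
      (-(∑ i, W i (R • (θ : E n)) * ((R • (θ : E n)) i / ‖R • (θ : E n)‖))) ≤ A := by
    intro θ
    have hθn : ‖R • (θ : E n)‖ = R := norm_smul_sph hR0.le θ
    have h3 := hA (R • (θ : E n)) hθn (fun i => X (R • (θ : E n)) i) (hXb _ hθn)
    have h4 : ∑ i, W i (R • (θ : E n)) * ((R • (θ : E n)) i / ‖R • (θ : E n)‖) =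
        √((D.g (R • (θ : E n))).det) *
          ∑ i, X (R • (θ : E n)) i * ((R • (θ : E n)) i / ‖R • (θ : E n)‖) := by
      rw [Finset.mul_sum]
      exact Finset.sum_congr rfl fun i _ => by simp only [hW]; ring
    rw [h4]
    exact h3
  have hle : ∫ θ : sphere (0 : E n) 1,
        (-(∑ i, W i (R • (θ : E n)) * ((R • (θ : E n)) i / ‖R • (θ : E n)‖))) ∂(sphM n) ≤
      ∫ θ : sphere (0 : E n) 1, A ∂(sphM n) := by
    refine integral_mono ?_ (integrable_const _) hpt
    refine (integrable_sph hb hbR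
      (h := fun x => ∑ i, W i x * (x i / ‖x‖)) ?_).neg
    refine continuousOn_finsetSum _ fun i _ => ?_
    exact (hWs i).continuousOn.mul (contDiffOn_coord_div (m := 0) hb i).continuousOn
  have hconst : ∫ θ : sphere (0 : E n) 1, A ∂(sphM n) = omega n * A := by
    rw [integral_const, smul_eq_mul]; rfl
  rw [hconst] at hle
  calc R ^ (n - 1) * ∫ θ : sphere (0 : E n) 1,
        (-(∑ i, W i (R • (θ : E n)) * ((R • (θ : E n)) i / ‖R • (θ : E n)‖))) ∂(sphM n)
      ≤ R ^ (n - 1) * (omega n * A) :=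
        mul_le_mul_of_nonneg_left hle (by positivity)
    _ = omega n * (R ^ (n - 1) * A) := by ring

/-- The area of a round cut, for a general metric. -/
theorem Amin_le_general (hn : 2 ≤ n) (X : Stmt.Exterior n) {R1 R : ℝ}
    (hR1 : IsGreatest {r | ∃ x, X.F x = 0 ∧ Stmt.len x = r} R1) (hR : R1 ≤ R) {A : ℝ}
    (hA : ∀ x : E n, ‖x‖ = R → ∀ v : Fin n → ℝ, ∑ i, ∑ j, X.g x i j * v i * v j ≤ 1 →
      -(√((Stmt.mat X.g x).det) * ∑ i, v i * (x i / ‖x‖)) ≤ A) :
    X.Amin ≤ ENNReal.ofReal (omega n * (R ^ (n - 1) * A)) := by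
  have hG := Bridge.raw_R1 X hR1
  have hR10 : 0 < R1 := (Bridge.toRaw X).R1_pos hn hG
  have hR0 : 0 < R := hR10.trans_le hR
  have hout := (Bridge.toRaw X).outside_closed_subset hn hG
  have hsub : {x : E n | R ≤ ‖x‖} ⊆ (Bridge.toRaw X).Ω := fun x (hx : R ≤ ‖x‖) =>
    hout (hR.trans hx)
  have hraw : (Bridge.toRaw X).area {x : E n | R ≤ ‖x‖} ≤
      ENNReal.ofReal (omega n * (R ^ (n - 1) * A)) := by
    unfold Exterior.area
    refine iSup₂_le fun Y hY => ?_
    apply ENNReal.ofReal_le_ofReal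
    obtain ⟨hY1, hY2, hY3⟩ := hY
    refine flux_test_le hn (Bridge.toRaw X) hG hR hA hY1 hY2 ?_
    intro x hx
    exact hY3 x (hsub hx.ge)
  refine le_trans ?_ ((area_bridge X (Bridge.toRaw X) rfl rfl hR0 hsub).trans hraw)
  refine sInf_le ⟨_, isExt_round hn hR0, ?_, rfl⟩
  intro x hx
  have hx' : R ≤ ‖x‖ := by
    have h : R ^ 2 ≤ ‖x‖ ^ 2 := by linarith only [hx]
    exact (abs_le_of_sq_le_sq' h (norm_nonneg x)).2
  exact hsub hx'

end Vale.Agent.P366.T2
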