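import Mathlib

/-!
T2, block D: auxiliary facts on `3 × 3` matrices.
-/

namespace Vale.Agent.P366.T2

open Matrix
open scoped MatrixOrder

/-- Jacobi's formula for `3 × 3` matrices. -/
theorem hasDerivAt_det3 {M : ℝ → Matrix (Fin 3) (Fin 3) ℝ} {M' : Matrix (Fin 3) (Fin 3) ℝ} {r : ℝ}
    (h : ∀ a b, HasDerivAt (fun t => M t a b) (M' a b) r) :
    HasDerivAt (fun t => (M t).det) (((M r).adjugate * M').trace) r := by
  have h1 : (fun t => (M t).det) = fun t =>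
      M t 0 0 * M t 1 1 * M t 2 2 - M t 0 0 * M t 1 2 * M t 2 1 - M t 0 1 * M t 1 0 * M t 2 2 +
      M t 0 1 * M t 1 2 * M t 2 0 + M t 0 2 * M t 1 0 * M t 2 1 - M t 0 2 * M t 1 1 * M t 2 0 := by
    funext t; rw [det_fin_three]
  rw [h1]
  have := ((((((h 0 0).mul (h 1 1)).mul (h 2 2)).sub (((h 0 0).mul (h 1 2)).mul (h 2 1))).sub
    (((h 0 1).mul (h 1 0)).mul (h 2 2))).add (((h 0 1).mul (h 1 2)).mul (h 2 0))).add
    (((h 0 2).mul (h 1 0)).mul (h 2 1)) |>.sub (((h 0 2).mul (h 1 1)).mul (h 2 0))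
  refine this.congr_deriv ?_
  rw [adjugate_fin_three]
  simp only [trace, diag, Matrix.mul_apply, Fin.sum_univ_three, Matrix.of_apply, cons_val', cons_val_zero,
    cons_val_one, cons_val_fin_one, cons_val, Pi.mul_apply]
  ring

theorem hasDerivAt_det3' {M : ℝ → Matrix (Fin 3) (Fin 3) ℝ} {M' : Matrix (Fin 3) (Fin 3) ℝ} {r : ℝ}
    (h : ∀ a b, HasDerivAt (fun t => M t a b) (M' a b) r) (hd : (M r).det ≠ 0) :
    HasDerivAt (fun t => (M t).det) ((M r).det * ((M r)⁻¹ * M').trace) r := by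
  refine (hasDerivAt_det3 h).congr_deriv ?_
  rw [Matrix.inv_def, Ring.inverse_eq_inv', Matrix.smul_mul, Matrix.trace_smul, smul_eq_mul,
    ← mul_assoc, mul_inv_cancel₀ hd, one_mul]

theorem differentiableAt_adj3 {M : ℝ → Matrix (Fin 3) (Fin 3) ℝ} {r : ℝ}
    (h : ∀ a b, DifferentiableAt ℝ (fun t => M t a b) r) (a b : Fin 3) :
    DifferentiableAt ℝ (fun t => (M t).adjugate a b) r := by
  have h' : ∀ a b, DifferentiableAt ℝ (fun t => M t a b) r := h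
  have e : (fun t => (M t).adjugate a b) = fun t => (!![M t 1 1 * M t 2 2 - M t 1 2 * M t 2 1,
      -(M t 0 1 * M t 2 2) + M t 0 2 * M t 2 1, M t 0 1 * M t 1 2 - M t 0 2 * M t 1 1;
      -(M t 1 0 * M t 2 2) + M t 1 2 * M t 2 0, M t 0 0 * M t 2 2 - M t 0 2 * M t 2 0,
      -(M t 0 0 * M t 1 2) + M t 0 2 * M t 1 0;
      M t 1 0 * M t 2 1 - M t 1 1 * M t 2 0, -(M t 0 0 * M t 2 1) + M t 0 1 * M t 2 0,
      M t 0 0 * M t 1 1 - M t 0 1 * M t 1 0] : Matrix (Fin 3) (Fin 3) ℝ) a b := by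
    funext t; rw [adjugate_fin_three]
  rw [e]
  have s := fun (i j k l : Fin 3) => (h i j).mul (h k l)
  fin_cases a <;> fin_cases b
  · exact (s 1 1 2 2).sub (s 1 2 2 1)
  · exact (s 0 1 2 2).neg.add (s 0 2 2 1)
  · exact (s 0 1 1 2).sub (s 0 2 1 1)
  · exact (s 1 0 2 2).neg.add (s 1 2 2 0)
  · exact (s 0 0 2 2).sub (s 0 2 2 0)
  · exact (s 0 0 1 2).neg.add (s 0 2 1 0)
  · exact (s 1 0 2 1).sub (s 1 1 2 0)
  · exact (s 0 0 2 1).neg.add (s 0 1 2 0)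
  · exact (s 0 0 1 1).sub (s 0 1 1 0)

theorem differentiableAt_inv3 {M : ℝ → Matrix (Fin 3) (Fin 3) ℝ} {r : ℝ}
    (h : ∀ a b, DifferentiableAt ℝ (fun t => M t a b) r) (hd : (M r).det ≠ 0) (a b : Fin 3) :
    DifferentiableAt ℝ (fun t => (M t)⁻¹ a b) r := by
  have h1 : (fun t => (M t)⁻¹ a b) = fun t => ((M t).det)⁻¹ * (M t).adjugate a b := by
    funext t
    rw [Matrix.inv_def, Ring.inverse_eq_inv', Matrix.smul_apply, smul_eq_mul]
  rw [h1]
  have h2 : DifferentiableAt ℝ (fun t => (M t).det) r :=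
    (hasDerivAt_det3 (M' := Matrix.of fun a b => deriv (fun t => M t a b) r)
      fun a b => (h a b).hasDerivAt).differentiableAt
  exact (h2.inv hd).mul (differentiableAt_adj3 h a b)

/-- positivity of `tr M ^ 2` for `q`-self-adjoint `M` -/
theorem trace_sq_nonneg {q s : Matrix (Fin 3) (Fin 3) ℝ} (hq : q.PosDef) (hs : sᵀ = s) :
    0 ≤ ((q⁻¹ * s) * (q⁻¹ * s)).trace := by
  have hqi : (q⁻¹).PosSemidef := hq.inv.posSemidef
  obtain ⟨C, hC⟩ := CStarAlgebra.nonneg_iff_eq_star_mul_self.mp hqi.nonneg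
  rw [star_eq_conjTranspose] at hC
  have h1 : ((q⁻¹ * s) * (q⁻¹ * s)).trace = ((C * s * Cᵀ) * (C * s * Cᵀ)).trace := by
    rw [hC]
    simp only [conjTranspose_eq_transpose_of_trivial]
    have : (C * s * Cᵀ) * (C * s * Cᵀ) = C * (s * Cᵀ * C * s * Cᵀ) := by
      simp only [Matrix.mul_assoc]
    rw [this, Matrix.trace_mul_comm]
    have : Cᵀ * C * s * (Cᵀ * C * s) = Cᵀ * (C * s * Cᵀ * C * s) := by
      simp only [Matrix.mul_assoc]
    rw [this, Matrix.trace_mul_comm]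
    have : C * s * Cᵀ * C * s * Cᵀ = C * (s * Cᵀ * C * s * Cᵀ) := by simp only [Matrix.mul_assoc]
    rw [this, Matrix.trace_mul_comm]
  rw [h1]
  have hsym : (C * s * Cᵀ)ᵀ = C * s * Cᵀ := by
    rw [Matrix.transpose_mul, Matrix.transpose_mul, Matrix.transpose_transpose, hs,
      Matrix.mul_assoc]
  have h2 : ((C * s * Cᵀ) * (C * s * Cᵀ)).trace = ∑ i, ∑ j, (C * s * Cᵀ) i j ^ 2 := by
    simp only [trace, diag, Matrix.mul_apply (M := C * s * Cᵀ) (N := C * s * Cᵀ)]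
    refine Finset.sum_congr rfl fun i _ => Finset.sum_congr rfl fun j _ => ?_
    have : (C * s * Cᵀ) j i = (C * s * Cᵀ) i j := by
      conv_lhs => rw [← hsym, transpose_apply]
    rw [this]; ring
  rw [h2]
  positivity

/-- AM-GM for a positive definite `3 × 3` matrix. -/
theorem amgm3 {q : Matrix (Fin 3) (Fin 3) ℝ} (hq : q.PosDef) :
    3 * q.det ^ (1 / 3 : ℝ) ≤ q.trace := by
  have hp := fun i => hq.eigenvalues_pos i
  have ht : q.trace = ∑ i, hq.1.eigenvalues i := by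
    have := hq.1.trace_eq_sum_eigenvalues
    simpa using this
  have hd : q.det = ∏ i, hq.1.eigenvalues i := by
    have := hq.1.det_eq_prod_eigenvalues
    simpa using this
  rw [ht, hd, Fin.sum_univ_three, Fin.prod_univ_three]
  have := Real.geom_mean_le_arith_mean3_weighted (w₁ := 1 / 3) (w₂ := 1 / 3) (w₃ := 1 / 3)
    (p₁ := hq.1.eigenvalues 0) (p₂ := hq.1.eigenvalues 1) (p₃ := hq.1.eigenvalues 2)
    (by norm_num) (by norm_num) (by norm_num) (hp 0).le (hp 1).le (hp 2).le (by norm_num)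
  rw [Real.mul_rpow (mul_nonneg (hp 0).le (hp 1).le) (hp 2).le,
    Real.mul_rpow (hp 0).le (hp 1).le]
  linarith

/-- the Hamilton-Jacobi (Hijazi) inequality without square roots of matrices, `g ^ 6 = det`,
`t = tr`, `t2 = tr` of the square -/
theorem hj355 {b g Y t t2 : ℝ} (hb : 0 ≤ b) (hg : 0 < g) (hY : 0 < Y) (ht : 3 * g ^ 2 ≤ t) :
    (2 * (t ^ 2 - 2 * t2) / g ^ 6 + b * (b + 8) / Y - b * t / Y ^ 2) / 4 +
      (t2 / g ^ 6 - 2 * (t / (2 * g ^ 3) + b / 12 * (1 / g - g / Y)) * t / g ^ 3 +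
        3 * (t / (2 * g ^ 3) + b / 12 * (1 / g - g / Y)) ^ 2 + b * (g / (2 * Y)) ^ 2) ≤
      (t / (2 * g ^ 3) + b / 4 * (1 / g + g / Y)) ^ 2 := by
  have key : (t / (2 * g ^ 3) + b / 4 * (1 / g + g / Y)) ^ 2 -
      ((2 * (t ^ 2 - 2 * t2) / g ^ 6 + b * (b + 8) / Y - b * t / Y ^ 2) / 4 +
      (t2 / g ^ 6 - 2 * (t / (2 * g ^ 3) + b / 12 * (1 / g - g / Y)) * t / g ^ 3 +
        3 * (t / (2 * g ^ 3) + b / 12 * (1 / g - g / Y)) ^ 2 + b * (g / (2 * Y)) ^ 2)) =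
      1 / g ^ 2 * (b * (b + 12) / 24 * (1 - g ^ 2 / Y) ^ 2 +
        b * ((t - 3 * g ^ 2) / (3 * g ^ 2)) *
          (1 / 2 + g ^ 2 / Y + 3 / 4 * (g ^ 2 / Y) ^ 2)) := by
    field_simp
    ring
  have h2 : 0 ≤ 1 / g ^ 2 * (b * (b + 12) / 24 * (1 - g ^ 2 / Y) ^ 2 +
        b * ((t - 3 * g ^ 2) / (3 * g ^ 2)) *
          (1 / 2 + g ^ 2 / Y + 3 / 4 * (g ^ 2 / Y) ^ 2)) := by
    have : 0 ≤ t - 3 * g ^ 2 := by linarith
    positivity
  linarith

end Vale.Agent.P366.T2
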