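import Vale.Agent.P366.T2.Mono591

/-!
T2, block D: the monotone quantity `ρ ^ (N - 1) (1 - Y / (4 λ ^ 2))`, second form (with the full
second fundamental form).
-/

namespace Vale.Agent.P366.T2

open Set Filter Topology

/-- **Block D, abstract form.**  `c` lapse, `ρ ^ N` volume factor, `H`, `k` mean curvature and
trace of `K` over the leaves, `Y = H ^ 2 - k ^ 2`, `R` scalar curvature of the leaves,
`II2 = |II|²`, `lam` the weight, `L2 = |T|²`, `I = ⟨II, T⟩ = - λ' / c`. -/
theorem mono_main2 {N r0 : ℝ} (hN : 1 < N) {c H Y Y' ρ R II2 lam L2 I : ℝ → ℝ}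
    (hc : ∀ r, r0 < r → 0 < c r) (hH : ∀ r, r0 < r → 0 < H r)
    (hY0 : Y r0 = 0) (hY : ∀ r, r0 < r → 0 ≤ Y r)
    (hYc : ContinuousOn Y (Ici r0)) (hρc : ContinuousOn ρ (Ici r0))
    (hlc : ContinuousOn lam (Ici r0))
    (hρ : ∀ r, r0 ≤ r → 0 < ρ r) (hlam : ∀ r, r0 ≤ r → 0 < lam r)
    (hρd : ∀ r, r0 < r → HasDerivAt ρ (ρ r * (c r * H r / N)) r)
    (hYd : ∀ r, r0 < r → HasDerivAt Y (Y' r) r)
    (hYle : ∀ r, r0 < r → Y' r ≤ c r * (H r * R r - H r * Y r - Y r / H r * II2 r))
    (hld : ∀ r, r0 < r → HasDerivAt lam (-(c r * I r)) r)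
    (hU : ∀ r, r0 < r → 0 ≤ II2 r - 2 * (H r / lam r) * I r + (H r / lam r) ^ 2 * L2 r)
    (hL : ∀ r, r0 < r → lam r ^ 2 ≤ N * L2 r)
    (hJ : ∀ r, r0 < r → R r / 4 + L2 r ≤ lam r ^ 2) :
    MonotoneOn (fun r => ρ r ^ (N - 1) * (1 - Y r / (4 * lam r ^ 2))) (Ici r0) ∧
      ∀ r, r0 ≤ r → ρ r0 ^ (N - 1) ≤ ρ r ^ (N - 1) * (1 - Y r / (4 * lam r ^ 2)) := by
  set f : ℝ → ℝ := fun r => ρ r ^ (N - 1) * (1 - Y r / (4 * lam r ^ 2)) with hf
  set u : ℝ → ℝ := fun r => Y r / (4 * lam r ^ 2) with hu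
  have hN0 : 0 < N := by linarith
  have hfc : ContinuousOn f (Ici r0) := by
    refine ContinuousOn.mul ?_ ?_
    · exact hρc.rpow_const fun x hx => Or.inl (hρ x hx).ne'
    · refine continuousOn_const.sub (hYc.div ?_ ?_)
      · exact continuousOn_const.mul (hlc.pow 2)
      · intro x hx
        have := hlam x hx
        positivity
  have hfd : ∀ r, r0 < r → HasDerivAt f
      ((ρ r * (c r * H r / N)) * (N - 1) * ρ r ^ (N - 1 - 1) * (1 - Y r / (4 * lam r ^ 2)) +
        ρ r ^ (N - 1) * (0 - (Y' r * (4 * lam r ^ 2) -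
          Y r * (4 * (2 * lam r ^ 1 * (-(c r * I r))))) /
            (4 * lam r ^ 2) ^ 2)) r := by
    intro r hr
    have hlp := hlam r hr.le
    have h1 : HasDerivAt (fun r => ρ r ^ (N - 1))
        ((ρ r * (c r * H r / N)) * (N - 1) * ρ r ^ (N - 1 - 1)) r :=
      (hρd r hr).rpow_const (Or.inl (hρ r hr.le).ne')
    have h2 : HasDerivAt (fun r => 4 * lam r ^ 2)
        (4 * (2 * lam r ^ 1 * (-(c r * I r)))) r := by
      have := ((hld r hr).pow 2).const_mul 4
      simpa using this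
    have h3 : HasDerivAt (fun r => Y r / (4 * lam r ^ 2))
        ((Y' r * (4 * lam r ^ 2) - Y r * (4 * (2 * lam r ^ 1 *
          (-(c r * I r))))) / (4 * lam r ^ 2) ^ 2) r :=
      (hYd r hr).div h2 (by positivity)
    exact h1.mul ((hasDerivAt_const r (1 : ℝ)).sub h3)
  have hf0 : f r0 = ρ r0 ^ (N - 1) := by simp [hf, hY0]
  have hpos0 : 0 < f r0 := by
    rw [hf0]; exact Real.rpow_pos_of_pos (hρ r0 le_rfl) _
  obtain ⟨hm, hge⟩ := monotone_of_deriv_nonneg_of_nonneg hfc hfd (by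
    intro r hr hfr
    have hcr := hc r hr
    have hHr := hH r hr
    have hlr := hlam r hr.le
    have hρr := hρ r hr.le
    have hρp : 0 < ρ r ^ (N - 1) := Real.rpow_pos_of_pos hρr _
    have hl2 : 0 < lam r ^ 2 := by positivity
    have hu1 : u r ≤ 1 := by
      have : 0 ≤ 1 - Y r / (4 * lam r ^ 2) := by
        by_contra hneg
        push Not at hneg
        exact absurd hfr (not_le.2 (mul_neg_of_pos_of_neg hρp hneg))
      simp only [hu]; linarith
    have hu0 : 0 ≤ u r := div_nonneg (hY r hr) (by positivity)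
    have hYr : Y r = u r * (4 * lam r ^ 2) := by
      simp only [hu]; field_simp
    have hρ1 : ρ r * ρ r ^ (N - 1 - 1) = ρ r ^ (N - 1) := by
      conv_lhs => rw [← Real.rpow_one (ρ r)]
      rw [← Real.rpow_mul hρr.le, one_mul, ← Real.rpow_add hρr]
      congr 1; ring
    -- the key estimate for `u' / c`
    have hR := hJ r hr
    have hU' := hU r hr
    have hL' := hL r hr
    have hest : Y' r / (4 * lam r ^ 2) + 2 * u r * (c r * (I r / lam r)) ≤
        c r * (H r * (1 - u r) * (1 - 1 / N)) := by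
      have h1 : Y' r / (4 * lam r ^ 2) ≤ c r * (H r * R r / (4 * lam r ^ 2) -
          H r * u r - u r / H r * II2 r) := by
        rw [div_le_iff₀ (by positivity)]
        refine (hYle r hr).trans (le_of_eq ?_)
        rw [hYr]; field_simp
      have h2 : H r * R r / (4 * lam r ^ 2) ≤ H r * (1 - L2 r / lam r ^ 2) := by
        rw [mul_div_assoc]
        refine mul_le_mul_of_nonneg_left ?_ hHr.le
        rw [div_le_iff₀ (by positivity)]
        have : (1 - L2 r / lam r ^ 2) * (4 * lam r ^ 2) = 4 * (lam r ^ 2 - L2 r) := by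
          field_simp
        rw [this]; linarith
      have h3 : 0 ≤ u r / H r * (II2 r - 2 * (H r / lam r) * I r + (H r / lam r) ^ 2 * L2 r) :=
        mul_nonneg (div_nonneg hu0 hHr.le) hU'
      have h3' : u r / H r * (II2 r - 2 * (H r / lam r) * I r + (H r / lam r) ^ 2 * L2 r) =
          u r / H r * II2 r - 2 * u r * (I r / lam r) + u r * (H r * (L2 r / lam r ^ 2)) := by
        field_simp
      rw [h3'] at h3
      have h4 : 1 / N ≤ L2 r / lam r ^ 2 := by
        rw [div_le_div_iff₀ hN0 hl2]; linarith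
      have h5 : H r * (1 - u r) * (1 - L2 r / lam r ^ 2) ≤ H r * (1 - u r) * (1 - 1 / N) := by
        refine mul_le_mul_of_nonneg_left (by linarith) ?_
        exact mul_nonneg hHr.le (by linarith)
      have h6 : H r * R r / (4 * lam r ^ 2) - H r * u r - u r / H r * II2 r +
          2 * u r * (I r / lam r) ≤ H r * (1 - u r) * (1 - 1 / N) := by
        refine le_trans ?_ h5
        nlinarith
      calc Y' r / (4 * lam r ^ 2) + 2 * u r * (c r * (I r / lam r))
          ≤ c r * (H r * R r / (4 * lam r ^ 2) - H r * u r - u r / H r * II2 r) +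
            2 * u r * (c r * (I r / lam r)) := by linarith
        _ = c r * (H r * R r / (4 * lam r ^ 2) - H r * u r - u r / H r * II2 r +
          2 * u r * (I r / lam r)) := by ring
        _ ≤ c r * (H r * (1 - u r) * (1 - 1 / N)) := mul_le_mul_of_nonneg_left h6 hcr.le
    have e1 : (ρ r * (c r * H r / N)) * (N - 1) * ρ r ^ (N - 1 - 1) *
        (1 - Y r / (4 * lam r ^ 2)) =
        ρ r ^ (N - 1) * (c r * (H r * (1 - u r) * (1 - 1 / N))) := by
      rw [← hρ1]; simp only [hu]; field_simp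
    rw [e1, ← mul_add]
    refine mul_nonneg hρp.le ?_
    have e2 : (Y' r * (4 * lam r ^ 2) - Y r * (4 * (2 * lam r ^ 1 * (-(c r * I r))))) /
        (4 * lam r ^ 2) ^ 2 =
        Y' r / (4 * lam r ^ 2) + 2 * u r * (c r * (I r / lam r)) := by
      rw [hYr]; field_simp; ring
    rw [e2]
    linarith) hpos0
  exact ⟨hm, fun r hr => hf0 ▸ hge r hr⟩

end Vale.Agent.P366.T2
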