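import Vale.Agent.P366.T2.Defs
import Vale.Agent.P366.T2.Mono2
import Vale.Agent.P366.T2.KeyAux

/-!
T2, block D: `key`.
-/

open MeasureTheory Metric Filter Topology Set
open scoped ContDiff

noncomputable section
namespace Vale.Agent.P366.T2
namespace Data

variable {n : ℕ} (D : Data n)

open Matrix

/-! ### positivity -/

theorem r_pos {r : ℝ} (hr : D.R ≤ r) : 0 < r := D.hR.trans_le hr

theorem c_pos {r : ℝ} (hr : D.R ≤ r) : 0 < D.c r := Real.sqrt_pos.2 (D.p_pos r hr)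

theorem c_sq {r : ℝ} (hr : D.R ≤ r) : D.c r ^ 2 = D.p r := Real.sq_sqrt (D.p_pos r hr).le

theorem Yh_pos {r : ℝ} (hr : D.R ≤ r) : 0 < D.Yh r := by
  have := D.al_pos r hr
  have := D.r_pos hr
  unfold Yh; positivity

/-- the coefficient matrix of the fibre metric -/
def qmK (r : ℝ) : Matrix (Fin 3) (Fin 3) ℝ := Matrix.of fun a b => D.q a b r

/-- its derivative, in the normalisation of `qh` -/
def dqh (r : ℝ) : Matrix (Fin 3) (Fin 3) ℝ := Matrix.of fun a b => deriv (fun t => t ^ 2 * D.q a b t) r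

theorem qh_eq (r : ℝ) : D.qh r = (r ^ 2) • D.qmK r := by
  ext a b; simp [qh, qmK]

theorem qh_posDef {r : ℝ} (hr : D.R ≤ r) : (D.qh r).PosDef := by
  rw [qh_eq]
  have h := D.q_pos r hr
  have hr0 := D.r_pos hr
  exact h.smul (by positivity)

theorem det_pos {r : ℝ} (hr : D.R ≤ r) : 0 < (D.qh r).det := (D.qh_posDef hr).det_pos

theorem dqh_symm (r : ℝ) : (D.dqh r)ᵀ = D.dqh r := by
  ext a b
  simp only [dqh, transpose_apply, of_apply]
  rw [D.q_symm a b]

theorem qh_symm (r : ℝ) : (D.qh r)ᵀ = D.qh r := by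
  ext a b
  simp only [qh, transpose_apply, of_apply]
  rw [D.q_symm a b]

theorem A_eq (r : ℝ) : D.A r = (1 / 2 : ℝ) • ((D.qh r)⁻¹ * D.dqh r) := rfl

theorem qh_mul_A {r : ℝ} (hr : D.R ≤ r) : D.qh r * D.A r = (1 / 2 : ℝ) • D.dqh r := by
  rw [A_eq, Matrix.mul_smul, ← Matrix.mul_assoc, Matrix.mul_nonsing_inv _
    (isUnit_iff_ne_zero.2 (D.det_pos hr).ne'), Matrix.one_mul]

/-! ### derivatives -/

theorem qh_hasDerivAt (r : ℝ) (a b : Fin 3) :
    HasDerivAt (fun t => D.qh t a b) (D.dqh r a b) r := by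
  have h : DifferentiableAt ℝ (fun t => t ^ 2 * D.q a b t) r := by
    have := ((D.q_smooth a b).differentiable (by simp)).differentiableAt (x := r)
    exact (differentiableAt_id.pow 2).mul this
  exact h.hasDerivAt

theorem Yh_hasDerivAt {r : ℝ} (hr : D.R ≤ r) :
    HasDerivAt D.Yh (2 * D.Yh r * D.yb r) r := by
  have h : DifferentiableAt ℝ D.Yh r := by
    have := (D.al_smooth.differentiable (by simp)).differentiableAt (x := r)
    exact (differentiableAt_id.pow 2).mul this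
  refine h.hasDerivAt.congr_deriv ?_
  have := (D.Yh_pos hr).ne'
  unfold yb; field_simp

theorem tr_hasDerivAt {r : ℝ} (hr : D.R ≤ r) :
    HasDerivAt (fun t => (D.qh t).trace) (2 * (D.qh r * D.A r).trace) r := by
  rw [D.qh_mul_A hr, Matrix.trace_smul, smul_eq_mul]
  have : (fun t => (D.qh t).trace) = fun t => D.qh t 0 0 + D.qh t 1 1 + D.qh t 2 2 := by
    funext t; simp only [trace, diag, Fin.sum_univ_three]
  rw [this]
  refine (((D.qh_hasDerivAt r 0 0).add (D.qh_hasDerivAt r 1 1)).add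
    (D.qh_hasDerivAt r 2 2)).congr_deriv ?_
  simp only [trace, diag, Fin.sum_univ_three]; ring

theorem det_hasDerivAt {r : ℝ} (hr : D.R ≤ r) :
    HasDerivAt (fun t => (D.qh t).det) (2 * (D.qh r).det * (D.A r).trace) r := by
  refine (hasDerivAt_det3' (D.qh_hasDerivAt r) (D.det_pos hr).ne').congr_deriv ?_
  rw [A_eq, Matrix.trace_smul, smul_eq_mul]; ring

/-- the sixth root of the determinant -/
def g (r : ℝ) : ℝ := (D.qh r).det ^ (1 / 6 : ℝ)

theorem g_pos {r : ℝ} (hr : D.R ≤ r) : 0 < D.g r := Real.rpow_pos_of_pos (D.det_pos hr) _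

theorem g_pow {r : ℝ} (hr : D.R ≤ r) : D.g r ^ 6 = (D.qh r).det := by
  rw [g, ← Real.rpow_natCast, ← Real.rpow_mul (D.det_pos hr).le]; norm_num

theorem g_cube {r : ℝ} (hr : D.R ≤ r) : D.g r ^ 3 = √(D.qh r).det := by
  rw [g, ← Real.rpow_natCast, ← Real.rpow_mul (D.det_pos hr).le, Real.sqrt_eq_rpow]; norm_num

theorem g_inv {r : ℝ} (hr : D.R ≤ r) : (D.qh r).det ^ (-(1 / 6) : ℝ) = 1 / D.g r := by
  rw [Real.rpow_neg (D.det_pos hr).le]
  exact (one_div _).symm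

theorem g_hasDerivAt {r : ℝ} (hr : D.R ≤ r) :
    HasDerivAt D.g (D.g r * ((D.A r).trace / 3)) r := by
  have h := (D.det_hasDerivAt hr).rpow_const (p := (1 / 6 : ℝ)) (Or.inl (D.det_pos hr).ne')
  refine h.congr_deriv ?_
  have hd := D.det_pos hr
  have : (D.qh r).det ^ ((1 / 6 : ℝ) - 1) = D.g r / (D.qh r).det := by
    rw [g, Real.rpow_sub hd, Real.rpow_one]
  rw [this]; field_simp; ring

theorem lam_eq {r : ℝ} (hr : D.R ≤ r) : D.lam r =
    (D.qh r).trace / (2 * D.g r ^ 3) + D.b / 4 * (1 / D.g r + D.g r / D.Yh r) := by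
  rw [lam, D.g_inv hr, D.g_cube hr]; rfl

theorem tr_ge {r : ℝ} (hr : D.R ≤ r) : 3 * D.g r ^ 2 ≤ (D.qh r).trace := by
  have h := amgm3 (D.qh_posDef hr)
  have : D.g r ^ 2 = (D.qh r).det ^ (1 / 3 : ℝ) := by
    rw [g, ← Real.rpow_natCast, ← Real.rpow_mul (D.det_pos hr).le]; norm_num
  rwa [this]

theorem tr_pos {r : ℝ} (hr : D.R ≤ r) : 0 < (D.qh r).trace := by
  have := D.g_pos hr
  have := D.tr_ge hr
  nlinarith [sq_nonneg (D.g r), pow_pos ‹0 < D.g r› 2]

variable (hn : 4 ≤ n)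
include hn in
theorem b_nonneg : 0 ≤ D.b := by
  have : (4 : ℝ) ≤ n := by exact_mod_cast hn
  unfold b; linarith

include hn in
theorem lam_pos {r : ℝ} (hr : D.R ≤ r) : 0 < D.lam r := by
  rw [D.lam_eq hr]
  have h1 := D.g_pos hr
  have h2 := D.Yh_pos hr
  have h3 := D.tr_pos hr
  have h4 := D.b_nonneg hn
  positivity

/-- coefficient of the identity in the fibre gradient -/
def ta (r : ℝ) : ℝ :=
  (D.qh r).trace / (2 * D.g r ^ 3) + D.b / 12 * (1 / D.g r - D.g r / D.Yh r)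

/-- fibre part of the gradient of `lam` -/
def Tq (r : ℝ) : Matrix (Fin 3) (Fin 3) ℝ := (-(1 / D.g r ^ 3)) • D.qh r + D.ta r • 1

/-- base part of the gradient of `lam` -/
def Tb (r : ℝ) : ℝ := D.g r / (2 * D.Yh r)

/-- `⟨II, T⟩` -/
def IT (r : ℝ) : ℝ := ((D.Tq r * D.A r).trace + D.b * D.Tb r * D.yb r) / D.c r

def L2 (r : ℝ) : ℝ := (D.Tq r * D.Tq r).trace + D.b * D.Tb r ^ 2

theorem trace_Tq {r : ℝ} (hr : D.R ≤ r) : (D.Tq r).trace + D.b * D.Tb r = D.lam r := by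
  rw [D.lam_eq hr]
  simp only [Tq, Tb, ta, trace_add, trace_smul, trace_one, smul_eq_mul, Fintype.card_fin]
  have h1 := (D.g_pos hr).ne'
  have h2 := (D.Yh_pos hr).ne'
  field_simp; push_cast; ring

theorem trace_Tq_A (r : ℝ) : (D.Tq r * D.A r).trace =
    -(1 / D.g r ^ 3) * (D.qh r * D.A r).trace + D.ta r * (D.A r).trace := by
  simp only [Tq, add_mul, Matrix.smul_mul, Matrix.one_mul, trace_add, trace_smul, smul_eq_mul]

theorem trace_Tq_Tq (r : ℝ) : (D.Tq r * D.Tq r).trace =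
    (D.qh r * D.qh r).trace / D.g r ^ 6 - 2 * D.ta r * (D.qh r).trace / D.g r ^ 3 +
      3 * D.ta r ^ 2 := by
  simp only [Tq, add_mul, mul_add, Matrix.smul_mul, Matrix.mul_smul, Matrix.one_mul,
    Matrix.mul_one, trace_add, trace_smul, smul_eq_mul, trace_one, Fintype.card_fin,
    Nat.cast_ofNat]
  by_cases h : D.g r = 0
  · simp [h]; ring
  · field_simp; ring

theorem lam_hasDerivAt {r : ℝ} (hr : D.R ≤ r) : HasDerivAt D.lam (-(D.c r * D.IT r)) r := by
  have hev : D.lam =ᶠ[𝓝 r] fun t => (D.qh t).trace / (2 * √(D.qh t).det) +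
      D.b / 4 * (((D.qh t).det) ^ (-(1 / 6 : ℝ)) + ((D.qh t).det) ^ (1 / 6 : ℝ) / D.Yh t) :=
    Eventually.of_forall fun t => rfl
  have hd := D.det_pos hr
  have hg := D.g_pos hr
  have hY := D.Yh_pos hr
  have hc := D.c_pos hr
  have h1 : HasDerivAt (fun t => √(D.qh t).det) (D.g r ^ 3 * (D.A r).trace) r := by
    refine ((D.det_hasDerivAt hr).sqrt hd.ne').congr_deriv ?_
    rw [← D.g_cube hr, ← D.g_pow hr]; field_simp
  have h2 : HasDerivAt (fun t => ((D.qh t).det) ^ (-(1 / 6 : ℝ)))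
      (-(1 / D.g r) * ((D.A r).trace / 3)) r := by
    refine ((D.det_hasDerivAt hr).rpow_const (p := (-(1 / 6) : ℝ)) (Or.inl hd.ne')).congr_deriv ?_
    have : (D.qh r).det ^ (-(1 / 6 : ℝ) - 1) = 1 / D.g r / (D.qh r).det := by
      rw [Real.rpow_sub hd, Real.rpow_one, D.g_inv hr]
    rw [this]; field_simp; ring
  have h3 : HasDerivAt (fun t => ((D.qh t).det) ^ (1 / 6 : ℝ) / D.Yh t)
      ((D.g r * ((D.A r).trace / 3) * D.Yh r - D.g r * (2 * D.Yh r * D.yb r)) / D.Yh r ^ 2) r :=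
    (D.g_hasDerivAt hr).div (D.Yh_hasDerivAt hr) hY.ne'
  have h4 : √(D.qh r).det ≠ 0 := (Real.sqrt_pos.2 hd).ne'
  have h := ((D.tr_hasDerivAt hr).div (h1.const_mul 2) (mul_ne_zero two_ne_zero h4)).add
    ((h2.add h3).const_mul (D.b / 4))
  refine (h.congr_of_eventuallyEq hev).congr_deriv ?_
  rw [IT, trace_Tq_A, ← D.g_cube hr]
  simp only [Tb, ta]
  field_simp
  ring

/-! ### the algebraic inequalities -/

theorem hJ_le (hn : 4 ≤ n) {r : ℝ} (hr : D.R ≤ r) : D.Rh r / 4 + D.L2 r ≤ D.lam r ^ 2 := by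
  have h := hj355 (t2 := (D.qh r * D.qh r).trace) (D.b_nonneg hn) (D.g_pos hr) (D.Yh_pos hr)
    (D.tr_ge hr)
  have e1 : D.Rh r = 2 * ((D.qh r).trace ^ 2 - 2 * (D.qh r * D.qh r).trace) / D.g r ^ 6 +
      D.b * (D.b + 8) / D.Yh r - D.b * (D.qh r).trace / D.Yh r ^ 2 := by
    rw [D.g_pow hr]; rfl
  have e2 : D.L2 r = (D.qh r * D.qh r).trace / D.g r ^ 6 -
      2 * D.ta r * (D.qh r).trace / D.g r ^ 3 + 3 * D.ta r ^ 2 + D.b * D.Tb r ^ 2 := by
    rw [L2, trace_Tq_Tq]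
  rw [e1, e2, D.lam_eq hr]
  exact h

/-- positivity of the square of a `qh`-self-adjoint matrix plus the base part -/
theorem sq_nonneg_of {r : ℝ} (hr : D.R ≤ r) (hn : 4 ≤ n) {M s : Matrix (Fin 3) (Fin 3) ℝ} {x : ℝ}
    (hs : sᵀ = s) (hM : M = (D.qh r)⁻¹ * s) : 0 ≤ (M * M).trace + D.b * x ^ 2 := by
  have h1 := trace_sq_nonneg (D.qh_posDef hr) hs
  rw [← hM] at h1
  have h2 := D.b_nonneg hn
  positivity

theorem inv_mul_qh {r : ℝ} (hr : D.R ≤ r) : (D.qh r)⁻¹ * D.qh r = 1 :=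
  Matrix.nonsing_inv_mul _ (isUnit_iff_ne_zero.2 (D.det_pos hr).ne')

theorem Tq_form {r : ℝ} (hr : D.R ≤ r) : D.Tq r = (D.qh r)⁻¹ *
    ((-(1 / D.g r ^ 3)) • (D.qh r * D.qh r) + D.ta r • D.qh r) := by
  rw [Matrix.mul_add, Matrix.mul_smul, Matrix.mul_smul, ← Matrix.mul_assoc, D.inv_mul_qh hr,
    Matrix.one_mul, Tq]

theorem hL_le (hn : 4 ≤ n) {r : ℝ} (hr : D.R ≤ r) : D.lam r ^ 2 ≤ ((n : ℝ) - 1) * D.L2 r := by
  have hb := D.b_nonneg hn
  have hN : D.b = (n : ℝ) - 4 := rfl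
  set x := D.lam r / ((n : ℝ) - 1) with hx
  have h := D.sq_nonneg_of hr hn (M := D.Tq r - x • 1) (x := D.Tb r - x)
    (s := (-(1 / D.g r ^ 3)) • (D.qh r * D.qh r) + D.ta r • D.qh r - x • D.qh r) (by
      simp only [transpose_sub, transpose_add, transpose_smul, transpose_mul, D.qh_symm r]) (by
      rw [Matrix.mul_sub, ← D.Tq_form hr, Matrix.mul_smul, D.inv_mul_qh hr])
  have e : ((D.Tq r - x • 1) * (D.Tq r - x • 1)).trace =
      (D.Tq r * D.Tq r).trace - 2 * x * (D.Tq r).trace + 3 * x ^ 2 := by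
    simp only [sub_mul, mul_sub, Matrix.smul_mul, Matrix.mul_smul, Matrix.one_mul, Matrix.mul_one,
      trace_sub, trace_smul, smul_eq_mul, trace_one, Fintype.card_fin, Nat.cast_ofNat]
    ring
  rw [e] at h
  have ht := D.trace_Tq hr
  have hN1 : 0 < (n : ℝ) - 1 := by
    have : (4 : ℝ) ≤ n := by exact_mod_cast hn
    linarith
  have h2 : 0 ≤ D.L2 r - 2 * x * D.lam r + ((n : ℝ) - 1) * x ^ 2 := by
    have : D.L2 r - 2 * x * D.lam r + ((n : ℝ) - 1) * x ^ 2 =
      (D.Tq r * D.Tq r).trace - 2 * x * (D.Tq r).trace + 3 * x ^ 2 +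
        D.b * (D.Tb r - x) ^ 2 := by
      rw [L2, ← ht, hN]; ring
    rw [this]; exact h
  have h3 : D.L2 r - 2 * x * D.lam r + ((n : ℝ) - 1) * x ^ 2 =
      D.L2 r - D.lam r ^ 2 / ((n : ℝ) - 1) := by
    rw [hx]; field_simp; ring
  rw [h3] at h2
  have h4 : D.lam r ^ 2 / ((n : ℝ) - 1) ≤ D.L2 r := by linarith
  rw [div_le_iff₀ hN1] at h4
  linarith

theorem hU_le (hn : 4 ≤ n) {r : ℝ} (hr : D.R ≤ r) (y : ℝ) :
    0 ≤ D.II2 r - 2 * y * D.IT r + y ^ 2 * D.L2 r := by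
  have hc := D.c_pos hr
  have hp : D.p r = D.c r ^ 2 := (D.c_sq hr).symm
  have h := D.sq_nonneg_of hr hn (M := (1 / D.c r) • D.A r - y • D.Tq r)
    (x := 1 / D.c r * D.yb r - y * D.Tb r)
    (s := (1 / D.c r) • ((1 / 2 : ℝ) • D.dqh r) -
      y • ((-(1 / D.g r ^ 3)) • (D.qh r * D.qh r) + D.ta r • D.qh r)) (by
      simp only [transpose_sub, transpose_add, transpose_smul, transpose_mul, D.qh_symm r,
        D.dqh_symm r]) (by
      rw [Matrix.mul_sub, Matrix.mul_smul, Matrix.mul_smul, Matrix.mul_smul, ← A_eq,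
        ← D.Tq_form hr])
  refine h.trans (le_of_eq ?_)
  have e : (((1 / D.c r) • D.A r - y • D.Tq r) * ((1 / D.c r) • D.A r - y • D.Tq r)).trace =
      (D.A r * D.A r).trace / D.c r ^ 2 - 2 * y * (D.Tq r * D.A r).trace / D.c r +
        y ^ 2 * (D.Tq r * D.Tq r).trace := by
    simp only [sub_mul, mul_sub, Matrix.smul_mul, Matrix.mul_smul, trace_sub, trace_smul,
      smul_eq_mul, Matrix.trace_mul_comm (D.A r) (D.Tq r)]
    field_simp; ring
  rw [e, II2, IT, L2, hp]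
  field_simp
  ring

/-! ### the constraint inequality -/

theorem S_eq {r : ℝ} (hr : D.R ≤ r) : D.S r = (D.qh r)⁻¹ *
    ((r ^ 2) • Matrix.of fun a b => D.s a b r) := by
  have hr0 := (D.r_pos hr).ne'
  have h : (D.qh r)⁻¹ = (r ^ 2)⁻¹ • (D.qmK r)⁻¹ := by
    rw [qh_eq]
    have hq : (D.qmK r).det ≠ 0 := (D.q_pos r hr).det_pos.ne'
    refine Matrix.inv_eq_right_inv ?_
    rw [Matrix.smul_mul, Matrix.mul_smul, smul_smul, mul_inv_cancel₀ (by positivity), one_smul,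
      Matrix.mul_nonsing_inv _ (isUnit_iff_ne_zero.2 hq)]
  rw [h, Matrix.smul_mul, Matrix.mul_smul, smul_smul, inv_mul_cancel₀ (by positivity), one_smul]
  rfl

theorem be2_nonneg {r : ℝ} (hr : D.R ≤ r) : 0 ≤ D.be2 r := by
  unfold be2
  refine div_nonneg ?_ (D.p_pos r hr).le
  have h := (D.q_pos r hr).inv.posSemidef
  have := h.dotProduct_mulVec_nonneg (fun a => D.v a r)
  simp only [dotProduct, mulVec, Pi.star_apply, star_trivial] at this
  refine this.trans (le_of_eq ?_)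
  refine Finset.sum_congr rfl fun a _ => ?_
  rw [Finset.mul_sum]
  refine Finset.sum_congr rfl fun b _ => ?_
  ring

theorem KII_le (hn : 4 ≤ n) {r : ℝ} (hr : D.R ≤ r) (y : ℝ) :
    0 ≤ D.KS2 r - 2 * y * D.IIK r + y ^ 2 * D.II2 r := by
  have hc := D.c_pos hr
  have hp : D.p r = D.c r ^ 2 := (D.c_sq hr).symm
  have h := D.sq_nonneg_of hr hn (M := D.S r - (y / D.c r) • D.A r)
    (x := D.ka r / D.al r - y / D.c r * D.yb r)
    (s := ((r ^ 2) • Matrix.of fun a b => D.s a b r) - (y / D.c r) • ((1 / 2 : ℝ) • D.dqh r)) (by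
      simp only [transpose_sub, transpose_smul, D.dqh_symm r]
      congr 2
      ext a b
      simp only [transpose_apply, of_apply]
      rw [D.s_symm a b]) (by
      rw [Matrix.mul_sub, ← D.S_eq hr, A_eq, Matrix.mul_smul, Matrix.mul_smul])
  refine h.trans (le_of_eq ?_)
  have e : ((D.S r - (y / D.c r) • D.A r) * (D.S r - (y / D.c r) • D.A r)).trace =
      (D.S r * D.S r).trace - 2 * y * (D.A r * D.S r).trace / D.c r +
        y ^ 2 * (D.A r * D.A r).trace / D.c r ^ 2 := by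
    simp only [sub_mul, mul_sub, Matrix.smul_mul, Matrix.mul_smul, trace_sub, trace_smul,
      smul_eq_mul, Matrix.trace_mul_comm (D.S r) (D.A r)]
    field_simp; ring
  rw [e, KS2, IIK, II2, hp]
  field_simp
  ring

/-- the differential inequality for `H ^ 2 - k ^ 2` -/
theorem deriv_le (hn : 4 ≤ n) {r : ℝ} (hr : D.R ≤ r) (hdec : |D.JN r| ≤ D.mu r)
    (hk : |D.k r| < D.H r) :
    2 * D.H r * deriv D.H r - 2 * D.k r * deriv D.k r ≤
      D.c r * (D.H r * D.Rh r - D.H r * (D.H r ^ 2 - D.k r ^ 2) -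
        (D.H r ^ 2 - D.k r ^ 2) / D.H r * D.II2 r) := by
  have hc := D.c_pos hr
  have hH : 0 < D.H r := (abs_nonneg _).trans_lt hk
  have h1 : 0 ≤ D.H r * D.mu r - D.k r * D.JN r := by
    have h2 : D.k r * D.JN r ≤ |D.k r| * |D.JN r| := by
      rw [← abs_mul]; exact le_abs_self _
    have h3 : |D.k r| * |D.JN r| ≤ D.H r * D.mu r :=
      mul_le_mul hk.le hdec (abs_nonneg _) hH.le
    linarith
  have hbe := D.be2_nonneg hr
  have hK := D.KII_le hn hr (D.k r / D.H r)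
  have hK' : 0 ≤ D.H r * (D.KS2 r - 2 * (D.k r / D.H r) * D.IIK r +
      (D.k r / D.H r) ^ 2 * D.II2 r) := mul_nonneg hH.le hK
  have e1 : D.H r * (D.KS2 r - 2 * (D.k r / D.H r) * D.IIK r +
      (D.k r / D.H r) ^ 2 * D.II2 r) = D.H r * D.KS2 r - 2 * D.k r * D.IIK r +
        D.k r ^ 2 / D.H r * D.II2 r := by field_simp
  rw [e1] at hK'
  have e2 : D.c r * (2 * (D.H r * D.mu r - D.k r * D.JN r)) =
      D.c r * (D.H r * (D.Rh r - D.II2 r - D.H r ^ 2 + D.k r ^ 2 - D.KS2 r - 2 * D.be2 r) +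
        2 * D.k r * D.IIK r) - (2 * D.H r * deriv D.H r - 2 * D.k r * deriv D.k r) := by
    rw [mu, JN, Rg]; field_simp; ring
  have e3 : 0 ≤ D.c r * (2 * (D.H r * D.mu r - D.k r * D.JN r)) := by positivity
  rw [e2] at e3
  have e4 : D.H r * (D.Rh r - D.II2 r - D.H r ^ 2 + D.k r ^ 2 - D.KS2 r - 2 * D.be2 r) +
        2 * D.k r * D.IIK r ≤ D.H r * D.Rh r - D.H r * (D.H r ^ 2 - D.k r ^ 2) -
        (D.H r ^ 2 - D.k r ^ 2) / D.H r * D.II2 r := by
    have e5 : (D.H r ^ 2 - D.k r ^ 2) / D.H r * D.II2 r = D.H r * D.II2 r -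
      D.k r ^ 2 / D.H r * D.II2 r := by field_simp
    rw [e5]
    have : 0 ≤ D.H r * D.be2 r := mul_nonneg hH.le hbe
    nlinarith
  have e6 := mul_le_mul_of_nonneg_left e4 hc.le
  linarith

/-! ### the area radius -/

theorem ar_pos {r : ℝ} (hr : D.R ≤ r) : 0 < D.ar r :=
  mul_pos (Real.sqrt_pos.2 (D.det_pos hr)) (Real.rpow_pos_of_pos (D.Yh_pos hr) _)

theorem rho_pos {r : ℝ} (hr : D.R ≤ r) : 0 < D.rho r := Real.rpow_pos_of_pos (D.ar_pos hr) _

theorem ar_hasDerivAt {r : ℝ} (hr : D.R ≤ r) :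
    HasDerivAt D.ar (D.ar r * (D.c r * D.H r)) r := by
  have hd := D.det_pos hr
  have hY := D.Yh_pos hr
  have hs := Real.sqrt_pos.2 hd
  have h1 : HasDerivAt (fun t => √(D.qh t).det) (√(D.qh r).det * (D.A r).trace) r := by
    refine ((D.det_hasDerivAt hr).sqrt hd.ne').congr_deriv ?_
    have h := Real.mul_self_sqrt hd.le
    rw [div_eq_iff (by positivity)]
    linear_combination (-2 * (D.A r).trace) * h
  have h2 : HasDerivAt (fun t => D.Yh t ^ (D.b / 2)) (D.Yh r ^ (D.b / 2) * (D.b * D.yb r)) r := by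
    refine ((D.Yh_hasDerivAt hr).rpow_const (p := D.b / 2) (Or.inl hY.ne')).congr_deriv ?_
    rw [Real.rpow_sub hY, Real.rpow_one]; field_simp
  refine (h1.mul h2).congr_deriv ?_
  have hc := (D.c_pos hr).ne'
  rw [ar, H]; field_simp; ring

theorem rho_hasDerivAt {r : ℝ} (hr : D.R ≤ r) :
    HasDerivAt D.rho (D.rho r * (D.c r * D.H r / ((n : ℝ) - 1))) r := by
  have ha := D.ar_pos hr
  refine ((D.ar_hasDerivAt hr).rpow_const (p := 1 / ((n : ℝ) - 1)) (Or.inl ha.ne')).congr_deriv ?_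
  rw [Real.rpow_sub ha, Real.rpow_one, rho]; field_simp

/-! ### differentiability of `H` and `k` -/

theorem diff_of_smooth {f : ℝ → ℝ} (hf : ContDiff ℝ ∞ f) (r : ℝ) : DifferentiableAt ℝ f r :=
  (hf.differentiable (by simp)).differentiableAt

theorem diff_deriv_of_smooth {f : ℝ → ℝ} (hf : ContDiff ℝ ∞ f) (r : ℝ) :
    DifferentiableAt ℝ (deriv f) r :=
  diff_of_smooth (contDiff_infty_iff_deriv.1 hf).2 r

theorem sq_mul_smooth {f : ℝ → ℝ} (hf : ContDiff ℝ ∞ f) : ContDiff ℝ ∞ (fun t => t ^ 2 * f t) :=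
  (contDiff_id.pow 2).mul hf

theorem diff_trace_mul {M N : ℝ → Matrix (Fin 3) (Fin 3) ℝ} {r : ℝ}
    (hM : ∀ a b, DifferentiableAt ℝ (fun t => M t a b) r)
    (hN : ∀ a b, DifferentiableAt ℝ (fun t => N t a b) r) :
    DifferentiableAt ℝ (fun t => (M t * N t).trace) r := by
  simp only [trace, diag, Matrix.mul_apply]
  exact DifferentiableAt.fun_sum fun a _ => DifferentiableAt.fun_sum fun b _ => (hM a b).mul (hN b a)

theorem c_diff {r : ℝ} (hr : D.R ≤ r) : DifferentiableAt ℝ D.c r :=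
  (diff_of_smooth D.p_smooth r).sqrt (D.p_pos r hr).ne'

theorem H_diff {r : ℝ} (hr : D.R ≤ r) : DifferentiableAt ℝ D.H r := by
  have h1 : DifferentiableAt ℝ D.yb r := by
    have hY : ContDiff ℝ ∞ D.Yh := sq_mul_smooth D.al_smooth
    have := D.Yh_pos hr
    exact (diff_deriv_of_smooth hY r).div ((diff_of_smooth hY r).const_mul 2) (by positivity)
  have h2 : DifferentiableAt ℝ (fun t => (D.A t).trace) r := by
    have : (fun t => (D.A t).trace) = fun t => (1 / 2 : ℝ) * ((D.qh t)⁻¹ * D.dqh t).trace := by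
      funext t; rw [A_eq, trace_smul, smul_eq_mul]
    rw [this]
    refine (diff_trace_mul ?_ ?_).const_mul _
    · exact differentiableAt_inv3 (fun a b => (D.qh_hasDerivAt r a b).differentiableAt)
        (D.det_pos hr).ne'
    · intro a b
      exact diff_deriv_of_smooth (sq_mul_smooth (D.q_smooth a b)) r
  exact ((h1.const_mul _).add h2).div (D.c_diff hr) (D.c_pos hr).ne'

theorem k_diff {r : ℝ} (hr : D.R ≤ r) : DifferentiableAt ℝ D.k r := by
  have h1 : DifferentiableAt ℝ (fun t => D.b * (D.ka t / D.al t)) r :=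
    ((diff_of_smooth D.ka_smooth r).div (diff_of_smooth D.al_smooth r)
      (D.al_pos r hr).ne').const_mul _
  have h2 : DifferentiableAt ℝ (fun t => (D.S t).trace) r := by
    refine diff_trace_mul ?_ ?_
    · exact differentiableAt_inv3 (fun a b => diff_of_smooth (D.q_smooth a b) r)
        (D.q_pos r hr).det_pos.ne'
    · intro a b
      exact diff_of_smooth (D.s_smooth a b) r
  exact h1.add h2

/-- **Block D.** -/
theorem key (hn : 4 ≤ n) (hdec : ∀ r, D.R < r → |D.JN r| ≤ D.mu r)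
    (h0 : D.H D.R + D.k D.R ≤ 0) (hinf : ∀ᶠ r in atTop, |D.k r| < D.H r) {m : ℝ}
    (hm : Tendsto D.mass atTop (𝓝 (2 * m))) :
    ∃ r, D.R ≤ r ∧ D.rho r ^ ((n : ℝ) - 2) ≤ 2 * m := by
  -- the last radius with `H ≤ |k|`
  obtain ⟨R1, hR1⟩ := (eventually_atTop.1 hinf)
  set S : Set ℝ := {r | D.R ≤ r ∧ D.H r ≤ |D.k r|} with hS
  have hHc : ContinuousOn D.H (Ici D.R) := fun r hr => (D.H_diff hr).continuousAt.continuousWithinAt
  have hkc : ContinuousOn D.k (Ici D.R) := fun r hr => (D.k_diff hr).continuousAt.continuousWithinAt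
  have hSc : IsClosed S := by
    have h1 : ContinuousOn (fun r => |D.k r| - D.H r) (Ici D.R) := hkc.abs.sub hHc
    have h2 := h1.preimage_isClosed_of_isClosed isClosed_Ici (isClosed_Ici (a := (0 : ℝ)))
    convert h2 using 1
    ext r
    simp only [hS, mem_ofPred_eq, mem_inter_iff, mem_Ici, mem_preimage, sub_nonneg]
  have hSne : S.Nonempty := ⟨D.R, le_rfl, by
    have := neg_le_abs (D.k D.R)
    linarith⟩
  have hSb : BddAbove S := ⟨max D.R R1, fun r hr => by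
    by_contra hlt
    push Not at hlt
    have h1 := hR1 r ((le_max_right _ _).trans hlt.le)
    exact absurd hr.2 (not_le.2 h1)⟩
  set r0 := sSup S with hr0
  have hr0S : r0 ∈ S := hSc.csSup_mem hSne hSb
  have hgt : ∀ r, r0 < r → |D.k r| < D.H r := by
    intro r hr
    by_contra hle
    push Not at hle
    exact absurd (le_csSup hSb ⟨hr0S.1.trans hr.le, hle⟩) (not_le.2 hr)
  have hge : |D.k r0| ≤ D.H r0 := by
    have h1 : Tendsto (fun r => |D.k r|) (𝓝[>] r0) (𝓝 (|D.k r0|)) :=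
      ((D.k_diff hr0S.1).continuousAt.abs).mono_left nhdsWithin_le_nhds
    have h2 : Tendsto D.H (𝓝[>] r0) (𝓝 (D.H r0)) :=
      ((D.H_diff hr0S.1).continuousAt).mono_left nhdsWithin_le_nhds
    refine le_of_tendsto_of_tendsto h1 h2 ?_
    filter_upwards [self_mem_nhdsWithin] with r hr using (hgt r hr).le
  have heq : D.H r0 = |D.k r0| := le_antisymm hr0S.2 hge
  have hR : ∀ r, r0 ≤ r → D.R ≤ r := fun r hr => hr0S.1.trans hr
  have hn4 : (4 : ℝ) ≤ n := by exact_mod_cast hn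
  have hN : 1 < (n : ℝ) - 1 := by linarith
  obtain ⟨hmono, hbd⟩ := mono_main2 (N := (n : ℝ) - 1) (r0 := r0) hN (c := D.c) (H := D.H)
    (Y := fun r => D.H r ^ 2 - D.k r ^ 2)
    (Y' := fun r => 2 * D.H r * deriv D.H r - 2 * D.k r * deriv D.k r) (ρ := D.rho) (R := D.Rh)
    (II2 := D.II2) (lam := D.lam) (L2 := D.L2) (I := D.IT)
    (fun r hr => D.c_pos (hR r hr.le))
    (fun r hr => (abs_nonneg _).trans_lt (hgt r hr))
    (by rw [heq, sq_abs, sub_self])
    (fun r hr => by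
      have h1 := hgt r hr
      have h2 : D.k r ^ 2 ≤ D.H r ^ 2 := by
        rw [← sq_abs (D.k r)]
        exact pow_le_pow_left₀ (abs_nonneg _) h1.le 2
      linarith)
    (((hHc.mono fun r hr => hR r hr).pow 2).sub ((hkc.mono fun r hr => hR r hr).pow 2))
    (fun r hr => (D.rho_hasDerivAt (hR r hr)).continuousAt.continuousWithinAt)
    (fun r hr => (D.lam_hasDerivAt (hR r hr)).continuousAt.continuousWithinAt)
    (fun r hr => D.rho_pos (hR r hr))
    (fun r hr => D.lam_pos hn (hR r hr))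
    (fun r hr => D.rho_hasDerivAt (hR r hr.le))
    (fun r hr => by
      have h1 := (D.H_diff (hR r hr.le)).hasDerivAt
      have h2 := (D.k_diff (hR r hr.le)).hasDerivAt
      refine ((h1.pow 2).sub (h2.pow 2)).congr_deriv ?_
      simp)
    (fun r hr => D.deriv_le hn (hR r hr.le) (hdec r (hr0S.1.trans_lt hr)) (hgt r hr))
    (fun r hr => D.lam_hasDerivAt (hR r hr.le))
    (fun r hr => D.hU_le hn (hR r hr.le) _)
    (fun r hr => D.hL_le hn (hR r hr.le))
    (fun r hr => D.hJ_le hn (hR r hr.le))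
  refine ⟨r0, hr0S.1, ?_⟩
  have e : (n : ℝ) - 1 - 1 = (n : ℝ) - 2 := by ring
  rw [e] at hbd
  refine ge_of_tendsto hm ?_
  filter_upwards [eventually_ge_atTop r0] with r hr
  exact hbd r hr

end Data
end Vale.Agent.P366.T2
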