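import Vale.Agent.P366.T2.Amin
import Vale.Agent.P366.T2.Key

open MeasureTheory Metric Filter Topology Set
open scoped BigOperators ENNReal ContDiff

noncomputable section
namespace Vale.Agent.P366.T2

variable {n : ℕ}

/-- From the area bound and the mass bound to the Penrose inequality (no momentum). -/
theorem conclude (hn : 3 ≤ n) {X : Stmt.Exterior n} {m ρ : ℝ} {P : Fin n → ℝ} (hP : P = 0)
    (hρ : 0 < ρ) (hA : X.Amin ≤ ENNReal.ofReal (Stmt.omega n * ρ ^ ((n : ℝ) - 1)))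
    (hm : ρ ^ ((n : ℝ) - 2) ≤ 2 * m) :
    X.Amin ≠ ⊤ ∧ √(∑ i, P i ^ 2) < m ∧
    (X.Amin.toReal / Stmt.omega n) ^ (((n : ℝ) - 2) / (n - 1)) / 2 ≤
      √(m ^ 2 - ∑ i, P i ^ 2) := by
  have : Nonempty (Fin n) := ⟨⟨0, by omega⟩⟩
  have : Nontrivial (E n) := inferInstance
  have hω : 0 < Stmt.omega n := by rw [omega_eq]; exact omega_pos'
  have hn1 : (0 : ℝ) < (n : ℝ) - 1 := by
    have : (3 : ℝ) ≤ n := by exact_mod_cast hn
    linarith only [this]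
  have hn2 : (0 : ℝ) ≤ (n : ℝ) - 2 := by
    have : (3 : ℝ) ≤ n := by exact_mod_cast hn
    linarith only [this]
  have hρ2 : 0 < ρ ^ ((n : ℝ) - 2) := Real.rpow_pos_of_pos hρ _
  have hm0 : 0 < m := by linarith
  have hsum : ∑ i, P i ^ 2 = 0 := by simp [hP]
  rw [hsum, Real.sqrt_zero, sub_zero, Real.sqrt_sq hm0.le]
  refine ⟨ne_top_of_le_ne_top ENNReal.ofReal_ne_top hA, hm0, ?_⟩
  have hρ1 : 0 < ρ ^ ((n : ℝ) - 1) := Real.rpow_pos_of_pos hρ _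
  have h1 : X.Amin.toReal ≤ Stmt.omega n * ρ ^ ((n : ℝ) - 1) := by
    have := ENNReal.toReal_mono ENNReal.ofReal_ne_top hA
    rwa [ENNReal.toReal_ofReal (by positivity)] at this
  have h2 : X.Amin.toReal / Stmt.omega n ≤ ρ ^ ((n : ℝ) - 1) := by
    rw [div_le_iff₀ hω]; linarith only [h1]
  have h3 : (X.Amin.toReal / Stmt.omega n) ^ (((n : ℝ) - 2) / ((n : ℝ) - 1)) ≤
      ρ ^ ((n : ℝ) - 2) := by
    calc (X.Amin.toReal / Stmt.omega n) ^ (((n : ℝ) - 2) / ((n : ℝ) - 1))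
        ≤ (ρ ^ ((n : ℝ) - 1)) ^ (((n : ℝ) - 2) / ((n : ℝ) - 1)) :=
          Real.rpow_le_rpow (by positivity) h2 (by positivity)
      _ = ρ ^ ((n : ℝ) - 2) := by
          rw [← Real.rpow_mul hρ.le]
          congr 1
          field_simp
  linarith

theorem assemble (hn : 4 ≤ n) (D : Data n) {X : Stmt.Exterior n} (h : Fits D X.g X.K)
    (hR : IsGreatest {r | ∃ x, X.F x = 0 ∧ Stmt.len x = r} D.R)
    (hdec : ∀ r, D.R < r → |D.JN r| ≤ D.mu r) (h0 : D.H D.R + D.k D.R ≤ 0)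
    (hinf : ∀ᶠ r in atTop, |D.k r| < D.H r) {m : ℝ}
    (hm : Tendsto D.mass atTop (𝓝 (2 * m))) {P : Fin n → ℝ} (hP : P = 0) :
    X.Amin ≠ ⊤ ∧ √(∑ i, P i ^ 2) < m ∧
    (X.Amin.toReal / Stmt.omega n) ^ (((n : ℝ) - 2) / (n - 1)) / 2 ≤
      √(m ^ 2 - ∑ i, P i ^ 2) := by
  obtain ⟨r, hr, hle⟩ := D.key hn hdec h0 hinf hm
  have hρ : 0 < D.rho r := D.rho_pos hr
  refine conclude (by omega) hP hρ ?_ hle
  have hA := Amin_le D hn h hR hr
  have hn1 : (n : ℝ) - 1 ≠ 0 := by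
    have : (4 : ℝ) ≤ n := by exact_mod_cast hn
    linarith
  have : D.rho r ^ ((n : ℝ) - 1) = D.ar r := by
    unfold Data.rho
    rw [← Real.rpow_mul (D.ar_pos hr).le]
    rw [one_div, inv_mul_cancel₀ hn1, Real.rpow_one]
  rw [this]
  exact hA

end Vale.Agent.P366.T2
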