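import Vale.Agent.P366.T2.Up
import Vale.Agent.P366.T2.Calc

open MeasureTheory Metric Filter Topology Set
open scoped ContDiff ENNReal

noncomputable section
namespace Vale.Agent.P366.T2
open Vale.Agent.P366.Stmt

variable {n : ℕ}

namespace B68

variable (Q : Quat n)

/-- invariant tensors, not necessarily symmetric -/
def nt (f u : ℝ) (wl wr : Fin 3 → ℝ) (s : Fin 3 → Fin 3 → ℝ) (x : E n) (i j : Fin n) : ℝ :=
  f * Q.Pi x i j + (u * (x i * x j) + ∑ a, wl a * (x i * Q.Y a x j) +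
    ∑ a, wr a * (Q.Y a x i * x j) + ∑ a, ∑ b, s a b * (Q.Y a x i * Q.Y b x j)) / len x ^ 2

lemma ten_nt (f u : ℝ → ℝ) (w : Fin 3 → ℝ → ℝ) (s : Fin 3 → Fin 3 → ℝ → ℝ) (x : E n)
    (i j : Fin n) : Q.ten f u w s x i j =
      nt Q (f (len x)) (u (len x)) (fun a => w a (len x)) (fun a => w a (len x))
        (fun a b => s a b (len x)) x i j := by
  rw [Q.ten_eq, nt]
  simp only [Fin.sum_univ_three]
  ring

lemma x_Pi {x : E n} (hx : x ≠ 0) (j : Fin n) : ∑ i, x i * Q.Pi x i j = 0 := by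
  rw [← Q.Pi_x hx j]
  exact Finset.sum_congr rfl fun i _ => by rw [Q.Pi_symm x i j]; ring

lemma Y_Pi {x : E n} (hx : x ≠ 0) (c : Fin 3) (j : Fin n) :
    ∑ i, Q.Y c x i * Q.Pi x i j = 0 := by
  rw [← Q.Pi_Y hx c j]
  exact Finset.sum_congr rfl fun i _ => by rw [Q.Pi_symm x i j]; ring

variable (f u : ℝ) (wl wr : Fin 3 → ℝ) (s : Fin 3 → Fin 3 → ℝ)

/-- contraction of `nt` with an arbitrary vector on the right -/
lemma nt_vec (x : E n) (i : Fin n) (z : Fin n → ℝ) :
    ∑ j, nt Q f u wl wr s x i j * z j = f * (∑ j, Q.Pi x i j * z j) +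
      (x i * (u * (∑ j, x j * z j) + ∑ a, wl a * ∑ j, Q.Y a x j * z j) +
        ∑ a, Q.Y a x i * (wr a * (∑ j, x j * z j) + ∑ b, s a b * ∑ j, Q.Y b x j * z j)) /
          len x ^ 2 := by
  have h : ∀ j, nt Q f u wl wr s x i j * z j = f * (Q.Pi x i j * z j) +
      (u * x i + ∑ a, wr a * Q.Y a x i) / len x ^ 2 * (x j * z j) +
      ∑ b, ((wl b * x i + ∑ a, s a b * Q.Y a x i) / len x ^ 2) * (Q.Y b x j * z j) := by
    intro j
    unfold nt
    simp only [Fin.sum_univ_three]
    ring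
  simp only [h, Finset.sum_add_distrib]
  rw [← Finset.mul_sum, ← Finset.mul_sum, Finset.sum_comm]
  simp only [← Finset.mul_sum]
  simp only [Fin.sum_univ_three]
  ring

lemma nt_x {x : E n} (hx : x ≠ 0) (i : Fin n) :
    ∑ j, nt Q f u wl wr s x i j * x j = u * x i + ∑ a, wr a * Q.Y a x i := by
  have hr : len x ≠ 0 := len_ne hx
  rw [nt_vec Q f u wl wr s x i (fun j => x j), Q.Pi_x hx, Quat.sum_sq]
  simp only [Q.Y_x]
  simp only [Fin.sum_univ_three]
  field_simp
  ring

lemma nt_Y {x : E n} (hx : x ≠ 0) (c : Fin 3) (i : Fin n) :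
    ∑ j, nt Q f u wl wr s x i j * Q.Y c x j = wl c * x i + ∑ a, s a c * Q.Y a x i := by
  have hr : len x ≠ 0 := len_ne hx
  rw [nt_vec Q f u wl wr s x i (fun j => Q.Y c x j), Q.Pi_Y hx, Q.x_Y]
  simp only [Q.Y_Y]
  simp only [mul_ite, mul_zero, Finset.sum_ite_eq', Finset.mem_univ, if_true, zero_add]
  simp only [Fin.sum_univ_three]
  field_simp

/-- trace of the product of two invariant tensors -/
lemma nt_nt {x : E n} (hx : x ≠ 0) (f' u' : ℝ) (wl' wr' : Fin 3 → ℝ) (s' : Fin 3 → Fin 3 → ℝ) :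
    ∑ i, ∑ j, nt Q f u wl wr s x i j * nt Q f' u' wl' wr' s' x j i =
      f * f' * ((n : ℝ) - 4) + u * u' + ∑ a, wl a * wr' a + ∑ a, wr a * wl' a +
        ∑ a, ∑ b, s a b * s' b a := by
  have hr : len x ≠ 0 := len_ne hx
  have hPi : ∀ i, ∑ j, Q.Pi x i j * nt Q f' u' wl' wr' s' x j i = f' * Q.Pi x i i := by
    intro i
    have h : ∀ j, Q.Pi x i j * nt Q f' u' wl' wr' s' x j i = f' * (Q.Pi x i j * Q.Pi x j i) +
        (u' * x i + ∑ a, wl' a * Q.Y a x i) / len x ^ 2 * (Q.Pi x i j * x j) +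
        ∑ b, ((wr' b * x i + ∑ a, s' b a * Q.Y a x i) / len x ^ 2) * (Q.Pi x i j * Q.Y b x j) := by
      intro j
      unfold nt
      simp only [Fin.sum_univ_three]
      ring
    simp only [h, Finset.sum_add_distrib]
    rw [← Finset.mul_sum, ← Finset.mul_sum, Finset.sum_comm]
    simp only [← Finset.mul_sum, Q.Pi_x hx, Q.Pi_Y hx, Q.Pi_Pi hx, mul_zero,
      Finset.sum_const_zero, add_zero]
  have hxx : ∑ i, x i * ∑ j, x j * nt Q f' u' wl' wr' s' x j i = u' * len x ^ 2 := by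
    have h1 : ∑ i, x i * ∑ j, x j * nt Q f' u' wl' wr' s' x j i =
        ∑ j, x j * ∑ i, nt Q f' u' wl' wr' s' x j i * x i := by
      simp only [Finset.mul_sum]
      rw [Finset.sum_comm]
      exact Finset.sum_congr rfl fun j _ => Finset.sum_congr rfl fun i _ => by ring
    rw [h1]
    simp only [nt_x Q f' u' wl' wr' s' hx, mul_add, Finset.sum_add_distrib]
    have h2 : ∑ j, x j * ∑ a, wr' a * Q.Y a x j = 0 := by
      simp only [Finset.mul_sum]
      rw [Finset.sum_comm]
      refine Finset.sum_eq_zero fun a _ => ?_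
      have : ∀ j, x j * (wr' a * Q.Y a x j) = wr' a * (x j * Q.Y a x j) := fun j => by ring
      simp only [this, ← Finset.mul_sum, Q.x_Y, mul_zero]
    rw [h2, add_zero]
    have h3 : ∀ j, x j * (u' * x j) = u' * (x j * x j) := fun j => by ring
    simp only [h3, ← Finset.mul_sum, Quat.sum_sq]
  have hxY : ∀ a, ∑ i, x i * ∑ j, Q.Y a x j * nt Q f' u' wl' wr' s' x j i =
      wr' a * len x ^ 2 := by
    intro a
    have h1 : ∑ i, x i * ∑ j, Q.Y a x j * nt Q f' u' wl' wr' s' x j i =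
        ∑ j, Q.Y a x j * ∑ i, nt Q f' u' wl' wr' s' x j i * x i := by
      simp only [Finset.mul_sum]
      rw [Finset.sum_comm]
      exact Finset.sum_congr rfl fun j _ => Finset.sum_congr rfl fun i _ => by ring
    rw [h1]
    simp only [nt_x Q f' u' wl' wr' s' hx, mul_add, Finset.sum_add_distrib]
    have h2 : ∑ j, Q.Y a x j * (u' * x j) = 0 := by
      have : ∀ j, Q.Y a x j * (u' * x j) = u' * (Q.Y a x j * x j) := fun j => by ring
      simp only [this, ← Finset.mul_sum, Q.Y_x, mul_zero]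
    rw [h2, zero_add]
    simp only [Finset.mul_sum]
    rw [Finset.sum_comm]
    have h3 : ∀ b, ∑ j, Q.Y a x j * (wr' b * Q.Y b x j) =
        if a = b then wr' b * len x ^ 2 else 0 := by
      intro b
      have : ∀ j, Q.Y a x j * (wr' b * Q.Y b x j) = wr' b * (Q.Y a x j * Q.Y b x j) :=
        fun j => by ring
      simp only [this, ← Finset.mul_sum, Q.Y_Y]
      split_ifs <;> simp
    simp only [h3, Finset.sum_ite_eq, Finset.mem_univ, if_true]
  have hYx : ∀ a, ∑ i, Q.Y a x i * ∑ j, x j * nt Q f' u' wl' wr' s' x j i =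
      wl' a * len x ^ 2 := by
    intro a
    have h1 : ∑ i, Q.Y a x i * ∑ j, x j * nt Q f' u' wl' wr' s' x j i =
        ∑ j, x j * ∑ i, nt Q f' u' wl' wr' s' x j i * Q.Y a x i := by
      simp only [Finset.mul_sum]
      rw [Finset.sum_comm]
      exact Finset.sum_congr rfl fun j _ => Finset.sum_congr rfl fun i _ => by ring
    rw [h1]
    simp only [nt_Y Q f' u' wl' wr' s' hx, mul_add, Finset.sum_add_distrib]
    have h2 : ∑ j, x j * ∑ b, s' b a * Q.Y b x j = 0 := by
      simp only [Finset.mul_sum]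
      rw [Finset.sum_comm]
      refine Finset.sum_eq_zero fun b _ => ?_
      have : ∀ j, x j * (s' b a * Q.Y b x j) = s' b a * (x j * Q.Y b x j) := fun j => by ring
      simp only [this, ← Finset.mul_sum, Q.x_Y, mul_zero]
    rw [h2, add_zero]
    have h3 : ∀ j, x j * (wl' a * x j) = wl' a * (x j * x j) := fun j => by ring
    simp only [h3, ← Finset.mul_sum, Quat.sum_sq]
  have hYY : ∀ a b, ∑ i, Q.Y a x i * ∑ j, Q.Y b x j * nt Q f' u' wl' wr' s' x j i =
      s' b a * len x ^ 2 := by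
    intro a b
    have h1 : ∑ i, Q.Y a x i * ∑ j, Q.Y b x j * nt Q f' u' wl' wr' s' x j i =
        ∑ j, Q.Y b x j * ∑ i, nt Q f' u' wl' wr' s' x j i * Q.Y a x i := by
      simp only [Finset.mul_sum]
      rw [Finset.sum_comm]
      exact Finset.sum_congr rfl fun j _ => Finset.sum_congr rfl fun i _ => by ring
    rw [h1]
    simp only [nt_Y Q f' u' wl' wr' s' hx, mul_add, Finset.sum_add_distrib]
    have h2 : ∑ j, Q.Y b x j * (wl' a * x j) = 0 := by
      have : ∀ j, Q.Y b x j * (wl' a * x j) = wl' a * (Q.Y b x j * x j) := fun j => by ring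
      simp only [this, ← Finset.mul_sum, Q.Y_x, mul_zero]
    rw [h2, zero_add]
    simp only [Finset.mul_sum]
    rw [Finset.sum_comm]
    have h3 : ∀ c, ∑ j, Q.Y b x j * (s' c a * Q.Y c x j) =
        if b = c then s' c a * len x ^ 2 else 0 := by
      intro c
      have : ∀ j, Q.Y b x j * (s' c a * Q.Y c x j) = s' c a * (Q.Y b x j * Q.Y c x j) :=
        fun j => by ring
      simp only [this, ← Finset.mul_sum, Q.Y_Y]
      split_ifs <;> simp
    simp only [h3, Finset.sum_ite_eq, Finset.mem_univ, if_true]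
  have hv : ∀ i, ∑ j, nt Q f u wl wr s x i j * nt Q f' u' wl' wr' s' x j i =
      f * (f' * Q.Pi x i i) +
      (u / len x ^ 2) * (x i * ∑ j, x j * nt Q f' u' wl' wr' s' x j i) +
      ∑ a, (wl a / len x ^ 2) * (x i * ∑ j, Q.Y a x j * nt Q f' u' wl' wr' s' x j i) +
      ∑ a, (wr a / len x ^ 2) * (Q.Y a x i * ∑ j, x j * nt Q f' u' wl' wr' s' x j i) +
      ∑ a, ∑ b, (s a b / len x ^ 2) *
        (Q.Y a x i * ∑ j, Q.Y b x j * nt Q f' u' wl' wr' s' x j i) := by
    intro i
    rw [nt_vec Q f u wl wr s x i (fun j => nt Q f' u' wl' wr' s' x j i), hPi i]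
    simp only [Fin.sum_univ_three]
    ring
  simp only [hv, Finset.sum_add_distrib]
  rw [← Finset.mul_sum, ← Finset.mul_sum, Q.trace_Pi hx, ← Finset.mul_sum, hxx]
  have e1 : ∑ i, ∑ a, (wl a / len x ^ 2) *
      (x i * ∑ j, Q.Y a x j * nt Q f' u' wl' wr' s' x j i) = ∑ a, wl a * wr' a := by
    rw [Finset.sum_comm]
    refine Finset.sum_congr rfl fun a _ => ?_
    rw [← Finset.mul_sum, hxY]
    field_simp
  have e2 : ∑ i, ∑ a, (wr a / len x ^ 2) *
      (Q.Y a x i * ∑ j, x j * nt Q f' u' wl' wr' s' x j i) = ∑ a, wr a * wl' a := by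
    rw [Finset.sum_comm]
    refine Finset.sum_congr rfl fun a _ => ?_
    rw [← Finset.mul_sum, hYx]
    field_simp
  have e3 : ∑ i, ∑ a, ∑ b, (s a b / len x ^ 2) *
      (Q.Y a x i * ∑ j, Q.Y b x j * nt Q f' u' wl' wr' s' x j i) =
      ∑ a, ∑ b, s a b * s' b a := by
    rw [Finset.sum_comm]
    refine Finset.sum_congr rfl fun a _ => ?_
    rw [Finset.sum_comm]
    refine Finset.sum_congr rfl fun b _ => ?_
    rw [← Finset.mul_sum, hYY]
    field_simp
  rw [e1, e2, e3]
  field_simp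

lemma nt_transpose (x : E n) (i j : Fin n) :
    nt Q f u wl wr s x i j = nt Q f u wr wl (fun a b => s b a) x j i := by
  unfold nt
  rw [Q.Pi_symm x i j]
  simp only [Fin.sum_univ_three]
  ring

lemma x_nt {x : E n} (hx : x ≠ 0) (k : Fin n) :
    ∑ j, x j * nt Q f u wl wr s x j k = u * x k + ∑ a, wl a * Q.Y a x k := by
  rw [← nt_x Q f u wr wl (fun a b => s b a) hx k]
  exact Finset.sum_congr rfl fun j _ => by rw [nt_transpose Q f u wl wr s x j k]; ring

lemma Y_nt {x : E n} (hx : x ≠ 0) (c : Fin 3) (k : Fin n) :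
    ∑ j, Q.Y c x j * nt Q f u wl wr s x j k = wr c * x k + ∑ a, s c a * Q.Y a x k := by
  rw [← nt_Y Q f u wr wl (fun a b => s b a) hx c k]
  exact Finset.sum_congr rfl fun j _ => by rw [nt_transpose Q f u wl wr s x j k]; ring

lemma Pi_nt {x : E n} (hx : x ≠ 0) (i k : Fin n) :
    ∑ j, Q.Pi x i j * nt Q f u wl wr s x j k = f * Q.Pi x i k := by
  have h : ∀ j, Q.Pi x i j * nt Q f u wl wr s x j k = f * (Q.Pi x i j * Q.Pi x j k) +
      (u * x k + ∑ a, wl a * Q.Y a x k) / len x ^ 2 * (Q.Pi x i j * x j) +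
      ∑ b, ((wr b * x k + ∑ a, s b a * Q.Y a x k) / len x ^ 2) * (Q.Pi x i j * Q.Y b x j) := by
    intro j
    unfold nt
    simp only [Fin.sum_univ_three]
    ring
  simp only [h, Finset.sum_add_distrib]
  rw [← Finset.mul_sum, ← Finset.mul_sum, Finset.sum_comm]
  simp only [← Finset.mul_sum, Q.Pi_x hx, Q.Pi_Y hx, Q.Pi_Pi hx, mul_zero,
    Finset.sum_const_zero, add_zero]

/-- product of invariant tensors -/
lemma nt_mul {x : E n} (hx : x ≠ 0) (f' u' : ℝ) (wl' wr' : Fin 3 → ℝ) (s' : Fin 3 → Fin 3 → ℝ)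
    (i k : Fin n) :
    ∑ j, nt Q f u wl wr s x i j * nt Q f' u' wl' wr' s' x j k =
      nt Q (f * f') (u * u' + ∑ a, wl a * wr' a) (fun b => u * wl' b + ∑ a, wl a * s' a b)
        (fun a => wr a * u' + ∑ b, s a b * wr' b) (fun a b => wr a * wl' b + ∑ c, s a c * s' c b)
        x i k := by
  rw [nt_vec Q f u wl wr s x i (fun j => nt Q f' u' wl' wr' s' x j k), Pi_nt Q f' u' wl' wr' s' hx]
  simp only [x_nt Q f' u' wl' wr' s' hx, Y_nt Q f' u' wl' wr' s' hx]
  rw [nt]
  simp only [Fin.sum_univ_three]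
  ring

variable {D : Data n} {g K : Field n}

/-- the trace of `K` over the sphere and in the radial direction -/
lemma up_nt (h : Fits D g K) {x : E n} (hx : D.R ≤ len x) (i j : Fin n) :
    up g i j x = nt D.Q (1 / D.al (len x)) (1 / D.p (len x)) (fun _ => 0) (fun _ => 0)
      (fun a b => D.iq (len x) a b) x i j := by
  rw [up_eq h hx, Data.U, ten_nt]

lemma K_nt (h : Fits D g K) {x : E n} (hx : D.R ≤ len x) (i j : Fin n) :
    K x i j = nt D.Q (D.ka (len x)) (D.kn (len x)) (fun a => D.v a (len x))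
      (fun a => D.v a (len x)) (fun a b => D.s a b (len x)) x i j := by
  rw [h.hK x hx, ten_nt]

lemma g_nt (h : Fits D g K) {x : E n} (hx : D.R ≤ len x) (i j : Fin n) :
    g x i j = nt D.Q (D.al (len x)) (D.p (len x)) (fun _ => 0) (fun _ => 0)
      (fun a b => D.q a b (len x)) x i j := by
  rw [h.hg x hx, ten_nt]

lemma S_trace (r : ℝ) : (D.S r).trace = ∑ a, ∑ b, D.iq r a b * D.s b a r := by
  unfold Data.S Data.iq Data.qm
  rw [Matrix.trace]
  refine Finset.sum_congr rfl fun a _ => ?_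
  rw [Matrix.diag_apply, Matrix.mul_apply]
  rfl

lemma S_apply (r : ℝ) (a b : Fin 3) : D.S r a b = ∑ c, D.iq r a c * D.s c b r := by
  unfold Data.S Data.iq Data.qm
  rw [Matrix.mul_apply]
  rfl

theorem tr_eq' (h : Fits D g K) {x : E n} (hx : D.R ≤ len x) :
    tr g K x = D.k (len x) + D.KN (len x) := by
  have hx0 : x ≠ 0 := len_pos_of hx
  unfold tr
  have h1 : ∀ i j, up g i j x * K x i j =
      nt D.Q (1 / D.al (len x)) (1 / D.p (len x)) (fun _ => 0) (fun _ => 0)
        (fun a b => D.iq (len x) a b) x i j *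
      nt D.Q (D.ka (len x)) (D.kn (len x)) (fun a => D.v a (len x))
        (fun a => D.v a (len x)) (fun a b => D.s b a (len x)) x j i := by
    intro i j
    rw [up_nt h hx, K_nt h hx, nt_transpose D.Q (D.ka (len x))]
  simp only [h1, nt_nt D.Q _ _ _ _ _ hx0]
  rw [Data.k, S_trace, Data.KN, Data.b]
  simp only [zero_mul, Finset.sum_const_zero, add_zero]
  have h2 : ∀ a b, D.s a b (len x) = D.s b a (len x) := fun a b => by rw [D.s_symm a b]
  simp only [h2]
  simp only [Fin.sum_univ_three]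
  rw [h2 1 0, h2 2 0, h2 2 1]
  ring

/-- the tensor `U K` -/
lemma UK_nt (h : Fits D g K) {x : E n} (hx : D.R ≤ len x) (i j : Fin n) :
    ∑ k, up g i k x * K x k j =
      nt D.Q (D.ka (len x) / D.al (len x)) (D.kn (len x) / D.p (len x))
        (fun b => D.v b (len x) / D.p (len x)) (fun a => ∑ b, D.iq (len x) a b * D.v b (len x))
        (fun a b => D.S (len x) a b) x i j := by
  have hx0 : x ≠ 0 := len_pos_of hx
  have h1 : ∀ k, up g i k x * K x k j =
      nt D.Q (1 / D.al (len x)) (1 / D.p (len x)) (fun _ => 0) (fun _ => 0)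
        (fun a b => D.iq (len x) a b) x i k *
      nt D.Q (D.ka (len x)) (D.kn (len x)) (fun a => D.v a (len x))
        (fun a => D.v a (len x)) (fun a b => D.s a b (len x)) x k j := by
    intro k
    rw [up_nt h hx, K_nt h hx]
  simp only [h1, nt_mul D.Q _ _ _ _ _ hx0]
  simp only [zero_mul, Finset.sum_const_zero, add_zero, zero_add, S_apply]
  congr 1
  · ring
  · ring
  · funext b; ring

lemma up_symm (h : Fits D g K) {x : E n} (hx : D.R ≤ len x) (i j : Fin n) :
    up g i j x = up g j i x := by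
  rw [up_eq h hx, up_eq h hx, U_symm]

lemma K_symm (h : Fits D g K) {x : E n} (hx : D.R ≤ len x) (i j : Fin n) :
    K x i j = K x j i := by
  rw [K_nt h hx, K_nt h hx j i, nt_transpose]
  congr 1
  funext a b
  rw [D.s_symm a b]

theorem normSq_eq' (h : Fits D g K) {x : E n} (hx : D.R ≤ len x) :
    normSq g K x = D.KS2 (len x) + 2 * D.be2 (len x) + D.KN (len x) ^ 2 := by
  have hx0 : x ≠ 0 := len_pos_of hx
  have h1 : normSq g K x = ∑ i, ∑ l, (∑ k, up g i k x * K x k l) * (∑ j, up g l j x * K x j i) := by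
    unfold normSq
    refine Finset.sum_congr rfl fun i _ => ?_
    have e1 : ∀ l, (∑ k, up g i k x * K x k l) * (∑ j, up g l j x * K x j i) =
        ∑ k, ∑ j, up g i k x * up g j l x * K x i j * K x k l := by
      intro l
      rw [Finset.sum_mul_sum]
      refine Finset.sum_congr rfl fun k _ => Finset.sum_congr rfl fun j _ => ?_
      rw [up_symm h hx l j, K_symm h hx j i]
      ring
    simp only [e1]
    calc ∑ j, ∑ k, ∑ l, up g i k x * up g j l x * K x i j * K x k l
        = ∑ k, ∑ j, ∑ l, up g i k x * up g j l x * K x i j * K x k l := Finset.sum_comm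
      _ = ∑ k, ∑ l, ∑ j, up g i k x * up g j l x * K x i j * K x k l :=
          Finset.sum_congr rfl fun k _ => Finset.sum_comm
      _ = ∑ l, ∑ k, ∑ j, up g i k x * up g j l x * K x i j * K x k l := Finset.sum_comm
  rw [h1]
  simp only [UK_nt h hx, nt_nt D.Q _ _ _ _ _ hx0]
  rw [Data.KS2, Data.be2, Data.KN, Data.b]
  have h2 : (D.S (len x) * D.S (len x)).trace =
      ∑ a, ∑ b, D.S (len x) a b * D.S (len x) b a := by
    rw [Matrix.trace]
    refine Finset.sum_congr rfl fun a _ => ?_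
    rw [Matrix.diag_apply, Matrix.mul_apply]
  have h3 : (∑ a, ∑ b, (Matrix.of fun a b => D.q a b (len x))⁻¹ a b * D.v a (len x) *
      D.v b (len x)) = ∑ a, ∑ b, D.iq (len x) a b * D.v a (len x) * D.v b (len x) := rfl
  rw [h2, h3]
  simp only [Fin.sum_univ_three]
  ring

end B68

end Vale.Agent.P366.T2
end
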