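import Vale.Agent.P366.T2.B68n

open MeasureTheory Metric Filter Topology Set
open scoped ContDiff ENNReal

noncomputable section
namespace Vale.Agent.P366.T2
open Vale.Agent.P366.Stmt

variable {n : ℕ}

namespace B68

variable {D : Data n} {g K : Field n}

lemma Pi_nonneg (Q : Quat n) {x : E n} (hx : x ≠ 0) (w : Fin n → ℝ) :
    0 ≤ ∑ i, ∑ j, Q.Pi x i j * (w i * w j) := by
  have h1 : ∑ i, ∑ j, Q.Pi x i j * (w i * w j) = ∑ k, (∑ i, Q.Pi x k i * w i) ^ 2 := by
    have e1 : ∀ k, (∑ i, Q.Pi x k i * w i) ^ 2 =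
        ∑ i, ∑ j, (Q.Pi x i k * Q.Pi x k j) * (w i * w j) := by
      intro k
      rw [sq, Finset.sum_mul_sum]
      refine Finset.sum_congr rfl fun i _ => Finset.sum_congr rfl fun j _ => ?_
      rw [Q.Pi_symm x k i]
      ring
    simp only [e1]
    symm
    rw [Finset.sum_comm]
    refine Finset.sum_congr rfl fun i _ => ?_
    rw [Finset.sum_comm]
    refine Finset.sum_congr rfl fun j _ => ?_
    rw [← Finset.sum_mul, Q.Pi_Pi hx]
  rw [h1]
  exact Finset.sum_nonneg fun k _ => sq_nonneg _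

lemma iq_nonneg {r : ℝ} (hr : D.R ≤ r) (v : Fin 3 → ℝ) :
    0 ≤ ∑ a, ∑ b, D.iq r a b * (v a * v b) := by
  have h1 : (D.iq r).PosDef := (D.qm_pd hr).inv
  have h2 := h1.posSemidef.dotProduct_mulVec_nonneg v
  simp only [star_trivial, dotProduct, Matrix.mulVec] at h2
  refine h2.trans_eq ?_
  refine Finset.sum_congr rfl fun a _ => ?_
  rw [Finset.mul_sum]
  exact Finset.sum_congr rfl fun b _ => by ring

lemma U_ww (h : Fits D g K) {x : E n} (hx : D.R ≤ len x) (w : Fin n → ℝ) :
    (∑ i, x i * w i) ^ 2 / (D.p (len x) * len x ^ 2) ≤ ∑ i, ∑ j, up g i j x * w i * w j := by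
  have hx0 := len_pos_of hx
  have hr : 0 < len x := D.hR.trans_le hx
  have hp := D.p_pos _ hx
  have hal := D.al_pos _ hx
  have h1 : ∑ i, ∑ j, up g i j x * w i * w j =
      1 / D.al (len x) * (∑ i, ∑ j, D.Q.Pi x i j * (w i * w j)) +
      (∑ i, x i * w i) ^ 2 / (D.p (len x) * len x ^ 2) +
      (∑ a, ∑ b, D.iq (len x) a b * ((∑ i, D.Q.Y a x i * w i) * (∑ i, D.Q.Y b x i * w i))) /
        len x ^ 2 := by
    have e1 : ∀ i j, up g i j x * w i * w j =
        1 / D.al (len x) * (D.Q.Pi x i j * (w i * w j)) +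
        1 / (D.p (len x) * len x ^ 2) * ((x i * w i) * (x j * w j)) +
        ∑ a, ∑ b, D.iq (len x) a b / len x ^ 2 * ((D.Q.Y a x i * w i) * (D.Q.Y b x j * w j)) := by
      intro i j
      rw [up_nt h hx, nt]
      simp only [Fin.sum_univ_three]
      field_simp
      ring
    simp only [e1, Finset.sum_add_distrib]
    congr 1
    · congr 1
      · simp only [Finset.mul_sum]
      · rw [sq (∑ i, x i * w i), Finset.sum_mul_sum, Finset.sum_div]
        refine Finset.sum_congr rfl fun i _ => ?_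
        rw [Finset.sum_div]
        exact Finset.sum_congr rfl fun j _ => by ring
    · have e2 : ∀ i, ∑ j, ∑ a, ∑ b, D.iq (len x) a b / len x ^ 2 *
          ((D.Q.Y a x i * w i) * (D.Q.Y b x j * w j)) = ∑ a, ∑ b, ∑ j,
          D.iq (len x) a b / len x ^ 2 * ((D.Q.Y a x i * w i) * (D.Q.Y b x j * w j)) := by
        intro i
        rw [Finset.sum_comm]
        exact Finset.sum_congr rfl fun a _ => Finset.sum_comm
      simp only [e2]
      rw [Finset.sum_comm, Finset.sum_div]
      refine Finset.sum_congr rfl fun a _ => ?_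
      rw [Finset.sum_comm, Finset.sum_div]
      refine Finset.sum_congr rfl fun b _ => ?_
      rw [Finset.sum_mul_sum, Finset.mul_sum, Finset.sum_div]
      refine Finset.sum_congr rfl fun i _ => ?_
      rw [Finset.mul_sum, Finset.sum_div]
      exact Finset.sum_congr rfl fun j _ => by ring
  rw [h1]
  have h2 := Pi_nonneg D.Q hx0 w
  have h3 := iq_nonneg (D := D) hx (fun a => ∑ i, D.Q.Y a x i * w i)
  have h4 : 0 ≤ 1 / D.al (len x) * (∑ i, ∑ j, D.Q.Pi x i j * (w i * w j)) := by positivity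
  have h5 : 0 ≤ (∑ a, ∑ b, D.iq (len x) a b *
      ((∑ i, D.Q.Y a x i * w i) * (∑ i, D.Q.Y b x i * w i))) / len x ^ 2 :=
    div_nonneg h3 (by positivity)
  linarith

theorem mu_eq' (h : Fits D g K) {x : E n} (hx : D.R ≤ len x)
    (hs : scal g x = D.Rg (len x)) : Stmt.mu g K x = D.mu (len x) := by
  unfold Stmt.mu Data.mu
  rw [hs, tr_eq' h hx, normSq_eq' h hx]
  ring

theorem dec_eq' (h : Fits D g K) {x : E n} (hx : D.R < len x)
    (hD : covNorm g (mom g K) x ≤ Stmt.mu g K x) (hs : scal g x = D.Rg (len x)) :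
    |D.JN (len x)| ≤ D.mu (len x) := by
  have hr : 0 < len x := len_pos' hx
  have hp := D.p_pos _ hx.le
  have hc := c_pos' hx.le
  rw [← mu_eq' h hx.le hs]
  refine le_trans ?_ hD
  unfold covNorm
  refine Real.abs_le_sqrt ?_
  refine le_trans (le_of_eq ?_) (U_ww h hx.le (fun j => mom g K j x))
  have h1 := mom_eq' h hx
  have h2 : ∑ j, x j * mom g K j x = len x * (D.c (len x) * D.JN (len x)) := by
    rw [← h1, Finset.mul_sum]
    refine Finset.sum_congr rfl fun j _ => ?_
    field_simp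
  rw [h2]
  have h3 : D.c (len x) ^ 2 = D.p (len x) := Real.sq_sqrt hp.le
  rw [← h3]
  field_simp

end B68

section Final

variable {D : Data n} {g K : Field n}

/-- **Block [B]** -/
theorem tr_eq (h : Fits D g K) {x : E n} (hx : D.R ≤ len x) :
    Stmt.tr g K x = D.k (len x) + D.KN (len x) := B68.tr_eq' h hx

theorem normSq_eq (h : Fits D g K) {x : E n} (hx : D.R ≤ len x) :
    Stmt.normSq g K x = D.KS2 (len x) + 2 * D.be2 (len x) + D.KN (len x) ^ 2 :=
  B68.normSq_eq' h hx

theorem mom_eq (h : Fits D g K) {x : E n} (hx : D.R < len x) :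
    ∑ j, x j / len x * Stmt.mom g K j x = D.c (len x) * D.JN (len x) := B68.mom_eq' h hx

theorem dec_eq (h : Fits D g K) {x : E n} (hx : D.R < len x)
    (hD : Stmt.covNorm g (Stmt.mom g K) x ≤ Stmt.mu g K x)
    (hs : Stmt.scal g x = D.Rg (len x)) : |D.JN (len x)| ≤ D.mu (len x) :=
  B68.dec_eq' h hx hD hs

end Final

end Vale.Agent.P366.T2
end
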