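import Vale.Agent.P366.T2.B68

open MeasureTheory Metric Filter Topology Set
open scoped ContDiff ENNReal

noncomputable section
namespace Vale.Agent.P366.T2
open Vale.Agent.P366.Stmt

variable {n : ℕ}

namespace B68

variable {D : Data n} {g K : Field n}

/-- coefficient of `x x` -/
def be (D : Data n) (r : ℝ) : ℝ := (D.p r - D.al r) / r ^ 2

/-- coefficient of `Y_a Y_b` -/
def ga (D : Data n) (a b : Fin 3) (r : ℝ) : ℝ := (D.q a b r - if a = b then D.al r else 0) / r ^ 2

lemma g_form (h : Fits D g K) {y : E n} (hy : D.R ≤ len y) (i k : Fin n) :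
    g y i k = D.al (len y) * (if i = k then 1 else 0) + be D (len y) * (y i * y k) +
      ∑ a, ∑ b, ga D a b (len y) * (D.Q.Y a y i * D.Q.Y b y k) := by
  rw [h.hg y hy i k]
  unfold Quat.ten be ga
  simp only [Fin.sum_univ_three, zero_mul, add_zero, if_true,
    show ¬ ((0 : Fin 3) = 2) by decide, show ¬ ((2 : Fin 3) = 0) by decide,
    show ¬ ((1 : Fin 3) = 2) by decide, show ¬ ((2 : Fin 3) = 1) by decide,
    show ¬ ((1 : Fin 3) = 0) by decide, show ¬ ((0 : Fin 3) = 1) by decide, if_false]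
  ring

lemma near {x : E n} (hx : D.R < len x) : ∀ᶠ y in 𝓝 x, D.R ≤ len y := by
  have h : Continuous (fun y : E n => len y) := continuous_norm
  filter_upwards [(isOpen_lt continuous_const h).mem_nhds hx] with y hy
  exact le_of_lt hy

lemma len_pos' {x : E n} (hx : D.R < len x) : 0 < len x := D.hR.trans hx

lemma hd {f : ℝ → ℝ} (hf : ContDiff ℝ ∞ f) (r : ℝ) : HasDerivAt f (deriv f r) r :=
  ((hf.differentiable (by norm_num)) r).hasDerivAt

/-- the derivative of the metric -/
lemma pd_g (h : Fits D g K) {x : E n} (hx : D.R < len x) (m i k : Fin n) :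
    pd m (fun y => g y i k) x =
      deriv D.al (len x) / len x * x m * (if i = k then 1 else 0) +
      (deriv (be D) (len x) / len x * x m * (x i * x k) + be D (len x) *
        ((if i = m then 1 else 0) * x k + x i * (if k = m then 1 else 0))) +
      ∑ a, ∑ b, (deriv (ga D a b) (len x) / len x * x m * (D.Q.Y a x i * D.Q.Y b x k) +
        ga D a b (len x) * (D.Q.J a i m * D.Q.Y b x k + D.Q.Y a x i * D.Q.J b k m)) := by
  have hr : 0 < len x := len_pos' hx
  have hx0 : x ≠ 0 := len_pos_of hx.le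
  have hbe : HasDerivAt (be D) (deriv (be D) (len x)) (len x) := by
    have : DifferentiableAt ℝ (be D) (len x) := by
      unfold be
      exact (((hd D.p_smooth _).sub (hd D.al_smooth _)).differentiableAt).div
        (by fun_prop) (by positivity)
    exact this.hasDerivAt
  have hga : ∀ a b, HasDerivAt (ga D a b) (deriv (ga D a b) (len x)) (len x) := by
    intro a b
    have : DifferentiableAt ℝ (ga D a b) (len x) := by
      unfold ga
      refine DifferentiableAt.div ?_ (by fun_prop) (by positivity)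
      refine (hd (D.q_smooth a b) _).differentiableAt.sub ?_
      split_ifs
      · exact (hd D.al_smooth _).differentiableAt
      · exact differentiableAt_const _
    exact this.hasDerivAt
  have h1 : HP m (fun y => D.al (len y) * (if i = k then (1 : ℝ) else 0) +
      be D (len y) * (y i * y k) +
      ∑ a, ∑ b, ga D a b (len y) * (D.Q.Y a y i * D.Q.Y b y k)) _ x :=
    (((HP.radial hx0 (hd D.al_smooth (len x)) m).mul (HP.const m _ x)).add
      ((HP.radial hx0 hbe m).mul ((HP.coord m i x).mul (HP.coord m k x)))).add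
      (HP.sum _ fun a _ => HP.sum _ fun b _ =>
        (HP.radial hx0 (hga a b) m).mul ((HP.Y D.Q a m i x).mul (HP.Y D.Q b m k x)))
  have h2 : (fun y => g y i k) =ᶠ[𝓝 x] (fun y => D.al (len y) * (if i = k then (1 : ℝ) else 0) +
      be D (len y) * (y i * y k) +
      ∑ a, ∑ b, ga D a b (len y) * (D.Q.Y a y i * D.Q.Y b y k)) := by
    filter_upwards [near hx] with y hy
    exact g_form h hy i k
  rw [(h1.congr h2).pd]
  ring_nf

lemma be_deriv {r : ℝ} (hr : 0 < r) :
    deriv (be D) r = (deriv D.p r - deriv D.al r) / r ^ 2 - 2 * be D r / r := by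
  have h1 : HasDerivAt (be D) (((deriv D.p r - deriv D.al r) * r ^ 2 -
      (D.p r - D.al r) * (((2 : ℕ) : ℝ) * r ^ (2 - 1))) / (r ^ 2) ^ 2) r :=
    ((hd D.p_smooth r).sub (hd D.al_smooth r)).div (hasDerivAt_pow 2 r) (by positivity)
  rw [h1.deriv]
  unfold be
  field_simp
  push_cast
  ring

lemma ga_deriv (a b : Fin 3) {r : ℝ} (hr : 0 < r) :
    deriv (ga D a b) r = (deriv (D.q a b) r - if a = b then deriv D.al r else 0) / r ^ 2 -
      2 * ga D a b r / r := by
  have h0 : HasDerivAt (fun r => D.q a b r - if a = b then D.al r else 0)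
      (deriv (D.q a b) r - if a = b then deriv D.al r else 0) r := by
    refine (hd (D.q_smooth a b) r).sub ?_
    split_ifs
    · exact hd D.al_smooth r
    · exact hasDerivAt_const _ _
  have h1 : HasDerivAt (ga D a b) (((deriv (D.q a b) r - if a = b then deriv D.al r else 0) *
      r ^ 2 - (D.q a b r - if a = b then D.al r else 0) * (((2 : ℕ) : ℝ) * r ^ (2 - 1))) /
        (r ^ 2) ^ 2) r := h0.div (hasDerivAt_pow 2 r) (by positivity)
  rw [h1.deriv]
  unfold ga
  field_simp
  push_cast
  ring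

/-- the derivative of the metric along `x` -/
lemma x_pd_g (h : Fits D g K) {x : E n} (hx : D.R < len x) (i k : Fin n) :
    ∑ m, x m * pd m (fun y => g y i k) x =
      nt D.Q (len x * deriv D.al (len x)) (len x * deriv D.p (len x)) (fun _ => 0) (fun _ => 0)
        (fun a b => len x * deriv (D.q a b) (len x)) x i k := by
  have hr : 0 < len x := len_pos' hx
  have hr0 : len x ≠ 0 := hr.ne'
  have h1 : ∀ m, x m * pd m (fun y => g y i k) x =
      (deriv D.al (len x) / len x * (if i = k then 1 else 0) +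
        deriv (be D) (len x) / len x * (x i * x k) +
        ∑ a, ∑ b, deriv (ga D a b) (len x) / len x * (D.Q.Y a x i * D.Q.Y b x k)) * (x m * x m) +
      be D (len x) * x k * ((if i = m then 1 else 0) * x m) +
      be D (len x) * x i * ((if k = m then 1 else 0) * x m) +
      ∑ a, (∑ b, ga D a b (len x) * D.Q.Y b x k) * (D.Q.J a i m * x m) +
      ∑ b, (∑ a, ga D a b (len x) * D.Q.Y a x i) * (D.Q.J b k m * x m) := by
    intro m
    rw [pd_g h hx]
    simp only [Fin.sum_univ_three]
    ring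
  simp only [h1, Finset.sum_add_distrib]
  rw [← Finset.mul_sum, Quat.sum_sq, ← Finset.mul_sum, ← Finset.mul_sum]
  have e1 : ∀ i : Fin n, ∑ m, (if i = m then (1 : ℝ) else 0) * x m = x i := by
    intro i; simp
  have e2 : ∑ m, ∑ a, (∑ b, ga D a b (len x) * D.Q.Y b x k) * (D.Q.J a i m * x m) =
      ∑ a, (∑ b, ga D a b (len x) * D.Q.Y b x k) * D.Q.Y a x i := by
    rw [Finset.sum_comm]
    exact Finset.sum_congr rfl fun a _ => by rw [← Finset.mul_sum]; rfl
  have e3 : ∑ m, ∑ b, (∑ a, ga D a b (len x) * D.Q.Y a x i) * (D.Q.J b k m * x m) =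
      ∑ b, (∑ a, ga D a b (len x) * D.Q.Y a x i) * D.Q.Y b x k := by
    rw [Finset.sum_comm]
    exact Finset.sum_congr rfl fun a _ => by rw [← Finset.mul_sum]; rfl
  rw [e1, e1, e2, e3]
  simp only [be_deriv hr, ga_deriv _ _ hr]
  unfold nt Quat.Pi
  simp only [Fin.sum_univ_three, zero_mul, add_zero, if_true,
    show ¬ ((0 : Fin 3) = 2) by decide, show ¬ ((2 : Fin 3) = 0) by decide,
    show ¬ ((1 : Fin 3) = 2) by decide, show ¬ ((2 : Fin 3) = 1) by decide,
    show ¬ ((1 : Fin 3) = 0) by decide, show ¬ ((0 : Fin 3) = 1) by decide, if_false]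
  field_simp
  ring

section U

variable (h : Fits D g K) {x : E n} (hx : D.R ≤ len x)

include h hx

lemma U_x' (k : Fin n) : ∑ i, up g i k x * x i = x k / D.p (len x) := by
  have h1 : ∀ i, up g i k x * x i = D.U x k i * x i := fun i => by
    rw [up_eq h hx, U_symm]
  simp only [h1, U_x (len_pos_of hx)]

lemma U_Y' (c : Fin 3) (k : Fin n) :
    ∑ i, up g i k x * D.Q.Y c x i = ∑ a, D.iq (len x) a c * D.Q.Y a x k := by
  have h1 : ∀ i, up g i k x * D.Q.Y c x i = D.U x k i * D.Q.Y c x i := fun i => by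
    rw [up_eq h hx, U_symm]
  simp only [h1, U_Y (len_pos_of hx)]

lemma U_xx : ∑ i, ∑ k, up g i k x * (x i * x k) = len x ^ 2 / D.p (len x) := by
  rw [Finset.sum_comm]
  have h1 : ∀ k, ∑ i, up g i k x * (x i * x k) = (x k * x k) / D.p (len x) := by
    intro k
    have : ∀ i, up g i k x * (x i * x k) = (up g i k x * x i) * x k := fun i => by ring
    simp only [this, ← Finset.sum_mul, U_x' h hx]
    ring
  simp only [h1, ← Finset.sum_div, Quat.sum_sq]

lemma U_xY (a : Fin 3) : ∑ i, ∑ k, up g i k x * (D.Q.Y a x i * x k) = 0 := by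
  have h1 : ∀ i, ∑ k, up g i k x * (D.Q.Y a x i * x k) = (D.Q.Y a x i * x i) / D.p (len x) := by
    intro i
    have : ∀ k, up g i k x * (D.Q.Y a x i * x k) = (up g k i x * x k) * D.Q.Y a x i :=
      fun k => by rw [up_symm h hx]; ring
    simp only [this, ← Finset.sum_mul, U_x' h hx]
    ring
  simp only [h1, ← Finset.sum_div, D.Q.Y_x, zero_div]

lemma U_YY (a b : Fin 3) : ∑ i, ∑ k, up g i k x * (D.Q.Y a x i * D.Q.Y b x k) =
    D.iq (len x) a b * len x ^ 2 := by
  rw [Finset.sum_comm]
  have h1 : ∀ k, ∑ i, up g i k x * (D.Q.Y a x i * D.Q.Y b x k) =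
      ∑ c, D.iq (len x) c a * (D.Q.Y c x k * D.Q.Y b x k) := by
    intro k
    have : ∀ i, up g i k x * (D.Q.Y a x i * D.Q.Y b x k) =
        (up g i k x * D.Q.Y a x i) * D.Q.Y b x k := fun i => by ring
    simp only [this, ← Finset.sum_mul, U_Y' h hx]
    rw [Finset.sum_mul]
    exact Finset.sum_congr rfl fun c _ => by ring
  simp only [h1]
  rw [Finset.sum_comm]
  simp only [← Finset.mul_sum, D.Q.Y_Y]
  simp only [mul_ite, mul_zero, Finset.sum_ite_eq', Finset.mem_univ, if_true]
  rw [D.iq_symm_apply]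

lemma U_tr : ∑ i, up g i i x = ((n : ℝ) - 4) / D.al (len x) + 1 / D.p (len x) +
    ∑ a, D.iq (len x) a a := by
  have hx0 := len_pos_of hx
  have hr : len x ≠ 0 := len_ne hx0
  have h1 : ∀ i, up g i i x = 1 / D.al (len x) * D.Q.Pi x i i +
      (1 / D.p (len x) / len x ^ 2 * (x i * x i) +
      ∑ a, ∑ b, D.iq (len x) a b / len x ^ 2 * (D.Q.Y a x i * D.Q.Y b x i)) := by
    intro i
    rw [up_nt h hx, nt]
    simp only [Fin.sum_univ_three]
    ring
  simp only [h1, Finset.sum_add_distrib]
  rw [← Finset.mul_sum, ← Finset.mul_sum, D.Q.trace_Pi hx0, Quat.sum_sq, Finset.sum_comm]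
  have h2 : ∀ a, ∑ i, ∑ b, D.iq (len x) a b / len x ^ 2 * (D.Q.Y a x i * D.Q.Y b x i) =
      D.iq (len x) a a := by
    intro a
    rw [Finset.sum_comm]
    simp only [← Finset.mul_sum, D.Q.Y_Y]
    simp only [mul_ite, mul_zero, Finset.sum_ite_eq, Finset.mem_univ, if_true]
    field_simp
  simp only [h2]
  field_simp
  ring

lemma U_J (a : Fin 3) : ∑ i, ∑ k, up g i k x * D.Q.J a i k = 0 := by
  have h1 : ∑ i, ∑ k, up g i k x * D.Q.J a i k = - ∑ i, ∑ k, up g i k x * D.Q.J a i k := by
    conv_lhs => rw [Finset.sum_comm]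
    rw [← Finset.sum_neg_distrib]
    refine Finset.sum_congr rfl fun i _ => ?_
    rw [← Finset.sum_neg_distrib]
    refine Finset.sum_congr rfl fun k _ => ?_
    rw [up_symm h hx, D.Q.skew_apply a i k]
    ring
  linarith

lemma U_g (k m : Fin n) : ∑ i, up g i k x * g x i m = if k = m then 1 else 0 := by
  have h1 := g_mul_U h hx
  have h2 : Matrix.of (D.U x) * mat g x = 1 := by
    rw [mul_eq_one_comm]; exact h1
  have h3 := congrFun (congrFun h2 k) m
  rw [Matrix.mul_apply, Matrix.one_apply] at h3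
  rw [← h3]
  refine Finset.sum_congr rfl fun i _ => ?_
  rw [up_eq h hx, U_symm]
  rfl

lemma U_gg : ∑ i, ∑ k, up g i k x * g x i k = n := by
  rw [Finset.sum_comm]
  simp only [U_g h hx, if_true]
  simp

lemma g_symm' (i k : Fin n) : g x i k = g x k i := by
  rw [g_nt h hx, g_nt h hx k i, nt_transpose]
  congr 1
  funext a b
  rw [D.q_symm a b]

lemma ga_iq (a c : Fin 3) : ∑ b, ga D a b (len x) * D.iq (len x) b c =
    ((if a = c then 1 else 0) - D.al (len x) * D.iq (len x) a c) / len x ^ 2 := by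
  rw [← D.q_iq hx a c]
  unfold ga
  fin_cases a <;> simp only [Fin.sum_univ_three, Fin.zero_eta, Fin.mk_one, Fin.reduceFinMk,
    if_true, show ¬ ((0 : Fin 3) = 2) by decide, show ¬ ((2 : Fin 3) = 0) by decide,
    show ¬ ((1 : Fin 3) = 2) by decide, show ¬ ((2 : Fin 3) = 1) by decide,
    show ¬ ((1 : Fin 3) = 0) by decide, show ¬ ((0 : Fin 3) = 1) by decide, if_false] <;> ring

end U

lemma epsum (G : Fin 3 → Fin 3 → ℝ) (hG : ∀ a c, G a c = G c a) (z : ℝ) (Y : Fin 3 → ℝ) :
    ∑ a, ∑ c, G a c * ((if a = c then z else 0) - ∑ d, eps a c d * Y d) = z * ∑ a, G a a := by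
  simp only [Fin.sum_univ_three, if_true,
    show ¬ ((0 : Fin 3) = 2) by decide, show ¬ ((2 : Fin 3) = 0) by decide,
    show ¬ ((1 : Fin 3) = 2) by decide, show ¬ ((2 : Fin 3) = 1) by decide,
    show ¬ ((1 : Fin 3) = 0) by decide, show ¬ ((0 : Fin 3) = 1) by decide, if_false]
  rw [hG 1 0, hG 2 0, hG 2 1]
  simp only [eps, Matrix.cons_val]
  ring

/-- `Γ^k_{km}` up to the factor one half -/
lemma U_pd_g (h : Fits D g K) {x : E n} (hx : D.R < len x) (m : Fin n) :
    ∑ i, ∑ k, up g i k x * pd m (fun y => g y i k) x =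
      x m / len x * (((n : ℝ) - 4) * deriv D.al (len x) / D.al (len x) +
        deriv D.p (len x) / D.p (len x) +
        ∑ a, ∑ b, D.iq (len x) a b * deriv (D.q a b) (len x)) := by
  have hr : 0 < len x := len_pos' hx
  have hal := (D.al_pos _ hx.le).ne'
  have hp := (D.p_pos _ hx.le).ne'
  have h1 : ∀ i k, up g i k x * pd m (fun y => g y i k) x =
      deriv D.al (len x) / len x * x m * (up g i k x * (if i = k then 1 else 0)) +
      deriv (be D) (len x) / len x * x m * (up g i k x * (x i * x k)) +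
      be D (len x) * ((up g i k x * x k) * (if i = m then 1 else 0)) +
      be D (len x) * ((up g i k x * x i) * (if k = m then 1 else 0)) +
      ∑ a, ∑ b, deriv (ga D a b) (len x) / len x * x m *
        (up g i k x * (D.Q.Y a x i * D.Q.Y b x k)) +
      ∑ a, ∑ b, ga D a b (len x) * (D.Q.J a i m * (up g i k x * D.Q.Y b x k)) +
      ∑ a, ∑ b, ga D a b (len x) * (D.Q.J b k m * (up g i k x * D.Q.Y a x i)) := by
    intro i k
    rw [pd_g h hx]
    simp only [Fin.sum_univ_three]
    ring
  simp only [h1, Finset.sum_add_distrib]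
  have e1 : ∑ i, ∑ k, deriv D.al (len x) / len x * x m *
      (up g i k x * (if i = k then 1 else 0)) = deriv D.al (len x) / len x * x m *
      (((n : ℝ) - 4) / D.al (len x) + 1 / D.p (len x) + ∑ a, D.iq (len x) a a) := by
    rw [← U_tr h hx.le, Finset.mul_sum]
    refine Finset.sum_congr rfl fun i _ => ?_
    simp
  have e2 : ∑ i, ∑ k, deriv (be D) (len x) / len x * x m * (up g i k x * (x i * x k)) =
      deriv (be D) (len x) / len x * x m * (len x ^ 2 / D.p (len x)) := by
    rw [← U_xx h hx.le]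
    simp only [Finset.mul_sum]
  have e3 : ∑ i, ∑ k, be D (len x) * ((up g i k x * x k) * (if i = m then 1 else 0)) =
      be D (len x) * (x m / D.p (len x)) := by
    rw [← U_x' h hx.le m, Finset.mul_sum, Finset.sum_comm]
    refine Finset.sum_congr rfl fun k _ => ?_
    rw [Finset.sum_eq_single m]
    · rw [if_pos rfl, up_symm h hx.le m k]; ring
    · intro i _ hi; rw [if_neg hi]; ring
    · simp
  have e4 : ∑ i, ∑ k, be D (len x) * ((up g i k x * x i) * (if k = m then 1 else 0)) =
      be D (len x) * (x m / D.p (len x)) := by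
    rw [← U_x' h hx.le m, Finset.mul_sum]
    refine Finset.sum_congr rfl fun i _ => ?_
    rw [Finset.sum_eq_single m]
    · rw [if_pos rfl]; ring
    · intro i _ hi; rw [if_neg hi]; ring
    · simp
  have e5 : ∑ i, ∑ k, ∑ a, ∑ b, deriv (ga D a b) (len x) / len x * x m *
        (up g i k x * (D.Q.Y a x i * D.Q.Y b x k)) =
      ∑ a, ∑ b, deriv (ga D a b) (len x) / len x * x m * (D.iq (len x) a b * len x ^ 2) := by
    have : ∀ i, ∑ k, ∑ a, ∑ b, deriv (ga D a b) (len x) / len x * x m *
        (up g i k x * (D.Q.Y a x i * D.Q.Y b x k)) = ∑ a, ∑ b, ∑ k,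
        deriv (ga D a b) (len x) / len x * x m *
        (up g i k x * (D.Q.Y a x i * D.Q.Y b x k)) := by
      intro i
      rw [Finset.sum_comm]
      exact Finset.sum_congr rfl fun a _ => Finset.sum_comm
    simp only [this]
    rw [Finset.sum_comm]
    refine Finset.sum_congr rfl fun a _ => ?_
    rw [Finset.sum_comm]
    refine Finset.sum_congr rfl fun b _ => ?_
    simp only [← Finset.mul_sum, U_YY h hx.le]
  have hkey : ∀ a b, ∑ i, D.Q.J a i m * ∑ k, up g k i x * D.Q.Y b x k =
      ∑ c, D.iq (len x) c b * ((if a = c then x m else 0) - ∑ d, eps a c d * D.Q.Y d x m) := by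
    intro a b
    simp only [U_Y' h hx.le]
    have : ∀ i, D.Q.J a i m * ∑ c, D.iq (len x) c b * D.Q.Y c x i =
        ∑ c, D.iq (len x) c b * (D.Q.J a i m * D.Q.Y c x i) := by
      intro i
      rw [Finset.mul_sum]
      exact Finset.sum_congr rfl fun c _ => by ring
    simp only [this]
    rw [Finset.sum_comm]
    simp only [← Finset.mul_sum, D.Q.JT_Y]
  have e6 : ∑ i, ∑ k, ∑ a, ∑ b, ga D a b (len x) * (D.Q.J a i m * (up g i k x * D.Q.Y b x k)) =
      ∑ a, ∑ b, ga D a b (len x) * ∑ c, D.iq (len x) c b *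
        ((if a = c then x m else 0) - ∑ d, eps a c d * D.Q.Y d x m) := by
    have : ∀ i, ∑ k, ∑ a, ∑ b, ga D a b (len x) * (D.Q.J a i m * (up g i k x * D.Q.Y b x k)) =
        ∑ a, ∑ b, ga D a b (len x) * (D.Q.J a i m * ∑ k, up g k i x * D.Q.Y b x k) := by
      intro i
      rw [Finset.sum_comm]
      refine Finset.sum_congr rfl fun a _ => ?_
      rw [Finset.sum_comm]
      refine Finset.sum_congr rfl fun b _ => ?_
      rw [Finset.mul_sum, Finset.mul_sum]
      exact Finset.sum_congr rfl fun k _ => by rw [up_symm h hx.le i k]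
    simp only [this]
    rw [Finset.sum_comm]
    refine Finset.sum_congr rfl fun a _ => ?_
    rw [Finset.sum_comm]
    refine Finset.sum_congr rfl fun b _ => ?_
    rw [← Finset.mul_sum, hkey]
  have e7 : ∑ i, ∑ k, ∑ a, ∑ b, ga D a b (len x) * (D.Q.J b k m * (up g i k x * D.Q.Y a x i)) =
      ∑ a, ∑ b, ga D a b (len x) * ∑ c, D.iq (len x) c a *
        ((if b = c then x m else 0) - ∑ d, eps b c d * D.Q.Y d x m) := by
    rw [Finset.sum_comm]
    have : ∀ k, ∑ i, ∑ a, ∑ b, ga D a b (len x) * (D.Q.J b k m * (up g i k x * D.Q.Y a x i)) =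
        ∑ a, ∑ b, ga D a b (len x) * (D.Q.J b k m * ∑ i, up g i k x * D.Q.Y a x i) := by
      intro k
      rw [Finset.sum_comm]
      refine Finset.sum_congr rfl fun a _ => ?_
      rw [Finset.sum_comm]
      refine Finset.sum_congr rfl fun b _ => ?_
      rw [Finset.mul_sum, Finset.mul_sum]
    simp only [this]
    rw [Finset.sum_comm]
    refine Finset.sum_congr rfl fun a _ => ?_
    rw [Finset.sum_comm]
    refine Finset.sum_congr rfl fun b _ => ?_
    rw [← Finset.mul_sum, hkey]
  rw [e1, e2, e3, e4, e5]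
  have hgs : ∀ a b, ga D a b (len x) = ga D b a (len x) := by
    intro a b
    unfold ga
    rw [D.q_symm a b]
    by_cases hab : a = b
    · subst hab; rfl
    · rw [if_neg hab, if_neg (fun hh => hab hh.symm)]
  have hG : ∀ a c, ∑ b, ga D a b (len x) * D.iq (len x) b c =
      ((if a = c then 1 else 0) - D.al (len x) * D.iq (len x) a c) / len x ^ 2 :=
    fun a c => ga_iq h hx.le a c
  have s1 : ∀ a b, D.iq (len x) a b = D.iq (len x) b a := D.iq_symm_apply (len x)
  have hGs : ∀ a c, ∑ b, ga D a b (len x) * D.iq (len x) b c =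
      ∑ b, ga D c b (len x) * D.iq (len x) b a := by
    intro a c
    rw [hG, hG, s1 c a]
    by_cases hab : a = c
    · subst hab; rfl
    · rw [if_neg hab, if_neg (fun hh => hab hh.symm)]
  have e8 : ∀ z : ℝ, ∀ Y : Fin 3 → ℝ, ∑ a, ∑ b, ga D a b (len x) * ∑ c, D.iq (len x) c b *
        ((if a = c then z else 0) - ∑ d, eps a c d * Y d) =
      z * ∑ a, ∑ b, ga D a b (len x) * D.iq (len x) b a := by
    intro z Y
    rw [← epsum (fun a c => ∑ b, ga D a b (len x) * D.iq (len x) b c) hGs z Y]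
    refine Finset.sum_congr rfl fun a _ => ?_
    simp only [Finset.mul_sum, Finset.sum_mul]
    rw [Finset.sum_comm]
    refine Finset.sum_congr rfl fun c _ => Finset.sum_congr rfl fun b _ => ?_
    rw [s1 c b]
    ring
  have e7' : ∑ i, ∑ k, ∑ a, ∑ b, ga D a b (len x) *
      (D.Q.J b k m * (up g i k x * D.Q.Y a x i)) =
      ∑ a, ∑ b, ga D a b (len x) * ∑ c, D.iq (len x) c b *
        ((if a = c then x m else 0) - ∑ d, eps a c d * D.Q.Y d x m) := by
    rw [e7, Finset.sum_comm]
    refine Finset.sum_congr rfl fun a _ => Finset.sum_congr rfl fun b _ => ?_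
    rw [hgs b a]
  rw [e6, e7', e8]
  simp only [be_deriv hr, ga_deriv _ _ hr, Fin.sum_univ_three, if_true,
    show ¬ ((0 : Fin 3) = 2) by decide, show ¬ ((2 : Fin 3) = 0) by decide,
    show ¬ ((1 : Fin 3) = 2) by decide, show ¬ ((2 : Fin 3) = 1) by decide,
    show ¬ ((1 : Fin 3) = 0) by decide, show ¬ ((0 : Fin 3) = 1) by decide, if_false]
  rw [s1 1 0, s1 2 0, s1 2 1]
  field_simp
  ring

end B68

end Vale.Agent.P366.T2
end
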