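import Vale.Agent.P366.T2.B68m
import Vale.Agent.P366.T2.Key

open MeasureTheory Metric Filter Topology Set
open scoped ContDiff ENNReal

noncomputable section
namespace Vale.Agent.P366.T2
open Vale.Agent.P366.Stmt

variable {n : ℕ}

namespace B68

lemma sum4 (f : Fin n → Fin n → Fin n → Fin n → ℝ) :
    ∑ i, ∑ k, ∑ l, ∑ m, f i k l m = ∑ m, ∑ l, ∑ i, ∑ k, f i k l m := by
  calc ∑ i, ∑ k, ∑ l, ∑ m, f i k l m
      = ∑ i, ∑ l, ∑ k, ∑ m, f i k l m := Finset.sum_congr rfl fun i _ => Finset.sum_comm
    _ = ∑ l, ∑ i, ∑ k, ∑ m, f i k l m := Finset.sum_comm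
    _ = ∑ l, ∑ i, ∑ m, ∑ k, f i k l m := Finset.sum_congr rfl fun l _ =>
        Finset.sum_congr rfl fun i _ => Finset.sum_comm
    _ = ∑ l, ∑ m, ∑ i, ∑ k, f i k l m := Finset.sum_congr rfl fun l _ => Finset.sum_comm
    _ = _ := Finset.sum_comm

lemma T2_abs (U : Fin n → Fin n → ℝ) (hU : ∀ i k, U i k = U k i)
    (G : Fin n → Fin n → Fin n → ℝ) (hG : ∀ m i k, G m i k = G m k i) (A : Fin n → ℝ) :
    ∑ i, ∑ k, U i k * ∑ l, ((∑ m, U l m * (G k i m + G i k m - G m k i)) / 2) * A l =
      (1 / 2) * ∑ m, (∑ l, U m l * A l) *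
        (2 * (∑ i, ∑ k, U i k * G k i m) - ∑ i, ∑ k, U i k * G m i k) := by
  have h1 : ∀ m, ∑ i, ∑ k, U i k * (G k i m + G i k m - G m k i) =
      2 * (∑ i, ∑ k, U i k * G k i m) - ∑ i, ∑ k, U i k * G m i k := by
    intro m
    have h0 : ∑ i, ∑ k, U i k * G i k m = ∑ i, ∑ k, U i k * G k i m := by
      rw [Finset.sum_comm]
      exact Finset.sum_congr rfl fun k _ => Finset.sum_congr rfl fun i _ => by rw [hU i k]
    have e : ∀ i k, U i k * (G k i m + G i k m - G m k i) =
        U i k * G k i m + U i k * G i k m - U i k * G m i k := fun i k => by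
      rw [hG m k i]; ring
    simp only [e, Finset.sum_sub_distrib, Finset.sum_add_distrib, h0]
    ring
  simp only [← h1]
  have h2 : ∀ i k, U i k * ∑ l, ((∑ m, U l m * (G k i m + G i k m - G m k i)) / 2) * A l =
      ∑ l, ∑ m, (1 / 2) * (U m l * A l * (U i k * (G k i m + G i k m - G m k i))) := by
    intro i k
    rw [Finset.mul_sum]
    refine Finset.sum_congr rfl fun l _ => ?_
    rw [Finset.sum_div, Finset.sum_mul, Finset.mul_sum]
    exact Finset.sum_congr rfl fun m _ => by rw [hU l m]; ring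
  simp only [h2]
  rw [sum4, Finset.mul_sum]
  refine Finset.sum_congr rfl fun m _ => ?_
  rw [Finset.sum_mul, Finset.mul_sum]
  refine Finset.sum_congr rfl fun l _ => ?_
  rw [Finset.mul_sum, Finset.mul_sum]
  refine Finset.sum_congr rfl fun i _ => ?_
  rw [Finset.mul_sum, Finset.mul_sum]

lemma T3_abs (U : Fin n → Fin n → ℝ) (hU : ∀ i k, U i k = U k i)
    (P : Fin n → Fin n → ℝ) (hP : ∀ i k, P i k = P k i)
    (G : Fin n → Fin n → Fin n → ℝ) (hG : ∀ m i k, G m i k = G m k i) (z : Fin n → ℝ) :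
    ∑ j, z j * ∑ i, ∑ k, U i k *
        ∑ l, ((∑ m, U l m * (G k j m + G j k m - G m k j)) / 2) * P i l =
      (1 / 2) * ∑ k, ∑ m, (∑ i, U k i * ∑ l, P i l * U l m) * ∑ j, z j * G j k m := by
  have hM : ∀ k m, (∑ i, U k i * ∑ l, P i l * U l m) = ∑ i, U m i * ∑ l, P i l * U l k := by
    intro k m
    simp only [Finset.mul_sum]
    rw [Finset.sum_comm]
    refine Finset.sum_congr rfl fun l _ => Finset.sum_congr rfl fun i _ => ?_
    rw [hU k i, hU l m, hP i l]
    ring
  have h1 : ∀ j, ∑ i, ∑ k, U i k *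
        ∑ l, ((∑ m, U l m * (G k j m + G j k m - G m k j)) / 2) * P i l =
      ∑ k, ∑ m, (1 / 2) * ((∑ i, U k i * ∑ l, P i l * U l m) *
        (G k j m + G j k m - G m k j)) := by
    intro j
    rw [Finset.sum_comm]
    refine Finset.sum_congr rfl fun k _ => ?_
    have e1 : ∀ i, U i k * ∑ l, ((∑ m, U l m * (G k j m + G j k m - G m k j)) / 2) * P i l =
        ∑ m, ∑ l, (1 / 2) * (U k i * (P i l * U l m) * (G k j m + G j k m - G m k j)) := by
      intro i
      rw [Finset.mul_sum, Finset.sum_comm]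
      refine Finset.sum_congr rfl fun l _ => ?_
      rw [Finset.sum_div, Finset.sum_mul, Finset.mul_sum]
      exact Finset.sum_congr rfl fun m _ => by rw [hU k i]; ring
    simp only [e1]
    rw [Finset.sum_comm]
    refine Finset.sum_congr rfl fun m _ => ?_
    rw [Finset.sum_mul, Finset.mul_sum]
    refine Finset.sum_congr rfl fun i _ => ?_
    rw [Finset.mul_sum, Finset.sum_mul, Finset.mul_sum]
  simp only [h1]
  have h2 : ∀ j, z j * ∑ k, ∑ m, (1 / 2) * ((∑ i, U k i * ∑ l, P i l * U l m) *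
        (G k j m + G j k m - G m k j)) = ∑ k, ∑ m, (1 / 2) *
        ((∑ i, U k i * ∑ l, P i l * U l m) * (z j * (G k j m + G j k m - G m k j))) := by
    intro j
    rw [Finset.mul_sum]
    refine Finset.sum_congr rfl fun k _ => ?_
    rw [Finset.mul_sum]
    exact Finset.sum_congr rfl fun m _ => by ring
  simp only [h2]
  have h3 : ∑ j, ∑ k, ∑ m, (1 / 2) *
        ((∑ i, U k i * ∑ l, P i l * U l m) * (z j * (G k j m + G j k m - G m k j))) =
      ∑ k, ∑ m, (1 / 2) * ((∑ i, U k i * ∑ l, P i l * U l m) *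
        ∑ j, z j * (G k j m + G j k m - G m k j)) := by
    rw [Finset.sum_comm]
    refine Finset.sum_congr rfl fun k _ => ?_
    rw [Finset.sum_comm]
    refine Finset.sum_congr rfl fun m _ => ?_
    rw [Finset.mul_sum, Finset.mul_sum]
  rw [h3]
  have h4 : ∑ k, ∑ m, (∑ i, U k i * ∑ l, P i l * U l m) * ∑ j, z j * G k j m =
      ∑ k, ∑ m, (∑ i, U k i * ∑ l, P i l * U l m) * ∑ j, z j * G m k j := by
    rw [Finset.sum_comm]
    refine Finset.sum_congr rfl fun k _ => Finset.sum_congr rfl fun m _ => ?_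
    rw [hM]
    congr 1
    exact Finset.sum_congr rfl fun j _ => by rw [hG m j k]
  have h5 : ∀ k m, (1 / 2) * ((∑ i, U k i * ∑ l, P i l * U l m) *
        ∑ j, z j * (G k j m + G j k m - G m k j)) =
      (1 / 2) * ((∑ i, U k i * ∑ l, P i l * U l m) * ∑ j, z j * G k j m) +
      (1 / 2) * ((∑ i, U k i * ∑ l, P i l * U l m) * ∑ j, z j * G j k m) -
      (1 / 2) * ((∑ i, U k i * ∑ l, P i l * U l m) * ∑ j, z j * G m k j) := by
    intro k m
    have : ∑ j, z j * (G k j m + G j k m - G m k j) = ∑ j, z j * G k j m +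
        ∑ j, z j * G j k m - ∑ j, z j * G m k j := by
      rw [← Finset.sum_add_distrib, ← Finset.sum_sub_distrib]
      exact Finset.sum_congr rfl fun j _ => by ring
    rw [this]; ring
  simp only [h5, Finset.sum_add_distrib, Finset.sum_sub_distrib, ← Finset.mul_sum]
  rw [h4]
  ring

variable {D : Data n} {g K : Field n}

lemma KN_mul {r : ℝ} (hr : D.R ≤ r) : D.KN r * D.p r = D.kn r := by
  unfold Data.KN
  have := (D.p_pos r hr).ne'
  field_simp

lemma pi_nt (h : Fits D g K) {x : E n} (hx : D.R ≤ len x) (i j : Fin n) :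
    momT g K x i j = nt D.Q (D.ka (len x) - (D.k (len x) + D.KN (len x)) * D.al (len x))
      (-(D.p (len x) * D.k (len x))) (fun a => D.v a (len x))
      (fun a => D.v a (len x))
      (fun a b => D.s a b (len x) - (D.k (len x) + D.KN (len x)) * D.q a b (len x)) x i j := by
  unfold momT
  rw [tr_eq' h hx, K_nt h hx, g_nt h hx, ← KN_mul hx]
  unfold nt
  simp only [Fin.sum_univ_three]
  ring

lemma pi_x (h : Fits D g K) {x : E n} (hx : D.R ≤ len x) (i : Fin n) :
    ∑ j, momT g K x i j * x j = -(D.p (len x) * D.k (len x)) * x i +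
      ∑ a, D.v a (len x) * D.Q.Y a x i := by
  simp only [pi_nt h hx, nt_x D.Q _ _ _ _ _ (len_pos_of hx)]

lemma pi_symm (h : Fits D g K) {x : E n} (hx : D.R ≤ len x) (i j : Fin n) :
    momT g K x i j = momT g K x j i := by
  unfold momT
  rw [K_symm h hx, g_symm' h hx]

lemma KN_diff {r : ℝ} (hr : D.R ≤ r) : DifferentiableAt ℝ D.KN r :=
  (hd D.kn_smooth r).differentiableAt.div (hd D.p_smooth r).differentiableAt (D.p_pos r hr).ne'

lemma pi_HP (h : Fits D g K) {x : E n} (hx : D.R < len x) (k i j : Fin n) :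
    HP k (fun y => momT g K y i j) (pd k (fun y => momT g K y i j) x) x := by
  have hx0 : x ≠ 0 := len_pos_of hx.le
  have hK : HP k (fun y => K y i j) (pd k (fun y => K y i j) x) x :=
    HP.of_diff ((h.smooth i j).2.differentiable (by norm_num) x)
  have hg : HP k (fun y => g y i j) (pd k (fun y => g y i j) x) x :=
    HP.of_diff ((h.smooth i j).1.differentiable (by norm_num) x)
  have ht : HasDerivAt (fun r => D.k r + D.KN r) (deriv (fun r => D.k r + D.KN r) (len x))
      (len x) := ((D.k_diff hx.le).add (KN_diff hx.le)).hasDerivAt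
  have h1 := hK.sub ((HP.radial hx0 ht k).mul hg)
  have h2 : (fun y => momT g K y i j) =ᶠ[𝓝 x]
      (fun y => K y i j - (D.k (len y) + D.KN (len y)) * g y i j) := by
    filter_upwards [near hx] with y hy
    unfold momT
    rw [tr_eq' h hy]
  have h3 := h1.congr h2
  rw [h3.pd]
  exact h3

/-- `∑ x_j ∂_k π_ij` -/
lemma x_pd_pi (h : Fits D g K) {x : E n} (hx : D.R < len x) (i k : Fin n) :
    ∑ j, x j * pd k (fun y => momT g K y i j) x =
      -((deriv D.p (len x) * D.k (len x) + D.p (len x) * deriv D.k (len x)) / len x) *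
        (x i * x k) - D.p (len x) * D.k (len x) * (if i = k then 1 else 0) +
      ∑ a, (deriv (D.v a) (len x) / len x * (D.Q.Y a x i * x k) +
        D.v a (len x) * D.Q.J a i k) - momT g K x i k := by
  have hx0 : x ≠ 0 := len_pos_of hx.le
  have h1 : HP k (fun y => ∑ j, momT g K y i j * y j) _ x :=
    HP.sum _ fun j _ => (pi_HP h hx k i j).mul (HP.coord k j x)
  have hpk : HasDerivAt (fun r => -(D.p r * D.k r))
      (-(deriv D.p (len x) * D.k (len x) + D.p (len x) * deriv D.k (len x))) (len x) :=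
    ((hd D.p_smooth _).mul (D.k_diff hx.le).hasDerivAt).neg
  have h2 : HP k (fun y => -(D.p (len y) * D.k (len y)) * y i +
      ∑ a, D.v a (len y) * D.Q.Y a y i) _ x :=
    ((HP.radial hx0 hpk k).mul (HP.coord k i x)).add
      (HP.sum _ fun a _ => (HP.radial hx0 (hd (D.v_smooth a) (len x)) k).mul (HP.Y D.Q a k i x))
  have h3 : (fun y => ∑ j, momT g K y i j * y j) =ᶠ[𝓝 x]
      (fun y => -(D.p (len y) * D.k (len y)) * y i + ∑ a, D.v a (len y) * D.Q.Y a y i) := by
    filter_upwards [near hx] with y hy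
    exact pi_x h hy i
  have h4 := h1.pd
  rw [(h2.congr h3).pd] at h4
  simp only [Finset.sum_add_distrib] at h4
  have h5 : ∑ j, momT g K x i j * (if j = k then (1 : ℝ) else 0) = momT g K x i k := by simp
  rw [h5] at h4
  have h6 : ∑ j, x j * pd k (fun y => momT g K y i j) x =
      ∑ j, pd k (fun y => momT g K y i j) x * x j :=
    Finset.sum_congr rfl fun j _ => mul_comm _ _
  rw [h6]
  have h7 := eq_sub_of_add_eq h4.symm
  rw [h7]
  simp only [Fin.sum_univ_three]
  ring

/-- `∑ x_m ∂_k g_im` -/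
lemma x_pd_g2 (h : Fits D g K) {x : E n} (hx : D.R < len x) (i k : Fin n) :
    ∑ m, x m * pd k (fun y => g y i m) x =
      deriv D.p (len x) / len x * (x i * x k) + D.p (len x) * (if i = k then 1 else 0) -
        g x i k := by
  have hx0 : x ≠ 0 := len_pos_of hx.le
  have hgd : ∀ m, HP k (fun y => g y i m) (pd k (fun y => g y i m) x) x := fun m =>
    HP.of_diff ((h.smooth i m).1.differentiable (by norm_num) x)
  have h1 : HP k (fun y => ∑ m, g y i m * y m) _ x :=
    HP.sum _ fun m _ => (hgd m).mul (HP.coord k m x)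
  have h2 : HP k (fun y => D.p (len y) * y i) _ x :=
    (HP.radial hx0 (hd D.p_smooth (len x)) k).mul (HP.coord k i x)
  have h3 : (fun y => ∑ m, g y i m * y m) =ᶠ[𝓝 x] (fun y => D.p (len y) * y i) := by
    filter_upwards [near hx] with y hy
    simp only [g_nt h hy, nt_x D.Q _ _ _ _ _ (len_pos_of hy)]
    simp
  have h4 := h1.pd
  rw [(h2.congr h3).pd] at h4
  simp only [Finset.sum_add_distrib] at h4
  have h5 : ∑ j, g x i j * (if j = k then (1 : ℝ) else 0) = g x i k := by simp
  rw [h5] at h4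
  have h6 : ∑ m, x m * pd k (fun y => g y i m) x = ∑ m, pd k (fun y => g y i m) x * x m :=
    Finset.sum_congr rfl fun j _ => mul_comm _ _
  rw [h6, eq_sub_of_add_eq h4.symm]
  ring

/-- `∑ Y_m ∂_k g_im` -/
lemma Y_pd_g2 (h : Fits D g K) {x : E n} (hx : D.R < len x) (c : Fin 3) (i k : Fin n) :
    ∑ m, D.Q.Y c x m * pd k (fun y => g y i m) x =
      ∑ a, (deriv (D.q a c) (len x) / len x * (D.Q.Y a x i * x k) +
        D.q a c (len x) * D.Q.J a i k) - ∑ m, g x i m * D.Q.J c m k := by
  have hx0 : x ≠ 0 := len_pos_of hx.le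
  have hgd : ∀ m, HP k (fun y => g y i m) (pd k (fun y => g y i m) x) x := fun m =>
    HP.of_diff ((h.smooth i m).1.differentiable (by norm_num) x)
  have h1 : HP k (fun y => ∑ m, g y i m * D.Q.Y c y m) _ x :=
    HP.sum _ fun m _ => (hgd m).mul (HP.Y D.Q c k m x)
  have h2 : HP k (fun y => ∑ a, D.q a c (len y) * D.Q.Y a y i) _ x :=
    HP.sum _ fun a _ => (HP.radial hx0 (hd (D.q_smooth a c) (len x)) k).mul (HP.Y D.Q a k i x)
  have h3 : (fun y => ∑ m, g y i m * D.Q.Y c y m) =ᶠ[𝓝 x]
      (fun y => ∑ a, D.q a c (len y) * D.Q.Y a y i) := by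
    filter_upwards [near hx] with y hy
    simp only [g_nt h hy, nt_Y D.Q _ _ _ _ _ (len_pos_of hy)]
    simp
  have h4 := h1.pd
  rw [(h2.congr h3).pd] at h4
  have h6 : ∑ m, D.Q.Y c x m * pd k (fun y => g y i m) x =
      ∑ m, pd k (fun y => g y i m) x * D.Q.Y c x m :=
    Finset.sum_congr rfl fun j _ => mul_comm _ _
  have h7 : ∑ m, (pd k (fun y => g y i m) x * D.Q.Y c x m + g x i m * D.Q.J c m k) =
      ∑ m, pd k (fun y => g y i m) x * D.Q.Y c x m + ∑ m, g x i m * D.Q.J c m k :=
    Finset.sum_add_distrib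
  have h8 := h4.trans h7
  rw [h6, eq_sub_of_add_eq h8.symm]
  congr 1
  refine Finset.sum_congr rfl fun a _ => ?_
  ring

/-- contraction with the inverse metric -/
def con (g : Field n) (x : E n) (F : Fin n → Fin n → ℝ) : ℝ := ∑ i, ∑ k, up g i k x * F i k

lemma con_add (g : Field n) (x : E n) (F F' : Fin n → Fin n → ℝ) :
    con g x (fun i k => F i k + F' i k) = con g x F + con g x F' := by
  unfold con
  simp only [mul_add, Finset.sum_add_distrib]

lemma con_sub (g : Field n) (x : E n) (F F' : Fin n → Fin n → ℝ) :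
    con g x (fun i k => F i k - F' i k) = con g x F - con g x F' := by
  unfold con
  simp only [mul_sub, Finset.sum_sub_distrib]

lemma con_mul (g : Field n) (x : E n) (c : ℝ) (F : Fin n → Fin n → ℝ) :
    con g x (fun i k => c * F i k) = c * con g x F := by
  unfold con
  rw [Finset.mul_sum]
  refine Finset.sum_congr rfl fun i _ => ?_
  rw [Finset.mul_sum]
  exact Finset.sum_congr rfl fun k _ => by ring

lemma con_sum (g : Field n) (x : E n) (F : Fin 3 → Fin n → Fin n → ℝ) :
    con g x (fun i k => ∑ a, F a i k) = ∑ a, con g x (F a) := by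
  simp only [Fin.sum_univ_three, con_add]

/-- the trace of the inverse metric -/
def trU (D : Data n) (r : ℝ) : ℝ := ((n : ℝ) - 4) / D.al r + 1 / D.p r + ∑ a, D.iq r a a

section C

variable (h : Fits D g K) {x : E n} (hx : D.R < len x)

include h hx

lemma con_one : con g x (fun i k => if i = k then 1 else 0) = trU D (len x) := by
  unfold con trU
  rw [← U_tr h hx.le]
  refine Finset.sum_congr rfl fun i _ => ?_
  simp

lemma con_xx : con g x (fun i k => x i * x k) = len x ^ 2 / D.p (len x) := U_xx h hx.le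

lemma con_Yx (a : Fin 3) : con g x (fun i k => D.Q.Y a x i * x k) = 0 := U_xY h hx.le a

lemma con_J (a : Fin 3) : con g x (fun i k => D.Q.J a i k) = 0 := U_J h hx.le a

lemma con_mJ (c : ℝ) (a : Fin 3) : con g x (fun i k => c * D.Q.J a i k) = 0 := by
  rw [con_mul g x c (fun i k => D.Q.J a i k), con_J h hx, mul_zero]

lemma con_g : con g x (fun i k => g x i k) = n := U_gg h hx.le

lemma con_pi : con g x (fun i k => momT g K x i k) =
    (D.k (len x) + D.KN (len x)) * (1 - (n : ℝ)) := by
  have : con g x (fun i k => momT g K x i k) =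
      con g x (fun i k => K x i k) - con g x (fun i k => tr g K x * g x i k) := by
    rw [← con_sub]; rfl
  rw [this, con_mul, con_g h hx, show con g x (fun i k => K x i k) = tr g K x from rfl,
    tr_eq' h hx.le]
  ring

lemma T1_eq : con g x (fun i k => ∑ j, x j * pd k (fun y => momT g K y i j) x) =
    -(len x * (deriv D.p (len x) * D.k (len x) + D.p (len x) * deriv D.k (len x)) /
      D.p (len x)) - D.p (len x) * D.k (len x) * trU D (len x) +
      ((n : ℝ) - 1) * (D.k (len x) + D.KN (len x)) := by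
  have hr : 0 < len x := len_pos' hx
  have hp := (D.p_pos _ hx.le).ne'
  simp only [x_pd_pi h hx, con_sub, con_add, con_mul, con_sum, con_one h hx, con_xx h hx,
    con_Yx h hx, con_mJ h hx, con_pi h hx, mul_zero, add_zero, Finset.sum_const_zero]
  field_simp
  ring

lemma C_x : ∑ m, x m * con g x (fun i k => pd k (fun y => g y i m) x) =
    len x * deriv D.p (len x) / D.p (len x) + D.p (len x) * trU D (len x) - n := by
  have hr : 0 < len x := len_pos' hx
  have hp := (D.p_pos _ hx.le).ne'
  have h1 : ∑ m, x m * con g x (fun i k => pd k (fun y => g y i m) x) =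
      con g x (fun i k => ∑ m, x m * pd k (fun y => g y i m) x) := by
    simp only [← con_mul]
    unfold con
    simp only [Finset.mul_sum]
    rw [Finset.sum_comm]
    exact Finset.sum_congr rfl fun i _ => Finset.sum_comm
  rw [h1]
  simp only [x_pd_g2 h hx, con_sub, con_add, con_mul, con_one h hx, con_xx h hx, con_g h hx]
  field_simp

lemma C_Y (c : Fin 3) : ∑ m, D.Q.Y c x m * con g x (fun i k => pd k (fun y => g y i m) x) = 0 := by
  have h1 : ∑ m, D.Q.Y c x m * con g x (fun i k => pd k (fun y => g y i m) x) =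
      con g x (fun i k => ∑ m, D.Q.Y c x m * pd k (fun y => g y i m) x) := by
    simp only [← con_mul]
    unfold con
    simp only [Finset.mul_sum]
    rw [Finset.sum_comm]
    exact Finset.sum_congr rfl fun i _ => Finset.sum_comm
  rw [h1]
  have h2 : con g x (fun i k => ∑ m, g x i m * D.Q.J c m k) = 0 := by
    unfold con
    have e1 : ∀ i k, up g i k x * ∑ m, g x i m * D.Q.J c m k =
        ∑ m, (up g i k x * g x i m) * D.Q.J c m k := by
      intro i k
      rw [Finset.mul_sum]
      exact Finset.sum_congr rfl fun m _ => by ring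
    simp only [e1]
    rw [Finset.sum_comm]
    have e2 : ∀ k, ∑ i, ∑ m, (up g i k x * g x i m) * D.Q.J c m k = D.Q.J c k k := by
      intro k
      rw [Finset.sum_comm]
      simp only [← Finset.sum_mul, U_g h hx.le]
      simp
    simp only [e2, D.Q.trace_J]
  simp only [Y_pd_g2 h hx, con_sub, con_add, con_mul, con_sum, con_Yx h hx, con_mJ h hx, h2,
    mul_zero, add_zero, sub_zero, Finset.sum_const_zero]

end C

/-- `(n-4) al'/al + tr (q⁻¹ q')` -/
def Lm (D : Data n) (r : ℝ) : ℝ := ((n : ℝ) - 4) * deriv D.al r / D.al r +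
  ∑ a, ∑ b, D.iq r a b * deriv (D.q a b) r

/-- `(n-4) (al'/al) (ka/al) + tr (q⁻¹ s q⁻¹ q')` -/
def Lk (D : Data n) (r : ℝ) : ℝ := ((n : ℝ) - 4) * (deriv D.al r / D.al r) * (D.ka r / D.al r) +
  ∑ a, ∑ b, (∑ c, D.iq r a c * ∑ d, D.s c d r * D.iq r d b) * deriv (D.q a b) r

section C

variable (h : Fits D g K) {x : E n} (hx : D.R < len x)

include h hx

lemma om_eq (m : Fin n) : ∑ l, up g m l x * ∑ j, momT g K x l j * x j =
    -D.k (len x) * x m + ∑ c, (∑ a, D.v a (len x) * D.iq (len x) c a) * D.Q.Y c x m := by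
  have hp := (D.p_pos _ hx.le).ne'
  have e1 : ∀ l, up g m l x * ∑ j, momT g K x l j * x j =
      -(D.p (len x) * D.k (len x)) * (up g l m x * x l) +
      ∑ a, D.v a (len x) * (up g l m x * D.Q.Y a x l) := by
    intro l
    rw [pi_x h hx.le, up_symm h hx.le m l]
    simp only [Fin.sum_univ_three]
    ring
  simp only [e1, Finset.sum_add_distrib]
  rw [← Finset.mul_sum, U_x' h hx.le, Finset.sum_comm]
  simp only [← Finset.mul_sum, U_Y' h hx.le]
  simp only [Fin.sum_univ_three]
  field_simp
  ring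

lemma T2_eq : ∑ i, ∑ k, up g i k x * ∑ l, chr g l k i x * (∑ j, momT g K x l j * x j) =
    -D.k (len x) * (len x * deriv D.p (len x) / D.p (len x) + D.p (len x) * trU D (len x) - n) +
      1 / 2 * D.k (len x) * len x * (Lm D (len x) + deriv D.p (len x) / D.p (len x)) := by
  have hr : 0 < len x := len_pos' hx
  have hp := (D.p_pos _ hx.le).ne'
  have hG : ∀ m i k, pd m (fun y => g y i k) x = pd m (fun y => g y k i) x := by
    intro m i k
    have hgd : HP m (fun y => g y i k) (pd m (fun y => g y i k) x) x :=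
      HP.of_diff ((h.smooth i k).1.differentiable (by norm_num) x)
    have h3 : (fun y => g y k i) =ᶠ[𝓝 x] (fun y => g y i k) := by
      filter_upwards [near hx] with y hy
      exact g_symm' h hy k i
    exact (hgd.congr h3).pd.symm
  have h1 := T2_abs (fun i k => up g i k x) (fun i k => up_symm h hx.le i k)
    (fun m i k => pd m (fun y => g y i k) x) hG (fun l => ∑ j, momT g K x l j * x j)
  have h2 : ∑ i, ∑ k, up g i k x * ∑ l, chr g l k i x * (∑ j, momT g K x l j * x j) = _ := h1
  rw [h2]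
  simp only [om_eq h hx, U_pd_g h hx]
  have e1 : ∀ m, (-D.k (len x) * x m +
      ∑ c, (∑ a, D.v a (len x) * D.iq (len x) c a) * D.Q.Y c x m) *
      (2 * (∑ i, ∑ k, up g i k x * pd k (fun y => g y i m) x) -
        x m / len x * (((n : ℝ) - 4) * deriv D.al (len x) / D.al (len x) +
        deriv D.p (len x) / D.p (len x) +
        ∑ a, ∑ b, D.iq (len x) a b * deriv (D.q a b) (len x))) =
      -(2 * D.k (len x)) * (x m * con g x (fun i k => pd k (fun y => g y i m) x)) +
      D.k (len x) / len x * (Lm D (len x) + deriv D.p (len x) / D.p (len x)) * (x m * x m) +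
      ∑ c, 2 * (∑ a, D.v a (len x) * D.iq (len x) c a) * (D.Q.Y c x m *
        con g x (fun i k => pd k (fun y => g y i m) x)) -
      ∑ c, (∑ a, D.v a (len x) * D.iq (len x) c a) / len x *
        (Lm D (len x) + deriv D.p (len x) / D.p (len x)) * (D.Q.Y c x m * x m) := by
    intro m
    unfold con Lm
    simp only [Fin.sum_univ_three]
    ring
  simp only [e1, Finset.sum_add_distrib, Finset.sum_sub_distrib]
  rw [← Finset.mul_sum, C_x h hx, ← Finset.mul_sum, Quat.sum_sq, Finset.sum_comm]
  simp only [← Finset.mul_sum, C_Y h hx, mul_zero, Finset.sum_const_zero, add_zero]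
  rw [Finset.sum_comm]
  simp only [← Finset.mul_sum, D.Q.Y_x, mul_zero, Finset.sum_const_zero, sub_zero]
  field_simp

/-- trace of the product of `U π U` and the radial derivative of `g` -/
lemma T3_eq : ∑ j, x j * ∑ i, ∑ k, up g i k x * ∑ l, chr g l k j x * momT g K x i l =
    1 / 2 * len x * (Lk D (len x) - (D.k (len x) + D.KN (len x)) * Lm D (len x) -
      D.k (len x) * deriv D.p (len x) / D.p (len x)) := by
  have hr : 0 < len x := len_pos' hx
  have hx0 : x ≠ 0 := len_pos_of hx.le
  have hp := (D.p_pos _ hx.le).ne'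
  have hal := (D.al_pos _ hx.le).ne'
  have hG : ∀ m i k, pd m (fun y => g y i k) x = pd m (fun y => g y k i) x := by
    intro m i k
    have hgd : HP m (fun y => g y i k) (pd m (fun y => g y i k) x) x :=
      HP.of_diff ((h.smooth i k).1.differentiable (by norm_num) x)
    have h3 : (fun y => g y k i) =ᶠ[𝓝 x] (fun y => g y i k) := by
      filter_upwards [near hx] with y hy
      exact g_symm' h hy k i
    exact (hgd.congr h3).pd.symm
  have h1 := T3_abs (fun i k => up g i k x) (fun i k => up_symm h hx.le i k)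
    (fun i k => momT g K x i k) (fun i k => pi_symm h hx.le i k)
    (fun m i k => pd m (fun y => g y i k) x) hG (fun l => x l)
  have h2 : ∑ j, x j * ∑ i, ∑ k, up g i k x * ∑ l, chr g l k j x * momT g K x i l = _ := h1
  rw [h2]
  simp only [x_pd_g h hx, up_nt h hx.le, pi_nt h hx.le, nt_mul D.Q _ _ _ _ _ hx0]
  have h3 : ∀ k m, nt D.Q (len x * deriv D.al (len x)) (len x * deriv D.p (len x)) (fun _ => 0)
      (fun _ => 0) (fun a b => len x * deriv (D.q a b) (len x)) x k m =
      nt D.Q (len x * deriv D.al (len x)) (len x * deriv D.p (len x)) (fun _ => 0)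
      (fun _ => 0) (fun a b => len x * deriv (D.q b a) (len x)) x m k := fun k m => by
    rw [nt_transpose]
  simp only [h3, nt_nt D.Q _ _ _ _ _ hx0]
  simp only [zero_mul, mul_zero, Finset.sum_const_zero, add_zero, zero_add]
  have hM : ∀ a b, ∑ c, D.iq (len x) a c * ∑ d, (D.s c d (len x) -
      (D.k (len x) + D.KN (len x)) * D.q c d (len x)) * D.iq (len x) d b =
      (∑ c, D.iq (len x) a c * ∑ d, D.s c d (len x) * D.iq (len x) d b) -
      (D.k (len x) + D.KN (len x)) * D.iq (len x) a b := by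
    intro a b
    have e1 : ∀ c, ∑ d, (D.s c d (len x) - (D.k (len x) + D.KN (len x)) * D.q c d (len x)) *
        D.iq (len x) d b = ∑ d, D.s c d (len x) * D.iq (len x) d b -
        (D.k (len x) + D.KN (len x)) * ∑ d, D.q c d (len x) * D.iq (len x) d b := by
      intro c
      rw [Finset.mul_sum, ← Finset.sum_sub_distrib]
      exact Finset.sum_congr rfl fun d _ => by ring
    simp only [e1, D.q_iq hx.le, mul_sub, Finset.sum_sub_distrib]
    simp
    ring
  simp only [hM]
  unfold Lk Lm
  simp only [Fin.sum_univ_three]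
  field_simp
  ring

end C

lemma sum_mom (g K : Field n) (x : E n) : ∑ j, x j * mom g K j x =
    con g x (fun i k => ∑ j, x j * pd k (fun y => momT g K y i j) x) -
    ∑ i, ∑ k, up g i k x * ∑ l, chr g l k i x * (∑ j, momT g K x l j * x j) -
    ∑ j, x j * ∑ i, ∑ k, up g i k x * ∑ l, chr g l k j x * momT g K x i l := by
  have e1 : ∀ j, x j * mom g K j x =
      (∑ i, ∑ k, up g i k x * (x j * pd k (fun y => momT g K y i j) x)) -
      (∑ i, ∑ k, up g i k x * ∑ l, chr g l k i x * (momT g K x l j * x j)) -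
      x j * ∑ i, ∑ k, up g i k x * ∑ l, chr g l k j x * momT g K x i l := by
    intro j
    unfold mom
    have e2 : ∀ i k, up g i k x * (pd k (fun y => momT g K y i j) x - ∑ l,
        (chr g l k i x * momT g K x l j + chr g l k j x * momT g K x i l)) =
        up g i k x * pd k (fun y => momT g K y i j) x -
        up g i k x * ∑ l, chr g l k i x * momT g K x l j -
        up g i k x * ∑ l, chr g l k j x * momT g K x i l := by
      intro i k
      rw [Finset.sum_add_distrib]
      ring
    simp only [e2, Finset.sum_sub_distrib, mul_sub]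
    congr 2
    · rw [Finset.mul_sum]
      refine Finset.sum_congr rfl fun i _ => ?_
      rw [Finset.mul_sum]
      exact Finset.sum_congr rfl fun k _ => by ring
    · rw [Finset.mul_sum]
      refine Finset.sum_congr rfl fun i _ => ?_
      rw [Finset.mul_sum]
      refine Finset.sum_congr rfl fun k _ => ?_
      rw [Finset.mul_sum, Finset.mul_sum, Finset.mul_sum]
      exact Finset.sum_congr rfl fun l _ => by ring
  simp only [e1, Finset.sum_sub_distrib]
  congr 2
  · unfold con
    rw [Finset.sum_comm]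
    refine Finset.sum_congr rfl fun i _ => ?_
    rw [Finset.sum_comm]
    exact Finset.sum_congr rfl fun k _ => by rw [Finset.mul_sum]
  · rw [Finset.sum_comm]
    refine Finset.sum_congr rfl fun i _ => ?_
    rw [Finset.sum_comm]
    refine Finset.sum_congr rfl fun k _ => ?_
    simp only [Finset.mul_sum]
    rw [Finset.sum_comm]

/-- radial derivative of the fibre matrix -/
def qd (D : Data n) (r : ℝ) : Matrix (Fin 3) (Fin 3) ℝ := Matrix.of fun a b => deriv (D.q a b) r

lemma A_form {r : ℝ} (hr : D.R ≤ r) :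
    D.A r = (1 / r) • (1 : Matrix (Fin 3) (Fin 3) ℝ) + (1 / 2 : ℝ) • (D.iq r * qd D r) := by
  have hr0 : 0 < r := lt_of_lt_of_le D.hR hr
  have hdq := fun a b => ((D.q_smooth a b).differentiable (by norm_num) r).hasDerivAt
  have hsq : HasDerivAt (fun t : ℝ => t ^ 2) (2 * r) r := by
    simpa using hasDerivAt_pow 2 r
  have h3 : ∀ a b, deriv (fun t => t ^ 2 * D.q a b t) r =
      2 * r * D.q a b r + r ^ 2 * deriv (D.q a b) r := fun a b => (hsq.mul (hdq a b)).deriv
  have h4 : D.qh r = (r ^ 2) • D.qm r := by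
    ext a b; rfl
  have hdet : IsUnit (D.qm r).det := isUnit_iff_ne_zero.2 (D.qm_det_ne hr)
  have h5 : (D.qh r)⁻¹ = (r ^ 2)⁻¹ • D.iq r := by
    rw [h4]
    have : Invertible (r ^ 2) := invertibleOfNonzero (by positivity)
    rw [Matrix.inv_smul _ _ hdet]
    simp [Data.iq]
  have h8 : (D.iq r * Matrix.of fun a b => deriv (fun t => t ^ 2 * D.q a b t) r) =
      (2 * r) • (1 : Matrix (Fin 3) (Fin 3) ℝ) + (r ^ 2) • (D.iq r * qd D r) := by
    rw [← D.iq_mul_qm hr, ← Matrix.mul_smul, ← Matrix.mul_smul, ← Matrix.mul_add]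
    congr 1
    ext a b
    simp [h3, Data.qm, qd]
  unfold Data.A
  rw [h5, Matrix.smul_mul, h8]
  ext a b
  simp only [Matrix.smul_apply, Matrix.add_apply, smul_eq_mul]
  field_simp

lemma yb_form {r : ℝ} (hr : D.R ≤ r) : D.yb r = 1 / r + deriv D.al r / (2 * D.al r) := by
  have hr0 : 0 < r := lt_of_lt_of_le D.hR hr
  have hal := D.al_pos r hr
  have hsq : HasDerivAt (fun t : ℝ => t ^ 2) (2 * r) r := by
    simpa using hasDerivAt_pow 2 r
  have h1 : deriv D.Yh r = 2 * r * D.al r + r ^ 2 * deriv D.al r :=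
    (hsq.mul (hd D.al_smooth r)).deriv
  unfold Data.yb
  rw [h1]
  unfold Data.Yh
  field_simp

lemma c_pos' {r : ℝ} (hr : D.R ≤ r) : 0 < D.c r := Real.sqrt_pos.2 (D.p_pos r hr)

lemma cH_form {r : ℝ} (hr : D.R ≤ r) : D.c r * D.H r = ((n : ℝ) - 1) / r + 1 / 2 * Lm D r := by
  have hc := (c_pos' hr).ne'
  have hr0 : 0 < r := lt_of_lt_of_le D.hR hr
  have hal := D.al_pos r hr
  have h1 : (D.A r).trace = 3 / r + 1 / 2 * ∑ a, ∑ b, D.iq r a b * deriv (D.q a b) r := by
    rw [A_form hr, Matrix.trace_add, Matrix.trace_smul, Matrix.trace_smul, Matrix.trace_one]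
    simp only [Matrix.trace, Matrix.diag, Matrix.mul_apply, smul_eq_mul, Fintype.card_fin, qd,
      Matrix.of_apply]
    congr 1
    · push_cast; ring
    · congr 1
      refine Finset.sum_congr rfl fun a _ => Finset.sum_congr rfl fun b _ => ?_
      rw [D.q_symm b a]
  unfold Data.H Lm
  rw [mul_div_cancel₀ _ hc, yb_form hr, h1]
  unfold Data.b
  field_simp
  ring

lemma cIIK_form {r : ℝ} (hr : D.R ≤ r) : D.c r * D.IIK r = D.k r / r + 1 / 2 * Lk D r := by
  have hc := (c_pos' hr).ne'
  have hr0 : 0 < r := lt_of_lt_of_le D.hR hr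
  have hal := D.al_pos r hr
  have h1 : (D.A r * D.S r).trace = 1 / r * (D.S r).trace + 1 / 2 *
      ∑ a, ∑ b, (∑ c, D.iq r a c * ∑ d, D.s c d r * D.iq r d b) * deriv (D.q a b) r := by
    rw [A_form hr, Matrix.add_mul, Matrix.trace_add, Matrix.smul_mul, Matrix.smul_mul,
      Matrix.one_mul, Matrix.trace_smul, Matrix.trace_smul, smul_eq_mul, smul_eq_mul]
    congr 2
    have h2 : (D.iq r * qd D r * D.S r).trace =
        (D.iq r * (Matrix.of (fun a b => D.s a b r) * D.iq r) * qd D r).trace := by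
      have h3 : D.S r = D.iq r * Matrix.of (fun a b => D.s a b r) := rfl
      rw [h3, Matrix.trace_mul_comm]
      simp only [Matrix.mul_assoc]
    rw [h2]
    simp only [Matrix.trace, Matrix.diag, Matrix.mul_apply, qd, Matrix.of_apply]
    refine Finset.sum_congr rfl fun a _ => Finset.sum_congr rfl fun b _ => ?_
    rw [D.q_symm b a]
  unfold Data.IIK
  rw [mul_div_cancel₀ _ hc, yb_form hr, h1]
  unfold Data.k Lk Data.b
  field_simp
  ring

theorem mom_eq' (h : Fits D g K) {x : E n} (hx : D.R < len x) :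
    ∑ j, x j / len x * mom g K j x = D.c (len x) * D.JN (len x) := by
  have hr : 0 < len x := len_pos' hx
  have hc := (c_pos' hx.le).ne'
  have hp := (D.p_pos _ hx.le).ne'
  have h1 : ∑ j, x j / len x * mom g K j x = (1 / len x) * ∑ j, x j * mom g K j x := by
    rw [Finset.mul_sum]
    exact Finset.sum_congr rfl fun j _ => by ring
  have h2 : D.c (len x) * D.JN (len x) = D.c (len x) * D.H (len x) * D.KN (len x) -
      D.c (len x) * D.IIK (len x) - deriv D.k (len x) := by
    unfold Data.JN
    field_simp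
  rw [h1, h2, cH_form hx.le, cIIK_form hx.le, sum_mom, T1_eq h hx, T2_eq h hx, T3_eq h hx]
  field_simp
  ring

end B68

end Vale.Agent.P366.T2
end
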