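import Vale.Agent.P366.Stmt
import Vale.Agent.P366.Bdl.B1
import Mathlib.Analysis.Matrix.Order

/-! General comparison lemma for the null expansion of a surface touching a round sphere from
inside (any metric). -/

open MeasureTheory Metric Filter Topology Set
open scoped ContDiff ENNReal MatrixOrder

noncomputable section
namespace Vale.Agent.C92
open Vale.Agent.P366.Stmt

variable {n : ℕ}

/-! ### linear algebra: the tangential part of the inverse metric -/

/-- The tangential part of the inverse of a positive definite matrix is a Gram matrix of tangent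
vectors. -/
theorem tan_gram {M : Matrix (Fin n) (Fin n) ℝ} (hM : M.PosDef) (N ν : Fin n → ℝ)
    (c : ℝ) (hc : c = √(∑ i, ∑ j, M⁻¹ i j * N i * N j)) (hc0 : c ≠ 0)
    (hν : ∀ i, ν i = (∑ j, M⁻¹ i j * N j) / c) :
    ∃ V : Matrix (Fin n) (Fin n) ℝ, (∀ a, ∑ i, V a i * N i = 0) ∧
      ∀ i j, M⁻¹ i j - ν i * ν j = ∑ a, V a i * V a j := by
  have h0 : (0 : Matrix (Fin n) (Fin n) ℝ) ≤ M⁻¹ :=
    Matrix.nonneg_iff_posSemidef.2 hM.inv.posSemidef
  obtain ⟨B, hB⟩ := CStarAlgebra.nonneg_iff_eq_star_mul_self.1 h0
  have hB' : ∀ i j, M⁻¹ i j = ∑ a, B a i * B a j := by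
    intro i j
    rw [hB, Matrix.mul_apply]
    simp
  set u : Fin n → ℝ := fun a => ∑ i, B a i * N i with hu
  have hMN : ∀ i, ∑ j, M⁻¹ i j * N j = ∑ a, u a * B a i := by
    intro i
    simp only [hB', hu, Finset.sum_mul]
    rw [Finset.sum_comm]
    refine Finset.sum_congr rfl fun a _ => Finset.sum_congr rfl fun j _ => by ring
  have hsq : ∑ i, ∑ j, M⁻¹ i j * N i * N j = ∑ a, u a ^ 2 := by
    have h1 : ∀ i, ∑ j, M⁻¹ i j * N i * N j = N i * ∑ a, u a * B a i := by
      intro i
      rw [← hMN, Finset.mul_sum]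
      exact Finset.sum_congr rfl fun j _ => by ring
    simp only [h1, Finset.mul_sum]
    rw [Finset.sum_comm]
    refine Finset.sum_congr rfl fun a _ => ?_
    rw [sq]
    conv_rhs => rw [hu]
    simp only [Finset.mul_sum]
    refine Finset.sum_congr rfl fun i _ => ?_
    simp only [hu]
    ring
  have hcsq : c ^ 2 = ∑ a, u a ^ 2 := by
    rw [hc, hsq, Real.sq_sqrt (Finset.sum_nonneg fun a _ => sq_nonneg _)]
  set e : Fin n → ℝ := fun a => u a / c with he
  have he1 : ∑ a, e a ^ 2 = 1 := by
    simp only [he, div_pow]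
    rw [← Finset.sum_div, ← hcsq, div_self (pow_ne_zero 2 hc0)]
  have hνe : ∀ i, ν i = ∑ a, e a * B a i := by
    intro i
    rw [hν, hMN, Finset.sum_div]
    exact Finset.sum_congr rfl fun a _ => by simp only [he]; ring
  have hNν : ∑ i, ν i * N i = c := by
    have h1 : ∑ i, ν i * N i = (∑ a, u a ^ 2) / c := by
      simp only [hνe, Finset.sum_mul]
      rw [Finset.sum_comm, Finset.sum_div]
      refine Finset.sum_congr rfl fun a _ => ?_
      have : ∑ i, e a * B a i * N i = e a * u a := by
        simp only [hu, Finset.mul_sum]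
        exact Finset.sum_congr rfl fun i _ => by ring
      rw [this, he]
      ring
    rw [h1, ← hcsq]
    field_simp
  refine ⟨Matrix.of fun a i => B a i - e a * ν i, ?_, ?_⟩
  · intro a
    have h1 : ∑ i, (Matrix.of (fun a i => B a i - e a * ν i)) a i * N i
        = u a - e a * ∑ i, ν i * N i := by
      simp only [Matrix.of_apply, hu, Finset.mul_sum, ← Finset.sum_sub_distrib]
      exact Finset.sum_congr rfl fun i _ => by ring
    rw [h1, hNν]
    simp only [he]
    field_simp
    ring
  · intro i j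
    simp only [Matrix.of_apply]
    have h1 : ∀ a, (B a i - e a * ν i) * (B a j - e a * ν j) =
        B a i * B a j - ν j * (e a * B a i) - ν i * (e a * B a j) + ν i * ν j * e a ^ 2 :=
      fun a => by ring
    simp only [h1]
    rw [Finset.sum_add_distrib, Finset.sum_sub_distrib, Finset.sum_sub_distrib,
      ← Finset.mul_sum, ← Finset.mul_sum, ← Finset.mul_sum, he1, ← hνe, ← hνe, ← hB']
    ring

theorem trS_def (g T : Field n) (F : E n → ℝ) (x : E n) :
    trS g T F x = ∑ i, ∑ j, (up g i j x - nrm g F i x * nrm g F j x) * T x i j := by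
  have h1 : trS g T F x = (∑ i, ∑ j, up g i j x * T x i j) -
    ∑ i, ∑ j, T x i j * nrm g F i x * nrm g F j x := rfl
  rw [h1, ← Finset.sum_sub_distrib]
  refine Finset.sum_congr rfl fun i _ => ?_
  rw [← Finset.sum_sub_distrib]
  refine Finset.sum_congr rfl fun j _ => ?_
  ring

/-- The tangential trace of a tensor that is nonnegative on the tangent space is nonnegative. -/
theorem trS_nonneg {g T : Field n} {F : E n → ℝ} {x : E n} (hpd : (mat g x).PosDef)
    (hc : covNorm g (fun j => pd j F) x ≠ 0)
    (hT : ∀ v : Fin n → ℝ, ∑ i, v i * pd i F x = 0 → 0 ≤ ∑ i, ∑ j, T x i j * v i * v j) :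
    0 ≤ trS g T F x := by
  obtain ⟨V, hV1, hV2⟩ := tan_gram hpd (fun i => pd i F x) (fun i => nrm g F i x)
    (covNorm g (fun j => pd j F) x) rfl hc (fun i => rfl)
  have h1 : trS g T F x = ∑ a, ∑ i, ∑ j, T x i j * V a i * V a j := by
    rw [trS_def]
    have h2 : ∀ i j, (up g i j x - nrm g F i x * nrm g F j x) * T x i j
        = ∑ a, T x i j * V a i * V a j := by
      intro i j
      have h3 : up g i j x - nrm g F i x * nrm g F j x = ∑ a, V a i * V a j := hV2 i j
      rw [h3, Finset.sum_mul]
      exact Finset.sum_congr rfl fun a _ => by ring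
    simp only [h2]
    have h3 : ∀ i, ∑ j, ∑ a, T x i j * V a i * V a j = ∑ a, ∑ j, T x i j * V a i * V a j :=
      fun i => Finset.sum_comm
    simp only [h3]
    exact Finset.sum_comm
  rw [h1]
  exact Finset.sum_nonneg fun a _ => hT (fun i => V a i) (hV1 a)

/-- linearity of the tangential trace in the tensor -/
theorem trS_sub_smul (g T T' : Field n) (F : E n → ℝ) (c : ℝ) (x : E n) :
    trS g (fun y i j => T y i j - c * T' y i j) F x = trS g T F x - c * trS g T' F x := by
  simp only [trS_def, Finset.mul_sum, ← Finset.sum_sub_distrib]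
  refine Finset.sum_congr rfl fun i _ => Finset.sum_congr rfl fun j _ => ?_
  ring

/-- the normal only depends on the ray of the differential -/
theorem covNorm_smul {g : Field n} {w w' : Fin n → E n → ℝ} {x : E n} {c : ℝ} (hc : 0 ≤ c)
    (h : ∀ i, w i x = c * w' i x) : covNorm g w x = c * covNorm g w' x := by
  unfold covNorm
  have h1 : ∑ i, ∑ j, up g i j x * w i x * w j x =
      c ^ 2 * ∑ i, ∑ j, up g i j x * w' i x * w' j x := by
    simp only [Finset.mul_sum, h]
    refine Finset.sum_congr rfl fun i _ => Finset.sum_congr rfl fun j _ => ?_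
    ring
  rw [h1, Real.sqrt_mul (sq_nonneg c), Real.sqrt_sq hc]

theorem nrm_congr {g : Field n} {F F' : E n → ℝ} {x : E n} {c : ℝ} (hc : 0 < c)
    (h : ∀ i, pd i F x = c * pd i F' x) (i : Fin n) : nrm g F i x = nrm g F' i x := by
  unfold nrm
  rw [covNorm_smul (w := fun j => pd j F) (w' := fun j => pd j F') hc.le h]
  have h1 : ∑ j, up g i j x * pd j F x = c * ∑ j, up g i j x * pd j F' x := by
    rw [Finset.mul_sum]
    exact Finset.sum_congr rfl fun j _ => by rw [h]; ring
  rw [h1, mul_div_mul_left _ _ hc.ne']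

theorem trS_congr {g T : Field n} {F F' : E n → ℝ} {x : E n} {c : ℝ} (hc : 0 < c)
    (h : ∀ i, pd i F x = c * pd i F' x) : trS g T F x = trS g T F' x := by
  simp only [trS_def, nrm_congr hc h]

/-- positivity of the norm of a nonzero covector -/
theorem covNorm_pos {g : Field n} {w : Fin n → E n → ℝ} {x : E n} (hpd : (mat g x).PosDef)
    (hw : ∃ i, w i x ≠ 0) : 0 < covNorm g w x := by
  unfold covNorm
  apply Real.sqrt_pos.2
  have h1 := hpd.inv.dotProduct_mulVec_pos (x := fun i => w i x)
    (by intro h; obtain ⟨i, hi⟩ := hw; exact hi (congrFun h i))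
  have h2 : ∑ i, ∑ j, up g i j x * w i x * w j x =
      star (fun i => w i x) ⬝ᵥ ((mat g x)⁻¹).mulVec (fun i => w i x) := by
    simp only [dotProduct, Matrix.mulVec, Finset.mul_sum, star_trivial]
    refine Finset.sum_congr rfl fun i _ => Finset.sum_congr rfl fun j _ => ?_
    unfold up
    ring
  rw [h2]
  exact h1

end Vale.Agent.C92
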