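import Vale.Agent.P366.T2.C92a

open MeasureTheory Metric Filter Topology Set
open scoped ContDiff ENNReal MatrixOrder

noncomputable section
namespace Vale.Agent.C92
open Vale.Agent.P366.Stmt

variable {n : ℕ}

theorem pd_fderiv {f : E n → ℝ} {x : E n} (hf : DifferentiableAt ℝ f x) (i : Fin n) :
    pd i f x = fderiv ℝ f x (EuclideanSpace.single i 1) := hf.lineDeriv_eq_fderiv

theorem pd_fderiv' {f : E n → ℝ} (hf : Smooth f) (i : Fin n) :
    pd i f = fun x => fderiv ℝ f x (EuclideanSpace.single i 1) := by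
  funext x
  exact pd_fderiv (hf.differentiable (by norm_num) x) i

theorem pd_pd_fderiv {f : E n → ℝ} (hf : Smooth f) (i j : Fin n) (x : E n) :
    pd i (pd j f) x = fderiv ℝ (fderiv ℝ f) x (EuclideanSpace.single i 1)
      (EuclideanSpace.single j 1) := by
  rw [pd_fderiv' hf j]
  have h1 : ContDiff ℝ ∞ (fderiv ℝ f) := hf.fderiv_right (by norm_cast)
  have h2 : DifferentiableAt ℝ (fderiv ℝ f) x := h1.differentiable (by norm_num) x
  have h3 : DifferentiableAt ℝ (fun y => fderiv ℝ f y (EuclideanSpace.single j 1)) x :=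
    h2.clm_apply (differentiableAt_const _)
  rw [pd_fderiv h3, fderiv_clm_apply h2 (differentiableAt_const _)]
  simp

theorem pd_len {x : E n} (hx : x ≠ 0) (i : Fin n) : pd i len x = x i / len x := by
  rw [pd_fderiv (f := len) ((contDiffAt_norm ℝ hx (n := 1)).differentiableAt (by norm_num))]
  exact Vale.Agent.P366.pd_norm hx i

theorem pd_pd_len {x : E n} (hx : x ≠ 0) (i j : Fin n) :
    pd i (pd j len) x = ((if i = j then 1 else 0) - x i * x j / len x ^ 2) / len x := by
  have h1 : pd j len =ᶠ[𝓝 x] fun y => Vale.Agent.P366.Nc j y := by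
    filter_upwards [isOpen_ne.mem_nhds hx] with y hy
    rw [pd_len hy]; rfl
  have h2 : DifferentiableAt ℝ (Vale.Agent.P366.Nc j) x :=
    (Vale.Agent.P366.contDiffAt_Nc (m := 1) j hx).differentiableAt (by norm_num)
  have h3 : DifferentiableAt ℝ (pd j len) x := h2.congr_of_eventuallyEq h1
  rw [pd_fderiv h3, h1.fderiv_eq]
  have h4 := Vale.Agent.P366.pd_Nc hx i j
  unfold Vale.Agent.P366.pd at h4
  rw [h4]
  unfold Vale.Agent.P366.Nc len
  ring

/-- At a point where a surface lying inside the ball of radius `R` touches the sphere from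
inside, its null expansion is at least the null expansion of the sphere (any metric). -/
theorem theta_compare {g K : Field n} {F : E n → ℝ} (hF : Smooth F) {x0 : E n} {R : ℝ}
    (hR : 0 < R) (hx0 : len x0 = R) (hpd : (mat g x0).PosDef) (hne : ∃ i, pd i F x0 ≠ 0)
    (hmin : ∀ x, R ≤ len x → F x0 ≤ F x) :
    thetaPlus g K len x0 ≤ thetaPlus g K F x0 := by
  have hx00 : x0 ≠ 0 := by
    intro h
    rw [h] at hx0
    have : len (0 : E n) = 0 := norm_zero
    linarith
  have hn0 : ‖x0‖ = R := hx0
  have hFon : ContDiffOn ℝ ∞ F univ := ContDiff.contDiffOn hF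
  have hmin' : ∀ x ∈ (univ : Set (E n)), R ≤ ‖x‖ → F x0 ≤ F x := fun x _ hx => hmin x hx
  set μ := fderiv ℝ F x0 x0 with hμ
  have hgrad : ∀ v, fderiv ℝ F x0 v = μ / R ^ 2 * inner ℝ x0 v := fun v =>
    Vale.Agent.P366.grad_formula isOpen_univ hFon (mem_univ x0) hR hn0 hmin' v
  have hμ0 : 0 ≤ μ :=
    Vale.Agent.P366.grad_radial_nonneg isOpen_univ hFon (mem_univ x0) hR hn0 hmin'
  have hdF : DifferentiableAt ℝ F x0 := hF.differentiable (by norm_num) x0
  have hpdF : ∀ i, pd i F x0 = μ / R * (x0 i / R) := by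
    intro i
    rw [pd_fderiv hdF, hgrad, EuclideanSpace.inner_single_right]
    simp
    ring
  set lam := μ / R with hlam
  have hlam0 : 0 ≤ lam := div_nonneg hμ0 hR.le
  have hlam1 : lam ≠ 0 := by
    intro h
    obtain ⟨i, hi⟩ := hne
    apply hi
    rw [hpdF, h, zero_mul]
  have hlampos : 0 < lam := lt_of_le_of_ne hlam0 (Ne.symm hlam1)
  have hray : ∀ i, pd i F x0 = lam * pd i len x0 := by
    intro i
    rw [hpdF, pd_len hx00, hx0]
  have hcL : 0 < covNorm g (fun j => pd j len) x0 := by
    apply covNorm_pos hpd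
    obtain ⟨i, hi⟩ := hne
    refine ⟨i, fun h => hi ?_⟩
    have h' : pd i len x0 = 0 := h
    rw [hray, h', mul_zero]
  have hcF : covNorm g (fun j => pd j F) x0 = lam * covNorm g (fun j => pd j len) x0 :=
    covNorm_smul (w := fun j => pd j F) (w' := fun j => pd j len) hlam0 hray
  have htr : ∀ T : Field n, trS g T F x0 = trS g T len x0 := fun T => trS_congr hlampos hray
  -- difference of the Hessians
  have hT : 0 ≤ trS g (fun y i j => hess g F y i j - lam * hess g len y i j) len x0 := by
    refine trS_nonneg hpd hcL.ne' ?_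
    intro v hv
    have hv0 : ∑ i, v i * x0 i = 0 := by
      have h1 : ∑ i, v i * pd i len x0 = (∑ i, v i * x0 i) / R := by
        rw [Finset.sum_div]
        exact Finset.sum_congr rfl fun i _ => by rw [pd_len hx00, hx0]; ring
      rw [h1, div_eq_zero_iff] at hv
      exact hv.resolve_right hR.ne'
    set V : E n := WithLp.toLp 2 v with hV
    have hVi : ∀ i, V i = v i := fun i => rfl
    have horth : inner ℝ x0 V = 0 := by
      rw [PiLp.inner_apply]
      simp only [RCLike.inner_apply, conj_trivial]
      rw [← hv0]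
    have hnV : ‖V‖ ^ 2 = ∑ i, v i ^ 2 := by
      rw [EuclideanSpace.norm_sq_eq]
      simp only [hVi, Real.norm_eq_abs, sq_abs]
    have h2 := Vale.Agent.P366.hess_tangential isOpen_univ hFon (mem_univ x0) hR hn0 horth hmin'
    have hVsum : V = ∑ i, v i • (EuclideanSpace.single i (1 : ℝ) : E n) := by
      ext j
      simp [hV, WithLp.ofLp_sum, Pi.single_apply]
    have h3 : fderiv ℝ (fderiv ℝ F) x0 V V = ∑ i, ∑ j, pd i (pd j F) x0 * v i * v j := by
      have h4 : fderiv ℝ (fderiv ℝ F) x0 V V =
        fderiv ℝ (fderiv ℝ F) x0 (∑ i, v i • (EuclideanSpace.single i (1 : ℝ) : E n))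
          (∑ j, v j • (EuclideanSpace.single j (1 : ℝ) : E n)) := by rw [← hVsum]
      rw [h4]
      simp only [map_sum, map_smul, sum_apply, smul_apply, smul_eq_mul]
      rw [Finset.sum_comm]
      refine Finset.sum_congr rfl fun i _ => ?_
      rw [Finset.mul_sum]
      refine Finset.sum_congr rfl fun j _ => ?_
      rw [pd_pd_fderiv hF]
      ring
    have h5 : ∑ i, ∑ j, (hess g F x0 i j - lam * hess g len x0 i j) * v i * v j =
        (∑ i, ∑ j, pd i (pd j F) x0 * v i * v j) -
          lam * ∑ i, ∑ j, pd i (pd j len) x0 * v i * v j := by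
      rw [Finset.mul_sum, ← Finset.sum_sub_distrib]
      refine Finset.sum_congr rfl fun i _ => ?_
      rw [Finset.mul_sum, ← Finset.sum_sub_distrib]
      refine Finset.sum_congr rfl fun j _ => ?_
      unfold hess
      simp only [hray]
      rw [show ∑ k, chr g k i j x0 * (lam * pd k len x0) = lam * ∑ k, chr g k i j x0 * pd k len x0
        by rw [Finset.mul_sum]; exact Finset.sum_congr rfl fun k _ => by ring]
      ring
    have h6 : ∑ i, ∑ j, pd i (pd j len) x0 * v i * v j = (∑ i, v i ^ 2) / R := by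
      have h7 : ∀ i j, pd i (pd j len) x0 * v i * v j =
        (if i = j then v i * v j / R else 0) - (v i * x0 i) * (v j * x0 j) / R ^ 3 := by
        intro i j
        rw [pd_pd_len hx00, hx0]
        split_ifs
        · field_simp
        · field_simp
          ring
      simp only [h7, Finset.sum_sub_distrib, Finset.sum_ite_eq, Finset.mem_univ, if_true]
      have h8 : ∑ i, ∑ j, v i * x0 i * (v j * x0 j) / R ^ 3 = 0 := by
        have : ∀ i, ∑ j, v i * x0 i * (v j * x0 j) / R ^ 3 =
          (v i * x0 i) / R ^ 3 * ∑ j, v j * x0 j := by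
          intro i
          rw [Finset.mul_sum]
          exact Finset.sum_congr rfl fun j _ => by ring
        simp only [this, hv0, mul_zero, Finset.sum_const_zero]
      rw [h8, sub_zero, Finset.sum_div]
      exact Finset.sum_congr rfl fun i _ => by ring
    rw [h5, h6, ← h3]
    rw [hnV] at h2
    have h9 : lam * ((∑ i, v i ^ 2) / R) = (∑ i, v i ^ 2) / R ^ 2 * μ := by
      rw [hlam]; field_simp
    rw [h9]
    linarith
  rw [trS_sub_smul] at hT
  have h10 : lam * trS g (hess g len) len x0 ≤ trS g (hess g F) F x0 := by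
    rw [htr]
    linarith
  unfold thetaPlus
  rw [htr K, hcF]
  have h11 : trS g (hess g len) len x0 / covNorm g (fun j => pd j len) x0 =
      lam * trS g (hess g len) len x0 / (lam * covNorm g (fun j => pd j len) x0) := by
    rw [mul_div_mul_left _ _ hlampos.ne']
  rw [h11]
  have h12 : 0 < lam * covNorm g (fun j => pd j len) x0 := mul_pos hlampos hcL
  have := div_le_div_of_nonneg_right h10 h12.le
  linarith

end Vale.Agent.C92
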