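import Vale.Agent.P366.T2.C92b

/-! Null expansion of the centred spheres for a metric `g` with `g x = p x` (radial gauge). -/

open MeasureTheory Metric Filter Topology Set
open scoped ContDiff ENNReal MatrixOrder

noncomputable section
namespace Vale.Agent.C92
open Vale.Agent.P366.Stmt

variable {n : ℕ}

theorem fderiv_zero_outside {w : E n → ℝ} {x : E n} {R : ℝ} (hx : R ≤ len x)
    (hw : DifferentiableAt ℝ w x) (h : ∀ y, R ≤ len y → w y = 0) {d : E n}
    (hd : 0 ≤ inner ℝ x d) : fderiv ℝ w x d = 0 := by
  set γ : ℝ → E n := fun t => x + t • d with hγ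
  have hγd : HasDerivAt γ d 0 := by
    exact (((hasDerivAt_id (0 : ℝ)).smul_const d).const_add x).congr_deriv (one_smul _ _)
  have hγ0 : γ 0 = x := by simp [hγ]
  have hw' : HasFDerivAt w (fderiv ℝ w x) (γ 0) := by rw [hγ0]; exact hw.hasFDerivAt
  have h1 := (hw'.comp_hasDerivAt 0 hγd).hasDerivWithinAt (s := Ici (0 : ℝ))
  have hnorm : ∀ t, 0 ≤ t → R ≤ len (γ t) := by
    intro t ht
    have h2 : ‖γ t‖ ^ 2 = ‖x‖ ^ 2 + 2 * (t * inner ℝ x d) + t ^ 2 * ‖d‖ ^ 2 := by
      rw [hγ]
      simp only
      rw [@norm_add_sq_real, inner_smul_right, norm_smul]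
      simp only [Real.norm_eq_abs, mul_pow, sq_abs]
    have h3 : ‖x‖ ^ 2 ≤ ‖γ t‖ ^ 2 := by
      rw [h2]
      have := mul_nonneg ht hd
      nlinarith [sq_nonneg (t * ‖d‖)]
    have h4 : ‖x‖ ≤ ‖γ t‖ := (abs_le_of_sq_le_sq' h3 (norm_nonneg _)).2
    exact hx.trans h4
  have h2 : HasDerivWithinAt (w ∘ γ) 0 (Ici (0 : ℝ)) 0 := by
    refine (hasDerivWithinAt_const (0 : ℝ) (Ici (0 : ℝ)) (0 : ℝ)).congr ?_ ?_
    · intro t ht
      exact h _ (hnorm t ht)
    · exact h _ (hnorm 0 le_rfl)
  exact (uniqueDiffWithinAt_Ici 0).eq_deriv _ h1 h2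

theorem pd_congr_outside {u v : E n → ℝ} {x : E n} {R : ℝ} (hx : R ≤ len x)
    (hu : DifferentiableAt ℝ u x) (hv : DifferentiableAt ℝ v x)
    (h : ∀ y, R ≤ len y → u y = v y) (i : Fin n) : pd i u x = pd i v x := by
  rw [pd_fderiv hu, pd_fderiv hv]
  have hw : DifferentiableAt ℝ (fun y => u y - v y) x := hu.sub hv
  have hz : ∀ y, R ≤ len y → (fun y => u y - v y) y = 0 := fun y hy => by
    simp only [h y hy, sub_self]
  have h1 : ∀ d, fderiv ℝ (fun y => u y - v y) x d = fderiv ℝ u x d - fderiv ℝ v x d := by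
    intro d
    rw [fderiv_fun_sub hu hv]
    rfl
  rcases le_total 0 (inner ℝ x (EuclideanSpace.single i (1 : ℝ))) with h0 | h0
  · have := fderiv_zero_outside hx hw hz h0
    rw [h1] at this
    linarith
  · have h0' : 0 ≤ inner ℝ x (-(EuclideanSpace.single i (1 : ℝ)) : E n) := by
      rw [inner_neg_right]; linarith
    have := fderiv_zero_outside hx hw hz h0'
    rw [h1, map_neg, map_neg] at this
    linarith

/-- the radial derivative of a tensor field -/
def Dr (g : Field n) : Field n := fun y i j => ∑ l, y l / len y * pd l (fun z => g z i j) y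

theorem sum_mul_self (x : E n) : ∑ i, x i * x i = len x ^ 2 := by
  unfold len
  rw [EuclideanSpace.norm_sq_eq]
  exact Finset.sum_congr rfl fun i _ => by rw [Real.norm_eq_abs, sq_abs]; ring

theorem diff_coord (j : Fin n) (x : E n) : DifferentiableAt ℝ (fun y : E n => y j) x :=
  ((EuclideanSpace.proj (𝕜 := ℝ) j).contDiff.contDiffAt (n := 1)).differentiableAt (by norm_num)

theorem pd_coord (i j : Fin n) (x : E n) :
    pd i (fun y : E n => y j) x = if i = j then 1 else 0 := by
  rw [pd_fderiv (diff_coord j x)]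
  exact Vale.Agent.P366.pd_coord i j x

theorem pd_mul {f h : E n → ℝ} {x : E n} (hf : DifferentiableAt ℝ f x)
    (hh : DifferentiableAt ℝ h x) (i : Fin n) :
    pd i (fun y => f y * h y) x = pd i f x * h x + f x * pd i h x := by
  rw [pd_fderiv (hf.fun_mul hh), pd_fderiv hf, pd_fderiv hh, fderiv_fun_mul hf hh]
  simp
  ring

theorem pd_sum {ι : Type*} (s : Finset ι) {f : ι → E n → ℝ} {x : E n}
    (hf : ∀ k ∈ s, DifferentiableAt ℝ (f k) x) (i : Fin n) :
    pd i (fun y => ∑ k ∈ s, f k y) x = ∑ k ∈ s, pd i (f k) x := by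
  rw [pd_fderiv (DifferentiableAt.fun_sum hf), fderiv_fun_sum hf]
  simp only [sum_apply]
  exact Finset.sum_congr rfl fun k hk => (pd_fderiv (hf k hk) i).symm

theorem diff_radial {f : ℝ → ℝ} {x : E n} (hx : x ≠ 0) (hf : DifferentiableAt ℝ f (len x)) :
    DifferentiableAt ℝ (fun y : E n => f (len y)) x := by
  have h1 : DifferentiableAt ℝ (len : E n → ℝ) x :=
    (contDiffAt_norm ℝ hx (n := 1)).differentiableAt (by norm_num)
  exact DifferentiableAt.comp (g := f) (f := len) x hf h1

theorem pd_radial {f : ℝ → ℝ} {x : E n} (hx : x ≠ 0) (hf : DifferentiableAt ℝ f (len x))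
    (i : Fin n) : pd i (fun y => f (len y)) x = deriv f (len x) * (x i / len x) := by
  rw [pd_fderiv (diff_radial hx hf)]
  exact Vale.Agent.P366.pd_radial hx hf i

/-- Hypotheses: a symmetric positive definite metric in radial gauge outside a ball. -/
structure Gauge (g : Field n) (p : ℝ → ℝ) (R : ℝ) : Prop where
  hR : 0 < R
  smooth : ∀ i j, Smooth (fun y => g y i j)
  symm : ∀ y, R ≤ len y → ∀ i j, g y i j = g y j i
  pos : ∀ y, R ≤ len y → (mat g y).PosDef
  p_diff : ∀ r, R ≤ r → DifferentiableAt ℝ p r
  gx : ∀ y, R ≤ len y → ∀ i, ∑ j, g y i j * y j = p (len y) * y i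

namespace Gauge

variable {g : Field n} {p : ℝ → ℝ} {R : ℝ} (G : Gauge g p R)
include G

theorem ne_zero {x : E n} (hx : R ≤ len x) : x ≠ 0 := by
  intro h
  have := G.hR
  rw [h] at hx
  have h0 : len (0 : E n) = 0 := norm_zero
  linarith

theorem len_pos {x : E n} (hx : R ≤ len x) : 0 < len x := lt_of_lt_of_le G.hR hx

theorem p_pos {x : E n} (hx : R ≤ len x) : 0 < p (len x) := by
  have h0 := G.ne_zero hx
  have hr := G.len_pos hx
  have h1 := (G.pos x hx).dotProduct_mulVec_pos (x := fun i => x i)
    (by intro h; apply h0; ext i; exact congrFun h i)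
  have h2 : star (fun i => x i) ⬝ᵥ (mat g x).mulVec (fun i => x i) = p (len x) * len x ^ 2 := by
    simp only [dotProduct, Matrix.mulVec, star_trivial]
    rw [← sum_mul_self, Finset.mul_sum]
    refine Finset.sum_congr rfl fun i _ => ?_
    have : ∑ j, mat g x i j * x j = p (len x) * x i := G.gx x hx i
    rw [this]; ring
  rw [h2] at h1
  have h3 : 0 < len x ^ 2 := by positivity
  exact pos_of_mul_pos_left h1 h3.le

theorem up_symm {x : E n} (hx : R ≤ len x) (i j : Fin n) : up g i j x = up g j i x := by
  have h1 : (mat g x).transpose = mat g x := by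
    ext i j; exact G.symm x hx j i
  have h2 : ((mat g x)⁻¹).transpose = (mat g x)⁻¹ := by
    rw [Matrix.transpose_nonsing_inv, h1]
  have := congrFun (congrFun h2 j) i
  exact this

theorem up_g {x : E n} (hx : R ≤ len x) (i k : Fin n) :
    ∑ j, up g i j x * g x j k = if i = k then 1 else 0 := by
  have h := Matrix.nonsing_inv_mul (mat g x) (isUnit_iff_ne_zero.2 (G.pos x hx).det_pos.ne')
  have := congrFun (congrFun h i) k
  rw [Matrix.mul_apply, Matrix.one_apply] at this
  exact this

theorem up_x {x : E n} (hx : R ≤ len x) (i : Fin n) :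
    ∑ j, up g i j x * x j = x i / p (len x) := by
  have hp := (G.p_pos hx).ne'
  have h1 : p (len x) * ∑ j, up g i j x * x j = x i := by
    have h2 : ∀ j, p (len x) * (up g i j x * x j) = ∑ k, up g i j x * g x j k * x k := by
      intro j
      have := G.gx x hx j
      rw [show p (len x) * (up g i j x * x j) = up g i j x * (p (len x) * x j) by ring, ← this,
        Finset.mul_sum]
      exact Finset.sum_congr rfl fun k _ => by ring
    rw [Finset.mul_sum]
    simp only [h2]
    rw [Finset.sum_comm]
    simp only [← Finset.sum_mul, G.up_g hx]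
    simp
  field_simp
  linarith

theorem cov_len {x : E n} (hx : R ≤ len x) :
    covNorm g (fun j => pd j len) x = 1 / √(p (len x)) := by
  have hp := G.p_pos hx
  have hr := G.len_pos hx
  have h0 := G.ne_zero hx
  unfold covNorm
  have h1 : ∑ i, ∑ j, up g i j x * pd i len x * pd j len x = 1 / p (len x) := by
    have h2 : ∀ i, ∑ j, up g i j x * pd i len x * pd j len x =
        x i * x i / (p (len x) * len x ^ 2) := by
      intro i
      have h3 : ∑ j, up g i j x * pd i len x * pd j len x =
        x i / len x ^ 2 * ∑ j, up g i j x * x j := by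
        rw [Finset.mul_sum]
        refine Finset.sum_congr rfl fun j _ => ?_
        rw [pd_len h0, pd_len h0]
        field_simp
      rw [h3, G.up_x hx]
      field_simp
    simp only [h2, ← Finset.sum_div, sum_mul_self]
    field_simp
  rw [h1, Real.sqrt_div zero_le_one, Real.sqrt_one]

theorem nrm_len {x : E n} (hx : R ≤ len x) (i : Fin n) :
    nrm g len i x = x i / (len x * √(p (len x))) := by
  have hp := G.p_pos hx
  have hr := G.len_pos hx
  have h0 := G.ne_zero hx
  unfold nrm
  have h3 : ∑ j, up g i j x * pd j len x = x i / (p (len x) * len x) := by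
    have h4 : ∑ j, up g i j x * pd j len x = (∑ j, up g i j x * x j) / len x := by
      rw [Finset.sum_div]
      refine Finset.sum_congr rfl fun j _ => ?_
      rw [pd_len h0]; ring
    rw [h4, G.up_x hx]
    field_simp
  rw [h3, G.cov_len hx]
  have hs : 0 < √(p (len x)) := Real.sqrt_pos.2 hp
  have hs2 : √(p (len x)) ^ 2 = p (len x) := Real.sq_sqrt hp.le
  field_simp
  rw [hs2]

theorem trS_len {x : E n} (hx : R ≤ len x) (T : Field n) :
    trS g T len x = ∑ i, ∑ j, (up g i j x - x i * x j / (p (len x) * len x ^ 2)) * T x i j := by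
  rw [trS_def]
  have hp := G.p_pos hx
  have hr := G.len_pos hx
  have hs2 : √(p (len x)) ^ 2 = p (len x) := Real.sq_sqrt hp.le
  have hs : 0 < √(p (len x)) := Real.sqrt_pos.2 hp
  refine Finset.sum_congr rfl fun i _ => Finset.sum_congr rfl fun j _ => ?_
  rw [G.nrm_len hx, G.nrm_len hx]
  have : x i / (len x * √(p (len x))) * (x j / (len x * √(p (len x)))) =
      x i * x j / (√(p (len x)) ^ 2 * len x ^ 2) := by field_simp
  rw [this, hs2]

theorem diff_g (x : E n) (i j : Fin n) : DifferentiableAt ℝ (fun y => g y i j) x :=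
  (G.smooth i j).differentiable (by norm_num) x

/-- derivative of `g x = p x` -/
theorem dgx {x : E n} (hx : R ≤ len x) (i j : Fin n) :
    ∑ l, pd i (fun y => g y j l) x * x l =
      deriv p (len x) * (x i / len x) * x j + p (len x) * (if i = j then 1 else 0) - g x j i := by
  have h0 := G.ne_zero hx
  have hpd := G.p_diff (len x) hx
  have hd1 : ∀ l, DifferentiableAt ℝ (fun y : E n => g y j l * y l) x :=
    fun l => (G.diff_g x j l).mul (diff_coord l x)
  have h1 := pd_congr_outside hx (u := fun y => ∑ l, g y j l * y l)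
    (v := fun y => p (len y) * y j) (DifferentiableAt.fun_sum fun l _ => hd1 l)
    ((diff_radial h0 hpd).mul (diff_coord j x)) (fun y hy => G.gx y hy j) i
  rw [pd_sum _ (fun l _ => hd1 l), pd_mul (diff_radial h0 hpd) (diff_coord j x),
    pd_radial h0 hpd, pd_coord] at h1
  have h2 : ∀ l, pd i (fun y => g y j l * y l) x = pd i (fun y => g y j l) x * x l +
      g x j l * (if i = l then 1 else 0) := by
    intro l
    rw [pd_mul (G.diff_g x j l) (diff_coord l x), pd_coord]
  simp only [h2, Finset.sum_add_distrib] at h1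
  have h3 : ∑ l, g x j l * (if i = l then (1 : ℝ) else 0) = g x j i := by simp
  rw [h3] at h1
  linarith

/-- the covariant Hessian of the length -/
theorem hess_len {x : E n} (hx : R ≤ len x) (i j : Fin n) :
    hess g len x i j = - (1 / len x + deriv p (len x) / p (len x)) * (x i * x j / len x ^ 2) +
      g x i j / (len x * p (len x)) + Dr g x i j / (2 * p (len x)) := by
  have h0 := G.ne_zero hx
  have hp := G.p_pos hx
  have hr := G.len_pos hx
  have h1 : ∑ k, chr g k i j x * pd k len x = (1 / (2 * p (len x) * len x)) *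
      ∑ l, x l * (pd i (fun y => g y j l) x + pd j (fun y => g y i l) x
        - pd l (fun y => g y i j) x) := by
    unfold chr
    have h2 : ∀ k, (∑ l, up g k l x * (pd i (fun y => g y j l) x + pd j (fun y => g y i l) x
        - pd l (fun y => g y i j) x)) / 2 * pd k len x =
        ∑ l, (1 / (2 * len x)) * (up g l k x * x k * (pd i (fun y => g y j l) x +
          pd j (fun y => g y i l) x - pd l (fun y => g y i j) x)) := by
      intro k
      rw [Finset.sum_div, Finset.sum_mul]
      refine Finset.sum_congr rfl fun l _ => ?_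
      rw [pd_len h0, G.up_symm hx k l]
      field_simp
    simp only [h2]
    rw [Finset.sum_comm, Finset.mul_sum]
    refine Finset.sum_congr rfl fun l _ => ?_
    rw [← Finset.mul_sum, ← Finset.sum_mul, G.up_x hx]
    field_simp
  have h5 : ∑ l, x l * (pd i (fun y => g y j l) x + pd j (fun y => g y i l) x
        - pd l (fun y => g y i j) x) =
      (∑ l, pd i (fun y => g y j l) x * x l) + (∑ l, pd j (fun y => g y i l) x * x l) -
      len x * Dr g x i j := by
    unfold Dr
    rw [Finset.mul_sum, ← Finset.sum_add_distrib, ← Finset.sum_sub_distrib]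
    refine Finset.sum_congr rfl fun l _ => ?_
    field_simp
  unfold hess
  rw [h1, h5, G.dgx hx, G.dgx hx, pd_pd_len h0, G.symm x hx j i]
  by_cases hij : i = j
  · subst hij
    simp only [if_true]
    field_simp
    ring
  · simp only [hij, Ne.symm hij, if_false]
    field_simp
    ring

theorem trS_xx {x : E n} (hx : R ≤ len x) (c : ℝ) :
    ∑ i, ∑ j, (up g i j x - x i * x j / (p (len x) * len x ^ 2)) * (c * (x i * x j)) = 0 := by
  have hp := G.p_pos hx
  have hr := G.len_pos hx
  have h1 : ∀ i, ∑ j, (up g i j x - x i * x j / (p (len x) * len x ^ 2)) * (c * (x i * x j)) =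
      c * x i * (∑ j, up g i j x * x j) - c * x i * x i / (p (len x) * len x ^ 2) *
        ∑ j, x j * x j := by
    intro i
    rw [Finset.mul_sum, Finset.mul_sum, ← Finset.sum_sub_distrib]
    exact Finset.sum_congr rfl fun j _ => by ring
  simp only [h1, G.up_x hx, sum_mul_self]
  refine Finset.sum_eq_zero fun i _ => ?_
  field_simp
  ring

theorem trS_g {x : E n} (hx : R ≤ len x) :
    ∑ i, ∑ j, (up g i j x - x i * x j / (p (len x) * len x ^ 2)) * g x i j = (n : ℝ) - 1 := by
  have hp := G.p_pos hx
  have hr := G.len_pos hx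
  have h1 : ∀ i, ∑ j, (up g i j x - x i * x j / (p (len x) * len x ^ 2)) * g x i j =
      (∑ j, up g i j x * g x j i) - x i / (p (len x) * len x ^ 2) * ∑ j, g x i j * x j := by
    intro i
    rw [Finset.mul_sum, ← Finset.sum_sub_distrib]
    refine Finset.sum_congr rfl fun j _ => ?_
    rw [G.symm x hx j i]
    ring
  simp only [h1, G.up_g hx, G.gx x hx, Finset.sum_sub_distrib, if_true]
  have h2 : ∑ i, x i / (p (len x) * len x ^ 2) * (p (len x) * x i) =
      (∑ i, x i * x i) / len x ^ 2 := by
    rw [Finset.sum_div]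
    refine Finset.sum_congr rfl fun i _ => ?_
    field_simp
  rw [h2, sum_mul_self, div_self (pow_ne_zero 2 hr.ne')]
  simp

/-- **Null expansion of the centred spheres in radial gauge.** -/
theorem theta_len {K : Field n} {x : E n} (hx : R ≤ len x) :
    thetaPlus g K len x = (((n : ℝ) - 1) / len x + trS g (Dr g) len x / 2) / √(p (len x)) +
      trS g K len x := by
  have hp := G.p_pos hx
  have hr := G.len_pos hx
  unfold thetaPlus
  rw [G.cov_len hx]
  have h1 : trS g (hess g len) len x =
      (((n : ℝ) - 1) / len x + trS g (Dr g) len x / 2) / p (len x) := by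
    rw [G.trS_len hx (hess g len), G.trS_len hx (Dr g)]
    have h2 : ∀ i j, (up g i j x - x i * x j / (p (len x) * len x ^ 2)) * hess g len x i j =
        (up g i j x - x i * x j / (p (len x) * len x ^ 2)) *
          ((- (1 / len x + deriv p (len x) / p (len x)) / len x ^ 2) * (x i * x j)) +
        (1 / (len x * p (len x))) *
          ((up g i j x - x i * x j / (p (len x) * len x ^ 2)) * g x i j) +
        (1 / (2 * p (len x))) *
          ((up g i j x - x i * x j / (p (len x) * len x ^ 2)) * Dr g x i j) := by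
      intro i j
      rw [G.hess_len hx]
      ring
    simp only [h2, Finset.sum_add_distrib, ← Finset.mul_sum]
    rw [G.trS_xx hx, G.trS_g hx]
    field_simp
    ring
  rw [h1]
  have hs : 0 < √(p (len x)) := Real.sqrt_pos.2 hp
  have hs2 : √(p (len x)) ^ 2 = p (len x) := Real.sq_sqrt hp.le
  congr 1
  rw [div_div_eq_mul_div, div_one]
  conv_lhs => rw [← hs2]
  rw [Real.sqrt_sq hs.le]
  field_simp

end Gauge

end Vale.Agent.C92
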