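import Vale.Agent.P366.T2.C92c

/-! Radial derivatives of tensors that are homogeneous of degree 0 up to radial coefficients, and
the general form of the touching argument. -/

open MeasureTheory Metric Filter Topology Set
open scoped ContDiff ENNReal MatrixOrder

noncomputable section
namespace Vale.Agent.C92
open Vale.Agent.P366.Stmt

variable {n : ℕ}

theorem sum_pd_mul {f : E n → ℝ} {x : E n} (hf : DifferentiableAt ℝ f x) (v : E n) :
    ∑ l, v l * pd l f x = fderiv ℝ f x v := by
  have hsum : v = ∑ l, v l • (EuclideanSpace.single l (1 : ℝ) : E n) := by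
    ext j
    simp [WithLp.ofLp_sum, Pi.single_apply]
  conv_rhs => rw [hsum]
  simp only [map_sum, map_smul, smul_eq_mul]
  exact Finset.sum_congr rfl fun l _ => by rw [pd_fderiv hf]

/-- the radial derivative computed by scaling outwards -/
theorem Dr_eq_of_scale {g : Field n} {x : E n} (hx : 0 < len x) {i j : Fin n}
    (hd : DifferentiableAt ℝ (fun y => g y i j) x) {φ : ℝ → ℝ} {φ' : ℝ}
    (hφ : HasDerivAt φ φ' (len x))
    (h : ∀ t : ℝ, 1 ≤ t → g (t • x) i j = φ (t * len x)) : Dr g x i j = φ' := by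
  have h1 : Dr g x i j = fderiv ℝ (fun y => g y i j) x x / len x := by
    unfold Dr
    rw [← sum_pd_mul hd, Finset.sum_div]
    exact Finset.sum_congr rfl fun l _ => by ring
  set γ : ℝ → E n := fun t => t • x with hγ
  have hγd : HasDerivAt γ x 1 := by
    exact ((hasDerivAt_id (1 : ℝ)).smul_const x).congr_deriv (one_smul _ _)
  have hγ1 : γ 1 = x := by simp [hγ]
  have hw' : HasFDerivAt (fun y => g y i j) (fderiv ℝ (fun y => g y i j) x) (γ 1) := by
    rw [hγ1]; exact hd.hasFDerivAt
  have h2 := (hw'.comp_hasDerivAt 1 hγd).hasDerivWithinAt (s := Ici (1 : ℝ))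
  have h3 : HasDerivAt (fun t : ℝ => φ (t * len x)) (φ' * len x) 1 := by
    have h4 : HasDerivAt (fun t : ℝ => t * len x) (len x) 1 := by
      simpa using (hasDerivAt_id (1 : ℝ)).mul_const (len x)
    have h5 : HasDerivAt φ φ' (1 * len x) := by rw [one_mul]; exact hφ
    exact HasDerivAt.comp (1 : ℝ) h5 h4
  have h6 : HasDerivWithinAt ((fun y => g y i j) ∘ γ) (φ' * len x) (Ici (1 : ℝ)) 1 := by
    refine h3.hasDerivWithinAt.congr ?_ ?_
    · intro t ht
      exact h t ht
    · exact h 1 le_rfl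
  have h7 := (uniqueDiffWithinAt_Ici 1).eq_deriv _ h2 h6
  rw [h1, h7]
  field_simp

theorem len_smul {x : E n} {t : ℝ} (ht : 0 ≤ t) : len (t • x) = t * len x := by
  unfold len
  rw [norm_smul, Real.norm_eq_abs, abs_of_nonneg ht]

/-- everything outside the smallest centred ball containing the boundary lies in the exterior -/
theorem outside_nonneg (hn : 2 ≤ n) (X : Exterior n) {R : ℝ}
    (hR : IsGreatest {r | ∃ x, X.F x = 0 ∧ len x = r} R) : ∀ x, R ≤ len x → 0 ≤ X.F x := by
  have h := Vale.Agent.P366.Bridge.raw_R1 X hR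
  have := (Vale.Agent.P366.Bridge.toRaw X).outside_closed_subset hn h
  intro x hx
  exact this hx

/-- **The touching argument** for any metric in radial gauge outside the smallest centred ball
containing the boundary. -/
theorem touch_general (hn : 2 ≤ n) {X : Exterior n} {p : ℝ → ℝ} {R : ℝ} (hR0 : 0 < R)
    (hT : X.Trapped) (hR : IsGreatest {r | ∃ x, X.F x = 0 ∧ len x = r} R)
    (hp : ∀ r, R ≤ r → DifferentiableAt ℝ p r)
    (hgx : ∀ y, R ≤ len y → ∀ i, ∑ j, X.g y i j * y j = p (len y) * y i) :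
    ∃ x0, len x0 = R ∧
      (((n : ℝ) - 1) / R + trS X.g (Dr X.g) len x0 / 2) / √(p R) + trS X.g X.K len x0 ≤ 0 := by
  have hout := outside_nonneg hn X hR
  have G : Gauge X.g p R := ⟨hR0, fun i j => (X.smooth i j).1, fun y _ i j => (X.symm y i j).1,
    fun y hy => X.pos y (hout y hy), hp, hgx⟩
  obtain ⟨x0, hF0, hx0⟩ := hR.1
  refine ⟨x0, hx0, ?_⟩
  have h1 := theta_compare (g := X.g) (K := X.K) X.dom.1 hR0 hx0 (X.pos x0 hF0.ge)
    (X.dom.2.1 x0 hF0) (fun x hx => by rw [hF0]; exact hout x hx)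
  have h2 := hT x0 hF0
  have h3 := G.theta_len (K := X.K) hx0.ge
  rw [hx0] at h3
  rw [← h3]
  exact h1.trans h2

end Vale.Agent.C92
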