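import Vale.Agent.P366.T2.QuatDef

open MeasureTheory Metric Filter Topology Set
open scoped ContDiff ENNReal

noncomputable section
namespace Vale.Agent.P366.T2
open Vale.Agent.P366.Stmt

variable {n : ℕ}

/-- The `Sp(m)`-invariant symmetric 2-tensor with horizontal coefficient `f`, radial coefficient
`u`, mixed coefficients `w` and fibre coefficients `s` (with respect to the unit vectors
`x / |x|`, `J_a x / |x|`). -/
def Quat.ten (Q : Quat n) (f u : ℝ → ℝ) (w : Fin 3 → ℝ → ℝ) (s : Fin 3 → Fin 3 → ℝ → ℝ)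
    (x : E n) (i j : Fin n) : ℝ :=
  f (len x) * ((if i = j then 1 else 0) - (x i * x j + ∑ a, Q.Y a x i * Q.Y a x j) / len x ^ 2) +
    (u (len x) * x i * x j + ∑ a, w a (len x) * (x i * Q.Y a x j + Q.Y a x i * x j) +
      ∑ a, ∑ b, s a b (len x) * Q.Y a x i * Q.Y b x j) / len x ^ 2

/-- Coefficient functions of `Sp(m)`-invariant data. -/
structure Data (n : ℕ) where
  Q : Quat n
  R : ℝ
  hR : 0 < R
  al : ℝ → ℝ
  p : ℝ → ℝ
  q : Fin 3 → Fin 3 → ℝ → ℝ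
  ka : ℝ → ℝ
  kn : ℝ → ℝ
  v : Fin 3 → ℝ → ℝ
  s : Fin 3 → Fin 3 → ℝ → ℝ
  al_smooth : ContDiff ℝ ∞ al
  p_smooth : ContDiff ℝ ∞ p
  q_smooth : ∀ a b, ContDiff ℝ ∞ (q a b)
  ka_smooth : ContDiff ℝ ∞ ka
  kn_smooth : ContDiff ℝ ∞ kn
  v_smooth : ∀ a, ContDiff ℝ ∞ (v a)
  s_smooth : ∀ a b, ContDiff ℝ ∞ (s a b)
  q_symm : ∀ a b, q a b = q b a
  s_symm : ∀ a b, s a b = s b a
  al_pos : ∀ r, R ≤ r → 0 < al r
  p_pos : ∀ r, R ≤ r → 0 < p r
  q_pos : ∀ r, R ≤ r → (Matrix.of fun a b => q a b r).PosDef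

/-- The fields `g`, `K` are smooth and given by the coefficient functions on `R ≤ |x|`. -/
structure Fits (D : Data n) (g K : Field n) : Prop where
  smooth : ∀ i j, Smooth (fun x => g x i j) ∧ Smooth (fun x => K x i j)
  hg : ∀ x, D.R ≤ len x → ∀ i j, g x i j = D.Q.ten D.al D.p (fun _ _ => 0) D.q x i j
  hK : ∀ x, D.R ≤ len x → ∀ i j, K x i j = D.Q.ten D.ka D.kn D.v D.s x i j

namespace Data

variable (D : Data n)

/-- dimension of the base -/
def b (_D : Data n) : ℝ := (n : ℝ) - 4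

/-- lapse -/
def c (r : ℝ) : ℝ := √(D.p r)

/-- squared scale of the base of the sphere of coordinate radius `r` -/
def Yh (r : ℝ) : ℝ := r ^ 2 * D.al r

/-- fibre metric of the sphere of coordinate radius `r` -/
def qh (r : ℝ) : Matrix (Fin 3) (Fin 3) ℝ := Matrix.of fun a b => r ^ 2 * D.q a b r

def yb (r : ℝ) : ℝ := deriv D.Yh r / (2 * D.Yh r)

def A (r : ℝ) : Matrix (Fin 3) (Fin 3) ℝ :=
  (1 / 2 : ℝ) • ((D.qh r)⁻¹ * Matrix.of fun a b => deriv (fun t => t ^ 2 * D.q a b t) r)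

/-- mean curvature of the sphere of coordinate radius `r` -/
def H (r : ℝ) : ℝ := (D.b * D.yb r + (D.A r).trace) / D.c r

/-- squared norm of the second fundamental form -/
def II2 (r : ℝ) : ℝ := (D.b * D.yb r ^ 2 + (D.A r * D.A r).trace) / D.p r

/-- scalar curvature of the sphere of coordinate radius `r` -/
def Rh (r : ℝ) : ℝ :=
  2 * ((D.qh r).trace ^ 2 - 2 * (D.qh r * D.qh r).trace) / (D.qh r).det +
    D.b * (D.b + 8) / D.Yh r - D.b * (D.qh r).trace / D.Yh r ^ 2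

/-- fibre block of `K` with one index raised -/
def S (r : ℝ) : Matrix (Fin 3) (Fin 3) ℝ :=
  (Matrix.of fun a b => D.q a b r)⁻¹ * Matrix.of fun a b => D.s a b r

/-- trace of `K` over the sphere -/
def k (r : ℝ) : ℝ := D.b * (D.ka r / D.al r) + (D.S r).trace

/-- `K(ν, ν)` -/
def KN (r : ℝ) : ℝ := D.kn r / D.p r

def KS2 (r : ℝ) : ℝ := D.b * (D.ka r / D.al r) ^ 2 + (D.S r * D.S r).trace

def IIK (r : ℝ) : ℝ := (D.b * D.yb r * (D.ka r / D.al r) + (D.A r * D.S r).trace) / D.c r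

def be2 (r : ℝ) : ℝ :=
  (∑ a, ∑ b, (Matrix.of fun a b => D.q a b r)⁻¹ a b * D.v a r * D.v b r) / D.p r

/-- scalar curvature of `g` -/
def Rg (r : ℝ) : ℝ := D.Rh r - D.II2 r - D.H r ^ 2 - 2 * deriv D.H r / D.c r

/-- energy density -/
def mu (r : ℝ) : ℝ := (D.Rg r + D.k r ^ 2 + 2 * D.k r * D.KN r - D.KS2 r - 2 * D.be2 r) / 2

/-- radial momentum density -/
def JN (r : ℝ) : ℝ := D.H r * D.KN r - D.IIK r - deriv D.k r / D.c r

/-- `ρ ^ (n - 1)`, the area of the sphere divided by `ω` -/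
def ar (r : ℝ) : ℝ := √(D.qh r).det * (D.Yh r) ^ (D.b / 2)

/-- area radius -/
def rho (r : ℝ) : ℝ := (D.ar r) ^ (1 / ((n : ℝ) - 1))

/-- Dirac eigenvalue (super-potential) of the sphere -/
def lam (r : ℝ) : ℝ :=
  (D.qh r).trace / (2 * √(D.qh r).det) +
    D.b / 4 * (((D.qh r).det) ^ (-(1 / 6 : ℝ)) + ((D.qh r).det) ^ (1 / 6 : ℝ) / D.Yh r)

/-- twice the modified Hawking mass -/
def mass (r : ℝ) : ℝ := D.rho r ^ ((n : ℝ) - 2) * (1 - (D.H r ^ 2 - D.k r ^ 2) / (4 * D.lam r ^ 2))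

end Data

end Vale.Agent.P366.T2
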