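import Vale.Agent.P366.T2.Defs

open MeasureTheory Metric Filter Topology Set
open scoped ContDiff ENNReal

noncomputable section
namespace Vale.Agent.P366.T2
open Vale.Agent.P366.Stmt

variable {n : ℕ}

namespace E68

lemma len_sq (x : E n) : len x ^ 2 = ∑ i, x i * x i := by
  unfold len
  rw [EuclideanSpace.real_norm_sq_eq]
  exact Finset.sum_congr rfl fun i _ => by ring

lemma skew_apply (Q : Quat n) (a : Fin 3) (i j : Fin n) : Q.J a i j = - Q.J a j i := by
  have := congrFun (congrFun (Q.skew a) j) i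
  simpa [Matrix.transpose_apply, Matrix.neg_apply] using this

lemma J_diag (Q : Quat n) (a : Fin 3) (i : Fin n) : Q.J a i i = 0 := by
  have := skew_apply Q a i i
  linarith

/-- `x ⬝ J_a x = 0` -/
lemma x_dot_Y (Q : Quat n) (a : Fin 3) (x : E n) : ∑ i, x i * Q.Y a x i = 0 := by
  unfold Quat.Y
  have h1 : ∑ i, x i * ∑ j, Q.J a i j * x j = ∑ i, ∑ j, Q.J a i j * x i * x j := by
    refine Finset.sum_congr rfl fun i _ => ?_
    rw [Finset.mul_sum]
    exact Finset.sum_congr rfl fun j _ => by ring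
  have h2 : ∑ i, ∑ j, Q.J a i j * x i * x j = - ∑ i, ∑ j, Q.J a i j * x i * x j := by
    conv_lhs => rw [Finset.sum_comm]
    rw [← Finset.sum_neg_distrib]
    refine Finset.sum_congr rfl fun i _ => ?_
    rw [← Finset.sum_neg_distrib]
    refine Finset.sum_congr rfl fun j _ => ?_
    rw [skew_apply Q a j i]
    ring
  rw [h1]
  linarith

/-- `J_a (J_b x)` in coordinates -/
lemma J_Y (Q : Quat n) (a b : Fin 3) (x : E n) (i : Fin n) :
    ∑ j, Q.J a i j * Q.Y b x j = ∑ j, (Q.J a * Q.J b) i j * x j := by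
  unfold Quat.Y
  simp only [Matrix.mul_apply, Finset.sum_mul, Finset.mul_sum]
  rw [Finset.sum_comm]
  refine Finset.sum_congr rfl fun j _ => Finset.sum_congr rfl fun k _ => by ring

/-- `J_a x ⬝ J_b x` through the product `J_a J_b` -/
lemma Y_dot_Y_eq (Q : Quat n) (a b : Fin 3) (x : E n) :
    ∑ i, Q.Y a x i * Q.Y b x i = - ∑ i, x i * ∑ j, (Q.J a * Q.J b) i j * x j := by
  have h1 : ∑ i, Q.Y a x i * Q.Y b x i = ∑ i, ∑ j, Q.J a i j * x j * Q.Y b x i := by
    refine Finset.sum_congr rfl fun i _ => ?_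
    rw [show Q.Y a x i = ∑ j, Q.J a i j * x j from rfl, Finset.sum_mul]
  rw [h1, Finset.sum_comm, ← Finset.sum_neg_distrib]
  refine Finset.sum_congr rfl fun j _ => ?_
  rw [← J_Y, Finset.mul_sum, ← Finset.sum_neg_distrib]
  refine Finset.sum_congr rfl fun i _ => ?_
  rw [skew_apply Q a i j]
  ring

lemma h10 (Q : Quat n) : Q.J 1 * Q.J 0 = - Q.J 2 := by
  have h := congrArg Matrix.transpose Q.h01
  rw [Matrix.transpose_mul, Q.skew, Q.skew, Q.skew] at h
  simpa using h

lemma h21 (Q : Quat n) : Q.J 2 * Q.J 1 = - Q.J 0 := by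
  have h := congrArg Matrix.transpose Q.h12
  rw [Matrix.transpose_mul, Q.skew, Q.skew, Q.skew] at h
  simpa using h

lemma h02 (Q : Quat n) : Q.J 0 * Q.J 2 = - Q.J 1 := by
  have h := congrArg Matrix.transpose Q.h20
  rw [Matrix.transpose_mul, Q.skew, Q.skew, Q.skew] at h
  simpa using h

lemma Y_dot_Y (Q : Quat n) (a b : Fin 3) (x : E n) :
    ∑ i, Q.Y a x i * Q.Y b x i = if a = b then len x ^ 2 else 0 := by
  rw [Y_dot_Y_eq]
  have hJ : ∀ c : Fin 3, ∑ i, x i * ∑ j, Q.J c i j * x j = 0 := fun c => x_dot_Y Q c x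
  have hnJ : ∀ c : Fin 3, ∑ i, x i * ∑ j, (-Q.J c) i j * x j = 0 := by
    intro c
    have h := hJ c
    have : ∑ i, x i * ∑ j, (-Q.J c) i j * x j = - ∑ i, x i * ∑ j, Q.J c i j * x j := by
      rw [← Finset.sum_neg_distrib]
      refine Finset.sum_congr rfl fun i _ => ?_
      simp only [Matrix.neg_apply, neg_mul, Finset.sum_neg_distrib, mul_neg]
    rw [this, h, neg_zero]
  by_cases hab : a = b
  · subst hab
    rw [if_pos rfl, Q.sq a, len_sq]
    rw [← Finset.sum_neg_distrib]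
    refine Finset.sum_congr rfl fun i _ => ?_
    simp [Matrix.neg_apply, Matrix.one_apply]
  · rw [if_neg hab, neg_eq_zero]
    fin_cases a <;> fin_cases b <;> simp only [Fin.zero_eta, Fin.mk_one, Fin.reduceFinMk] at hab ⊢ <;>
      first
        | exact absurd rfl hab
        | exact (hab trivial).elim
        | (rw [Q.h01]; exact hJ _)
        | (rw [Q.h12]; exact hJ _)
        | (rw [Q.h20]; exact hJ _)
        | (rw [h10 Q]; exact hnJ _)
        | (rw [h21 Q]; exact hnJ _)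
        | (rw [h02 Q]; exact hnJ _)

/-- the action of an invariant tensor on a vector -/
lemma ten_vec (Q : Quat n) (f u : ℝ → ℝ) (w : Fin 3 → ℝ → ℝ) (s : Fin 3 → Fin 3 → ℝ → ℝ)
    (x : E n) (i : Fin n) (z : Fin n → ℝ) :
    ∑ j, Q.ten f u w s x i j * z j =
      f (len x) * (z i - (x i * (∑ j, x j * z j) + ∑ a, Q.Y a x i * ∑ j, Q.Y a x j * z j) /
        len x ^ 2) +
      (u (len x) * x i * (∑ j, x j * z j) +
        ∑ a, w a (len x) * (x i * (∑ j, Q.Y a x j * z j) + Q.Y a x i * ∑ j, x j * z j) +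
        ∑ a, ∑ b, s a b (len x) * Q.Y a x i * ∑ j, Q.Y b x j * z j) / len x ^ 2 := by
  have h : ∀ j, Q.ten f u w s x i j * z j =
      f (len x) * ((if i = j then 1 else 0) * z j) +
      (- f (len x) / len x ^ 2 * x i + u (len x) / len x ^ 2 * x i +
        ∑ a, w a (len x) / len x ^ 2 * Q.Y a x i) * (x j * z j) +
      ∑ a, (- f (len x) / len x ^ 2 * Q.Y a x i + w a (len x) / len x ^ 2 * x i +
        ∑ b, s b a (len x) / len x ^ 2 * Q.Y b x i) * (Q.Y a x j * z j) := by
    intro j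
    unfold Quat.ten
    simp only [Fin.sum_univ_three]
    ring
  simp only [h, Finset.sum_add_distrib]
  rw [← Finset.mul_sum, ← Finset.mul_sum]
  rw [Finset.sum_comm (s := Finset.univ) (t := Finset.univ)
    (f := fun j a => (- f (len x) / len x ^ 2 * Q.Y a x i + w a (len x) / len x ^ 2 * x i +
        ∑ b, s b a (len x) / len x ^ 2 * Q.Y b x i) * (Q.Y a x j * z j))]
  simp only [← Finset.mul_sum]
  have h2 : ∑ j, (if i = j then (1 : ℝ) else 0) * z j = z i := by simp
  rw [h2]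
  simp only [Fin.sum_univ_three]
  ring

lemma ten_x (Q : Quat n) (f u : ℝ → ℝ) (w : Fin 3 → ℝ → ℝ) (s : Fin 3 → Fin 3 → ℝ → ℝ)
    (x : E n) (hx : len x ≠ 0) (i : Fin n) :
    ∑ j, Q.ten f u w s x i j * x j = u (len x) * x i + ∑ a, w a (len x) * Q.Y a x i := by
  have h1 : ∑ j, x j * x j = len x ^ 2 := (len_sq x).symm
  have h2 : ∀ a, ∑ j, Q.Y a x j * x j = 0 := fun a => by
    rw [← x_dot_Y Q a x]; exact Finset.sum_congr rfl fun j _ => mul_comm _ _
  rw [ten_vec Q f u w s x i (fun j => x j), h1]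
  simp only [h2]
  simp only [Fin.sum_univ_three]
  field_simp
  ring

lemma ten_Y (Q : Quat n) (f u : ℝ → ℝ) (w : Fin 3 → ℝ → ℝ) (s : Fin 3 → Fin 3 → ℝ → ℝ)
    (x : E n) (hx : len x ≠ 0) (i : Fin n) (c : Fin 3) :
    ∑ j, Q.ten f u w s x i j * Q.Y c x j =
      w c (len x) * x i + ∑ a, s a c (len x) * Q.Y a x i := by
  have h1 : ∑ j, x j * Q.Y c x j = 0 := x_dot_Y Q c x
  have h2 : ∀ a, ∑ j, Q.Y a x j * Q.Y c x j = if a = c then len x ^ 2 else 0 :=
    fun a => Y_dot_Y Q a c x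
  rw [ten_vec Q f u w s x i (fun j => Q.Y c x j), h1]
  simp only [h2, Finset.sum_ite_eq', mul_ite, mul_zero, Finset.mem_univ, if_true, add_zero,
    zero_add]
  simp only [Fin.sum_univ_three]
  field_simp
  ring

lemma ten_tr (Q : Quat n) (f u : ℝ → ℝ) (w : Fin 3 → ℝ → ℝ) (s : Fin 3 → Fin 3 → ℝ → ℝ)
    (x : E n) (hx : len x ≠ 0) :
    ∑ i, Q.ten f u w s x i i = f (len x) * ((n : ℝ) - 4) + u (len x) + ∑ a, s a a (len x) := by
  have h1 : ∑ j, x j * x j = len x ^ 2 := (len_sq x).symm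
  have h2 : ∀ a, ∑ j, x j * Q.Y a x j = 0 := fun a => x_dot_Y Q a x
  have h3 : ∀ a b, ∑ j, Q.Y a x j * Q.Y b x j = if a = b then len x ^ 2 else 0 :=
    fun a b => Y_dot_Y Q a b x
  have h : ∀ i, Q.ten f u w s x i i =
      f (len x) + (- f (len x) / len x ^ 2 + u (len x) / len x ^ 2) * (x i * x i) +
      ∑ a, (2 * w a (len x) / len x ^ 2) * (x i * Q.Y a x i) +
      ∑ a, ∑ b, ((if a = b then - f (len x) / len x ^ 2 else 0) + s a b (len x) / len x ^ 2) *
        (Q.Y a x i * Q.Y b x i) := by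
    intro i
    unfold Quat.ten
    simp only [Fin.sum_univ_three, Fin.isValue, if_true, if_false,
      show ¬ ((0 : Fin 3) = 2) by decide, show ¬ ((2 : Fin 3) = 0) by decide,
      show ¬ ((1 : Fin 3) = 2) by decide, show ¬ ((2 : Fin 3) = 1) by decide,
      show ¬ ((1 : Fin 3) = 0) by decide, show ¬ ((0 : Fin 3) = 1) by decide]
    ring
  simp only [h, Finset.sum_add_distrib]
  rw [← Finset.mul_sum, h1]
  have h4 : ∑ i : Fin n, ∑ a, (2 * w a (len x) / len x ^ 2) * (x i * Q.Y a x i) = 0 := by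
    rw [Finset.sum_comm]
    refine Finset.sum_eq_zero fun a _ => ?_
    rw [← Finset.mul_sum, h2, mul_zero]
  have h5 : ∑ i : Fin n, ∑ a, ∑ b, ((if a = b then - f (len x) / len x ^ 2 else 0) +
      s a b (len x) / len x ^ 2) * (Q.Y a x i * Q.Y b x i) =
      ∑ a, (- f (len x) + s a a (len x)) := by
    rw [Finset.sum_comm]
    refine Finset.sum_congr rfl fun a _ => ?_
    rw [Finset.sum_comm]
    have : ∀ b, ∑ i : Fin n, ((if a = b then - f (len x) / len x ^ 2 else 0) +
      s a b (len x) / len x ^ 2) * (Q.Y a x i * Q.Y b x i) =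
        if a = b then (- f (len x) + s a b (len x)) else 0 := by
      intro b
      rw [← Finset.mul_sum, h3]
      split_ifs with hab
      · field_simp
      · simp
    simp only [this]
    simp
  rw [h4, h5]
  simp only [Finset.sum_const, Finset.card_univ, Fintype.card_fin, nsmul_eq_mul,
    Fin.sum_univ_three]
  field_simp
  ring

end E68

end Vale.Agent.P366.T2
end
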