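import Vale.Agent.P366.Bdl.B1
import Vale.Agent.P366.T2.E68a

open MeasureTheory Metric Filter Topology Set
open scoped ContDiff ENNReal

noncomputable section
namespace Vale.Agent.P366.T2

variable {n : ℕ}

namespace E68

/-- horizontal plus fibre trace of the metric -/
def tau (D : Data n) (r : ℝ) : ℝ := D.al r * ((n : ℝ) - 4) + ∑ a, D.q a a r

lemma tau_smooth (D : Data n) : ContDiff ℝ ∞ (tau D) := by
  unfold tau
  exact (D.al_smooth.mul contDiff_const).add (ContDiff.sum fun a _ => D.q_smooth a a)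

lemma gx {D : Data n} {g K : Stmt.Field n} (h : Fits D g K) {x : E n} (hx : D.R ≤ ‖x‖)
    (i : Fin n) : ∑ j, g x i j * x j = D.p ‖x‖ * x i := by
  have hx0 : Stmt.len x ≠ 0 := (D.hR.trans_le hx).ne'
  have h1 := ten_x D.Q D.al D.p (fun _ _ => 0) D.q x hx0 i
  simp only [zero_mul, Finset.sum_const_zero, add_zero] at h1
  rw [show D.p ‖x‖ = D.p (Stmt.len x) from rfl, ← h1]
  exact Finset.sum_congr rfl fun j _ => by rw [h.hg x hx i j]

lemma trg {D : Data n} {g K : Stmt.Field n} (h : Fits D g K) {x : E n} (hx : D.R ≤ ‖x‖) :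
    ∑ j, g x j j = tau D ‖x‖ + D.p ‖x‖ := by
  have hx0 : Stmt.len x ≠ 0 := (D.hR.trans_le hx).ne'
  have h1 := ten_tr D.Q D.al D.p (fun _ _ => 0) D.q x hx0
  have h2 : ∑ j, g x j j = ∑ j, D.Q.ten D.al D.p (fun _ _ => 0) D.q x j j :=
    Finset.sum_congr rfl fun j _ => h.hg x hx j j
  rw [h2, h1]
  unfold tau
  rw [show ‖x‖ = Stmt.len x from rfl]
  ring

lemma ten_symm (Q : Quat n) (f u : ℝ → ℝ) (w : Fin 3 → ℝ → ℝ) (s : Fin 3 → Fin 3 → ℝ → ℝ)
    (hs : ∀ a b, s a b = s b a) (x : E n) (i j : Fin n) :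
    Q.ten f u w s x i j = Q.ten f u w s x j i := by
  unfold Quat.ten
  have h1 : (if i = j then (1 : ℝ) else 0) = if j = i then 1 else 0 := by
    by_cases hij : i = j
    · subst hij; rfl
    · rw [if_neg hij, if_neg (fun hh => hij hh.symm)]
  rw [h1]
  simp only [Fin.sum_univ_three, hs 1 0, hs 2 0, hs 2 1]
  ring

lemma g_symm {D : Data n} {g K : Stmt.Field n} (h : Fits D g K) {x : E n} (hx : D.R ≤ ‖x‖)
    (i j : Fin n) : g x i j = g x j i := by
  rw [h.hg x hx i j, h.hg x hx j i]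
  exact ten_symm _ _ _ _ _ D.q_symm x i j

/-- The ADM energy integrand on the spheres. -/
lemma energy_pointwise {D : Data n} {g K : Stmt.Field n} (h : Fits D g K) {x : E n}
    (hx : D.R < ‖x‖) :
    ∑ i, ∑ j, (pd j (fun y => Stmt.mat g y i j) x - pd i (fun y => Stmt.mat g y j j) x) *
      (x i / ‖x‖) = (((n : ℝ) - 1) * D.p ‖x‖ - tau D ‖x‖) / ‖x‖ - deriv (tau D) ‖x‖ := by
  have hr : 0 < ‖x‖ := D.hR.trans hx
  have hx0 : x ≠ 0 := norm_pos_iff.mp hr
  have hgd : ∀ i j, DifferentiableAt ℝ (fun y => Stmt.mat g y i j) x := fun i j =>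
    ((h.smooth i j).1.differentiable (by norm_num)) x
  have hcd : ∀ i, DifferentiableAt ℝ (fun y : E n => y i) x := fun i =>
    (EuclideanSpace.proj (𝕜 := ℝ) i).differentiableAt
  have hnear : ∀ᶠ y in 𝓝 x, D.R ≤ ‖y‖ := by
    filter_upwards [(isOpen_outside (n := n) D.R).mem_nhds hx] with y hy
    exact le_of_lt hy
  have hpd : DifferentiableAt ℝ D.p ‖x‖ := (D.p_smooth.differentiable (by norm_num)) _
  have htd : DifferentiableAt ℝ (tau D) ‖x‖ := ((tau_smooth D).differentiable (by norm_num)) _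
  -- (A)
  have hA : ∀ j, ∑ i, (pd j (fun y => Stmt.mat g y i j) x * x i) + g x j j =
      deriv D.p ‖x‖ * Nc j x * x j + D.p ‖x‖ := by
    intro j
    have h1 : (fun y : E n => ∑ i, Stmt.mat g y i j * y i) =ᶠ[𝓝 x] fun y => D.p ‖y‖ * y j := by
      filter_upwards [hnear] with y hy
      rw [← gx h hy j]
      exact Finset.sum_congr rfl fun i _ => by
        rw [show Stmt.mat g y i j = g y i j from rfl, g_symm h hy i j]
    have h2 := pd_congr h1 j
    rw [pd_sum (f := fun i y => Stmt.mat g y i j * y i) Finset.univ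
      (fun i _ => (hgd i j).mul (hcd i)), pd_mul (differentiableAt_radial hx0 hpd) (hcd j), pd_radial hx0 hpd, pd_coord] at h2
    simp only [if_true, mul_one] at h2
    have h3 : ∀ i, pd j (fun y => Stmt.mat g y i j * y i) x =
        Stmt.mat g x i j * (if j = i then 1 else 0) + pd j (fun y => Stmt.mat g y i j) x * x i := by
      intro i
      rw [pd_mul (hgd i j) (hcd i), pd_coord]
    simp only [h3, Finset.sum_add_distrib, mul_ite, mul_one, mul_zero, Finset.sum_ite_eq,
      Finset.mem_univ, if_true] at h2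
    rw [show g x j j = Stmt.mat g x j j from rfl]
    linarith
  -- (B)
  have hB : ∀ i, ∑ j, pd i (fun y => Stmt.mat g y j j) x =
      (deriv (tau D) ‖x‖ + deriv D.p ‖x‖) * Nc i x := by
    intro i
    have h1 : (fun y : E n => ∑ j, Stmt.mat g y j j) =ᶠ[𝓝 x]
        fun y => tau D ‖y‖ + D.p ‖y‖ := by
      filter_upwards [hnear] with y hy
      exact trg h hy
    have h2 := pd_congr h1 i
    rw [pd_sum _ (fun j _ => hgd j j), pd_add (differentiableAt_radial hx0 htd)
      (differentiableAt_radial hx0 hpd), pd_radial hx0 hpd, pd_radial hx0 htd] at h2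
    rw [h2]; ring
  have hS : ∑ j, (deriv D.p ‖x‖ * Nc j x * x j + D.p ‖x‖) =
      deriv D.p ‖x‖ * ‖x‖ + n * D.p ‖x‖ := by
    have h1 : ∀ j, deriv D.p ‖x‖ * Nc j x * x j + D.p ‖x‖ =
        deriv D.p ‖x‖ * ‖x‖ * Nc j x ^ 2 + D.p ‖x‖ := by
      intro j
      unfold Nc
      field_simp
    simp only [h1, Finset.sum_add_distrib]
    rw [← Finset.mul_sum, sum_Nc_sq hx0]
    simp
  have hT : ∑ i, ∑ j, pd j (fun y => Stmt.mat g y i j) x * x i =
      deriv D.p ‖x‖ * ‖x‖ + n * D.p ‖x‖ - (tau D ‖x‖ + D.p ‖x‖) := by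
    rw [Finset.sum_comm, ← hS, ← trg h hx.le, ← Finset.sum_sub_distrib]
    refine Finset.sum_congr rfl fun j _ => ?_
    have := hA j
    linarith
  have hU : ∑ i, ∑ j, pd i (fun y => Stmt.mat g y j j) x * x i =
      (deriv (tau D) ‖x‖ + deriv D.p ‖x‖) * ‖x‖ := by
    have h1 : ∀ i, ∑ j, pd i (fun y => Stmt.mat g y j j) x * x i =
        (deriv (tau D) ‖x‖ + deriv D.p ‖x‖) * ‖x‖ * Nc i x ^ 2 := by
      intro i
      rw [← Finset.sum_mul, hB i]
      unfold Nc
      field_simp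
    simp only [h1]
    rw [← Finset.mul_sum, sum_Nc_sq hx0, mul_one]
  have hV : ∑ i, ∑ j, (pd j (fun y => Stmt.mat g y i j) x - pd i (fun y => Stmt.mat g y j j) x) *
      (x i / ‖x‖) = (∑ i, ∑ j, pd j (fun y => Stmt.mat g y i j) x * x i -
        ∑ i, ∑ j, pd i (fun y => Stmt.mat g y j j) x * x i) / ‖x‖ := by
    rw [← Finset.sum_sub_distrib, Finset.sum_div]
    refine Finset.sum_congr rfl fun i _ => ?_
    rw [← Finset.sum_sub_distrib, Finset.sum_div]
    refine Finset.sum_congr rfl fun j _ => ?_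
    ring
  rw [hV, hT, hU]
  field_simp
  ring

/-- The ADM energy as a limit of a radial expression. -/
lemma energy_lim (hn : 3 ≤ n) {D : Data n} {X : Stmt.Exterior n} (h : Fits D X.g X.K) {m : ℝ}
    (hm : X.IsEnergy m) :
    Tendsto (fun r : ℝ => r ^ (n - 1) *
      ((((n : ℝ) - 1) * D.p r - tau D r) / r - deriv (tau D) r)) atTop
      (𝓝 (2 * ((n : ℝ) - 1) * m)) := by
  have : Nonempty (Fin n) := ⟨⟨0, by omega⟩⟩
  have : Nontrivial (E n) := inferInstance
  have hn1 : (n : ℝ) - 1 ≠ 0 := by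
    have : (3 : ℝ) ≤ n := by exact_mod_cast hn
    intro h; linarith
  have hω : omega n ≠ 0 := omega_pos'.ne'
  have h1 := energy_bridge X hm
  have h2 : Tendsto (fun R : ℝ => R ^ (n - 1) *
      ((((n : ℝ) - 1) * D.p R - tau D R) / R - deriv (tau D) R) / (2 * ((n : ℝ) - 1))) atTop
      (𝓝 m) := by
    refine h1.congr' ?_
    filter_upwards [eventually_gt_atTop D.R] with R hR
    have hR0 : 0 < R := D.hR.trans hR
    have h3 : sphInt R (fun x =>
        ∑ i, ∑ j, (pd j (fun y => Stmt.mat X.g y i j) x - pd i (fun y => Stmt.mat X.g y j j) x) *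
          (x i / ‖x‖)) = R ^ (n - 1) * sphI (fun _ : E n =>
          ((((n : ℝ) - 1) * D.p R - tau D R) / R - deriv (tau D) R)) R := by
      unfold sphInt
      congr 1
      refine sphI_congr (u := fun x : E n => ∑ i, ∑ j, (pd j (fun y => Stmt.mat X.g y i j) x -
        pd i (fun y => Stmt.mat X.g y j j) x) * (x i / ‖x‖)) hR0.le fun x hx => ?_
      rw [energy_pointwise h (by rw [hx]; exact hR), hx]
    rw [h3, sphI_const]
    field_simp
  have h4 := h2.const_mul (2 * ((n : ℝ) - 1))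
  refine h4.congr fun R => ?_
  field_simp

end E68

end Vale.Agent.P366.T2
end
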