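import Vale.Agent.P366.Bdl.B1
import Vale.Agent.P366.T2.B68n

open MeasureTheory Metric Filter Topology Set
open scoped ContDiff ENNReal

noncomputable section
namespace Vale.Agent.P366.T2

variable {n : ℕ}

namespace E68

/-- odd functions have vanishing integral over the spheres -/
lemma sphInt_odd {R : ℝ} (hR : 0 ≤ R) {h : E n → ℝ} (hodd : ∀ x : E n, ‖x‖ = R → h (-x) = -h x) :
    sphInt R h = 0 := by
  have h1 : ∫ θ : Sph n, h (R • (θ : E n)) ∂(sphM n) = ∫ θ : Sph n, h (R • ((-θ : Sph n) : E n)) ∂(sphM n) := by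
    conv_lhs => rw [← sphM_map_neg]
    exact (Homeomorph.neg (Sph n)).measurableEmbedding.integral_map _
  have h2 : ∀ θ : Sph n, h (R • ((-θ : Sph n) : E n)) = -h (R • (θ : E n)) := by
    intro θ
    rw [coe_neg_sphere, smul_neg]
    exact hodd _ (norm_smul_sph hR θ)
  simp only [h2] at h1
  rw [integral_neg] at h1
  have h3 : ∫ θ : Sph n, h (R • (θ : E n)) ∂(sphM n) = 0 := by linarith
  have h4 : sphInt R h = R ^ (n - 1) * ∫ θ : Sph n, h (R • (θ : E n)) ∂(sphM n) := rfl
  rw [h4, h3, mul_zero]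

lemma Y_neg (Q : Quat n) (a : Fin 3) (x : E n) (i : Fin n) : Q.Y a (-x) i = -Q.Y a x i := by
  unfold Quat.Y
  rw [← Finset.sum_neg_distrib]
  exact Finset.sum_congr rfl fun j _ => by simp

/-- the ADM momentum vanishes -/
theorem P_zero {D : Data n} {X : Stmt.Exterior n} (h : Fits D X.g X.K) {P : Fin n → ℝ}
    (hP : X.IsMomentum P) : P = 0 := by
  funext i
  refine tendsto_nhds_unique (hP i) ?_
  refine Tendsto.congr' ?_ tendsto_const_nhds
  filter_upwards [eventually_gt_atTop D.R] with R hR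
  have hR0 : 0 < R := D.hR.trans hR
  rw [flx_eq, sphInt_odd hR0.le, zero_div]
  · rfl
  intro x hx
  have h1 : ∀ y : E n, ‖y‖ = R → ∑ j, Stmt.momT X.g X.K y i j * (y j / ‖y‖) =
      (-(D.p R * D.k R) * y i + ∑ a, D.v a R * D.Q.Y a y i) / R := by
    intro y hy
    have h2 := B68.pi_x h (show D.R ≤ Stmt.len y by
      rw [show Stmt.len y = ‖y‖ from rfl, hy]; exact hR.le) i
    rw [show Stmt.len y = ‖y‖ from rfl, hy] at h2
    rw [← h2, Finset.sum_div, hy]
    exact Finset.sum_congr rfl fun j _ => by ring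
  rw [h1 x hx, h1 (-x) (by rw [norm_neg, hx])]
  simp only [Y_neg, PiLp.neg_apply, mul_neg, Finset.sum_neg_distrib]
  ring

end E68

end Vale.Agent.P366.T2
end
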