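import Vale.Agent.P366.T2.E68g
import Vale.Agent.P366.T2.E68b
import Vale.Agent.P366.T2.E68p

open MeasureTheory Metric Filter Topology Set Asymptotics
open scoped ContDiff ENNReal

noncomputable section
namespace Vale.Agent.P366.T2

variable {n : ℕ}

namespace E68

variable {D : Data n}

/-- fibre determinant -/
def dd (D : Data n) (r : ℝ) : ℝ := (D.qm r).det

/-- fibre trace -/
def tt (D : Data n) (r : ℝ) : ℝ := ∑ a, D.q a a r

/-- `tr (q⁻¹ q')` -/
def TT (D : Data n) (r : ℝ) : ℝ := ∑ a, ∑ b, D.iq r a b * deriv (D.q a b) r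

/-- `tr q'` -/
def T1 (D : Data n) (r : ℝ) : ℝ := ∑ a, deriv (D.q a a) r

/-- rescaled super-potential -/
def ell (D : Data n) (r : ℝ) : ℝ := tt D r / 2 * (dd D r) ^ (-(1 / 2) : ℝ) +
  ((n : ℝ) - 4) / 4 * ((dd D r) ^ (-(1 / 6) : ℝ) + (dd D r) ^ ((1 / 6) : ℝ) * (1 / A1 D r))

/-- rescaled deviation of the mean curvature -/
def yy (D : Data n) (r : ℝ) : ℝ := r / 2 * (((n : ℝ) - 4) * (deriv (A1 D) r / A1 D r) + TT D r)

/-- rescaled area to a power -/
def kap (D : Data n) (r : ℝ) : ℝ :=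
  (((dd D r) ^ ((1 / 2) : ℝ) * (A1 D r) ^ (((n : ℝ) - 4) / 2)) ^ (1 / ((n : ℝ) - 1))) ^ ((n : ℝ) - 2)

lemma qh_smul (r : ℝ) : D.qh r = (r ^ 2) • D.qm r := by
  ext a b; rfl

lemma det_qh (r : ℝ) : (D.qh r).det = r ^ 6 * dd D r := by
  rw [qh_smul, Matrix.det_smul, Fintype.card_fin]
  unfold dd
  ring

lemma tr_qh (r : ℝ) : (D.qh r).trace = r ^ 2 * tt D r := by
  rw [qh_smul, Matrix.trace_smul, smul_eq_mul]
  rfl

lemma lam_ell {r : ℝ} (hr : D.R ≤ r) : D.lam r = ell D r / r := by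
  have hr0 : 0 < r := D.hR.trans_le hr
  have hd : 0 < dd D r := D.qm_det_pos hr
  have hA := A1_pos D hr
  have h1 : √(r ^ 6 * dd D r) = r ^ 3 * (dd D r) ^ ((1 / 2) : ℝ) := by
    rw [Real.sqrt_eq_rpow, Real.mul_rpow (by positivity) hd.le]
    congr 1
    rw [← Real.rpow_natCast r 6, ← Real.rpow_natCast r 3, ← Real.rpow_mul hr0.le]
    congr 1
    norm_num
  have h2 : (r ^ 6 * dd D r) ^ (-(1 / 6) : ℝ) = r⁻¹ * (dd D r) ^ (-(1 / 6) : ℝ) := by
    rw [Real.mul_rpow (by positivity) hd.le]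
    congr 1
    rw [← Real.rpow_natCast r 6, ← Real.rpow_mul hr0.le, ← Real.rpow_neg_one]
    congr 1
    norm_num
  have h3 : (r ^ 6 * dd D r) ^ ((1 / 6) : ℝ) = r * (dd D r) ^ ((1 / 6) : ℝ) := by
    rw [Real.mul_rpow (by positivity) hd.le]
    congr 1
    rw [← Real.rpow_natCast r 6, ← Real.rpow_mul hr0.le]
    norm_num
  have h4 : (dd D r) ^ (-(1 / 2) : ℝ) = ((dd D r) ^ ((1 / 2) : ℝ))⁻¹ := Real.rpow_neg hd.le _
  have h5 : 0 < (dd D r) ^ ((1 / 2) : ℝ) := Real.rpow_pos_of_pos hd _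
  have h6 : ((n : ℝ) - 4) * (r⁻¹ * (dd D r) ^ (-(1 / 6) : ℝ) +
      r * (dd D r) ^ ((1 / 6) : ℝ) / (r ^ 2 * A1 D r)) =
      ((n : ℝ) - 4) * (r⁻¹ * (dd D r) ^ (-(1 / 6) : ℝ) +
      r * (dd D r) ^ ((1 / 6) : ℝ) / (r ^ 2 * D.al r)) :=
    b_A1 (fun x _ => r⁻¹ * (dd D r) ^ (-(1 / 6) : ℝ) +
      r * (dd D r) ^ ((1 / 6) : ℝ) / (r ^ 2 * x)) D r
  unfold Data.lam
  rw [det_qh, tr_qh, h1, h2, h3, Data.b, Data.Yh]
  have h7 : ((n : ℝ) - 4) / 4 * (r⁻¹ * (dd D r) ^ (-(1 / 6) : ℝ) +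
      r * (dd D r) ^ ((1 / 6) : ℝ) / (r ^ 2 * D.al r)) =
      ((n : ℝ) - 4) / 4 * (r⁻¹ * (dd D r) ^ (-(1 / 6) : ℝ) +
      r * (dd D r) ^ ((1 / 6) : ℝ) / (r ^ 2 * A1 D r)) := by
    linear_combination (-1 / 4) * h6
  rw [h7]
  unfold ell
  rw [h4]
  field_simp

lemma rho_kap (hn : 4 ≤ n) {r : ℝ} (hr : D.R ≤ r) :
    D.rho r ^ ((n : ℝ) - 2) = r ^ ((n : ℝ) - 1 - 1) * kap D r := by
  have hr0 : 0 < r := D.hR.trans_le hr
  have hd : 0 < dd D r := D.qm_det_pos hr
  have hA := A1_pos D hr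
  have hn' : (4 : ℝ) ≤ n := by exact_mod_cast hn
  have h1 : √(r ^ 6 * dd D r) = r ^ 3 * (dd D r) ^ ((1 / 2) : ℝ) := by
    rw [Real.sqrt_eq_rpow, Real.mul_rpow (by positivity) hd.le]
    congr 1
    rw [← Real.rpow_natCast r 6, ← Real.rpow_natCast r 3, ← Real.rpow_mul hr0.le]
    congr 1
    norm_num
  have h2 : D.ar r = r ^ ((n : ℝ) - 1) *
      ((dd D r) ^ ((1 / 2) : ℝ) * (A1 D r) ^ (((n : ℝ) - 4) / 2)) := by
    unfold Data.ar
    rw [det_qh, h1, Data.Yh, Data.b, A1_pow, Real.mul_rpow (by positivity) hA.le,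
      ← Real.rpow_natCast r 3, ← Real.rpow_natCast r 2, ← Real.rpow_mul hr0.le]
    have h3 : r ^ ((n : ℝ) - 1) = r ^ ((3 : ℕ) : ℝ) * r ^ (((2 : ℕ) : ℝ) * (((n : ℝ) - 4) / 2)) := by
      rw [← Real.rpow_add hr0]
      congr 1
      push_cast
      ring
    rw [h3]
    ring
  unfold Data.rho kap
  rw [h2, Real.mul_rpow (by positivity) (by positivity), ← Real.rpow_mul hr0.le,
    mul_one_div_cancel (by linarith), Real.rpow_one,
    Real.mul_rpow hr0.le (by positivity)]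
  congr 2
  ring

lemma H_yy {r : ℝ} (hr : D.R ≤ r) : D.c r * D.H r = (((n : ℝ) - 1) + yy D r) / r := by
  have hr0 : 0 < r := D.hR.trans_le hr
  rw [B68.cH_form hr]
  unfold B68.Lm yy TT
  have h6 : ((n : ℝ) - 4) * (deriv (A1 D) r / A1 D r) =
      ((n : ℝ) - 4) * (deriv D.al r / D.al r) := b_A1 (fun x y => y / x) D r
  rw [h6]
  field_simp

lemma kap_tendsto (hd : Tendsto (dd D) atTop (𝓝 1)) (hA : Tendsto (A1 D) atTop (𝓝 1)) :
    Tendsto (kap D) atTop (𝓝 1) := by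
  unfold kap
  have h1 : Tendsto (fun r => (dd D r) ^ ((1 / 2) : ℝ)) atTop (𝓝 1) := by
    have := hd.rpow_const (p := 1 / 2) (Or.inl one_ne_zero)
    simpa using this
  have h2 : Tendsto (fun r => (A1 D r) ^ (((n : ℝ) - 4) / 2)) atTop (𝓝 1) := by
    have := hA.rpow_const (p := ((n : ℝ) - 4) / 2) (Or.inl one_ne_zero)
    simpa using this
  have h3 := h1.mul h2
  rw [one_mul] at h3
  have h4 := (h3.rpow_const (p := 1 / ((n : ℝ) - 1)) (Or.inl one_ne_zero)).rpow_const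
    (p := (n : ℝ) - 2) (Or.inl (by simp))
  simpa using h4

end E68

/-- **Block [E]**: the modified Hawking mass tends to twice the energy, spheres far out are not
trapped, and the momentum vanishes. -/
theorem asympt (D : Data n) {X : Stmt.Exterior n} (h : Fits D X.g X.K) (hAF : X.IsAF)
    {m : ℝ} {P : Fin n → ℝ} (hm : X.IsEnergy m) (hP : X.IsMomentum P) :
    Tendsto D.mass atTop (𝓝 (2 * m)) ∧ (∀ᶠ r in atTop, |D.k r| < D.H r) ∧ P = 0 := by
  obtain ⟨x0, hx0⟩ := X.bdry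
  obtain ⟨i0, -⟩ := X.dom.2.1 x0 hx0
  have hn : 4 ≤ n := D.Q.four_le i0.pos
  have hn' : (4 : ℝ) ≤ n := by exact_mod_cast hn
  obtain ⟨q, hq, hAF⟩ := hAF
  have hq0 : 0 < q := by linarith
  have h1 : ∀ i j, Stmt.BigO q (fun x => X.g x i j - if i = j then 1 else 0) := fun i j =>
    (hAF i j i0 i0).1
  have h2 : ∀ i j k, Stmt.BigO (q + 1) (Stmt.pd k fun x => X.g x i j) := fun i j k =>
    (hAF i j k i0).2.1
  have h3 : ∀ i j, Stmt.BigO (q + 1) (fun x => X.K x i j) := fun i j =>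
    (hAF i j i0 i0).2.2.2.1
  have hqd := fun a b => (E68.q_dec h h1 h2 i0 a b).1
  have hqd' := fun a b => (E68.q_dec h h1 h2 i0 a b).2
  have hp := E68.p_dec h h1 h2 i0
  have hA := E68.A1_dec h h1 h2 i0
  have hk := E68.k_dec h hq0 h1 h2 h3 i0
  have ht : E68.O1 q fun r => E68.tt D r - 3 := by
    have e1 := ((hqd 0 0).add (hqd 1 1)).add (hqd 2 2)
    refine e1.congr' (Eventually.of_forall fun r => ?_)
    simp only [E68.tt, Fin.sum_univ_three, if_true]
    ring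
  have hd : E68.O2 q fun r => E68.dd D r - 1 - (E68.tt D r - 3) := E68.det_exp hq0 hqd
  have hT1 : E68.O1 q fun r => r * E68.T1 D r := by
    have e1 := ((hqd' 0 0).add (hqd' 1 1)).add (hqd' 2 2)
    refine e1.congr' (Eventually.of_forall fun r => ?_)
    simp only [E68.T1, Fin.sum_univ_three]
    ring
  have hT : E68.O2 q fun r => r * (E68.TT D r - E68.T1 D r) := by
    have e1 : E68.O2 q fun r => ∑ a, ∑ b, (D.iq r a b - if a = b then 1 else 0) *
        (r * deriv (D.q a b) r) :=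
      IsBigO.fun_sum fun a _ => IsBigO.fun_sum fun b _ =>
        (E68.iq_sub hq0 hqd a b).mul (hqd' a b)
    refine e1.congr' (Eventually.of_forall fun r => ?_)
    simp only [E68.TT, E68.T1, Fin.sum_univ_three, if_true,
      show ¬ ((0 : Fin 3) = 2) by decide, show ¬ ((2 : Fin 3) = 0) by decide,
      show ¬ ((1 : Fin 3) = 2) by decide, show ¬ ((2 : Fin 3) = 1) by decide,
      show ¬ ((1 : Fin 3) = 0) by decide, show ¬ ((0 : Fin 3) = 1) by decide, if_false]
    ring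
  have hA1 : Tendsto (E68.A1 D) atTop (𝓝 1) := by
    have := (hA.1.tendsto hq0).add_const 1
    simpa using this
  have hd1 : Tendsto (E68.dd D) atTop (𝓝 1) := by
    have := (((hd.o1 hq0).add ht).tendsto hq0).add_const 1
    simpa using this
  have hp1 : Tendsto D.p atTop (𝓝 1) := by
    have := (hp.tendsto hq0).add_const 1
    simpa using this
  have hE : Tendsto (fun r : ℝ => r ^ ((n : ℝ) - 1 - 1) *
      (((n : ℝ) - 1) * D.p r - (((n : ℝ) - 4) * E68.A1 D r + E68.tt D r) -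
        r * (((n : ℝ) - 4) * deriv (E68.A1 D) r + E68.T1 D r))) atTop
      (𝓝 (2 * ((n : ℝ) - 1) * m)) := by
    refine (E68.energy_lim (by omega) h hm).congr' ?_
    filter_upwards [eventually_gt_atTop 0] with r hr
    have e1 : ((n : ℝ) - 4) * E68.A1 D r = ((n : ℝ) - 4) * D.al r :=
      E68.b_A1 (fun x _ => x) D r
    have e2 : ((n : ℝ) - 4) * deriv (E68.A1 D) r = ((n : ℝ) - 4) * deriv D.al r :=
      E68.b_A1 (fun _ y => y) D r
    rw [e1, e2]
    have e3 : deriv (E68.tau D) r = ((n : ℝ) - 4) * deriv D.al r + E68.T1 D r := by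
      have e4 : HasDerivAt (E68.tau D) (deriv D.al r * ((n : ℝ) - 4) +
          ∑ a, deriv (D.q a a) r) r :=
        ((B68.hd D.al_smooth r).mul_const _).add
          (HasDerivAt.fun_sum fun a _ => B68.hd (D.q_smooth a a) r)
      rw [e4.deriv]
      unfold E68.T1
      ring
    rw [e3]
    have e5 : r ^ (n - 1) = r ^ ((n : ℝ) - 1 - 1) * r := by
      rw [← Real.rpow_natCast, ← Real.rpow_add_one hr.ne']
      congr 1
      rw [Nat.cast_sub (by omega)]
      push_cast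
      ring
    rw [e5]
    unfold E68.tau E68.tt
    field_simp
  have hmain := E68.mass_abs (N := (n : ℝ) - 1) (b := (n : ℝ) - 4) (q := q) (m := m)
    (p := D.p) (a := E68.A1 D) (a1 := deriv (E68.A1 D)) (d := E68.dd D) (t := E68.tt D)
    (T := E68.TT D) (T1 := E68.T1 D) (k := D.k) (κ := E68.kap D) (ℓ := E68.ell D)
    (y := E68.yy D) (M := D.mass) (by ring) (by linarith) hq0 (by linarith)
    hp hA.1 hA.2 ht hd hT1 hT hk hE (Eventually.of_forall fun r => rfl)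
    (Eventually.of_forall fun r => rfl) ?_ (E68.kap_tendsto hd1 hA1)
  · refine ⟨hmain.1, ?_, E68.P_zero h hP⟩
    have hy := hmain.2
    have hk0 : Tendsto (fun r => |r * D.k r|) atTop (𝓝 0) := by
      have := (hk.tendsto hq0).abs
      simpa using this
    have hH : Tendsto (fun r => (((n : ℝ) - 1) + E68.yy D r) / √(D.p r)) atTop
        (𝓝 ((n : ℝ) - 1)) := by
      have e1 := (hy.const_add ((n : ℝ) - 1)).div hp1.sqrt (by simp)
      have e2 : Tendsto ((fun r => ((n : ℝ) - 1) + E68.yy D r) / fun r => √(D.p r)) atTop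
          (𝓝 ((n : ℝ) - 1)) := by simpa using e1
      exact e2
    have hlt := hk0.eventually_lt hH (by linarith)
    filter_upwards [hlt, eventually_ge_atTop D.R] with r hr hR
    have hr0 : 0 < r := D.hR.trans_le hR
    have hc : 0 < D.c r := B68.c_pos' hR
    have e1 : D.H r = (((n : ℝ) - 1 + E68.yy D r) / √(D.p r)) / r := by
      have e2 := E68.H_yy hR
      have e3 : √(D.p r) = D.c r := rfl
      rw [e3]
      field_simp
      field_simp at e2
      linarith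
    rw [e1, lt_div_iff₀ hr0]
    rw [abs_mul, abs_of_pos hr0] at hr
    linarith
  · filter_upwards [eventually_ge_atTop D.R] with r hR
    have hr0 : 0 < r := D.hR.trans_le hR
    have hc : 0 < D.c r := B68.c_pos' hR
    have hp0 := D.p_pos r hR
    have hc2 : D.c r ^ 2 = D.p r := Real.sq_sqrt hp0.le
    have e1 : D.H r = ((n : ℝ) - 1 + E68.yy D r) / (r * D.c r) := by
      have e2 := E68.H_yy hR
      field_simp
      field_simp at e2
      linarith
    unfold Data.mass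
    rw [E68.rho_kap hn hR, E68.lam_ell hR, e1, ← hc2]
    congr 2
    by_cases hl : E68.ell D r = 0
    · rw [hl]; simp
    · field_simp

end Vale.Agent.P366.T2
end
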