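import Vale.Agent.P366.T2.E68r

open MeasureTheory Metric Filter Topology Set Asymptotics
open scoped ContDiff ENNReal

noncomputable section
namespace Vale.Agent.P366.T2
open Vale.Agent.P366.Stmt

variable {n : ℕ}

namespace E68

variable {D : Data n}

lemma qm_tendsto (hq : ∀ a b, Tendsto (D.q a b) atTop (𝓝 (if a = b then 1 else 0))) :
    Tendsto (fun r => D.qm r) atTop (𝓝 (1 : Matrix (Fin 3) (Fin 3) ℝ)) := by
  refine tendsto_pi_nhds.mpr fun a => tendsto_pi_nhds.mpr fun b => ?_
  have := hq a b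
  rw [show (1 : Matrix (Fin 3) (Fin 3) ℝ) a b = if a = b then 1 else 0 from Matrix.one_apply]
  exact this

lemma iq_tendsto (hq : ∀ a b, Tendsto (D.q a b) atTop (𝓝 (if a = b then 1 else 0)))
    (a b : Fin 3) : Tendsto (fun r => D.iq r a b) atTop (𝓝 (if a = b then 1 else 0)) := by
  have h0 := qm_tendsto hq
  have h1 : Tendsto (fun r => (D.qm r).det) atTop (𝓝 (1 : Matrix (Fin 3) (Fin 3) ℝ).det) :=
    ((continuous_id.matrix_det).tendsto _).comp h0
  have h2 : Tendsto (fun r => (D.qm r).adjugate) atTop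
      (𝓝 (1 : Matrix (Fin 3) (Fin 3) ℝ).adjugate) :=
    ((continuous_id.matrix_adjugate).tendsto _).comp h0
  rw [Matrix.det_one] at h1
  rw [Matrix.adjugate_one] at h2
  have h3 : Tendsto (fun r => (D.qm r).adjugate a b) atTop (𝓝 (if a = b then 1 else 0)) := by
    have := (tendsto_pi_nhds.mp (tendsto_pi_nhds.mp h2 a)) b
    rwa [show (1 : Matrix (Fin 3) (Fin 3) ℝ) a b = if a = b then 1 else 0 from
      Matrix.one_apply] at this
  have h4 := (h1.inv₀ one_ne_zero).mul h3
  rw [inv_one, one_mul] at h4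
  refine h4.congr fun r => ?_
  unfold Data.iq
  rw [Matrix.inv_def, Ring.inverse_eq_inv', Matrix.smul_apply, smul_eq_mul]

lemma iq_sub {q : ℝ} (hq0 : 0 < q) (hq : ∀ a b, O1 q fun r => D.q a b r - if a = b then 1 else 0)
    (a b : Fin 3) : O1 q fun r => D.iq r a b - if a = b then 1 else 0 := by
  have hT : ∀ a b, Tendsto (D.q a b) atTop (𝓝 (if a = b then 1 else 0)) := by
    intro a b
    have := ((hq a b).tendsto hq0).add_const (if a = b then (1 : ℝ) else 0)
    simpa using this
  have h1 : O1 q fun r => ∑ c, (-1) * (D.iq r a c * (D.q c b r - if c = b then 1 else 0)) := by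
    refine IsBigO.fun_sum fun c _ => ?_
    exact ((O0.of_tendsto (iq_tendsto hT a c)).mul1 (hq c b)).cmul (-1)
  refine h1.congr' ?_
  filter_upwards [eventually_ge_atTop D.R] with r hr
  have h2 : ∑ c, D.iq r a c * D.q c b r = if a = b then 1 else 0 := by
    have := congrFun (congrFun (D.iq_mul_qm hr) a) b
    rw [Matrix.mul_apply, Matrix.one_apply] at this
    exact this
  have h3 : ∑ c, (-1) * (D.iq r a c * (D.q c b r - if c = b then 1 else 0)) =
      D.iq r a b - ∑ c, D.iq r a c * D.q c b r := by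
    simp only [mul_sub, Finset.sum_sub_distrib]
    simp only [mul_ite, mul_one, mul_zero, Finset.sum_ite_eq', Finset.mem_univ, if_true,
      neg_mul, one_mul, Finset.sum_neg_distrib]
    ring
  rw [h3, h2]

/-- second order expansion of the determinant -/
lemma det_exp {q : ℝ} (hq0 : 0 < q) (hq : ∀ a b, O1 q fun r => D.q a b r - if a = b then 1 else 0) :
    O2 q fun r => (D.qm r).det - 1 - ((∑ a, D.q a a r) - 3) := by
  have h00 := hq 0 0
  have h11 := hq 1 1
  have h22 := hq 2 2
  have h01 := hq 0 1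
  have h10 := hq 1 0
  have h02 := hq 0 2
  have h20 := hq 2 0
  have h12 := hq 1 2
  have h21 := hq 2 1
  simp only [if_true, show ¬ ((0 : Fin 3) = 2) by decide, show ¬ ((2 : Fin 3) = 0) by decide,
    show ¬ ((1 : Fin 3) = 2) by decide, show ¬ ((2 : Fin 3) = 1) by decide,
    show ¬ ((1 : Fin 3) = 0) by decide, show ¬ ((0 : Fin 3) = 1) by decide, if_false, sub_zero]
    at h00 h11 h22 h01 h10 h02 h20 h12 h21
  have o0 := h00.o0 hq0
  have o1 := h01.o0 hq0
  have o2 := h02.o0 hq0
  have e1 := (h00.mul h11).sub (h01.mul h10)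
  have e2 := (h00.mul h22).sub (h02.mul h20)
  have e3 := (h11.mul h22).sub (h12.mul h21)
  have e4 := (o0.mul2 ((h11.mul h22).sub (h12.mul h21))).sub
    (o1.mul2 ((h10.mul h22).sub (h12.mul h20)))
  have e5 := o2.mul2 ((h10.mul h21).sub (h11.mul h20))
  refine ((((e1.add e2).add e3).add e4).add e5).congr' (Eventually.of_forall fun r => ?_)
  simp only [Fin.sum_univ_three, Matrix.det_fin_three, Data.qm, Matrix.of_apply]
  ring

end E68

end Vale.Agent.P366.T2
end
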