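import Vale.Agent.P366.T2.E68f

open MeasureTheory Metric Filter Topology Set Asymptotics
open scoped ContDiff ENNReal

noncomputable section
namespace Vale.Agent.P366.T2
open Vale.Agent.P366.Stmt

variable {n : ℕ}

namespace E68

variable {D : Data n} {g K : Field n}

lemma g_ray (h : Fits D g K) (i0 : Fin n) {r : ℝ} (hr : D.R < r) (i j : Fin n) :
    g (ray i0 r) i j = D.Q.ten D.al D.p (fun _ _ => 0) D.q (ray i0 r) i j :=
  h.hg _ (by rw [len_ray i0 (D.hR.trans hr).le]; exact hr.le) i j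

lemma K_ray (h : Fits D g K) (i0 : Fin n) {r : ℝ} (hr : D.R < r) (i j : Fin n) :
    K (ray i0 r) i j = D.Q.ten D.ka D.kn D.v D.s (ray i0 r) i j :=
  h.hK _ (by rw [len_ray i0 (D.hR.trans hr).le]; exact hr.le) i j

section Dec

variable (h : Fits D g K) {q : ℝ}
  (h1 : ∀ i j, BigO q (fun x => g x i j - if i = j then 1 else 0))
  (h2 : ∀ i j k, BigO (q + 1) (pd k fun x => g x i j))
  (h3 : ∀ i j, BigO (q + 1) (fun x => K x i j)) (i0 : Fin n)

include h h1 h2 in
lemma p_dec (i0 : Fin n) : O1 q (fun r => D.p r - 1) := by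
  have := (lin_decay (fun i j => (h.smooth i j).1) h1 h2 i0 (cu i0) (f := D.p) (R := D.R)
    (fun r hr => by
      simp only [g_ray h i0 hr]
      exact u_ray D.Q D.al D.p _ D.q i0 (D.hR.trans hr))).1
  rwa [cu_tr] at this

include h h1 h2 in
lemma q_dec (i0 : Fin n) (a b : Fin 3) : O1 q (fun r => D.q a b r - if a = b then 1 else 0) ∧
    O1 q (fun r => r * deriv (D.q a b) r) := by
  have := lin_decay (fun i j => (h.smooth i j).1) h1 h2 i0 (cs D.Q i0 a b) (f := D.q a b)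
    (R := D.R) (fun r hr => by
      simp only [g_ray h i0 hr]
      exact s_ray D.Q D.al D.p _ D.q i0 (D.hR.trans hr) a b)
  rwa [cs_tr] at this

include h h1 h2 in
lemma al_dec (i0 : Fin n) (hb : (n : ℝ) - 4 ≠ 0) : O1 q (fun r => D.al r - 1) ∧
    O1 q (fun r => r * deriv D.al r) := by
  have := lin_decay (fun i j => (h.smooth i j).1) h1 h2 i0
    (fun i j => ((n : ℝ) - 4)⁻¹ * cf D.Q i0 i j) (f := D.al)
    (R := D.R) (fun r hr => by
      have h4 := f_ray D.Q D.al D.p (fun _ _ => 0) D.q i0 (D.hR.trans hr)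
      simp only [g_ray h i0 hr, mul_assoc, ← Finset.mul_sum]
      rw [← h4]
      field_simp)
  rw [← Finset.mul_sum, cf_tr, inv_mul_cancel₀ hb] at this
  exact this

include h h3 in
lemma s_dec (i0 : Fin n) (a b : Fin 3) : O1 q (fun r => r * D.s a b r) :=
  linK_decay h3 i0 (cs D.Q i0 a b) (R := D.R) (fun r hr => by
    simp only [K_ray h i0 hr]
    exact s_ray D.Q D.ka D.kn D.v D.s i0 (D.hR.trans hr) a b)

include h h3 in
lemma ka_dec (i0 : Fin n) : O1 q (fun r => r * (((n : ℝ) - 4) * D.ka r)) :=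
  linK_decay h3 i0 (cf D.Q i0) (f := fun r => ((n : ℝ) - 4) * D.ka r) (R := D.R)
    (fun r hr => by
      simp only [K_ray h i0 hr]
      exact f_ray D.Q D.ka D.kn D.v D.s i0 (D.hR.trans hr))

end Dec

/-- the horizontal coefficient, replaced by `1` in dimension four, where it plays no role -/
def A1 (D : Data n) : ℝ → ℝ := if (n : ℝ) - 4 = 0 then fun _ => 1 else D.al

lemma b_A1 (F : ℝ → ℝ → ℝ) (D : Data n) (r : ℝ) :
    ((n : ℝ) - 4) * F (A1 D r) (deriv (A1 D) r) = ((n : ℝ) - 4) * F (D.al r) (deriv D.al r) := by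
  unfold A1
  by_cases hb : (n : ℝ) - 4 = 0
  · rw [hb, zero_mul, zero_mul]
  · rw [if_neg hb]

lemma A1_pos (D : Data n) {r : ℝ} (hr : D.R ≤ r) : 0 < A1 D r := by
  unfold A1
  split_ifs
  · exact one_pos
  · exact D.al_pos r hr

lemma A1_pow (D : Data n) (r : ℝ) : (r ^ 2 * D.al r) ^ (((n : ℝ) - 4) / 2) =
    (r ^ 2 * A1 D r) ^ (((n : ℝ) - 4) / 2) := by
  unfold A1
  by_cases hb : (n : ℝ) - 4 = 0
  · rw [hb, zero_div, Real.rpow_zero, Real.rpow_zero]
  · rw [if_neg hb]

lemma A1_dec (h : Fits D g K) {q : ℝ}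
    (h1 : ∀ i j, BigO q (fun x => g x i j - if i = j then 1 else 0))
    (h2 : ∀ i j k, BigO (q + 1) (pd k fun x => g x i j)) (i0 : Fin n) :
    O1 q (fun r => A1 D r - 1) ∧ O1 q (fun r => r * deriv (A1 D) r) := by
  unfold A1
  by_cases hb : (n : ℝ) - 4 = 0
  · rw [if_pos hb]
    have h0 : O1 q (fun _ => (0 : ℝ)) := isBigO_zero _ _
    constructor
    · simpa using h0
    · simpa using h0
  · rw [if_neg hb]
    exact al_dec h h1 h2 i0 hb

lemma k_dec (h : Fits D g K) {q : ℝ} (hq0 : 0 < q)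
    (h1 : ∀ i j, BigO q (fun x => g x i j - if i = j then 1 else 0))
    (h2 : ∀ i j k, BigO (q + 1) (pd k fun x => g x i j))
    (h3 : ∀ i j, BigO (q + 1) (fun x => K x i j)) (i0 : Fin n) :
    O1 q (fun r => r * D.k r) := by
  have hqT : ∀ a b, Tendsto (D.q a b) atTop (𝓝 (if a = b then 1 else 0)) := by
    intro a b
    have := ((q_dec h h1 h2 i0 a b).1.tendsto hq0).add_const (if a = b then (1 : ℝ) else 0)
    simpa using this
  have hA := (A1_dec h h1 h2 i0).1
  have hA1 : Tendsto (A1 D) atTop (𝓝 1) := by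
    have := (hA.tendsto hq0).add_const 1
    simpa using this
  have hiA : O0 (fun r => (A1 D r)⁻¹) := O0.of_tendsto (by simpa using hA1.inv₀ one_ne_zero)
  have e1 := hiA.mul1 (ka_dec h h3 i0)
  have e2 : O1 q (fun r => ∑ a, ∑ b, D.iq r a b * (r * D.s b a r)) :=
    IsBigO.fun_sum fun a _ => IsBigO.fun_sum fun b _ =>
      (O0.of_tendsto (iq_tendsto hqT a b)).mul1 (s_dec h h3 i0 b a)
  refine (e1.add e2).congr' (Eventually.of_forall fun r => ?_)
  have e3 : ((n : ℝ) - 4) * (r * D.ka r / A1 D r) = ((n : ℝ) - 4) * (r * D.ka r / D.al r) :=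
    b_A1 (fun x _ => (r * D.ka r) / x) D r
  have e4 : (A1 D r)⁻¹ * (r * (((n : ℝ) - 4) * D.ka r)) =
      ((n : ℝ) - 4) * (r * D.ka r / A1 D r) := by ring
  beta_reduce
  rw [e4, e3, Data.k, B68.S_trace, Data.b, mul_add, Finset.mul_sum]
  congr 1
  · ring
  · refine Finset.sum_congr rfl fun a _ => ?_
    rw [Finset.mul_sum]
    exact Finset.sum_congr rfl fun b _ => by ring

end E68

end Vale.Agent.P366.T2
end
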