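import Mathlib

open Filter Topology Asymptotics Set

noncomputable section
namespace Vale.Agent.P366.T2.E68

/-- second order Taylor formula -/
lemma taylor2 {f f' : ℝ → ℝ} {x0 : ℝ} (hf : ∀ᶠ x in 𝓝 x0, HasDerivAt f (f' x) x)
    (hf' : DifferentiableAt ℝ f' x0) :
    (fun x => f x - f x0 - f' x0 * (x - x0)) =O[𝓝 x0] fun x => (x - x0) * (x - x0) := by
  obtain ⟨C, hC⟩ := hf'.isBigO_sub.bound
  have h1 := hf.and hC
  obtain ⟨ε, hε, hball⟩ := Metric.eventually_nhds_iff_ball.mp h1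
  refine IsBigO.of_bound C ?_
  filter_upwards [Metric.ball_mem_nhds x0 hε] with x hx
  have hseg : ∀ y ∈ segment ℝ x0 x, y ∈ Metric.ball x0 ε := fun y hy =>
    (convex_ball x0 ε).segment_subset (Metric.mem_ball_self hε) hx hy
  have hb : ∀ y ∈ segment ℝ x0 x, ‖f' y - f' x0‖ ≤ C * ‖x - x0‖ := by
    intro y hy
    have h2 := (hball y (hseg y hy)).2
    refine h2.trans ?_
    have hC0 : 0 ≤ C * ‖x - x0‖ := le_trans (norm_nonneg _) (hball x hx).2
    have h3 : ‖y - x0‖ ≤ ‖x - x0‖ := by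
      obtain ⟨s, t, hs, ht, hst, rfl⟩ := hy
      have : s • x0 + t • x - x0 = t * (x - x0) := by
        simp only [smul_eq_mul]
        have : s = 1 - t := by linarith
        rw [this]; ring
      rw [this, norm_mul]
      have : ‖t‖ ≤ 1 := by rw [Real.norm_eq_abs, abs_of_nonneg ht]; linarith
      calc ‖t‖ * ‖x - x0‖ ≤ 1 * ‖x - x0‖ := by gcongr
        _ = _ := one_mul _
    rcases (norm_nonneg (x - x0)).eq_or_lt with h0 | h0
    · have : ‖y - x0‖ = 0 := le_antisymm (h0 ▸ h3) (norm_nonneg _)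
      rw [this, ← h0]
    · have hCn : 0 ≤ C := by
        by_contra hneg
        push Not at hneg
        have := mul_neg_of_neg_of_pos hneg h0
        linarith
      gcongr
  have h4 := (convex_segment x0 x).norm_image_sub_le_of_norm_hasDerivWithin_le
    (f := fun y => f y - f' x0 * y) (f' := fun y => f' y - f' x0)
    (fun y hy => (((hball y (hseg y hy)).1.sub
      ((hasDerivAt_id y).const_mul (f' x0))).congr_deriv (by simp)).hasDerivWithinAt)
    hb (left_mem_segment ℝ x0 x) (right_mem_segment ℝ x0 x)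
  have h5 : f x - f x0 - f' x0 * (x - x0) = (f x - f' x0 * x) - (f x0 - f' x0 * x0) := by ring
  rw [h5, norm_mul, ← mul_assoc]
  exact h4

lemma rpow_taylor (s : ℝ) :
    (fun x : ℝ => x ^ s - 1 - s * (x - 1)) =O[𝓝 1] fun x => (x - 1) * (x - 1) := by
  have h1 : ∀ᶠ x : ℝ in 𝓝 1, HasDerivAt (fun x : ℝ => x ^ s) (s * x ^ (s - 1)) x := by
    filter_upwards [(isOpen_lt continuous_const continuous_id).mem_nhds
      (show (0 : ℝ) < 1 by norm_num)] with x hx
    exact Real.hasDerivAt_rpow_const (Or.inl (ne_of_gt hx))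
  have h2 : DifferentiableAt ℝ (fun x : ℝ => s * x ^ (s - 1)) 1 :=
    ((Real.hasDerivAt_rpow_const (Or.inl one_ne_zero)).differentiableAt).const_mul s
  have h3 := taylor2 h1 h2
  simpa using h3

/-- `f = O(r^(-q))` -/
def O1 (q : ℝ) (f : ℝ → ℝ) : Prop := f =O[atTop] fun r : ℝ => r ^ (-q)

/-- `f = O(r^(-2q))` -/
def O2 (q : ℝ) (f : ℝ → ℝ) : Prop := f =O[atTop] fun r : ℝ => r ^ (-q) * r ^ (-q)

/-- `f = O(1)` -/
def O0 (f : ℝ → ℝ) : Prop := f =O[atTop] fun _ : ℝ => (1 : ℝ)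

variable {q : ℝ} {f g : ℝ → ℝ}

lemma O1.add (hf : O1 q f) (hg : O1 q g) : O1 q (fun r => f r + g r) := IsBigO.add hf hg
lemma O1.sub (hf : O1 q f) (hg : O1 q g) : O1 q (fun r => f r - g r) := IsBigO.sub hf hg
lemma O1.cmul (c : ℝ) (hf : O1 q f) : O1 q (fun r => c * f r) := IsBigO.const_mul_left hf c
lemma O2.add (hf : O2 q f) (hg : O2 q g) : O2 q (fun r => f r + g r) := IsBigO.add hf hg
lemma O2.sub (hf : O2 q f) (hg : O2 q g) : O2 q (fun r => f r - g r) := IsBigO.sub hf hg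
lemma O2.cmul (c : ℝ) (hf : O2 q f) : O2 q (fun r => c * f r) := IsBigO.const_mul_left hf c
lemma O1.mul (hf : O1 q f) (hg : O1 q g) : O2 q (fun r => f r * g r) := IsBigO.mul hf hg
lemma O0.add (hf : O0 f) (hg : O0 g) : O0 (fun r => f r + g r) := IsBigO.add hf hg
lemma O0.cmul (c : ℝ) (hf : O0 f) : O0 (fun r => c * f r) := IsBigO.const_mul_left hf c
lemma O0.const (c : ℝ) : O0 (fun _ => c) := isBigO_const_const c one_ne_zero _
lemma O0.mul (hf : O0 f) (hg : O0 g) : O0 (fun r => f r * g r) := by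
  have := IsBigO.mul hf hg
  simpa [O0] using this
lemma O0.mul2 (hf : O0 f) (hg : O2 q g) : O2 q (fun r => f r * g r) := by
  have := IsBigO.mul hf hg
  simpa [O2] using this
lemma O0.mul1 (hf : O0 f) (hg : O1 q g) : O1 q (fun r => f r * g r) := by
  have := IsBigO.mul hf hg
  simpa [O1] using this
lemma O1.congr' (hf : O1 q f) (h : f =ᶠ[atTop] g) : O1 q g :=
  IsBigO.congr' hf h EventuallyEq.rfl
lemma O2.congr' (hf : O2 q f) (h : f =ᶠ[atTop] g) : O2 q g :=
  IsBigO.congr' hf h EventuallyEq.rfl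
lemma u_tendsto (hq : 0 < q) : Tendsto (fun r : ℝ => r ^ (-q)) atTop (𝓝 0) :=
  tendsto_rpow_neg_atTop hq
lemma O1.tendsto (hq : 0 < q) (hf : O1 q f) : Tendsto f atTop (𝓝 0) :=
  IsBigO.trans_tendsto hf (u_tendsto hq)
lemma O1.o0 (hq : 0 < q) (hf : O1 q f) : O0 f := (hf.tendsto hq).isBigO_one ℝ
lemma O2.o1 (hq : 0 < q) (hf : O2 q f) : O1 q f := by
  refine IsBigO.trans hf ?_
  have h1 : O0 (fun r : ℝ => r ^ (-q)) := (u_tendsto hq).isBigO_one ℝ
  have h2 := IsBigO.mul h1 (isBigO_refl (fun r : ℝ => r ^ (-q)) atTop)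
  simpa using h2
lemma O0.of_tendsto {c : ℝ} (h : Tendsto f atTop (𝓝 c)) : O0 f := h.isBigO_one ℝ
lemma O0.congr' (hf : O0 f) (h : f =ᶠ[atTop] g) : O0 g :=
  IsBigO.congr' hf h EventuallyEq.rfl

/-- The limit of the modified Hawking mass, abstract form. -/
theorem mass_abs {N b q m : ℝ} (hN : N = b + 3) (hb : 0 ≤ b) (hq0 : 0 < q) (hq : N - 1 < 2 * q)
    {p a a1 d t T T1 k κ ℓ y M : ℝ → ℝ}
    (he : O1 q fun r => p r - 1) (ha : O1 q fun r => a r - 1) (ha1 : O1 q fun r => r * a1 r)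
    (ht : O1 q fun r => t r - 3) (hd : O2 q fun r => d r - 1 - (t r - 3))
    (hT1 : O1 q fun r => r * T1 r) (hT : O2 q fun r => r * (T r - T1 r))
    (hk : O1 q fun r => r * k r)
    (hE : Tendsto (fun r : ℝ => r ^ (N - 1) *
      (N * p r - (b * a r + t r) - r * (b * a1 r + T1 r))) atTop (𝓝 (2 * N * m)))
    (hℓ : ∀ᶠ r in atTop, ℓ r = t r / 2 * (d r) ^ (-(1 / 2) : ℝ) + b / 4 *
      ((d r) ^ (-(1 / 6) : ℝ) + (d r) ^ ((1 / 6) : ℝ) * (1 / a r)))
    (hy : ∀ᶠ r in atTop, y r = r / 2 * (b * (a1 r / a r) + T r))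
    (hM : ∀ᶠ r in atTop, M r = r ^ (N - 1) * κ r *
      (1 - ((N + y r) ^ 2 / p r - (r * k r) ^ 2) / (4 * (ℓ r) ^ 2)))
    (hκ : Tendsto κ atTop (𝓝 1)) :
    Tendsto M atTop (𝓝 (2 * m)) ∧ Tendsto y atTop (𝓝 0) := by
  have hN0 : 0 < N := by linarith
  -- first order facts
  have hp1 : Tendsto p atTop (𝓝 1) := by
    have := (he.tendsto hq0).add_const 1
    simpa using this
  have ha2 : Tendsto a atTop (𝓝 1) := by
    have := (ha.tendsto hq0).add_const 1
    simpa using this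
  have ht2 : Tendsto t atTop (𝓝 3) := by
    have := (ht.tendsto hq0).add_const 3
    simpa using this
  have hδ : O1 q fun r => d r - 1 := by
    have := (hd.o1 hq0).add ht
    simpa using this
  have hd1 : Tendsto d atTop (𝓝 1) := by
    have := (hδ.tendsto hq0).add_const 1
    simpa using this
  have hia : Tendsto (fun r => 1 / a r) atTop (𝓝 1) := by
    have := ha2.inv₀ one_ne_zero
    simpa using this
  have hip : Tendsto (fun r => 1 / p r) atTop (𝓝 1) := by
    have := hp1.inv₀ one_ne_zero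
    simpa using this
  have hia0 : O0 fun r => 1 / a r := O0.of_tendsto hia
  have hip0 : O0 fun r => 1 / p r := O0.of_tendsto hip
  have ha0 : ∀ᶠ r in atTop, a r ≠ 0 := ha2.eventually_ne one_ne_zero
  have hp0 : ∀ᶠ r in atTop, p r ≠ 0 := hp1.eventually_ne one_ne_zero
  -- powers of `d`
  have hpow : ∀ s : ℝ, O2 q fun r => (d r) ^ s - 1 - s * (t r - 3) := by
    intro s
    have h1 : O2 q fun r => (d r) ^ s - 1 - s * (d r - 1) :=
      ((rpow_taylor s).comp_tendsto hd1).trans (hδ.mul hδ)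
    have h2 := h1.add (hd.cmul s)
    refine h2.congr' (Eventually.of_forall fun r => ?_)
    ring
  have hA1 : O2 q fun r => 1 / a r - 1 + (a r - 1) := by
    have h1 := hia0.mul2 (ha.mul ha)
    refine h1.congr' ?_
    filter_upwards [ha0] with r hr
    field_simp
    ring
  -- the super-potential
  have hL : O2 q fun r => ℓ r - (N / 2 - (t r - 3) / 4 - b * (a r - 1) / 4) := by
    have e1 : O2 q fun r => -(1 / 4) * ((t r - 3) * (t r - 3)) := (ht.mul ht).cmul _
    have e2 : O2 q fun r => (1 / 2 * t r) * ((d r) ^ (-(1 / 2) : ℝ) - 1 - (-(1 / 2)) * (t r - 3)) :=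
      ((O0.of_tendsto ht2).cmul _).mul2 (hpow _)
    have e3 : O2 q fun r => (b / 4) * ((d r) ^ (-(1 / 6) : ℝ) - 1 - (-(1 / 6)) * (t r - 3)) :=
      (hpow _).cmul _
    have e4 : O2 q fun r => (b / 4) * ((1 / a r) *
        ((d r) ^ ((1 / 6) : ℝ) - 1 - (1 / 6) * (t r - 3))) :=
      (hia0.mul2 (hpow _)).cmul _
    have e5 : O2 q fun r => (b / 4) * ((1 + 1 / 6 * (t r - 3)) * (1 / a r - 1 + (a r - 1))) :=
      (((O0.const 1).add ((ht.o0 hq0).cmul _)).mul2 hA1).cmul _
    have e6 : O2 q fun r => -(b / 24) * ((t r - 3) * (a r - 1)) := (ht.mul ha).cmul _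
    refine (((((e1.add e2).add e3).add e4).add e5).add e6).congr' ?_
    filter_upwards [hℓ] with r hr
    rw [hr, hN]
    ring
  have hz : O1 q fun r => 2 * ℓ r - N := by
    have h1 := (((hL.o1 hq0).sub (ht.cmul (1 / 4))).sub (ha.cmul (b / 4))).cmul 2
    refine h1.congr' (Eventually.of_forall fun r => ?_)
    ring
  have hℓ1 : Tendsto ℓ atTop (𝓝 (N / 2)) := by
    have h1 := ((hz.tendsto hq0).add_const N).div_const 2
    simpa using h1
  -- the mean curvature
  have hW : O2 q fun r => y r - r / 2 * (b * a1 r + T1 r) := by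
    have e1 : O1 q fun r => 1 / a r - 1 := by
      have := (hA1.o1 hq0).sub ha
      refine this.congr' (Eventually.of_forall fun r => ?_)
      ring
    have e2 : O2 q fun r => (b / 2) * ((r * a1 r) * (1 / a r - 1)) := (ha1.mul e1).cmul _
    have e3 : O2 q fun r => (1 / 2) * (r * (T r - T1 r)) := hT.cmul _
    refine (e2.add e3).congr' ?_
    filter_upwards [hy] with r hr
    rw [hr]
    ring
  have hy1 : O1 q y := by
    have h1 := (hW.o1 hq0).add (((ha1.cmul b).add hT1).cmul (1 / 2))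
    refine h1.congr' (Eventually.of_forall fun r => ?_)
    ring
  -- the numerator
  have hZ : O2 q fun r => 4 * (ℓ r) ^ 2 - ((N + y r) ^ 2 / p r - (r * k r) ^ 2) -
      N * (N * p r - (b * a r + t r) - r * (b * a1 r + T1 r)) := by
    have e1 := hL.cmul (4 * N)
    have e2 := hW.cmul (-(2 * N))
    have e3 := hz.mul hz
    have e4 : O1 q fun r => y r - N * (p r - 1) := hy1.sub (he.cmul N)
    have e5 := (hip0.mul2 (e4.mul e4)).cmul (-1)
    have e6 := hk.mul hk
    refine ((((e1.add e2).add e3).add e5).add e6).congr' ?_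
    filter_upwards [hp0] with r hr
    field_simp
    rw [hN]
    ring
  have hlim0 : Tendsto (fun r : ℝ => r ^ (N - 1) *
      (4 * (ℓ r) ^ 2 - ((N + y r) ^ 2 / p r - (r * k r) ^ 2) -
      N * (N * p r - (b * a r + t r) - r * (b * a1 r + T1 r)))) atTop (𝓝 0) := by
    have h1 := IsBigO.mul (isBigO_refl (fun r : ℝ => r ^ (N - 1)) atTop) hZ
    refine h1.trans_tendsto ?_
    have h2 : Tendsto (fun r : ℝ => r ^ (-(2 * q - (N - 1)))) atTop (𝓝 0) :=
      tendsto_rpow_neg_atTop (by linarith)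
    refine h2.congr' ?_
    filter_upwards [eventually_gt_atTop 0] with r hr
    rw [← Real.rpow_add hr, ← Real.rpow_add hr]
    congr 1
    ring
  have hlim1 : Tendsto (fun r : ℝ => r ^ (N - 1) *
      (4 * (ℓ r) ^ 2 - ((N + y r) ^ 2 / p r - (r * k r) ^ 2))) atTop (𝓝 (2 * N ^ 2 * m)) := by
    have h1 := hlim0.add (hE.const_mul N)
    have e : 0 + N * (2 * N * m) = 2 * N ^ 2 * m := by ring
    rw [e] at h1
    refine h1.congr fun r => ?_
    ring
  have hden : Tendsto (fun r => 4 * (ℓ r) ^ 2) atTop (𝓝 (N ^ 2)) := by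
    have h1 := (hℓ1.pow 2).const_mul 4
    have e : 4 * (N / 2) ^ 2 = N ^ 2 := by ring
    rw [e] at h1
    exact h1
  refine ⟨?_, hy1.tendsto hq0⟩
  have h2 := (hκ.mul hlim1).div hden (by positivity)
  have e : 1 * (2 * N ^ 2 * m) / N ^ 2 = 2 * m := by field_simp
  rw [e] at h2
  refine h2.congr' ?_
  filter_upwards [hM, hden.eventually_ne (show N ^ 2 ≠ 0 by positivity)] with r hr hne
  rw [hr]
  simp only [Pi.div_apply]
  have hne' : ℓ r ≠ 0 := by
    intro h0
    apply hne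
    rw [h0]; ring
  field_simp

end Vale.Agent.P366.T2.E68
end
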