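import Vale.Agent.P366.T2.B68d
import Vale.Agent.P366.T2.E68a
import Vale.Agent.P366.T2.E68t

open MeasureTheory Metric Filter Topology Set Asymptotics
open scoped ContDiff ENNReal

noncomputable section
namespace Vale.Agent.P366.T2
open Vale.Agent.P366.Stmt

variable {n : ℕ}

namespace E68

/-- the points of a coordinate ray -/
def ray (i0 : Fin n) (r : ℝ) : E n := r • EuclideanSpace.single i0 (1 : ℝ)

/-- Kronecker symbol -/
def kr (i0 i : Fin n) : ℝ := if i = i0 then 1 else 0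

lemma ray_apply (i0 : Fin n) (r : ℝ) (i : Fin n) : ray i0 r i = r * kr i0 i := by
  unfold ray kr
  simp [EuclideanSpace.single]

lemma len_ray (i0 : Fin n) {r : ℝ} (hr : 0 ≤ r) : len (ray i0 r) = r := by
  unfold len ray
  rw [norm_smul, EuclideanSpace.norm_single]
  simp [abs_of_nonneg hr]

lemma Y_ray (Q : Quat n) (a : Fin 3) (i0 : Fin n) (r : ℝ) (i : Fin n) :
    Q.Y a (ray i0 r) i = r * Q.J a i i0 := by
  unfold Quat.Y
  simp only [ray_apply, kr]
  simp
  ring

lemma sum_kr (i0 : Fin n) (f : Fin n → ℝ) : ∑ i, kr i0 i * f i = f i0 := by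
  unfold kr
  simp

lemma ray_hasDerivAt {f : E n → ℝ} (hf : Smooth f) (i0 : Fin n) (r : ℝ) :
    HasDerivAt (fun r => f (ray i0 r)) (pd i0 f (ray i0 r)) r := by
  have h1 : DifferentiableAt ℝ f (ray i0 r) := hf.differentiable (by norm_num) _
  have h2 : HasDerivAt (fun r : ℝ => ray i0 r) (EuclideanSpace.single i0 (1 : ℝ)) r := by
    have := (hasDerivAt_id r).smul_const (EuclideanSpace.single i0 (1 : ℝ))
    simpa [ray] using this
  have h3 := h1.hasFDerivAt.comp_hasDerivAt r h2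
  have h4 : pd i0 f (ray i0 r) = fderiv ℝ f (ray i0 r) (EuclideanSpace.single i0 (1 : ℝ)) :=
    h1.lineDeriv_eq_fderiv
  rw [h4]
  exact h3

lemma bigO_ray {s : ℝ} {f : E n → ℝ} (hf : BigO s f) (i0 : Fin n) :
    (fun r => f (ray i0 r)) =O[atTop] fun r : ℝ => r ^ (-s) := by
  obtain ⟨C, R, h⟩ := hf
  refine IsBigO.of_bound C ?_
  filter_upwards [eventually_gt_atTop R, eventually_gt_atTop 0] with r hr hr0
  have h1 := h (ray i0 r) (by rw [len_ray i0 hr0.le]; exact hr)
  rw [len_ray i0 hr0.le] at h1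
  rw [Real.norm_eq_abs, Real.norm_eq_abs, abs_of_nonneg (Real.rpow_nonneg hr0.le _)]
  exact h1

lemma O1_of_mul {q : ℝ} {f : ℝ → ℝ} (hf : f =O[atTop] fun r : ℝ => r ^ (-(q + 1))) :
    O1 q (fun r => r * f r) := by
  have h1 := (isBigO_refl (fun r : ℝ => r) atTop).mul hf
  refine IsBigO.congr' h1 EventuallyEq.rfl ?_
  filter_upwards [eventually_gt_atTop 0] with r hr
  conv_lhs => rw [← Real.rpow_one r]
  rw [← Real.rpow_mul hr.le, ← Real.rpow_add hr]
  congr 1
  ring

lemma lin_decay {g : Field n} {q : ℝ} (hsm : ∀ i j, Smooth (fun x => g x i j))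
    (h1 : ∀ i j, BigO q (fun x => g x i j - if i = j then 1 else 0))
    (h2 : ∀ i j k, BigO (q + 1) (pd k fun x => g x i j)) (i0 : Fin n)
    (c : Fin n → Fin n → ℝ) {f : ℝ → ℝ} {R : ℝ}
    (hf : ∀ r, R < r → f r = ∑ i, ∑ j, c i j * g (ray i0 r) i j) :
    O1 q (fun r => f r - ∑ i, c i i) ∧ O1 q (fun r => r * deriv f r) := by
  constructor
  · have e1 : O1 q (fun r => ∑ i, ∑ j, c i j *
        (g (ray i0 r) i j - if i = j then 1 else 0)) := by
      refine IsBigO.fun_sum fun i _ => IsBigO.fun_sum fun j _ => ?_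
      exact (bigO_ray (h1 i j) i0).const_mul_left _
    refine e1.congr' ?_
    filter_upwards [eventually_gt_atTop R] with r hr
    rw [hf r hr]
    simp only [mul_sub, Finset.sum_sub_distrib]
    congr 1
    refine Finset.sum_congr rfl fun i _ => ?_
    simp
  · have e1 : O1 q (fun r => r * ∑ i, ∑ j, c i j *
        (pd i0 (fun x => g x i j) (ray i0 r))) := by
      refine O1_of_mul ?_
      refine IsBigO.fun_sum fun i _ => IsBigO.fun_sum fun j _ => ?_
      exact (bigO_ray (h2 i j i0) i0).const_mul_left _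
    refine e1.congr' ?_
    filter_upwards [eventually_gt_atTop R] with r hr
    have h3 : HasDerivAt (fun r => ∑ i, ∑ j, c i j * g (ray i0 r) i j)
        (∑ i, ∑ j, c i j * (pd i0 (fun x => g x i j) (ray i0 r))) r :=
      HasDerivAt.fun_sum fun i _ => HasDerivAt.fun_sum fun j _ =>
        (ray_hasDerivAt (hsm i j) i0 r).const_mul _
    have h4 : f =ᶠ[𝓝 r] fun r => ∑ i, ∑ j, c i j * g (ray i0 r) i j := by
      filter_upwards [isOpen_Ioi.mem_nhds hr] with s hs
      exact hf s hs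
    rw [(h3.congr_of_eventuallyEq h4).deriv]

lemma linK_decay {K : Field n} {q : ℝ} (h1 : ∀ i j, BigO (q + 1) (fun x => K x i j))
    (i0 : Fin n) (c : Fin n → Fin n → ℝ) {f : ℝ → ℝ} {R : ℝ}
    (hf : ∀ r, R < r → f r = ∑ i, ∑ j, c i j * K (ray i0 r) i j) :
    O1 q (fun r => r * f r) := by
  have e1 : O1 q (fun r => r * ∑ i, ∑ j, c i j * K (ray i0 r) i j) := by
    refine O1_of_mul ?_
    refine IsBigO.fun_sum fun i _ => IsBigO.fun_sum fun j _ => ?_
    exact (bigO_ray (h1 i j) i0).const_mul_left _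
  refine e1.congr' ?_
  filter_upwards [eventually_gt_atTop R] with r hr
  rw [hf r hr]

section Coef

variable (Q : Quat n) (f u : ℝ → ℝ) (w : Fin 3 → ℝ → ℝ) (s : Fin 3 → Fin 3 → ℝ → ℝ)

/-- coefficients extracting `u` -/
def cu (i0 : Fin n) (i j : Fin n) : ℝ := kr i0 i * kr i0 j

/-- coefficients extracting `s a b` -/
def cs (i0 : Fin n) (a b : Fin 3) (i j : Fin n) : ℝ := Q.J a i i0 * Q.J b j i0

/-- coefficients extracting `(n - 4) f` -/
def cf (i0 : Fin n) (i j : Fin n) : ℝ :=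
  (if i = j then 1 else 0) - cu i0 i j - ∑ a, cs Q i0 a a i j

lemma u_ray (i0 : Fin n) {r : ℝ} (hr : 0 < r) :
    u r = ∑ i, ∑ j, cu i0 i j * Q.ten f u w s (ray i0 r) i j := by
  have hl := len_ray i0 hr.le
  have h1 := ten_x Q f u w s (ray i0 r) (by rw [hl]; exact hr.ne') i0
  simp only [ray_apply, Y_ray, J_diag, mul_zero, Finset.sum_const_zero, add_zero, hl] at h1
  have h2 : ∀ i, ∑ j, cu i0 i j * Q.ten f u w s (ray i0 r) i j =
      kr i0 i * Q.ten f u w s (ray i0 r) i i0 := by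
    intro i
    unfold cu
    have : ∀ j, kr i0 i * kr i0 j * Q.ten f u w s (ray i0 r) i j =
        kr i0 j * (kr i0 i * Q.ten f u w s (ray i0 r) i j) := fun j => by ring
    simp only [this, sum_kr]
  simp only [h2, sum_kr]
  have h3 : ∀ j, Q.ten f u w s (ray i0 r) i0 j * (r * kr i0 j) =
      kr i0 j * (r * Q.ten f u w s (ray i0 r) i0 j) := fun j => by ring
  simp only [h3, sum_kr] at h1
  have h4 : kr i0 i0 = 1 := by simp [kr]
  rw [h4] at h1
  have h5 : r * (Q.ten f u w s (ray i0 r) i0 i0 - u r) = 0 := by linarith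
  rcases mul_eq_zero.mp h5 with h6 | h6
  · exact absurd h6 hr.ne'
  · linarith

lemma J_J (a b : Fin 3) (i0 : Fin n) : ∑ i, Q.J a i i0 * Q.J b i i0 = if a = b then 1 else 0 := by
  have h1 := Y_dot_Y Q a b (ray i0 1)
  simpa [Y_ray, len_ray i0 zero_le_one] using h1

lemma s_ray (i0 : Fin n) {r : ℝ} (hr : 0 < r) (a b : Fin 3) :
    s a b r = ∑ i, ∑ j, cs Q i0 a b i j * Q.ten f u w s (ray i0 r) i j := by
  have hl := len_ray i0 hr.le
  have h1 : ∀ i, ∑ j, Q.ten f u w s (ray i0 r) i j * Q.J b j i0 =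
      w b r * kr i0 i + ∑ c, s c b r * Q.J c i i0 := by
    intro i
    have h2 := ten_Y Q f u w s (ray i0 r) (by rw [hl]; exact hr.ne') i b
    simp only [ray_apply, Y_ray, hl] at h2
    have h3 : ∑ j, Q.ten f u w s (ray i0 r) i j * (r * Q.J b j i0) =
        r * ∑ j, Q.ten f u w s (ray i0 r) i j * Q.J b j i0 := by
      rw [Finset.mul_sum]
      exact Finset.sum_congr rfl fun j _ => by ring
    rw [h3] at h2
    have h4 : w b r * (r * kr i0 i) + ∑ c, s c b r * (r * Q.J c i i0) =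
        r * (w b r * kr i0 i + ∑ c, s c b r * Q.J c i i0) := by
      simp only [Fin.sum_univ_three]; ring
    rw [h4] at h2
    exact mul_left_cancel₀ hr.ne' h2
  have h5 : ∀ i, ∑ j, cs Q i0 a b i j * Q.ten f u w s (ray i0 r) i j =
      w b r * (kr i0 i * Q.J a i i0) + ∑ c, s c b r * (Q.J a i i0 * Q.J c i i0) := by
    intro i
    unfold cs
    have : ∀ j, Q.J a i i0 * Q.J b j i0 * Q.ten f u w s (ray i0 r) i j =
        Q.J a i i0 * (Q.ten f u w s (ray i0 r) i j * Q.J b j i0) := fun j => by ring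
    simp only [this, ← Finset.mul_sum, h1]
    simp only [Fin.sum_univ_three]
    ring
  simp only [h5, Finset.sum_add_distrib]
  rw [← Finset.mul_sum, sum_kr, J_diag, Finset.sum_comm]
  simp only [← Finset.mul_sum, J_J]
  simp

lemma f_ray (i0 : Fin n) {r : ℝ} (hr : 0 < r) :
    ((n : ℝ) - 4) * f r = ∑ i, ∑ j, cf Q i0 i j * Q.ten f u w s (ray i0 r) i j := by
  have hl := len_ray i0 hr.le
  have h1 := ten_tr Q f u w s (ray i0 r) (by rw [hl]; exact hr.ne')
  rw [hl] at h1
  have h2 : ∑ i, ∑ j, cf Q i0 i j * Q.ten f u w s (ray i0 r) i j =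
      ∑ i, Q.ten f u w s (ray i0 r) i i -
      (∑ i, ∑ j, cu i0 i j * Q.ten f u w s (ray i0 r) i j) -
      ∑ a, ∑ i, ∑ j, cs Q i0 a a i j * Q.ten f u w s (ray i0 r) i j := by
    unfold cf
    simp only [sub_mul, Finset.sum_sub_distrib, Finset.sum_mul]
    congr 1
    · congr 1
      refine Finset.sum_congr rfl fun i _ => ?_
      simp
    · rw [Finset.sum_comm]
      simp only [Fin.sum_univ_three, Finset.sum_add_distrib]
      congr 1
      · congr 1
        · rw [Finset.sum_comm]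
        · rw [Finset.sum_comm]
      · rw [Finset.sum_comm]
  rw [h2, h1, ← u_ray Q f u w s i0 hr]
  simp only [← s_ray Q f u w s i0 hr]
  ring

lemma cu_tr (i0 : Fin n) : ∑ i, cu i0 i i = 1 := by
  unfold cu
  rw [sum_kr]
  simp [kr]

lemma cs_tr (i0 : Fin n) (a b : Fin 3) : ∑ i, cs Q i0 a b i i = if a = b then 1 else 0 := J_J Q a b i0

lemma cf_tr (i0 : Fin n) : ∑ i, cf Q i0 i i = (n : ℝ) - 4 := by
  unfold cf
  simp only [Finset.sum_sub_distrib, cu_tr]
  rw [Finset.sum_comm]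
  simp only [cs_tr]
  simp
  ring

end Coef

end E68

end Vale.Agent.P366.T2
end
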