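import Vale.Agent.P366.T2.Alg

/-!
T2, block F: `Sp(m)`-invariance determines the form of `g` and `K`.
-/

open Matrix
open scoped ContDiff

noncomputable section
namespace Vale.Agent.P366.T2
open Vale.Agent.P366.Stmt

variable {n : ℕ}

namespace Quat

variable (Q : Quat n)

lemma k10 : Q.J 1 * Q.J 0 = -Q.J 2 := by
  have := congrArg Matrix.transpose Q.h01
  rw [Matrix.transpose_mul, Q.skew, Q.skew, Q.skew, neg_mul_neg] at this
  exact this

lemma k21 : Q.J 2 * Q.J 1 = -Q.J 0 := by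
  have := congrArg Matrix.transpose Q.h12
  rw [Matrix.transpose_mul, Q.skew, Q.skew, Q.skew, neg_mul_neg] at this
  exact this

lemma k02 : Q.J 0 * Q.J 2 = -Q.J 1 := by
  have := congrArg Matrix.transpose Q.h20
  rw [Matrix.transpose_mul, Q.skew, Q.skew, Q.skew, neg_mul_neg] at this
  exact this

/-- `A` is an element of `Sp(m)`. -/
def Sp (A : Matrix (Fin n) (Fin n) ℝ) : Prop := Aᵀ * A = 1 ∧ ∀ a, A * Q.J a = Q.J a * A

/-- the average of `M` over the quaternionic structure (up to a factor) -/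
def av (M : Matrix (Fin n) (Fin n) ℝ) : Matrix (Fin n) (Fin n) ℝ :=
  M - (Q.J 0 * M * Q.J 0 + Q.J 1 * M * Q.J 1 + Q.J 2 * M * Q.J 2)

lemma av_comm (M : Matrix (Fin n) (Fin n) ℝ) (b : Fin 3) : Q.av M * Q.J b = Q.J b * Q.av M := by
  have e00 := Q.sq 0
  have e11 := Q.sq 1
  have e22 := Q.sq 2
  have e01 := Q.h01
  have e12 := Q.h12
  have e20 := Q.h20
  have e10 := Q.k10
  have e21 := Q.k21
  have e02 := Q.k02
  fin_cases b
  · show Q.av M * Q.J 0 = Q.J 0 * Q.av M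
    simp only [av, sub_mul, mul_sub, add_mul, mul_add]
    have a1 : Q.J 0 * M * Q.J 0 * Q.J 0 = -(Q.J 0 * M) := by
      rw [Matrix.mul_assoc, e00, Matrix.mul_neg, Matrix.mul_one]
    have a2 : Q.J 1 * M * Q.J 1 * Q.J 0 = -(Q.J 1 * M * Q.J 2) := by
      rw [Matrix.mul_assoc, e10, Matrix.mul_neg]
    have a3 : Q.J 2 * M * Q.J 2 * Q.J 0 = Q.J 2 * M * Q.J 1 := by
      rw [Matrix.mul_assoc, e20]
    have b1 : Q.J 0 * (Q.J 0 * M * Q.J 0) = -(M * Q.J 0) := by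
      rw [← Matrix.mul_assoc, ← Matrix.mul_assoc, e00]; simp
    have b2 : Q.J 0 * (Q.J 1 * M * Q.J 1) = Q.J 2 * M * Q.J 1 := by
      rw [← Matrix.mul_assoc, ← Matrix.mul_assoc, e01]
    have b3 : Q.J 0 * (Q.J 2 * M * Q.J 2) = -(Q.J 1 * M * Q.J 2) := by
      rw [← Matrix.mul_assoc, ← Matrix.mul_assoc, e02]; simp
    rw [a1, a2, a3, b1, b2, b3]; abel
  · show Q.av M * Q.J 1 = Q.J 1 * Q.av M
    simp only [av, sub_mul, mul_sub, add_mul, mul_add]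
    have a1 : Q.J 0 * M * Q.J 0 * Q.J 1 = Q.J 0 * M * Q.J 2 := by
      rw [Matrix.mul_assoc, e01]
    have a2 : Q.J 1 * M * Q.J 1 * Q.J 1 = -(Q.J 1 * M) := by
      rw [Matrix.mul_assoc, e11, Matrix.mul_neg, Matrix.mul_one]
    have a3 : Q.J 2 * M * Q.J 2 * Q.J 1 = -(Q.J 2 * M * Q.J 0) := by
      rw [Matrix.mul_assoc, e21, Matrix.mul_neg]
    have b1 : Q.J 1 * (Q.J 0 * M * Q.J 0) = -(Q.J 2 * M * Q.J 0) := by
      rw [← Matrix.mul_assoc, ← Matrix.mul_assoc, e10]; simp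
    have b2 : Q.J 1 * (Q.J 1 * M * Q.J 1) = -(M * Q.J 1) := by
      rw [← Matrix.mul_assoc, ← Matrix.mul_assoc, e11]; simp
    have b3 : Q.J 1 * (Q.J 2 * M * Q.J 2) = Q.J 0 * M * Q.J 2 := by
      rw [← Matrix.mul_assoc, ← Matrix.mul_assoc, e12]
    rw [a1, a2, a3, b1, b2, b3]; abel
  · show Q.av M * Q.J 2 = Q.J 2 * Q.av M
    simp only [av, sub_mul, mul_sub, add_mul, mul_add]
    have a1 : Q.J 0 * M * Q.J 0 * Q.J 2 = -(Q.J 0 * M * Q.J 1) := by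
      rw [Matrix.mul_assoc, e02, Matrix.mul_neg]
    have a2 : Q.J 1 * M * Q.J 1 * Q.J 2 = Q.J 1 * M * Q.J 0 := by
      rw [Matrix.mul_assoc, e12]
    have a3 : Q.J 2 * M * Q.J 2 * Q.J 2 = -(Q.J 2 * M) := by
      rw [Matrix.mul_assoc, e22, Matrix.mul_neg, Matrix.mul_one]
    have b1 : Q.J 2 * (Q.J 0 * M * Q.J 0) = Q.J 1 * M * Q.J 0 := by
      rw [← Matrix.mul_assoc, ← Matrix.mul_assoc, e20]
    have b2 : Q.J 2 * (Q.J 1 * M * Q.J 1) = -(Q.J 0 * M * Q.J 1) := by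
      rw [← Matrix.mul_assoc, ← Matrix.mul_assoc, e21]; simp
    have b3 : Q.J 2 * (Q.J 2 * M * Q.J 2) = -(M * Q.J 2) := by
      rw [← Matrix.mul_assoc, ← Matrix.mul_assoc, e22]; simp
    rw [a1, a2, a3, b1, b2, b3]; abel

/-- `av (J_a M) = av (M J_a)` -/
lemma av_J (M : Matrix (Fin n) (Fin n) ℝ) (b : Fin 3) : Q.av (Q.J b * M) = Q.av (M * Q.J b) := by
  have e00 := Q.sq 0
  have e11 := Q.sq 1
  have e22 := Q.sq 2
  have e01 := Q.h01
  have e12 := Q.h12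
  have e20 := Q.h20
  have e10 := Q.k10
  have e21 := Q.k21
  have e02 := Q.k02
  have l : ∀ (A B C : Matrix (Fin n) (Fin n) ℝ), A * (B * C) * A = A * B * C * A := by
    intro A B C; rw [← Matrix.mul_assoc]
  have r : ∀ (A B C : Matrix (Fin n) (Fin n) ℝ), A * (B * C) * A = A * B * (C * A) := by
    intro A B C; simp only [Matrix.mul_assoc]
  fin_cases b
  · show Q.av (Q.J 0 * M) = Q.av (M * Q.J 0)
    simp only [av]
    have a1 : Q.J 0 * (Q.J 0 * M) * Q.J 0 = -(M * Q.J 0) := by rw [l, e00]; simp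
    have a2 : Q.J 1 * (Q.J 0 * M) * Q.J 1 = -(Q.J 2 * M * Q.J 1) := by rw [l, e10]; simp
    have a3 : Q.J 2 * (Q.J 0 * M) * Q.J 2 = Q.J 1 * M * Q.J 2 := by rw [l, e20]
    have b1 : Q.J 0 * (M * Q.J 0) * Q.J 0 = -(Q.J 0 * M) := by rw [r, e00]; simp
    have b2 : Q.J 1 * (M * Q.J 0) * Q.J 1 = Q.J 1 * M * Q.J 2 := by rw [r, e01]
    have b3 : Q.J 2 * (M * Q.J 0) * Q.J 2 = -(Q.J 2 * M * Q.J 1) := by rw [r, e02]; simp
    rw [a1, a2, a3, b1, b2, b3]; abel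
  · show Q.av (Q.J 1 * M) = Q.av (M * Q.J 1)
    simp only [av]
    have a1 : Q.J 0 * (Q.J 1 * M) * Q.J 0 = Q.J 2 * M * Q.J 0 := by rw [l, e01]
    have a2 : Q.J 1 * (Q.J 1 * M) * Q.J 1 = -(M * Q.J 1) := by rw [l, e11]; simp
    have a3 : Q.J 2 * (Q.J 1 * M) * Q.J 2 = -(Q.J 0 * M * Q.J 2) := by rw [l, e21]; simp
    have b1 : Q.J 0 * (M * Q.J 1) * Q.J 0 = -(Q.J 0 * M * Q.J 2) := by rw [r, e10]; simp
    have b2 : Q.J 1 * (M * Q.J 1) * Q.J 1 = -(Q.J 1 * M) := by rw [r, e11]; simp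
    have b3 : Q.J 2 * (M * Q.J 1) * Q.J 2 = Q.J 2 * M * Q.J 0 := by rw [r, e12]
    rw [a1, a2, a3, b1, b2, b3]; abel
  · show Q.av (Q.J 2 * M) = Q.av (M * Q.J 2)
    simp only [av]
    have a1 : Q.J 0 * (Q.J 2 * M) * Q.J 0 = -(Q.J 1 * M * Q.J 0) := by rw [l, e02]; simp
    have a2 : Q.J 1 * (Q.J 2 * M) * Q.J 1 = Q.J 0 * M * Q.J 1 := by rw [l, e12]
    have a3 : Q.J 2 * (Q.J 2 * M) * Q.J 2 = -(M * Q.J 2) := by rw [l, e22]; simp
    have b1 : Q.J 0 * (M * Q.J 2) * Q.J 0 = Q.J 0 * M * Q.J 1 := by rw [r, e20]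
    have b2 : Q.J 1 * (M * Q.J 2) * Q.J 1 = -(Q.J 1 * M * Q.J 0) := by rw [r, e21]; simp
    have b3 : Q.J 2 * (M * Q.J 2) * Q.J 2 = -(Q.J 2 * M) := by rw [r, e22]; simp
    rw [a1, a2, a3, b1, b2, b3]; abel

lemma av_transpose (M : Matrix (Fin n) (Fin n) ℝ) : (Q.av M)ᵀ = Q.av Mᵀ := by
  simp only [av, transpose_sub, transpose_add, transpose_mul, Q.skew, Matrix.neg_mul,
    Matrix.mul_neg, neg_neg, Matrix.mul_assoc]

lemma av_mul_right {C : Matrix (Fin n) (Fin n) ℝ} (hC : ∀ a, C * Q.J a = Q.J a * C)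
    (M : Matrix (Fin n) (Fin n) ℝ) : Q.av (M * C) = Q.av M * C := by
  simp only [av, sub_mul, add_mul, Matrix.mul_assoc, hC]

lemma av_mul_left {C : Matrix (Fin n) (Fin n) ℝ} (hC : ∀ a, C * Q.J a = Q.J a * C)
    (M : Matrix (Fin n) (Fin n) ℝ) : Q.av (C * M) = C * Q.av M := by
  have h : ∀ a, Q.J a * (C * M) * Q.J a = C * (Q.J a * M * Q.J a) := by
    intro a; rw [← Matrix.mul_assoc, ← hC a]; simp only [Matrix.mul_assoc]
  simp only [av, mul_sub, mul_add, h]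

lemma av_zero : Q.av 0 = 0 := by simp [av]

/-! ### vectors -/

lemma Jdot (a : Fin 3) (u v : Fin n → ℝ) : (Q.J a *ᵥ u) ⬝ᵥ v = -(u ⬝ᵥ (Q.J a *ᵥ v)) := by
  rw [dotProduct_mulVec, ← mulVec_transpose, Q.skew, neg_mulVec, neg_dotProduct, neg_neg]

lemma Jdot_self (a : Fin 3) (v : Fin n → ℝ) : (Q.J a *ᵥ v) ⬝ᵥ v = 0 := by
  have h := Q.Jdot a v v
  rw [dotProduct_comm v] at h
  linarith

lemma J_mul_vecMulVec (a : Fin 3) (f e : Fin n → ℝ) :
    Q.J a * vecMulVec f e * Q.J a = -vecMulVec (Q.J a *ᵥ f) (Q.J a *ᵥ e) := by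
  rw [mul_vecMulVec, vecMulVec_mul, ← mulVec_transpose, Q.skew, neg_mulVec, vecMulVec_neg]

lemma av_vec (f e u : Fin n → ℝ) : Q.av (vecMulVec f e) *ᵥ u =
    (e ⬝ᵥ u) • f + (((Q.J 0 *ᵥ e) ⬝ᵥ u) • (Q.J 0 *ᵥ f) + ((Q.J 1 *ᵥ e) ⬝ᵥ u) • (Q.J 1 *ᵥ f) +
      ((Q.J 2 *ᵥ e) ⬝ᵥ u) • (Q.J 2 *ᵥ f)) := by
  simp only [av, J_mul_vecMulVec, sub_mulVec, add_mulVec, neg_mulVec, vecMulVec_mulVec, op_smul_eq_smul]
  abel

/-- the projection on the quaternionic line of a unit vector -/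
def pr (v : Fin n → ℝ) : Matrix (Fin n) (Fin n) ℝ := Q.av (vecMulVec v v)

lemma pr_comm (v : Fin n → ℝ) (a : Fin 3) : Q.pr v * Q.J a = Q.J a * Q.pr v := Q.av_comm _ a

lemma pr_symm (v : Fin n → ℝ) : (Q.pr v)ᵀ = Q.pr v := by
  rw [pr, av_transpose, transpose_vecMulVec]

lemma pr_self' (v : Fin n → ℝ) : Q.pr v *ᵥ v = (v ⬝ᵥ v) • v := by
  rw [pr, av_vec, Q.Jdot_self, Q.Jdot_self, Q.Jdot_self]; simp

lemma pr_self {v : Fin n → ℝ} (hv : v ⬝ᵥ v = 1) : Q.pr v *ᵥ v = v := by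
  rw [pr_self', hv, one_smul]

lemma pr_sq' (v : Fin n → ℝ) : Q.pr v * Q.pr v = (v ⬝ᵥ v) • Q.pr v := by
  conv_lhs => rw [show Q.pr v * Q.pr v = Q.av (vecMulVec v v) * Q.pr v from rfl]
  rw [← Q.av_mul_right (Q.pr_comm v), vecMulVec_mul, ← mulVec_transpose, Q.pr_symm, Q.pr_self']
  simp only [pr, av, vecMulVec_smul, Matrix.mul_smul, Matrix.smul_mul, smul_sub, smul_add]

lemma pr_J {v : Fin n → ℝ} (hv : v ⬝ᵥ v = 1) (a : Fin 3) :
    Q.pr v *ᵥ (Q.J a *ᵥ v) = Q.J a *ᵥ v := by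
  rw [mulVec_mulVec, Q.pr_comm, ← mulVec_mulVec, Q.pr_self hv]

lemma pr_sq {v : Fin n → ℝ} (hv : v ⬝ᵥ v = 1) : Q.pr v * Q.pr v = Q.pr v := by
  conv_lhs => rw [show Q.pr v * Q.pr v = Q.av (vecMulVec v v) * Q.pr v from rfl]
  rw [← Q.av_mul_right (Q.pr_comm v), vecMulVec_mul, ← mulVec_transpose, Q.pr_symm, Q.pr_self hv]
  rfl

lemma mulVec_dot (A : Matrix (Fin n) (Fin n) ℝ) (u v : Fin n → ℝ) :
    (A *ᵥ u) ⬝ᵥ v = u ⬝ᵥ (Aᵀ *ᵥ v) := by
  rw [mulVec_transpose, dotProduct_comm u, ← dotProduct_mulVec, dotProduct_comm]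

lemma mulVec_dot_symm {M : Matrix (Fin n) (Fin n) ℝ} (hM : Mᵀ = M) (u v : Fin n → ℝ) :
    (M *ᵥ u) ⬝ᵥ v = u ⬝ᵥ (M *ᵥ v) := by
  rw [dotProduct_mulVec, ← mulVec_transpose, hM]

lemma dot_JJ (a : Fin 3) (u v : Fin n → ℝ) : (Q.J a *ᵥ u) ⬝ᵥ (Q.J a *ᵥ v) = u ⬝ᵥ v := by
  rw [Q.Jdot, mulVec_mulVec, Q.sq, neg_mulVec, one_mulVec, dotProduct_neg, neg_neg]

/-! ### elements of `Sp(m)` -/

variable {Q}

lemma Sp.one : Q.Sp 1 := ⟨by simp, by simp⟩

lemma Sp.mul {A B : Matrix (Fin n) (Fin n) ℝ} (hA : Q.Sp A) (hB : Q.Sp B) : Q.Sp (A * B) := by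
  refine ⟨?_, fun a => ?_⟩
  · rw [transpose_mul, Matrix.mul_assoc, ← Matrix.mul_assoc Aᵀ, hA.1, Matrix.one_mul, hB.1]
  · rw [Matrix.mul_assoc, hB.2, ← Matrix.mul_assoc, hA.2, Matrix.mul_assoc]

lemma Sp.ortho' {A : Matrix (Fin n) (Fin n) ℝ} (hA : Q.Sp A) : A * Aᵀ = 1 :=
  mul_eq_one_comm.1 hA.1

lemma Sp.dot {A : Matrix (Fin n) (Fin n) ℝ} (hA : Q.Sp A) (u v : Fin n → ℝ) :
    (A *ᵥ u) ⬝ᵥ (A *ᵥ v) = u ⬝ᵥ v := by
  rw [dotProduct_mulVec, ← mulVec_transpose, mulVec_mulVec, hA.1, one_mulVec]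

lemma Sp.J_vec {A : Matrix (Fin n) (Fin n) ℝ} (hA : Q.Sp A) (a : Fin 3) (v : Fin n → ℝ) :
    A *ᵥ (Q.J a *ᵥ v) = Q.J a *ᵥ (A *ᵥ v) := by
  rw [mulVec_mulVec, hA.2, ← mulVec_mulVec]

variable (Q)

lemma Sp_refl {v : Fin n → ℝ} {c : ℝ} (hc : c * (v ⬝ᵥ v) = 2) : Q.Sp (1 - c • Q.pr v) := by
  refine ⟨?_, fun a => ?_⟩
  · rw [transpose_sub, transpose_smul, Q.pr_symm, transpose_one]
    simp only [sub_mul, mul_sub, Matrix.one_mul, Matrix.mul_one, Matrix.smul_mul, Matrix.mul_smul,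
      Q.pr_sq', smul_smul]
    have : c * (c * (v ⬝ᵥ v)) = 2 * c := by rw [hc]; ring
    rw [this, two_mul, add_smul]; abel
  · simp only [sub_mul, mul_sub, Matrix.one_mul, Matrix.mul_one, Matrix.smul_mul, Matrix.mul_smul,
      Q.pr_comm]

lemma Sp_neg_refl {v : Fin n → ℝ} (hv : v ⬝ᵥ v = 1) : Q.Sp ((2 : ℝ) • Q.pr v - 1) := by
  have h := Q.Sp_refl (v := v) (c := 2) (by rw [hv]; norm_num)
  have e : (2 : ℝ) • Q.pr v - 1 = -(1 - (2 : ℝ) • Q.pr v) := by abel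
  rw [e]
  refine ⟨?_, fun a => ?_⟩
  · rw [transpose_neg, Matrix.neg_mul, Matrix.mul_neg, neg_neg, h.1]
  · rw [Matrix.neg_mul, h.2, Matrix.mul_neg]

/-- right multiplication on a quaternionic line -/
def rt (v f : Fin n → ℝ) : Matrix (Fin n) (Fin n) ℝ := 1 - Q.pr v + Q.av (vecMulVec f v)

lemma rt_comm (v f : Fin n → ℝ) (a : Fin 3) : Q.rt v f * Q.J a = Q.J a * Q.rt v f := by
  simp only [rt, add_mul, mul_add, sub_mul, mul_sub, Matrix.one_mul, Matrix.mul_one, Q.pr_comm,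
    Q.av_comm]

lemma av_vec_self {f v : Fin n → ℝ} (hf : f ⬝ᵥ f = 1) : Q.av (vecMulVec v f) *ᵥ f = v := by
  rw [av_vec, hf, Q.Jdot_self, Q.Jdot_self, Q.Jdot_self]; simp

lemma Sp_rt {v f : Fin n → ℝ} (hv : v ⬝ᵥ v = 1) (hf : f ⬝ᵥ f = 1) (hvf : Q.pr v *ᵥ f = f) :
    Q.Sp (Q.rt v f) := by
  refine ⟨?_, Q.rt_comm v f⟩
  have hT : (Q.av (vecMulVec f v))ᵀ = Q.av (vecMulVec v f) := by
    rw [av_transpose, transpose_vecMulVec]
  have h1 : Q.pr v * Q.av (vecMulVec f v) = Q.av (vecMulVec f v) := by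
    rw [← Q.av_mul_left (Q.pr_comm v), mul_vecMulVec, hvf]
  have h2 : Q.av (vecMulVec v f) * Q.pr v = Q.av (vecMulVec v f) := by
    have := congrArg Matrix.transpose h1
    rwa [transpose_mul, hT, Q.pr_symm] at this
  have h3 : Q.av (vecMulVec v f) * Q.av (vecMulVec f v) = Q.pr v := by
    rw [← Q.av_mul_right (Q.av_comm _), vecMulVec_mul, ← mulVec_transpose, hT, Q.av_vec_self hf]
    rfl
  simp only [rt, transpose_add, transpose_sub, transpose_one, Q.pr_symm, hT, add_mul, mul_add,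
    sub_mul, mul_sub, Matrix.one_mul, Matrix.mul_one, Q.pr_sq hv, h1, h2, h3]
  abel

lemma rt_self {v f : Fin n → ℝ} (hv : v ⬝ᵥ v = 1) : Q.rt v f *ᵥ v = f := by
  rw [rt, add_mulVec, sub_mulVec, one_mulVec, Q.pr_self hv, Q.av_vec_self hv]; simp

/-- `Sp(m)` is transitive on the unit sphere. -/
lemma transitive {e f : Fin n → ℝ} (he : e ⬝ᵥ e = 1) (hf : f ⬝ᵥ f = 1) :
    ∃ A, Q.Sp A ∧ A *ᵥ e = f := by
  -- second move
  have move2 : ∀ e' : Fin n → ℝ, e' ⬝ᵥ e' = 1 → (∀ a, (Q.J a *ᵥ e') ⬝ᵥ f = 0) →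
      ∃ A, Q.Sp A ∧ A *ᵥ e' = f := by
    intro e' he' hJ
    by_cases h : e' = f
    · exact ⟨1, Sp.one, by rw [one_mulVec, h]⟩
    · have hd : e' - f ≠ 0 := sub_ne_zero.2 h
      have hdd : 0 < (e' - f) ⬝ᵥ (e' - f) := by
        have h0 : 0 ≤ (e' - f) ⬝ᵥ (e' - f) := by
          simp only [dotProduct]; exact Finset.sum_nonneg fun i _ => mul_self_nonneg _
        exact lt_of_le_of_ne h0 fun h1 => hd (dotProduct_self_eq_zero.1 h1.symm)
      refine ⟨1 - (2 / ((e' - f) ⬝ᵥ (e' - f))) • Q.pr (e' - f), Q.Sp_refl (by field_simp), ?_⟩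
      have hJ' : ∀ a, (Q.J a *ᵥ (e' - f)) ⬝ᵥ e' = 0 := by
        intro a
        rw [mulVec_sub, sub_dotProduct, Q.Jdot_self, Q.Jdot, dotProduct_comm, hJ a]; simp
      have h1 : Q.pr (e' - f) *ᵥ e' = ((e' - f) ⬝ᵥ e') • (e' - f) := by
        rw [pr, av_vec, hJ' 0, hJ' 1, hJ' 2]; simp
      have h2 : (e' - f) ⬝ᵥ (e' - f) = 2 * ((e' - f) ⬝ᵥ e') := by
        simp only [sub_dotProduct, dotProduct_sub, he', hf, dotProduct_comm e' f]; ring
      rw [sub_mulVec, one_mulVec, smul_mulVec, h1, smul_smul, h2]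
      have h3 : (e' - f) ⬝ᵥ e' ≠ 0 := by
        intro h4; rw [h4] at h2; linarith
      rw [show 2 / (2 * ((e' - f) ⬝ᵥ e')) * ((e' - f) ⬝ᵥ e') = 1 by field_simp, one_smul]
      abel
  set c := Q.pr e *ᵥ f with hc
  by_cases h0 : c = 0
  · refine move2 e he fun a => ?_
    have h1 : (Q.J a *ᵥ e) ⬝ᵥ f = (Q.J a *ᵥ e) ⬝ᵥ c := by
      rw [hc, ← mulVec_dot_symm (Q.pr_symm e), Q.pr_J he]
    rw [h1, h0, dotProduct_zero]
  · have hcc : 0 < c ⬝ᵥ c := by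
      have h1 : 0 ≤ c ⬝ᵥ c := by
        simp only [dotProduct]; exact Finset.sum_nonneg fun i _ => mul_self_nonneg _
      exact lt_of_le_of_ne h1 fun h2 => h0 (dotProduct_self_eq_zero.1 h2.symm)
    have hs : 0 < √(c ⬝ᵥ c) := Real.sqrt_pos.2 hcc
    set e' := (√(c ⬝ᵥ c))⁻¹ • c with he'
    have he1 : e' ⬝ᵥ e' = 1 := by
      rw [he', smul_dotProduct, dotProduct_smul, smul_eq_mul, smul_eq_mul]
      have := Real.mul_self_sqrt hcc.le
      field_simp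
      rw [Real.sq_sqrt hcc.le]
    have hPc : Q.pr e *ᵥ c = c := by
      rw [hc, mulVec_mulVec, Q.pr_sq he]
    have hPe : Q.pr e *ᵥ e' = e' := by rw [he', mulVec_smul, hPc]
    obtain ⟨B, hB, hBe⟩ := move2 e' he1 fun a => by
      rw [he', mulVec_smul, smul_dotProduct]
      have h1 : (Q.J a *ᵥ c) ⬝ᵥ f = (Q.J a *ᵥ c) ⬝ᵥ c := by
        conv_rhs => rw [hc, ← mulVec_dot_symm (Q.pr_symm e), ← hc, mulVec_mulVec, Q.pr_comm,
          ← mulVec_mulVec, hPc]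
      rw [h1, Q.Jdot_self, smul_zero]
    exact ⟨B * Q.rt e e', hB.mul (Q.Sp_rt he he1 hPe), by
      rw [← mulVec_mulVec, Q.rt_self he, hBe]⟩

/-! ### stabiliser argument -/

/-- `M` is invariant under the stabiliser of `e`. -/
def StabInv (e : Fin n → ℝ) (M : Matrix (Fin n) (Fin n) ℝ) : Prop :=
  Mᵀ = M ∧ ∀ A, Q.Sp A → A *ᵥ e = e → Aᵀ * M * A = M

variable {Q}

lemma StabInv.comm {e : Fin n → ℝ} {M : Matrix (Fin n) (Fin n) ℝ} (h : Q.StabInv e M)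
    {A : Matrix (Fin n) (Fin n) ℝ} (hA : Q.Sp A) (hAe : A *ᵥ e = e) : A * M = M * A := by
  conv_lhs => rw [← h.2 A hA hAe]
  rw [← Matrix.mul_assoc, ← Matrix.mul_assoc, hA.ortho', Matrix.one_mul]

lemma StabInv.pr_comm {e : Fin n → ℝ} (he : e ⬝ᵥ e = 1) {M : Matrix (Fin n) (Fin n) ℝ}
    (h : Q.StabInv e M) : Q.pr e * M = M * Q.pr e := by
  have h1 := h.comm (Q.Sp_neg_refl he) (by
    rw [sub_mulVec, smul_mulVec, Q.pr_self he, one_mulVec, two_smul]; abel)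
  rw [sub_mul, mul_sub, Matrix.one_mul, Matrix.mul_one, Matrix.smul_mul, Matrix.mul_smul] at h1
  have h2 := sub_left_injective h1
  exact smul_right_injective _ (two_ne_zero (α := ℝ)) h2

lemma perp_dot {e w : Fin n → ℝ} (he : e ⬝ᵥ e = 1) (hw : Q.pr e *ᵥ w = 0) : e ⬝ᵥ w = 0 := by
  have h1 : (Q.pr e *ᵥ e) ⬝ᵥ w = e ⬝ᵥ (Q.pr e *ᵥ w) := mulVec_dot_symm (Q.pr_symm e) _ _
  rwa [Q.pr_self he, hw, dotProduct_zero] at h1

lemma perp_dotJ {e w : Fin n → ℝ} (he : e ⬝ᵥ e = 1) (hw : Q.pr e *ᵥ w = 0) (a : Fin 3) :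
    (Q.J a *ᵥ w) ⬝ᵥ e = 0 := by
  have h1 : (Q.pr e *ᵥ (Q.J a *ᵥ e)) ⬝ᵥ w = (Q.J a *ᵥ e) ⬝ᵥ (Q.pr e *ᵥ w) :=
    mulVec_dot_symm (Q.pr_symm e) _ _
  rw [Q.pr_J he, hw, dotProduct_zero] at h1
  rw [Q.Jdot, dotProduct_comm, h1, neg_zero]

lemma av_perp {e w : Fin n → ℝ} (he : e ⬝ᵥ e = 1) (hw : Q.pr e *ᵥ w = 0) (f : Fin n → ℝ) :
    Q.av (vecMulVec f w) *ᵥ e = 0 := by
  rw [av_vec, dotProduct_comm w e, perp_dot he hw, perp_dotJ he hw, perp_dotJ he hw,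
    perp_dotJ he hw]
  simp

lemma pr_mulVec (w u : Fin n → ℝ) : Q.pr w *ᵥ u = (w ⬝ᵥ u) • w +
    (((Q.J 0 *ᵥ w) ⬝ᵥ u) • (Q.J 0 *ᵥ w) + ((Q.J 1 *ᵥ w) ⬝ᵥ u) • (Q.J 1 *ᵥ w) +
      ((Q.J 2 *ᵥ w) ⬝ᵥ u) • (Q.J 2 *ᵥ w)) := Q.av_vec w w u

lemma StabInv.perp_unit {e : Fin n → ℝ} (he : e ⬝ᵥ e = 1) {M : Matrix (Fin n) (Fin n) ℝ}
    (h : Q.StabInv e M) {w : Fin n → ℝ} (hw : Q.pr e *ᵥ w = 0) (hw1 : w ⬝ᵥ w = 1) :
    M *ᵥ w = (w ⬝ᵥ (M *ᵥ w)) • w := by
  -- `M` commutes with `pr w`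
  have c1 : Q.pr w * M = M * Q.pr w := by
    have h1 := h.comm (Q.Sp_refl (v := w) (c := 2) (by rw [hw1]; norm_num)) (by
      rw [sub_mulVec, one_mulVec, smul_mulVec, pr, av_perp he hw, smul_zero, sub_zero])
    rw [sub_mul, mul_sub, Matrix.one_mul, Matrix.mul_one, Matrix.smul_mul, Matrix.mul_smul] at h1
    have h2 := sub_right_injective h1
    exact smul_right_injective _ (two_ne_zero (α := ℝ)) h2
  have c2 : ∀ a, Q.av (vecMulVec (Q.J a *ᵥ w) w) * M = M * Q.av (vecMulVec (Q.J a *ᵥ w) w) := by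
    intro a
    have h1 := h.comm (Q.Sp_rt hw1 (f := Q.J a *ᵥ w) (by rw [Q.dot_JJ, hw1]) (Q.pr_J hw1 a)) (by
      rw [rt, add_mulVec, sub_mulVec, one_mulVec, av_perp he hw, pr, av_perp he hw]; simp)
    rw [rt, add_mul, mul_add, sub_mul, mul_sub, Matrix.one_mul, Matrix.mul_one, c1] at h1
    exact add_right_injective _ h1
  have skew : ∀ a, (Q.av (vecMulVec (Q.J a *ᵥ w) w))ᵀ = -Q.av (vecMulVec (Q.J a *ᵥ w) w) := by
    intro a
    rw [av_transpose, transpose_vecMulVec]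
    have e1 : vecMulVec w (Q.J a *ᵥ w) = -(vecMulVec w w * Q.J a) := by
      rw [vecMulVec_mul, ← mulVec_transpose, Q.skew, neg_mulVec, vecMulVec_neg, neg_neg]
    have e2 : vecMulVec (Q.J a *ᵥ w) w = Q.J a * vecMulVec w w := by rw [mul_vecMulVec]
    have e3 : Q.av (-(vecMulVec w w * Q.J a)) = -Q.av (vecMulVec w w * Q.J a) := by
      simp only [av, Matrix.mul_neg, Matrix.neg_mul]; abel
    rw [e1, e2, e3, Q.av_J]
  have z : ∀ a, (Q.J a *ᵥ w) ⬝ᵥ (M *ᵥ w) = 0 := by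
    intro a
    have hS : Q.av (vecMulVec (Q.J a *ᵥ w) w) *ᵥ w = Q.J a *ᵥ w := by
      rw [Q.av_vec_self hw1]
    have e1 : (Q.J a *ᵥ w) ⬝ᵥ (M *ᵥ w) = -((Q.J a *ᵥ w) ⬝ᵥ (M *ᵥ w)) := by
      conv_lhs => rw [← hS]
      rw [mulVec_dot, skew, neg_mulVec, mulVec_mulVec, c2, ← mulVec_mulVec, hS, dotProduct_neg,
        ← mulVec_dot_symm h.1, dotProduct_comm (M *ᵥ w)]
    linarith
  have h1 : M *ᵥ w = Q.pr w *ᵥ (M *ᵥ w) := by
    rw [mulVec_mulVec, c1, ← mulVec_mulVec, Q.pr_self hw1]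
  rw [pr_mulVec, z 0, z 1, z 2] at h1
  simpa using h1

lemma dot_self_pos {w : Fin n → ℝ} (hw : w ≠ 0) : 0 < w ⬝ᵥ w := by
  have h0 : 0 ≤ w ⬝ᵥ w := by
    simp only [dotProduct]; exact Finset.sum_nonneg fun i _ => mul_self_nonneg _
  exact lt_of_le_of_ne h0 fun h1 => hw (dotProduct_self_eq_zero.1 h1.symm)

lemma StabInv.perp {e : Fin n → ℝ} (he : e ⬝ᵥ e = 1) {M : Matrix (Fin n) (Fin n) ℝ}
    (h : Q.StabInv e M) {w : Fin n → ℝ} (hw : Q.pr e *ᵥ w = 0) : ∃ β : ℝ, M *ᵥ w = β • w := by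
  by_cases h0 : w = 0
  · exact ⟨0, by simp [h0]⟩
  have hp := dot_self_pos h0
  have hs : 0 < √(w ⬝ᵥ w) := Real.sqrt_pos.2 hp
  set w' := (√(w ⬝ᵥ w))⁻¹ • w with hw'
  have h1 : w' ⬝ᵥ w' = 1 := by
    rw [hw', smul_dotProduct, dotProduct_smul, smul_eq_mul, smul_eq_mul]
    field_simp
    rw [Real.sq_sqrt hp.le]
  have h2 : Q.pr e *ᵥ w' = 0 := by rw [hw', mulVec_smul, hw, smul_zero]
  have h3 := h.perp_unit he h2 h1
  refine ⟨w' ⬝ᵥ (M *ᵥ w'), ?_⟩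
  have h4 : w = √(w ⬝ᵥ w) • w' := by
    rw [hw', smul_smul, mul_inv_cancel₀ hs.ne', one_smul]
  conv_lhs => rw [h4, mulVec_smul, h3]
  conv_rhs => rw [h4]
  rw [smul_comm]

lemma StabInv.perp_all {e : Fin n → ℝ} (he : e ⬝ᵥ e = 1) {M : Matrix (Fin n) (Fin n) ℝ}
    (h : Q.StabInv e M) : ∃ α : ℝ, ∀ w, Q.pr e *ᵥ w = 0 → M *ᵥ w = α • w := by
  by_cases hex : ∃ w, Q.pr e *ᵥ w = 0 ∧ w ≠ 0
  · obtain ⟨w, hw, hw0⟩ := hex
    obtain ⟨α, hα⟩ := h.perp he hw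
    refine ⟨α, fun u hu => ?_⟩
    obtain ⟨β, hβ⟩ := h.perp he hu
    obtain ⟨γ, hγ⟩ := h.perp he (w := w + u) (by rw [mulVec_add, hw, hu, add_zero])
    rw [mulVec_add, hα, hβ, smul_add] at hγ
    -- (α - γ) w = (γ - β) u
    have h1 : (α - γ) • w = (γ - β) • u := by
      rw [sub_smul, sub_smul]
      have := hγ
      calc α • w - γ • w = (α • w + β • u) - γ • w - β • u := by abel
        _ = (γ • w + γ • u) - γ • w - β • u := by rw [this]
        _ = γ • u - β • u := by abel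
    by_cases hab : γ = β
    · rw [hab, sub_self, zero_smul] at h1
      rcases smul_eq_zero.1 h1 with h2 | h2
      · rw [hβ, sub_eq_zero.1 h2]
      · exact absurd h2 hw0
    · have h2 : u = ((γ - β)⁻¹ * (α - γ)) • w := by
        rw [mul_smul, h1, smul_smul, inv_mul_cancel₀ (sub_ne_zero.2 hab), one_smul]
      rw [h2, mulVec_smul, hα, smul_comm]
  · push Not at hex
    exact ⟨1, fun w hw => by rw [hex w hw]; simp⟩

lemma StabInv.eq {e : Fin n → ℝ} (he : e ⬝ᵥ e = 1) {M : Matrix (Fin n) (Fin n) ℝ}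
    (h : Q.StabInv e M) : ∃ α : ℝ, (∀ w, Q.pr e *ᵥ w = 0 → M *ᵥ w = α • w) ∧
      M = Q.pr e * M * Q.pr e + α • (1 - Q.pr e) := by
  obtain ⟨α, hα⟩ := h.perp_all he
  refine ⟨α, hα, ?_⟩
  have h1 : Q.pr e * M * Q.pr e = M * Q.pr e := by
    rw [h.pr_comm he, Matrix.mul_assoc, Q.pr_sq he]
  rw [h1]
  refine Matrix.ext_of_mulVec_single fun i => ?_
  have h2 := hα ((1 - Q.pr e) *ᵥ _root_.Pi.single i 1) (by
    rw [mulVec_mulVec, mul_sub, Matrix.mul_one, Q.pr_sq he, sub_self, zero_mulVec])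
  rw [sub_mulVec, one_mulVec, mulVec_sub, mulVec_mulVec] at h2
  rw [add_mulVec, smul_mulVec, sub_mulVec, one_mulVec, ← h2]
  abel

/-! ### explicit form -/

variable (Q)

lemma pr_eq (v : Fin n → ℝ) : Q.pr v = vecMulVec v v + (vecMulVec (Q.J 0 *ᵥ v) (Q.J 0 *ᵥ v) +
    vecMulVec (Q.J 1 *ᵥ v) (Q.J 1 *ᵥ v) + vecMulVec (Q.J 2 *ᵥ v) (Q.J 2 *ᵥ v)) := by
  simp only [pr, av, J_mul_vecMulVec]; abel

lemma sandwich (a b c d : Fin n → ℝ) (M : Matrix (Fin n) (Fin n) ℝ) :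
    vecMulVec a b * M * vecMulVec c d = (b ⬝ᵥ (M *ᵥ c)) • vecMulVec a d := by
  rw [vecMulVec_mul, vecMulVec_mul_vecMulVec, dotProduct_mulVec]
  ext i j
  simp only [vecMulVec_apply, Matrix.smul_apply, smul_eq_mul, Pi.smul_apply]
  ring

variable {Q}

/-- The explicit form of an invariant symmetric matrix (with the horizontal coefficient `α`). -/
lemma StabInv.form {e : Fin n → ℝ} {M : Matrix (Fin n) (Fin n) ℝ} (hM : Mᵀ = M) {α : ℝ}
    (h : M = Q.pr e * M * Q.pr e + α • (1 - Q.pr e)) (i j : Fin n) :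
    M i j = α * ((if i = j then 1 else 0) -
        (e i * e j + ∑ a, (Q.J a *ᵥ e) i * (Q.J a *ᵥ e) j)) +
      ((e ⬝ᵥ (M *ᵥ e)) * e i * e j +
        ∑ a, (e ⬝ᵥ (M *ᵥ (Q.J a *ᵥ e))) * (e i * (Q.J a *ᵥ e) j + (Q.J a *ᵥ e) i * e j) +
        ∑ a, ∑ b, ((Q.J a *ᵥ e) ⬝ᵥ (M *ᵥ (Q.J b *ᵥ e))) * (Q.J a *ᵥ e) i * (Q.J b *ᵥ e) j) := by
  have hs : ∀ a, (Q.J a *ᵥ e) ⬝ᵥ (M *ᵥ e) = e ⬝ᵥ (M *ᵥ (Q.J a *ᵥ e)) := by
    intro a
    rw [← mulVec_dot_symm hM, dotProduct_comm]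
  have h1 : M i j = (Q.pr e * M * Q.pr e) i j + α * ((1 : Matrix (Fin n) (Fin n) ℝ) i j -
      Q.pr e i j) := by
    conv_lhs => rw [h]
    rw [Matrix.add_apply, Matrix.smul_apply, Matrix.sub_apply, smul_eq_mul]
  rw [h1]
  rw [Q.pr_eq]
  simp only [add_mul, mul_add, sandwich, hs]
  simp only [Matrix.add_apply, Matrix.smul_apply, vecMulVec_apply, smul_eq_mul,
    Fin.sum_univ_three, Matrix.one_apply]
  ring

lemma trace_pr_mul {e : Fin n → ℝ} (M : Matrix (Fin n) (Fin n) ℝ) :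
    (M * Q.pr e).trace = e ⬝ᵥ (M *ᵥ e) + ∑ a, (Q.J a *ᵥ e) ⬝ᵥ (M *ᵥ (Q.J a *ᵥ e)) := by
  rw [Q.pr_eq]
  simp only [mul_add, mul_vecMulVec, trace_add, trace_vecMulVec, Fin.sum_univ_three]
  simp only [dotProduct_comm (M *ᵥ _)]

lemma trace_pr {e : Fin n → ℝ} (he : e ⬝ᵥ e = 1) : (Q.pr e).trace = 4 := by
  have h := Q.trace_pr_mul (e := e) 1
  rw [Matrix.one_mul] at h
  rw [h]
  simp only [one_mulVec, Q.dot_JJ, he, Fin.sum_univ_three]
  norm_num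

lemma StabInv.trace {e : Fin n → ℝ} (he : e ⬝ᵥ e = 1) {M : Matrix (Fin n) (Fin n) ℝ}
    (hi : Q.StabInv e M) {α : ℝ}
    (h : M = Q.pr e * M * Q.pr e + α • (1 - Q.pr e)) :
    M.trace = e ⬝ᵥ (M *ᵥ e) + ∑ a, (Q.J a *ᵥ e) ⬝ᵥ (M *ᵥ (Q.J a *ᵥ e)) + α * ((n : ℝ) - 4) := by
  have h1 : (Q.pr e * M * Q.pr e).trace = (M * Q.pr e).trace := by
    rw [hi.pr_comm he, Matrix.mul_assoc, Q.pr_sq he]
  conv_lhs => rw [h]
  rw [trace_add, trace_smul, trace_sub, trace_one, Q.trace_pr he, h1, trace_pr_mul]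
  simp

/-! ### positivity -/

lemma StabInv.alpha_pos {e : Fin n → ℝ} (he : e ⬝ᵥ e = 1) {M : Matrix (Fin n) (Fin n) ℝ}
    (hM : M.PosDef) {α : ℝ} (hn : (4 : ℝ) < n)
    (hα : ∀ w, Q.pr e *ᵥ w = 0 → M *ᵥ w = α • w) : 0 < α := by
  have hne : (1 - Q.pr e) ≠ 0 := by
    intro h0
    have h1 := congrArg Matrix.trace h0
    rw [trace_sub, trace_one, Q.trace_pr he, trace_zero] at h1
    simp only [Fintype.card_fin] at h1
    linarith
  obtain ⟨u, hu⟩ : ∃ u, (1 - Q.pr e) *ᵥ u ≠ 0 := by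
    by_contra hcon
    push Not at hcon
    exact hne (Matrix.ext_of_mulVec_single fun i => by rw [hcon, zero_mulVec])
  have hw : Q.pr e *ᵥ ((1 - Q.pr e) *ᵥ u) = 0 := by
    rw [mulVec_mulVec, mul_sub, Matrix.mul_one, Q.pr_sq he, sub_self, zero_mulVec]
  have h1 := hM.dotProduct_mulVec_pos hu
  rw [star_trivial, hα _ hw, dotProduct_smul, smul_eq_mul] at h1
  exact pos_of_mul_pos_left h1 (dot_self_pos hu).le

lemma J_ortho {e : Fin n → ℝ} (he : e ⬝ᵥ e = 1) (a b : Fin 3) :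
    (Q.J a *ᵥ e) ⬝ᵥ (Q.J b *ᵥ e) = if a = b then 1 else 0 := by
  have h : ∀ a b c : Fin 3, Q.J a * Q.J b = Q.J c → (Q.J a *ᵥ e) ⬝ᵥ (Q.J b *ᵥ e) = 0 ∧
      (Q.J b *ᵥ e) ⬝ᵥ (Q.J a *ᵥ e) = 0 := by
    intro a b c hc
    have h1 : (Q.J a *ᵥ e) ⬝ᵥ (Q.J b *ᵥ e) = 0 := by
      rw [Q.Jdot, mulVec_mulVec, hc, dotProduct_comm, Q.Jdot_self, neg_zero]
    exact ⟨h1, by rw [dotProduct_comm, h1]⟩
  have h01 := h 0 1 2 Q.h01
  have h12 := h 1 2 0 Q.h12
  have h20 := h 2 0 1 Q.h20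
  fin_cases a <;> fin_cases b <;> simp only [Fin.zero_eta, Fin.mk_one, Fin.reduceFinMk,
    Fin.isValue, Q.dot_JJ, he, h01.1, h01.2, h12.1, h12.2, h20.1, h20.2] <;> rfl

lemma fibre_posDef {e : Fin n → ℝ} (he : e ⬝ᵥ e = 1) {M : Matrix (Fin n) (Fin n) ℝ}
    (hM : M.PosDef) :
    (Matrix.of fun a b => (Q.J a *ᵥ e) ⬝ᵥ (M *ᵥ (Q.J b *ᵥ e))).PosDef := by
  have hMt : Mᵀ = M := hM.1
  refine Matrix.PosDef.of_dotProduct_mulVec_pos ?_ fun v hv => ?_
  · ext a b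
    simp only [conjTranspose_apply, Matrix.of_apply, star_trivial]
    rw [← mulVec_dot_symm hMt, dotProduct_comm]
  · set B : Matrix (Fin n) (Fin 3) ℝ := Matrix.of fun i a => (Q.J a *ᵥ e) i with hB
    have hBJ : ∀ a, (fun i => B i a) = Q.J a *ᵥ e := fun a => rfl
    have h1 : (Matrix.of fun a b => (Q.J a *ᵥ e) ⬝ᵥ (M *ᵥ (Q.J b *ᵥ e))) = Bᵀ * M * B := by
      ext a b
      rw [Matrix.mul_assoc, Matrix.mul_apply]
      simp only [Matrix.of_apply, dotProduct, hB, transpose_apply]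
      rfl
    have h2 : Bᵀ * B = 1 := by
      ext a b
      rw [Matrix.mul_apply]
      have := Q.J_ortho he a b
      simp only [dotProduct] at this
      simp only [transpose_apply, hB, Matrix.of_apply, this, Matrix.one_apply]
    have h3 : B *ᵥ v ≠ 0 := by
      intro h0
      apply hv
      rw [← one_mulVec v, ← h2, ← mulVec_mulVec, h0, mulVec_zero]
    rw [h1, star_trivial]
    have h4 := hM.dotProduct_mulVec_pos h3
    rw [star_trivial] at h4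
    rw [← mulVec_mulVec, ← mulVec_mulVec, dotProduct_mulVec, vecMul_transpose]
    exact h4

lemma pr_eq_one_of_four {e : Fin n → ℝ} (he : e ⬝ᵥ e = 1) (hn : (n : ℝ) = 4) : Q.pr e = 1 := by
  have h1 : (1 - Q.pr e)ᴴ * (1 - Q.pr e) = 1 - Q.pr e := by
    rw [conjTranspose_eq_transpose_of_trivial, transpose_sub, transpose_one, Q.pr_symm]
    simp only [sub_mul, mul_sub, Matrix.one_mul, Matrix.mul_one, Q.pr_sq he]
    abel
  have h2 : (1 - Q.pr e).trace = 0 := by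
    rw [trace_sub, trace_one, Q.trace_pr he]
    simp [hn]
  have h3 := (Matrix.trace_conjTranspose_mul_self_eq_zero_iff (A := 1 - Q.pr e)).1 (by rw [h1, h2])
  exact (sub_eq_zero.1 h3).symm

end Quat

/-! ### fields -/

/-- The point `r e`. -/
def pt (e : Fin n → ℝ) (r : ℝ) : E n := WithLp.toLp 2 (r • e)

/-- The point `A x`. -/
def act (A : Matrix (Fin n) (Fin n) ℝ) (x : E n) : E n := WithLp.toLp 2 (A *ᵥ x.ofLp)

/-- `g` is invariant under `Sp(m)` outside the ball of radius `R`. -/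
def Quat.Inv (Q : Quat n) (R : ℝ) (g : Field n) : Prop :=
  ∀ A : Matrix (Fin n) (Fin n) ℝ, Aᵀ * A = 1 → (∀ a, A * Q.J a = Q.J a * A) →
    ∀ x : E n, R ≤ len x → Aᵀ * mat g (act A x) * A = mat g x

lemma len_sq_eq (x : E n) : len x ^ 2 = x.ofLp ⬝ᵥ x.ofLp := by
  rw [len, EuclideanSpace.norm_sq_eq]
  simp only [dotProduct, Real.norm_eq_abs, sq_abs]
  exact Finset.sum_congr rfl fun i _ => by rw [sq]

lemma len_pt {e : Fin n → ℝ} (he : e ⬝ᵥ e = 1) (r : ℝ) : len (pt e r) = |r| := by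
  have h := len_sq_eq (pt e r)
  rw [pt, dotProduct_smul, smul_dotProduct, he] at h
  have h2 : len (pt e r) ^ 2 = r ^ 2 := by
    rw [pt, h]; simp only [smul_eq_mul]; ring
  have h3 := (sq_eq_sq_iff_abs_eq_abs _ _).1 h2
  rwa [abs_of_nonneg (show 0 ≤ len (pt e r) from norm_nonneg _)] at h3

lemma pt_smooth (e : Fin n → ℝ) : ContDiff ℝ ∞ (pt e) := by
  unfold pt
  rw [contDiff_euclidean]
  intro i
  simp only [Pi.smul_apply, smul_eq_mul]
  fun_prop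

/-- the unit vector in the direction of `x` -/
def hat (x : E n) : Fin n → ℝ := (len x)⁻¹ • x.ofLp

lemma hat_unit {x : E n} (hx : 0 < len x) : hat x ⬝ᵥ hat x = 1 := by
  rw [hat, dotProduct_smul, smul_dotProduct, ← len_sq_eq]
  simp only [smul_eq_mul]
  field_simp

lemma pt_hat {x : E n} (hx : 0 < len x) : pt (hat x) (len x) = x := by
  rw [pt, hat, smul_smul, mul_inv_cancel₀ hx.ne', one_smul]

lemma act_pt {A : Matrix (Fin n) (Fin n) ℝ} (e : Fin n → ℝ) (r : ℝ) :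
    act A (pt e r) = pt (A *ᵥ e) r := by
  rw [act, pt, pt, mulVec_smul]

namespace Quat
variable (Q : Quat n)

/-- radial coefficient -/
def cU (g : Field n) (e : Fin n → ℝ) (r : ℝ) : ℝ := e ⬝ᵥ (mat g (pt e r) *ᵥ e)

/-- mixed coefficients -/
def cW (g : Field n) (e : Fin n → ℝ) (a : Fin 3) (r : ℝ) : ℝ :=
  e ⬝ᵥ (mat g (pt e r) *ᵥ (Q.J a *ᵥ e))

/-- fibre coefficients -/
def cS (g : Field n) (e : Fin n → ℝ) (a b : Fin 3) (r : ℝ) : ℝ :=
  (Q.J a *ᵥ e) ⬝ᵥ (mat g (pt e r) *ᵥ (Q.J b *ᵥ e))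

/-- horizontal coefficient -/
def cF (g : Field n) (e : Fin n → ℝ) (r : ℝ) : ℝ :=
  if n = 4 then 1 else
    ((mat g (pt e r)).trace - cU g e r - ∑ a, Q.cS g e a a r) / ((n : ℝ) - 4)

lemma entry_smooth {g : Field n} (hg : ∀ i j, Smooth (fun x => g x i j)) (e : Fin n → ℝ)
    (i j : Fin n) : ContDiff ℝ ∞ fun r => mat g (pt e r) i j :=
  (hg i j).comp (pt_smooth e)

lemma form_smooth {g : Field n} (hg : ∀ i j, Smooth (fun x => g x i j)) (e u v : Fin n → ℝ) :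
    ContDiff ℝ ∞ fun r => u ⬝ᵥ (mat g (pt e r) *ᵥ v) := by
  simp only [dotProduct, mulVec]
  exact ContDiff.sum fun i _ => contDiff_const.mul
    (ContDiff.sum fun j _ => (entry_smooth hg e i j).mul contDiff_const)

lemma trace_smooth {g : Field n} (hg : ∀ i j, Smooth (fun x => g x i j)) (e : Fin n → ℝ) :
    ContDiff ℝ ∞ fun r => (mat g (pt e r)).trace := by
  simp only [Matrix.trace, Matrix.diag]
  exact ContDiff.sum fun i _ => entry_smooth hg e i i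

lemma cF_smooth {g : Field n} (hg : ∀ i j, Smooth (fun x => g x i j)) (e : Fin n → ℝ) :
    ContDiff ℝ ∞ (Q.cF g e) := by
  by_cases hn : n = 4
  · have : Q.cF g e = fun _ => 1 := by
      funext r; simp only [cF, hn, if_true]
    rw [this]; exact contDiff_const
  · have : Q.cF g e = fun r => ((mat g (pt e r)).trace - cU g e r - ∑ a, Q.cS g e a a r) /
        ((n : ℝ) - 4) := by
      funext r; simp only [cF, hn, if_false]
    rw [this]
    exact (((trace_smooth hg e).sub (form_smooth hg e _ _)).sub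
      (ContDiff.sum fun a _ => form_smooth hg e _ _)).div_const _

lemma transport (A M : Matrix (Fin n) (Fin n) ℝ) (u v : Fin n → ℝ) :
    u ⬝ᵥ ((Aᵀ * M * A) *ᵥ v) = (A *ᵥ u) ⬝ᵥ (M *ᵥ (A *ᵥ v)) := by
  rw [mulVec_dot, mulVec_mulVec, mulVec_mulVec, Matrix.mul_assoc]

variable {Q}

/-- The coefficients at `x` only depend on the length of `x`. -/
lemma Inv.coeff {R : ℝ} (hR : 0 < R) {g : Field n} (h : Q.Inv R g) {e : Fin n → ℝ}
    (he : e ⬝ᵥ e = 1) {x : E n} (hx : R ≤ len x) :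
    cU g e (len x) = hat x ⬝ᵥ (mat g x *ᵥ hat x) ∧
    (∀ a, Q.cW g e a (len x) = hat x ⬝ᵥ (mat g x *ᵥ (Q.J a *ᵥ hat x))) ∧
    (∀ a b, Q.cS g e a b (len x) = (Q.J a *ᵥ hat x) ⬝ᵥ (mat g x *ᵥ (Q.J b *ᵥ hat x))) ∧
    (mat g (pt e (len x))).trace = (mat g x).trace := by
  have hx0 : 0 < len x := hR.trans_le hx
  obtain ⟨A, hA, hAe⟩ := Q.transitive he (hat_unit hx0)
  have h1 := h A hA.1 hA.2 (pt e (len x)) (by rw [len_pt he, abs_of_pos hx0]; exact hx)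
  rw [act_pt, hAe, pt_hat hx0] at h1
  refine ⟨?_, fun a => ?_, fun a b => ?_, ?_⟩
  · rw [cU, ← h1, transport, hAe]
  · rw [cW, ← h1, transport, hA.J_vec, hAe]
  · rw [cS, ← h1, transport, hA.J_vec, hA.J_vec, hAe]
  · rw [← h1, trace_mul_comm, ← Matrix.mul_assoc, hA.ortho', Matrix.one_mul]

lemma Inv.stab {R : ℝ} (hR : 0 < R) {g : Field n} (h : Q.Inv R g)
    (hs : ∀ x i j, g x i j = g x j i) {x : E n} (hx : R ≤ len x) :
    Q.StabInv (hat x) (mat g x) := by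
  have hx0 : 0 < len x := hR.trans_le hx
  refine ⟨?_, fun A hA hAe => ?_⟩
  · ext i j; exact hs x j i
  · have h1 := h A hA.1 hA.2 x hx
    have h2 : act A x = x := by
      conv_lhs => rw [← pt_hat hx0]
      rw [act_pt, hAe, pt_hat hx0]
    rwa [h2] at h1

lemma hat_apply (x : E n) (i : Fin n) : hat x i = x i / len x := by
  simp only [hat, Pi.smul_apply, smul_eq_mul]
  rw [div_eq_inv_mul]

lemma J_hat (a : Fin 3) (x : E n) (i : Fin n) : (Q.J a *ᵥ hat x) i = Q.Y a x i / len x := by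
  rw [hat, mulVec_smul, Pi.smul_apply, smul_eq_mul, div_eq_inv_mul]
  rfl

/-- Invariant symmetric tensors have the form `ten`. -/
theorem Inv.ten_form {R : ℝ} (hR : 0 < R) {g : Field n} (h : Q.Inv R g)
    (hs : ∀ x i j, g x i j = g x j i) {e : Fin n → ℝ} (he : e ⬝ᵥ e = 1) {x : E n}
    (hx : R ≤ len x) (i j : Fin n) :
    g x i j = Q.ten (Q.cF g e) (cU g e) (Q.cW g e) (Q.cS g e) x i j := by
  have hx0 : 0 < len x := hR.trans_le hx
  have hu := hat_unit hx0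
  have hst := h.stab hR hs hx
  obtain ⟨α, hα, hform⟩ := hst.eq hu
  obtain ⟨c1, c2, c3, c4⟩ := h.coeff hR he hx
  have h1 := StabInv.form hst.1 hform i j
  have h2 := hst.trace hu hform
  rw [← c1, ← c4] at h2
  simp only [← c3] at h2
  rw [← c1] at h1
  simp only [← c2, ← c3] at h1
  -- replace `α`
  have h3 : α * ((if i = j then (1 : ℝ) else 0) -
      (hat x i * hat x j + ∑ a, (Q.J a *ᵥ hat x) i * (Q.J a *ᵥ hat x) j)) =
      Q.cF g e (len x) * ((if i = j then (1 : ℝ) else 0) -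
      (hat x i * hat x j + ∑ a, (Q.J a *ᵥ hat x) i * (Q.J a *ᵥ hat x) j)) := by
    by_cases hn : n = 4
    · have h4 := Q.pr_eq_one_of_four hu (by rw [hn]; norm_num)
      have h5 : (if i = j then (1 : ℝ) else 0) -
          (hat x i * hat x j + ∑ a, (Q.J a *ᵥ hat x) i * (Q.J a *ᵥ hat x) j) = 0 := by
        have h6 := congrFun (congrFun h4 i) j
        rw [Q.pr_eq] at h6
        simp only [Matrix.add_apply, vecMulVec_apply, Matrix.one_apply] at h6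
        rw [Fin.sum_univ_three, ← h6]
        ring
      rw [h5, mul_zero, mul_zero]
    · have hn' : ((n : ℝ) - 4) ≠ 0 := by
        intro h0
        apply hn
        have : (n : ℝ) = 4 := by linarith
        exact_mod_cast this
      have h4 : Q.cF g e (len x) = α := by
        simp only [cF, hn, if_false]
        rw [h2]
        field_simp
        ring
      rw [h4]
  rw [h3] at h1
  have hg : g x i j = mat g x i j := rfl
  rw [hg, h1]
  unfold Quat.ten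
  simp only [hat_apply, J_hat, Fin.sum_univ_three]
  field_simp

end Quat

/-- **Block F.** `Sp(m)`-invariant data (in the gauge `g(x, J_a x) = 0`) are given by coefficient
functions. -/
theorem fits_of_invariant (hn : 0 < n) (Q : Quat n) {g K : Field n} {R : ℝ} (hR : 0 < R)
    (hsm : ∀ i j, Smooth (fun x => g x i j) ∧ Smooth (fun x => K x i j))
    (hs : ∀ x i j, g x i j = g x j i ∧ K x i j = K x j i)
    (hpos : ∀ x, R ≤ len x → (mat g x).PosDef)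
    (hg : Q.Inv R g) (hK : Q.Inv R K)
    (hgauge : ∀ x, R ≤ len x → ∀ a, ∑ i, ∑ j, g x i j * x i * Q.Y a x j = 0) :
    ∃ D : Data n, D.R = R ∧ D.Q = Q ∧ Fits D g K := by
  classical
  set e : Fin n → ℝ := _root_.Pi.single ⟨0, hn⟩ 1 with he_def
  have he : e ⬝ᵥ e = 1 := by simp [he_def]
  have hlen : ∀ r, R ≤ r → R ≤ len (pt e r) := by
    intro r hr
    rw [len_pt he, abs_of_pos (hR.trans_le hr)]; exact hr
  have hlen' : ∀ r, R ≤ r → len (pt e r) = r := by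
    intro r hr
    rw [len_pt he, abs_of_pos (hR.trans_le hr)]
  have hhat : ∀ r, R ≤ r → hat (pt e r) = e := by
    intro r hr
    have hr0 : 0 < r := hR.trans_le hr
    rw [hat, hlen' r hr, pt, smul_smul, inv_mul_cancel₀ hr0.ne', one_smul]
  have hgs := fun i j => (hsm i j).1
  have hKs := fun i j => (hsm i j).2
  have hgy := fun x i j => (hs x i j).1
  have hKy := fun x i j => (hs x i j).2
  have h4 : 4 ≤ n := Q.four_le hn
  refine ⟨{ Q := Q, R := R, hR := hR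
            al := Q.cF g e, p := Quat.cU g e, q := Q.cS g e
            ka := Q.cF K e, kn := Quat.cU K e, v := Q.cW K e, s := Q.cS K e
            al_smooth := Q.cF_smooth hgs e
            p_smooth := Quat.form_smooth hgs e _ _
            q_smooth := fun a b => Quat.form_smooth hgs e _ _
            ka_smooth := Q.cF_smooth hKs e
            kn_smooth := Quat.form_smooth hKs e _ _
            v_smooth := fun a => Quat.form_smooth hKs e _ _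
            s_smooth := fun a b => Quat.form_smooth hKs e _ _
            q_symm := ?_, s_symm := ?_, al_pos := ?_, p_pos := ?_, q_pos := ?_ }, rfl, rfl, ?_⟩
  · intro a b
    funext r
    have : (mat g (pt e r))ᵀ = mat g (pt e r) := by ext i j; exact hgy _ j i
    simp only [Quat.cS]
    rw [← Quat.mulVec_dot_symm this, dotProduct_comm]
  · intro a b
    funext r
    have : (mat K (pt e r))ᵀ = mat K (pt e r) := by ext i j; exact hKy _ j i
    simp only [Quat.cS]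
    rw [← Quat.mulVec_dot_symm this, dotProduct_comm]
  · intro r hr
    by_cases hn4 : n = 4
    · simp only [Quat.cF, hn4, if_true]; norm_num
    · have hn5 : (4 : ℝ) < n := by
        have : 4 < n := lt_of_le_of_ne h4 (Ne.symm hn4)
        exact_mod_cast this
      have hst := hg.stab hR hgy (hlen r hr)
      rw [hhat r hr] at hst
      obtain ⟨α, hα, hform⟩ := hst.eq he
      have hαp := Quat.StabInv.alpha_pos he (hpos _ (hlen r hr)) hn5 hα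
      have htr := hst.trace he hform
      have : Q.cF g e r = α := by
        simp only [Quat.cF, hn4, if_false, Quat.cU, Quat.cS]
        rw [htr]
        have : (n : ℝ) - 4 ≠ 0 := by linarith
        field_simp
        ring
      rw [this]; exact hαp
  · intro r hr
    have := (hpos _ (hlen r hr)).dotProduct_mulVec_pos (x := e) (by
      intro h0; rw [h0] at he; simp at he)
    rwa [star_trivial] at this
  · intro r hr
    exact Q.fibre_posDef he (hpos _ (hlen r hr))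
  · refine ⟨hsm, fun x hx i j => ?_, fun x hx i j => ?_⟩
    · have h1 := hg.ten_form hR hgy he hx i j
      rw [h1]
      have hx0 : 0 < len x := hR.trans_le hx
      have hw : ∀ a, Q.cW g e a (len x) = 0 := by
        intro a
        rw [(hg.coeff hR he hx).2.1 a]
        have h2 := hgauge x hx a
        simp only [dotProduct, mulVec] at *
        have h3 : ∀ i, hat x i * ∑ j, mat g x i j * (∑ k, Q.J a j k * hat x k) =
            (∑ j, g x i j * x i * Q.Y a x j) / len x ^ 2 := by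
          intro i
          rw [Finset.mul_sum, Finset.sum_div]
          refine Finset.sum_congr rfl fun j _ => ?_
          have h4 : ∑ k, Q.J a j k * hat x k = Q.Y a x j / len x := Q.J_hat a x j
          rw [h4, Quat.hat_apply]
          simp only [mat]
          field_simp
        rw [Finset.sum_congr rfl fun i _ => h3 i, ← Finset.sum_div, h2, zero_div]
      unfold Quat.ten
      simp only [hw]
    · exact hK.ten_form hR hKy he hx i j

end Vale.Agent.P366.T2
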