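import Vale.Agent.P366.T2.C92d
import Vale.Agent.P366.T2.Up

/-! Block [C1]: the touching argument for `Sp(m)`-invariant data. -/

open MeasureTheory Metric Filter Topology Set
open scoped ContDiff ENNReal MatrixOrder

noncomputable section
namespace Vale.Agent.C92
open Vale.Agent.P366.Stmt
open Vale.Agent.P366.T2

variable {n : ℕ}

section TenTrace

variable (Q : Quat n) (f u : ℝ → ℝ) (w : Fin 3 → ℝ → ℝ) (s : Fin 3 → Fin 3 → ℝ → ℝ)

theorem ten_xx {x : E n} (hx : x ≠ 0) :
    ∑ i, ∑ j, Q.ten f u w s x i j * (x i * x j) = u (len x) * len x ^ 2 := by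
  have h1 : ∀ i, ∑ j, Q.ten f u w s x i j * (x i * x j) =
      x i * (u (len x) * x i + ∑ a, w a (len x) * Q.Y a x i) := by
    intro i
    rw [← Q.ten_x f u w s hx i, Finset.mul_sum]
    exact Finset.sum_congr rfl fun j _ => by ring
  simp only [h1, mul_add, Finset.sum_add_distrib, Finset.mul_sum]
  have h2 : ∑ i, ∑ a, x i * (w a (len x) * Q.Y a x i) = 0 := by
    rw [Finset.sum_comm]
    refine Finset.sum_eq_zero fun a _ => ?_
    have : ∑ i, x i * (w a (len x) * Q.Y a x i) = w a (len x) * ∑ i, x i * Q.Y a x i := by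
      rw [Finset.mul_sum]; exact Finset.sum_congr rfl fun i _ => by ring
    rw [this, Q.x_Y, mul_zero]
  rw [h2, add_zero, ← Quat.sum_sq x, Finset.mul_sum]
  exact Finset.sum_congr rfl fun i _ => by ring

theorem ten_YY {x : E n} (hx : x ≠ 0) (a b : Fin 3) :
    ∑ i, ∑ j, Q.ten f u w s x i j * (Q.Y a x i * Q.Y b x j) = s a b (len x) * len x ^ 2 := by
  have h1 : ∀ i, ∑ j, Q.ten f u w s x i j * (Q.Y a x i * Q.Y b x j) =
      Q.Y a x i * (w b (len x) * x i + ∑ c, s c b (len x) * Q.Y c x i) := by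
    intro i
    rw [← Q.ten_Y f u w s hx b i, Finset.mul_sum]
    exact Finset.sum_congr rfl fun j _ => by ring
  simp only [h1, mul_add, Finset.sum_add_distrib, Finset.mul_sum]
  have h2 : ∑ i, Q.Y a x i * (w b (len x) * x i) = 0 := by
    have : ∑ i, Q.Y a x i * (w b (len x) * x i) = w b (len x) * ∑ i, Q.Y a x i * x i := by
      rw [Finset.mul_sum]; exact Finset.sum_congr rfl fun i _ => by ring
    rw [this, Q.Y_x, mul_zero]
  rw [h2, zero_add, Finset.sum_comm]
  have h3 : ∀ c, ∑ i, Q.Y a x i * (s c b (len x) * Q.Y c x i) =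
      s c b (len x) * (if a = c then len x ^ 2 else 0) := by
    intro c
    rw [← Q.Y_Y a c x, Finset.mul_sum]
    exact Finset.sum_congr rfl fun i _ => by ring
  simp only [h3]
  simp

theorem ten_diag {x : E n} (hx : x ≠ 0) :
    ∑ i, Q.ten f u w s x i i = f (len x) * ((n : ℝ) - 4) + u (len x) + ∑ a, s a a (len x) := by
  have hr : len x ≠ 0 := by simp [len, hx]
  have h1 : ∀ i, Q.ten f u w s x i i = f (len x) * Q.Pi x i i +
      (u (len x) * (x i * x i) + ∑ a, w a (len x) * (2 * (x i * Q.Y a x i)) +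
      ∑ a, ∑ b, s a b (len x) * (Q.Y a x i * Q.Y b x i)) / len x ^ 2 := by
    intro i
    rw [Q.ten_eq]
    congr 2
    congr 1
    · congr 1
      · ring
      · exact Finset.sum_congr rfl fun a _ => by ring
    · exact Finset.sum_congr rfl fun a _ => Finset.sum_congr rfl fun b _ => by ring
  simp only [h1, Finset.sum_add_distrib, ← Finset.mul_sum, ← Finset.sum_div, Q.trace_Pi hx,
    Quat.sum_sq]
  have h2 : ∑ i, ∑ a, w a (len x) * (2 * (x i * Q.Y a x i)) = 0 := by
    rw [Finset.sum_comm]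
    refine Finset.sum_eq_zero fun a _ => ?_
    rw [← Finset.mul_sum, ← Finset.mul_sum, Q.x_Y]
    ring
  have h3 : ∑ i, ∑ a, ∑ b, s a b (len x) * (Q.Y a x i * Q.Y b x i) =
      (∑ a, s a a (len x)) * len x ^ 2 := by
    rw [Finset.sum_comm, Finset.sum_mul]
    refine Finset.sum_congr rfl fun a _ => ?_
    rw [Finset.sum_comm]
    simp only [← Finset.mul_sum, Q.Y_Y]
    simp
  rw [h2, h3]
  field_simp
  ring

end TenTrace

variable {D : Data n} {g K : Field n}

/-- the gauge structure of fitting data -/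
theorem gauge_of_fits (h : Fits D g K) (hpos : ∀ y, D.R ≤ len y → (mat g y).PosDef) :
    Gauge g D.p D.R where
  hR := D.hR
  smooth := fun i j => (h.smooth i j).1
  symm := fun y hy i j => by
    rw [h.hg y hy, h.hg y hy]
    exact D.Q.ten_symm _ _ _ _ D.q_symm y i j
  pos := hpos
  p_diff := fun r _ => D.p_smooth.differentiable (by norm_num) r
  gx := fun y hy i => by
    have h0 : y ≠ 0 := len_pos_of hy
    simp only [h.hg y hy]
    rw [D.Q.ten_x _ _ _ _ h0]
    simp

/-- trace of an invariant tensor over the sphere -/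
theorem trS_ten (h : Fits D g K) (hpos : ∀ y, D.R ≤ len y → (mat g y).PosDef)
    {T : Field n} {f u : ℝ → ℝ} {w : Fin 3 → ℝ → ℝ} {s : Fin 3 → Fin 3 → ℝ → ℝ} {x : E n}
    (hx : D.R ≤ len x) (hT : ∀ i j, T x i j = D.Q.ten f u w s x i j) :
    trS g T len x = D.b * (f (len x) / D.al (len x)) +
      ∑ a, ∑ b, D.iq (len x) a b * s a b (len x) := by
  have G := gauge_of_fits h hpos
  have h0 : x ≠ 0 := len_pos_of hx
  have hr : len x ≠ 0 := by simp [len, h0]
  have hal := (D.al_pos _ hx).ne'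
  have hp := (D.p_pos _ hx).ne'
  rw [G.trS_len hx]
  have h1 : ∀ i j, (up g i j x - x i * x j / (D.p (len x) * len x ^ 2)) * T x i j =
      (1 / D.al (len x)) * ((if i = j then D.Q.ten f u w s x i j else 0) -
        (1 / len x ^ 2) * (D.Q.ten f u w s x i j * (x i * x j)) -
        (1 / len x ^ 2) * ∑ a, D.Q.ten f u w s x i j * (D.Q.Y a x i * D.Q.Y a x j)) +
      (1 / len x ^ 2) * ∑ a, ∑ b, D.iq (len x) a b *
        (D.Q.ten f u w s x i j * (D.Q.Y a x i * D.Q.Y b x j)) := by
    intro i j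
    rw [hT, up_eq h hx, Data.U, D.Q.ten_eq, Quat.Pi]
    have e1 : ∑ a, D.Q.ten f u w s x i j * (D.Q.Y a x i * D.Q.Y a x j) =
      D.Q.ten f u w s x i j * ∑ a, D.Q.Y a x i * D.Q.Y a x j := by rw [Finset.mul_sum]
    have e2 : ∑ a, ∑ b, D.iq (len x) a b * (D.Q.ten f u w s x i j * (D.Q.Y a x i * D.Q.Y b x j)) =
      D.Q.ten f u w s x i j * ∑ a, ∑ b, D.iq (len x) a b * D.Q.Y a x i * D.Q.Y b x j := by
      rw [Finset.mul_sum]
      refine Finset.sum_congr rfl fun a _ => ?_
      rw [Finset.mul_sum]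
      exact Finset.sum_congr rfl fun b _ => by ring
    rw [e1, e2]
    simp only [zero_mul, Finset.sum_const_zero]
    split_ifs
    · field_simp
      ring
    · field_simp
      ring
  simp only [h1, Finset.sum_add_distrib, ← Finset.mul_sum, Finset.sum_sub_distrib]
  have e3 : ∑ i, ∑ j, (if i = j then D.Q.ten f u w s x i j else 0) =
      f (len x) * ((n : ℝ) - 4) + u (len x) + ∑ a, s a a (len x) := by
    rw [← ten_diag D.Q f u w s h0]
    exact Finset.sum_congr rfl fun i _ => by simp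
  have e4 : ∑ i, ∑ j, ∑ a, D.Q.ten f u w s x i j * (D.Q.Y a x i * D.Q.Y a x j) =
      (∑ a, s a a (len x)) * len x ^ 2 := by
    have : ∀ i, ∑ j, ∑ a, D.Q.ten f u w s x i j * (D.Q.Y a x i * D.Q.Y a x j) =
        ∑ a, ∑ j, D.Q.ten f u w s x i j * (D.Q.Y a x i * D.Q.Y a x j) := fun i =>
      Finset.sum_comm
    simp only [this]
    rw [Finset.sum_comm, Finset.sum_mul]
    exact Finset.sum_congr rfl fun a _ => ten_YY D.Q f u w s h0 a a
  have e5 : ∑ i, ∑ j, ∑ a, ∑ b, D.iq (len x) a b *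
      (D.Q.ten f u w s x i j * (D.Q.Y a x i * D.Q.Y b x j)) =
      (∑ a, ∑ b, D.iq (len x) a b * s a b (len x)) * len x ^ 2 := by
    have h2 : ∀ i, ∑ j, ∑ a, ∑ b, D.iq (len x) a b *
      (D.Q.ten f u w s x i j * (D.Q.Y a x i * D.Q.Y b x j)) =
      ∑ a, ∑ b, ∑ j, D.iq (len x) a b *
      (D.Q.ten f u w s x i j * (D.Q.Y a x i * D.Q.Y b x j)) := by
      intro i
      rw [Finset.sum_comm]
      exact Finset.sum_congr rfl fun a _ => Finset.sum_comm
    simp only [h2]
    rw [Finset.sum_comm, Finset.sum_mul]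
    refine Finset.sum_congr rfl fun a _ => ?_
    rw [Finset.sum_comm, Finset.sum_mul]
    refine Finset.sum_congr rfl fun b _ => ?_
    simp only [← Finset.mul_sum]
    rw [ten_YY D.Q f u w s h0 a b]
    ring
  have e4' : ∑ i, ∑ j, D.Q.ten f u w s x i j * ∑ a, D.Q.Y a x i * D.Q.Y a x j =
      (∑ a, s a a (len x)) * len x ^ 2 := by
    rw [← e4]
    exact Finset.sum_congr rfl fun i _ => Finset.sum_congr rfl fun j _ => Finset.mul_sum _ _ _
  rw [e3, ten_xx D.Q f u w s h0, e4', e5]
  unfold Data.b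
  field_simp
  ring

theorem Y_smul (Q : Quat n) (a : Fin 3) (t : ℝ) (x : E n) (i : Fin n) :
    Q.Y a (t • x) i = t * Q.Y a x i := by
  unfold Quat.Y
  rw [Finset.mul_sum]
  exact Finset.sum_congr rfl fun j _ => by simp; ring

theorem ten_smul_arg (Q : Quat n) (f u : ℝ → ℝ) (w : Fin 3 → ℝ → ℝ)
    (s : Fin 3 → Fin 3 → ℝ → ℝ) {t : ℝ} (ht : 0 < t) {x : E n} (hx : 0 < len x) (i j : Fin n) :
    Q.ten f u w s (t • x) i j = f (t * len x) * Q.Pi x i j +
      (u (t * len x) * x i * x j + ∑ a, w a (t * len x) * (x i * Q.Y a x j + Q.Y a x i * x j) +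
      ∑ a, ∑ b, s a b (t * len x) * Q.Y a x i * Q.Y b x j) / len x ^ 2 := by
  have hP : Q.Pi (t • x) i j = Q.Pi x i j := by
    unfold Quat.Pi
    rw [len_smul ht.le]
    simp only [Y_smul, PiLp.smul_apply, smul_eq_mul]
    have : ∑ a, t * Q.Y a x i * (t * Q.Y a x j) = t ^ 2 * ∑ a, Q.Y a x i * Q.Y a x j := by
      rw [Finset.mul_sum]; exact Finset.sum_congr rfl fun a _ => by ring
    rw [this]
    field_simp
  rw [Q.ten_eq, hP, len_smul ht.le]
  simp only [Y_smul, PiLp.smul_apply, smul_eq_mul]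
  have e1 : ∑ a, w a (t * len x) * (t * x i * (t * Q.Y a x j) + t * Q.Y a x i * (t * x j)) =
      t ^ 2 * ∑ a, w a (t * len x) * (x i * Q.Y a x j + Q.Y a x i * x j) := by
    rw [Finset.mul_sum]; exact Finset.sum_congr rfl fun a _ => by ring
  have e2 : ∑ a, ∑ b, s a b (t * len x) * (t * Q.Y a x i) * (t * Q.Y b x j) =
      t ^ 2 * ∑ a, ∑ b, s a b (t * len x) * Q.Y a x i * Q.Y b x j := by
    rw [Finset.mul_sum]
    refine Finset.sum_congr rfl fun a _ => ?_
    rw [Finset.mul_sum]
    exact Finset.sum_congr rfl fun b _ => by ring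
  rw [e1, e2]
  field_simp

/-- the radial derivative of an invariant tensor -/
theorem Dr_ten (h : Fits D g K) {x : E n} (hx : D.R ≤ len x) (i j : Fin n) :
    Dr g x i j = D.Q.ten (deriv D.al) (deriv D.p) (fun _ _ => 0) (fun a b => deriv (D.q a b))
      x i j := by
  have h0 : x ≠ 0 := len_pos_of hx
  have hr : 0 < len x := lt_of_lt_of_le D.hR hx
  have hal := (D.al_smooth.differentiable (by norm_num) (len x)).hasDerivAt
  have hp := (D.p_smooth.differentiable (by norm_num) (len x)).hasDerivAt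
  have hq := fun a b => ((D.q_smooth a b).differentiable (by norm_num) (len x)).hasDerivAt
  refine Dr_eq_of_scale hr ((h.smooth i j).1.differentiable (by norm_num) x)
    (φ := fun r => D.al r * D.Q.Pi x i j + (D.p r * (x i * x j) +
      ∑ a, ∑ b, D.q a b r * (D.Q.Y a x i * D.Q.Y b x j)) / len x ^ 2) ?_ ?_
  · have hS : HasDerivAt (fun r => ∑ a, ∑ b, D.q a b r * (D.Q.Y a x i * D.Q.Y b x j))
        (∑ a, ∑ b, deriv (D.q a b) (len x) * (D.Q.Y a x i * D.Q.Y b x j)) (len x) :=
      HasDerivAt.fun_sum fun a _ => HasDerivAt.fun_sum fun b _ => (hq a b).mul_const _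
    refine (((hal.mul_const _).add (((hp.mul_const _).add hS).div_const _))).congr_deriv ?_
    rw [D.Q.ten_eq]
    simp only [zero_mul, Finset.sum_const_zero, add_zero]
    have e2 : ∑ a, ∑ b, deriv (D.q a b) (len x) * (D.Q.Y a x i * D.Q.Y b x j) =
      ∑ a, ∑ b, deriv (D.q a b) (len x) * D.Q.Y a x i * D.Q.Y b x j :=
      Finset.sum_congr rfl fun a _ => Finset.sum_congr rfl fun b _ => by ring
    rw [e2]
    ring
  · intro t ht
    have ht0 : 0 < t := by linarith
    have hle : D.R ≤ len (t • x) := by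
      rw [len_smul ht0.le]
      nlinarith
    rw [h.hg _ hle, ten_smul_arg _ _ _ _ _ ht0 hr]
    simp only [zero_mul, Finset.sum_const_zero, add_zero]
    have e2 : ∑ a, ∑ b, D.q a b (t * len x) * (D.Q.Y a x i * D.Q.Y b x j) =
      ∑ a, ∑ b, D.q a b (t * len x) * D.Q.Y a x i * D.Q.Y b x j :=
      Finset.sum_congr rfl fun a _ => Finset.sum_congr rfl fun b _ => by ring
    rw [e2]
    ring

/-- the mean curvature of the spheres in terms of the coefficients -/
theorem H_formula {r : ℝ} (hr : D.R ≤ r) :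
    D.H r = (((n : ℝ) - 1) / r + (D.b * (deriv D.al r / D.al r) +
      ∑ a, ∑ b, D.iq r a b * deriv (D.q a b) r) / 2) / √(D.p r) := by
  have hr0 : 0 < r := lt_of_lt_of_le D.hR hr
  have hal := D.al_pos r hr
  have hdal := (D.al_smooth.differentiable (by norm_num) r).hasDerivAt
  have hdq := fun a b => ((D.q_smooth a b).differentiable (by norm_num) r).hasDerivAt
  have hsq : HasDerivAt (fun t : ℝ => t ^ 2) (2 * r) r := by
    simpa using hasDerivAt_pow 2 r
  have h1 : deriv D.Yh r = 2 * r * D.al r + r ^ 2 * deriv D.al r := (hsq.mul hdal).deriv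
  have h2 : D.yb r = 1 / r + deriv D.al r / (2 * D.al r) := by
    unfold Data.yb
    rw [h1]
    unfold Data.Yh
    field_simp
  have h3 : ∀ a b, deriv (fun t => t ^ 2 * D.q a b t) r =
      2 * r * D.q a b r + r ^ 2 * deriv (D.q a b) r := fun a b => (hsq.mul (hdq a b)).deriv
  have h4 : D.qh r = (r ^ 2) • D.qm r := by
    ext a b; rfl
  have hdet : IsUnit (D.qm r).det := isUnit_iff_ne_zero.2 (D.qm_det_ne hr)
  have h5 : (D.qh r)⁻¹ = (r ^ 2)⁻¹ • D.iq r := by
    rw [h4]
    have : Invertible (r ^ 2) := invertibleOfNonzero (by positivity)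
    rw [Matrix.inv_smul _ _ hdet]
    simp [Data.iq]
  have h6 : (D.A r).trace = 3 / r + (∑ a, ∑ b, D.iq r a b * deriv (D.q a b) r) / 2 := by
    unfold Data.A
    rw [Matrix.trace_smul, h5, Matrix.smul_mul, Matrix.trace_smul]
    have h7 : (D.iq r * Matrix.of fun a b => deriv (fun t => t ^ 2 * D.q a b t) r).trace =
        2 * r * 3 + r ^ 2 * ∑ a, ∑ b, D.iq r a b * deriv (D.q a b) r := by
      have h8 : (D.iq r * Matrix.of fun a b => deriv (fun t => t ^ 2 * D.q a b t) r) =
          (2 * r) • (D.iq r * D.qm r) + (r ^ 2) • (D.iq r * Matrix.of fun a b =>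
            deriv (D.q a b) r) := by
        rw [← Matrix.mul_smul, ← Matrix.mul_smul, ← Matrix.mul_add]
        congr 1
        ext a b
        simp [h3, Data.qm]
      rw [h8, D.iq_mul_qm hr, Matrix.trace_add, Matrix.trace_smul, Matrix.trace_smul,
        Matrix.trace_one]
      simp only [Matrix.trace, Matrix.diag, Matrix.mul_apply, Matrix.of_apply, smul_eq_mul,
        Fintype.card_fin]
      congr 2
      · refine Finset.sum_congr rfl fun a _ => Finset.sum_congr rfl fun b _ => ?_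
        rw [D.q_symm b a]
    rw [h7]
    simp only [smul_eq_mul]
    field_simp
  unfold Data.H Data.c
  rw [h2, h6]
  congr 1
  unfold Data.b
  field_simp
  ring

/-- `tr_S K = k` -/
theorem trS_K (h : Fits D g K) (hpos : ∀ y, D.R ≤ len y → (mat g y).PosDef) {x : E n}
    (hx : D.R ≤ len x) : trS g K len x = D.k (len x) := by
  rw [trS_ten h hpos hx (fun i j => h.hK x hx i j)]
  unfold Data.k Data.S
  congr 1
  simp only [Matrix.trace, Matrix.diag, Matrix.mul_apply, Matrix.of_apply]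
  refine Finset.sum_congr rfl fun a _ => Finset.sum_congr rfl fun b _ => ?_
  rw [D.s_symm b a]
  rfl

theorem theta_eq (h : Fits D g K) (hpos : ∀ y, D.R ≤ len y → (mat g y).PosDef) {x : E n}
    (hx : D.R ≤ len x) : thetaPlus g K len x = D.H (len x) + D.k (len x) := by
  have G := gauge_of_fits h hpos
  rw [G.theta_len hx, trS_K h hpos hx, H_formula hx,
    trS_ten h hpos hx (fun i j => Dr_ten h hx i j)]

end Vale.Agent.C92

namespace Vale.Agent.P366.T2
open Vale.Agent.P366.Stmt

variable {n : ℕ}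

/-- **Block [C1]**: at the outermost point of the weakly future trapped boundary the sphere has
nonpositive null expansion. -/
theorem touch (D : Data n) {X : Stmt.Exterior n} (h : Fits D X.g X.K) (hT : X.Trapped)
    (hR : IsGreatest {r | ∃ x, X.F x = 0 ∧ Stmt.len x = r} D.R) : D.H D.R + D.k D.R ≤ 0 := by
  have hn : 4 ≤ n := by
    apply D.Q.four_le
    obtain ⟨x, -, hx⟩ := hR.1
    rcases Nat.eq_zero_or_pos n with h0 | h0
    · exfalso
      subst h0
      have : x = 0 := Subsingleton.elim _ _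
      have h1 := D.hR
      rw [← hx, this] at h1
      have h2 : Stmt.len (0 : Stmt.E 0) = 0 := norm_zero
      linarith
    · exact h0
  have hout := Vale.Agent.C92.outside_nonneg (by omega) X hR
  have hpos : ∀ y, D.R ≤ Stmt.len y → (Stmt.mat X.g y).PosDef := fun y hy => X.pos y (hout y hy)
  obtain ⟨x0, hF0, hx0⟩ := hR.1
  have h1 := Vale.Agent.C92.theta_compare (g := X.g) (K := X.K) X.dom.1 D.hR hx0
    (X.pos x0 hF0.ge) (X.dom.2.1 x0 hF0) (fun x hx => by rw [hF0]; exact hout x hx)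
  have h2 := hT x0 hF0
  rw [Vale.Agent.C92.theta_eq h hpos hx0.ge, hx0] at h1
  exact h1.trans h2

end Vale.Agent.P366.T2
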