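import Vale.Agent.P366.T2.Assemble
import Vale.Agent.P366.T2.B68d
import Vale.Agent.P366.T2.Inv591
import Vale.Agent.P366.T2.Touch
import Vale.Agent.P366.T2.E68
import Vale.Agent.P366.T2.A765.Scal

open MeasureTheory Metric Filter Topology Set
open scoped BigOperators ENNReal ContDiff

noncomputable section
namespace Vale.Agent.P366.T2

variable {n : ℕ}

/-- The spacetime Penrose inequality for data given by coefficient functions outside a ball. -/
theorem penrose_fits (D : Data n) {X : Stmt.Exterior n} (h : Fits D X.g X.K) (hAF : X.IsAF)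
    (hDEC : X.DEC) (hT : X.Trapped) {m : ℝ} {P : Fin n → ℝ} (hm : X.IsEnergy m)
    (hP : X.IsMomentum P) (hR : IsGreatest {r | ∃ x, X.F x = 0 ∧ Stmt.len x = r} D.R) :
    P = 0 ∧ X.Amin ≠ ⊤ ∧ √(∑ i, P i ^ 2) < m ∧
    (X.Amin.toReal / Stmt.omega n) ^ (((n : ℝ) - 2) / (n - 1)) / 2 ≤
      √(m ^ 2 - ∑ i, P i ^ 2) := by
  have hn : 4 ≤ n := by
    apply D.Q.four_le
    obtain ⟨x, -, hx⟩ := hR.1
    rcases Nat.eq_zero_or_pos n with h0 | h0
    · exfalso
      subst h0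
      have : x = 0 := Subsingleton.elim _ _
      have h1 := D.hR
      rw [← hx, this] at h1
      have h2 : Stmt.len (0 : Stmt.E 0) = 0 := norm_zero
      linarith
    · exact h0
  obtain ⟨h1, h2, h3⟩ := asympt D h hAF hm hP
  have hout := Vale.Agent.C92.outside_nonneg (by omega) X hR
  refine ⟨h3, assemble hn D h hR ?_ (touch D h hT hR) h2 h1 h3⟩
  intro r hr
  have hr0 : 0 < r := D.hR.trans hr
  set x : E n := EuclideanSpace.single ⟨0, by omega⟩ r with hxdef
  have hx : Stmt.len x = r := by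
    rw [hxdef, Stmt.len, PiLp.norm_single, Real.norm_eq_abs, abs_of_pos hr0]
  have hx' : D.R < Stmt.len x := by rw [hx]; exact hr
  have := dec_eq h hx' (hDEC x (hout x hx'.le)) (scal_eq D h hx')
  rwa [hx] at this

theorem Quat.Invariant.inv {Q : Quat n} {R : ℝ} {T : Stmt.Field n} (h : Q.Invariant R T) :
    Q.Inv R T := by
  intro A hA hJ x hx
  ext i j
  refine Eq.trans ?_ (h A hA hJ x (act A x) hx (fun i => rfl) i j)
  have key : ∀ M : Matrix (Fin n) (Fin n) ℝ, (A.transpose * M * A) i j =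
      ∑ k, ∑ l, A k i * M k l * A l j := by
    intro M
    simp only [Matrix.mul_apply, Matrix.transpose_apply, Finset.sum_mul]
    rw [Finset.sum_comm]
  exact key _

/-- The spacetime Penrose inequality for `Sp(m)`-invariant data. -/
theorem penrose_sp (Q : Quat n) {X : Stmt.Exterior n} (hAF : X.IsAF)
    (hDEC : X.DEC) (hT : X.Trapped) {m : ℝ} {P : Fin n → ℝ} (hm : X.IsEnergy m)
    (hP : X.IsMomentum P) {R₁ : ℝ} (hR : IsGreatest {r | ∃ x, X.F x = 0 ∧ Stmt.len x = r} R₁)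
    (hg : Q.Invariant R₁ X.g) (hK : Q.Invariant R₁ X.K)
    (hgauge : ∀ x, R₁ ≤ Stmt.len x → ∀ a, ∑ i, ∑ j, X.g x i j * x i * Q.Y a x j = 0) :
    P = 0 ∧ X.Amin ≠ ⊤ ∧ √(∑ i, P i ^ 2) < m ∧
    (X.Amin.toReal / Stmt.omega n) ^ (((n : ℝ) - 2) / (n - 1)) / 2 ≤
      √(m ^ 2 - ∑ i, P i ^ 2) := by
  obtain ⟨x0, hx0⟩ := X.bdry
  obtain ⟨i0, -⟩ := X.dom.2.1 x0 hx0
  have hn : 4 ≤ n := Q.four_le i0.pos
  have hR1 : 0 < R₁ :=
    (Bridge.toRaw X).R1_pos (by omega) (Bridge.raw_R1 X hR)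
  have hout := Vale.Agent.C92.outside_nonneg (by omega) X hR
  obtain ⟨D, rfl, -, hfit⟩ := fits_of_invariant (by omega) Q hR1 X.smooth X.symm
    (fun x hx => X.pos x (hout x hx)) hg.inv hK.inv hgauge
  exact penrose_fits D hfit hAF hDEC hT hm hP hR

end Vale.Agent.P366.T2
end
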