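import Vale.Agent.P366.T2.M68g

/-! Block [MB] of the gauge-free `Sp(m)` theorem: trace, norm, momentum density and the dominant
energy condition. -/

open MeasureTheory Metric Filter Topology Set
open scoped ContDiff ENNReal

noncomputable section
namespace Vale.Agent.P366.T2
open Vale.Agent.P366.Stmt

variable {n : ℕ} {D : Data n} {be : Fin 3 → ℝ → ℝ} {g K : Field n}

theorem tr_eqM (h : FitsM D be g K) {x : E n} (hx : D.R ≤ len x) :
    Stmt.tr g K x = D.k (len x) + D.KN (len x) := M68.tr_eqM' h hx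

theorem normSq_eqM (h : FitsM D be g K) {x : E n} (hx : D.R ≤ len x) :
    Stmt.normSq g K x = D.KS2 (len x) + 2 * D.be2 (len x) + D.KN (len x) ^ 2 :=
  M68.normSq_eqM' h hx

theorem mom_eqM (h : FitsM D be g K) {x : E n} (hx : D.R < len x) :
    ∑ j, (x j - ∑ a, be a (len x) * D.Q.Y a x j) / len x * Stmt.mom g K j x =
      D.c (len x) * D.JNM be (len x) := M68.mom_eqM' h hx

theorem dec_eqM (h : FitsM D be g K) {x : E n} (hx : D.R < len x)
    (hD : Stmt.covNorm g (Stmt.mom g K) x ≤ Stmt.mu g K x)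
    (hs : Stmt.scal g x = D.RgM be (len x)) : |D.JNM be (len x)| ≤ D.muM be (len x) :=
  M68.dec_eqM' h hx hD hs

end Vale.Agent.P366.T2
end
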