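import Vale.Agent.P366.T2.MDefs
import Vale.Agent.P366.T2.Up

open MeasureTheory Metric Filter Topology Set
open scoped ContDiff ENNReal

noncomputable section
namespace Vale.Agent.P366.T2
open Vale.Agent.P366.Stmt

variable {n : ℕ}

namespace Quat

variable (Q : Quat n)

lemma tenM_eq (be : Fin 3 → ℝ → ℝ) (f u : ℝ → ℝ) (w : Fin 3 → ℝ → ℝ)
    (s : Fin 3 → Fin 3 → ℝ → ℝ) (hs : ∀ a b, s a b = s b a) (x : E n) (i j : Fin n) :
    Q.tenM be f u w s x i j =
      Q.ten f (fun r => u r + 2 * (∑ a, w a r * be a r) + ∑ a, ∑ b, s a b r * be a r * be b r)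
        (fun a r => w a r + ∑ b, s a b r * be b r) s x i j := by
  unfold tenM ten Z
  simp only [Fin.sum_univ_three, hs 1 0, hs 2 0, hs 2 1]
  ring

end Quat

namespace Data

variable (D : Data n) (be : Fin 3 → ℝ → ℝ)

/-- the radial coefficient of `g` -/
def pG (r : ℝ) : ℝ := D.p r + ∑ a, ∑ b, D.q a b r * be a r * be b r

/-- the mixed coefficients of `g` -/
def wG (a : Fin 3) (r : ℝ) : ℝ := ∑ b, D.q a b r * be b r

/-- the components of the inverse metric -/
def UM (x : E n) (i j : Fin n) : ℝ :=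
  D.Q.ten (fun r => 1 / D.al r) (fun r => 1 / D.p r) (fun a r => -be a r / D.p r)
    (fun a b r => D.iq r a b + be a r * be b r / D.p r) x i j

lemma UM_symm (x : E n) (i j : Fin n) : D.UM be x i j = D.UM be x j i :=
  D.Q.ten_symm _ _ _ _ (fun a b => by ext r; rw [D.iq_symm_apply r a b]; ring) x i j

lemma UM_x {x : E n} (hx : x ≠ 0) (i : Fin n) :
    ∑ j, D.UM be x i j * x j = (x i - ∑ a, be a (len x) * D.Q.Y a x i) / D.p (len x) := by
  unfold UM
  rw [D.Q.ten_x _ _ _ _ hx, sub_div, Finset.sum_div, sub_eq_add_neg, ← Finset.sum_neg_distrib]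
  congr 1
  · ring
  · exact Finset.sum_congr rfl fun a _ => by ring

lemma UM_Y {x : E n} (hx : x ≠ 0) (c : Fin 3) (i : Fin n) :
    ∑ j, D.UM be x i j * D.Q.Y c x j = (∑ a, D.iq (len x) a c * D.Q.Y a x i) -
      be c (len x) * (x i - ∑ a, be a (len x) * D.Q.Y a x i) / D.p (len x) := by
  unfold UM
  rw [D.Q.ten_Y _ _ _ _ hx]
  simp only [Fin.sum_univ_three]
  ring

end Data

variable {D : Data n} {be : Fin 3 → ℝ → ℝ} {g K : Field n}

lemma gM_ten (h : FitsM D be g K) {x : E n} (hx : D.R ≤ len x) (i j : Fin n) :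
    g x i j = D.Q.ten D.al (D.pG be) (D.wG be) D.q x i j := by
  rw [h.hg x hx, D.Q.tenM_eq _ _ _ _ _ D.q_symm]
  have e1 : (fun r => D.p r + 2 * (∑ a : Fin 3, (0 : ℝ) * be a r) +
      ∑ a, ∑ b, D.q a b r * be a r * be b r) = D.pG be := by
    funext r; simp [Data.pG]
  have e2 : (fun (a : Fin 3) (r : ℝ) => (0 : ℝ) + ∑ b, D.q a b r * be b r) = D.wG be := by
    funext a r; simp [Data.wG]
  rw [e1, e2]

lemma gM_mul_UM (h : FitsM D be g K) {x : E n} (hx : D.R ≤ len x) :
    mat g x * Matrix.of (D.UM be x) = 1 := by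
  have hx0 := len_pos_of hx
  have hr : len x ≠ 0 := by simp [len, hx0]
  have hal := (D.al_pos _ hx).ne'
  have hp := (D.p_pos _ hx).ne'
  have hU : ∀ k, (∑ j, D.UM be x k j * x j) * D.p (len x) =
      x k - ∑ a, be a (len x) * D.Q.Y a x k := by
    intro k; rw [D.UM_x be hx0]; field_simp
  ext i k
  rw [Matrix.mul_apply]
  have e0 : ∀ j, mat g x i j * Matrix.of (D.UM be x) j k =
      D.al (len x) * (D.Q.Pi x i j * D.UM be x j k) +
      ((D.pG be (len x) * x i + ∑ a, D.wG be a (len x) * D.Q.Y a x i) *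
        (D.UM be x k j * x j) + ∑ a, (D.wG be a (len x) * x i +
          ∑ b, D.q a b (len x) * D.Q.Y b x i) * (D.UM be x k j * D.Q.Y a x j)) / len x ^ 2 := by
    intro j
    rw [show mat g x i j = g x i j from rfl, gM_ten h hx, D.Q.ten_eq, Matrix.of_apply,
      D.UM_symm be x k j]
    simp only [Fin.sum_univ_three, D.q_symm 1 0, D.q_symm 2 0, D.q_symm 2 1]
    ring
  have hPi : ∑ j, D.Q.Pi x i j * D.UM be x j k = 1 / D.al (len x) * D.Q.Pi x i k :=
    D.Q.Pi_ten _ _ _ _ hx0 i k
  simp only [e0, Finset.sum_add_distrib, ← Finset.mul_sum, ← Finset.sum_div, hPi]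
  rw [Finset.sum_comm]
  simp only [← Finset.mul_sum, D.UM_x be hx0, D.UM_Y be hx0]
  -- the algebra
  have q1 : ∀ a c, ∑ b, D.q a b (len x) * D.iq (len x) b c = if a = c then 1 else 0 :=
    fun a c => D.q_iq hx a c
  rw [Matrix.one_apply]
  have hB : ∀ v : Fin 3 → ℝ, ∑ a, (D.wG be a (len x) * x i +
        ∑ b, D.q a b (len x) * D.Q.Y b x i) * ∑ c, D.iq (len x) c a * v c =
      ∑ c, (be c (len x) * x i + D.Q.Y c x i) * v c := by
    intro v
    have e1 : ∀ a, D.wG be a (len x) * x i + ∑ b, D.q a b (len x) * D.Q.Y b x i =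
        ∑ b, D.q a b (len x) * (be b (len x) * x i + D.Q.Y b x i) := by
      intro a
      unfold Data.wG
      rw [Finset.sum_mul, ← Finset.sum_add_distrib]
      exact Finset.sum_congr rfl fun b _ => by ring
    have e2 : ∀ b c, ∑ a, D.q a b (len x) * D.iq (len x) c a = if b = c then 1 else 0 := by
      intro b c
      rw [← q1 b c]
      refine Finset.sum_congr rfl fun a _ => ?_
      rw [D.q_symm a b, D.iq_symm_apply (len x) c a]
    calc ∑ a, (D.wG be a (len x) * x i + ∑ b, D.q a b (len x) * D.Q.Y b x i) *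
          ∑ c, D.iq (len x) c a * v c
        = ∑ a, ∑ b, ∑ c, (D.q a b (len x) * D.iq (len x) c a) *
            ((be b (len x) * x i + D.Q.Y b x i) * v c) := by
          refine Finset.sum_congr rfl fun a _ => ?_
          rw [e1, Finset.sum_mul]
          refine Finset.sum_congr rfl fun b _ => ?_
          rw [Finset.mul_sum]
          exact Finset.sum_congr rfl fun c _ => by ring
      _ = ∑ b, ∑ c, (∑ a, D.q a b (len x) * D.iq (len x) c a) *
            ((be b (len x) * x i + D.Q.Y b x i) * v c) := by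
          rw [Finset.sum_comm]
          refine Finset.sum_congr rfl fun b _ => ?_
          rw [Finset.sum_comm]
          refine Finset.sum_congr rfl fun c _ => ?_
          rw [Finset.sum_mul]
      _ = _ := by
          simp only [e2, ite_mul, one_mul, zero_mul, Finset.sum_ite_eq, Finset.mem_univ, if_true]
  have hsplit : ∑ a, (D.wG be a (len x) * x i + ∑ b, D.q a b (len x) * D.Q.Y b x i) *
      ((∑ c, D.iq (len x) c a * D.Q.Y c x k) -
        be a (len x) * (x k - ∑ c, be c (len x) * D.Q.Y c x k) / D.p (len x)) =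
      (∑ c, (be c (len x) * x i + D.Q.Y c x i) * D.Q.Y c x k) -
      (∑ a, (D.wG be a (len x) * x i + ∑ b, D.q a b (len x) * D.Q.Y b x i) * be a (len x)) *
        ((x k - ∑ c, be c (len x) * D.Q.Y c x k) / D.p (len x)) := by
    rw [← hB, Finset.sum_mul, ← Finset.sum_sub_distrib]
    exact Finset.sum_congr rfl fun a _ => by ring
  rw [hsplit]
  have hA : ∑ a, (D.wG be a (len x) * x i + ∑ b, D.q a b (len x) * D.Q.Y b x i) * be a (len x) =
      (D.pG be (len x) * x i + ∑ a, D.wG be a (len x) * D.Q.Y a x i) - D.p (len x) * x i := by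
    unfold Data.pG Data.wG
    simp only [Fin.sum_univ_three, D.q_symm 1 0, D.q_symm 2 0, D.q_symm 2 1]
    ring
  rw [hA]
  have hfin : (D.pG be (len x) * x i + ∑ a, D.wG be a (len x) * D.Q.Y a x i) *
      ((x k - ∑ a, be a (len x) * D.Q.Y a x k) / D.p (len x)) +
      ((∑ c, (be c (len x) * x i + D.Q.Y c x i) * D.Q.Y c x k) -
      (D.pG be (len x) * x i + ∑ a, D.wG be a (len x) * D.Q.Y a x i - D.p (len x) * x i) *
        ((x k - ∑ c, be c (len x) * D.Q.Y c x k) / D.p (len x))) =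
      x i * x k + ∑ a, D.Q.Y a x i * D.Q.Y a x k := by
    have : ∑ c, (be c (len x) * x i + D.Q.Y c x i) * D.Q.Y c x k =
        x i * (∑ c, be c (len x) * D.Q.Y c x k) + ∑ a, D.Q.Y a x i * D.Q.Y a x k := by
      rw [Finset.mul_sum, ← Finset.sum_add_distrib]
      exact Finset.sum_congr rfl fun c _ => by ring
    rw [this]
    field_simp
    ring
  rw [hfin]
  unfold Quat.Pi
  field_simp
  split_ifs <;> ring

lemma up_eqM (h : FitsM D be g K) {x : E n} (hx : D.R ≤ len x) (i j : Fin n) :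
    up g i j x = D.UM be x i j := by
  unfold up
  rw [Matrix.inv_eq_right_inv (gM_mul_UM h hx)]
  rfl

end Vale.Agent.P366.T2
end
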