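import Vale.Agent.P366.T2.MC1a
import Vale.Agent.P366.T2.Touch
import Vale.Agent.P366.T2.MUp
import Vale.Agent.P366.T2.Calc

/-! Block [MC1]: the touching argument for `Sp(m)`-invariant data with shift. -/

open MeasureTheory Metric Filter Topology Set
open scoped ContDiff ENNReal MatrixOrder

noncomputable section
namespace Vale.Agent.C92
open Vale.Agent.P366.Stmt
open Vale.Agent.P366.T2

variable {n : ℕ}

/-! ### contraction with a constant matrix -/

/-- the bilinear form of `W` -/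
def bl (W : Fin n → Fin n → ℝ) (u w : Fin n → ℝ) : ℝ := ∑ i, ∑ j, W i j * (u i * w j)

theorem bl_add_left (W : Fin n → Fin n → ℝ) (u u' w : Fin n → ℝ) :
    bl W (fun i => u i + u' i) w = bl W u w + bl W u' w := by
  simp only [bl, ← Finset.sum_add_distrib]
  exact Finset.sum_congr rfl fun i _ => Finset.sum_congr rfl fun j _ => by ring

theorem bl_add_right (W : Fin n → Fin n → ℝ) (u w w' : Fin n → ℝ) :
    bl W u (fun i => w i + w' i) = bl W u w + bl W u w' := by
  simp only [bl, ← Finset.sum_add_distrib]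
  exact Finset.sum_congr rfl fun i _ => Finset.sum_congr rfl fun j _ => by ring

theorem bl_smul_left (W : Fin n → Fin n → ℝ) (c : ℝ) (u w : Fin n → ℝ) :
    bl W (fun i => c * u i) w = c * bl W u w := by
  simp only [bl, Finset.mul_sum]
  exact Finset.sum_congr rfl fun i _ => Finset.sum_congr rfl fun j _ => by ring

theorem bl_smul_right (W : Fin n → Fin n → ℝ) (c : ℝ) (u w : Fin n → ℝ) :
    bl W u (fun i => c * w i) = c * bl W u w := by
  simp only [bl, Finset.mul_sum]
  exact Finset.sum_congr rfl fun i _ => Finset.sum_congr rfl fun j _ => by ring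

theorem bl_comm {W : Fin n → Fin n → ℝ} (hW : ∀ i j, W i j = W j i) (u w : Fin n → ℝ) :
    bl W u w = bl W w u := by
  unfold bl
  rw [Finset.sum_comm]
  exact Finset.sum_congr rfl fun i _ => Finset.sum_congr rfl fun j _ => by rw [hW]; ring

/-- contraction of `tenM` with a matrix -/
theorem ct_tenM (Q : Quat n) (be : Fin 3 → ℝ → ℝ) (f u : ℝ → ℝ) (w : Fin 3 → ℝ → ℝ)
    (s : Fin 3 → Fin 3 → ℝ → ℝ) (W : Fin n → Fin n → ℝ) (x : E n) :
    ∑ i, ∑ j, W i j * Q.tenM be f u w s x i j =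
      f (len x) * (∑ i, W i i - (bl W x x + ∑ a, bl W (Q.Y a x) (Q.Y a x)) / len x ^ 2) +
      (u (len x) * bl W x x +
        ∑ a, w a (len x) * (bl W x (Q.Z be a x) + bl W (Q.Z be a x) x) +
        ∑ a, ∑ b, s a b (len x) * bl W (Q.Z be a x) (Q.Z be b x)) / len x ^ 2 := by
  have h0 : ∀ i j, W i j * Q.tenM be f u w s x i j =
      f (len x) * ((W i j * if i = j then 1 else 0) - (W i j * (x i * x j) +
        ∑ a, W i j * (Q.Y a x i * Q.Y a x j)) / len x ^ 2) +
      (u (len x) * (W i j * (x i * x j)) +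
        ∑ a, w a (len x) * (W i j * (x i * Q.Z be a x j) + W i j * (Q.Z be a x i * x j)) +
        ∑ a, ∑ b, s a b (len x) * (W i j * (Q.Z be a x i * Q.Z be b x j))) / len x ^ 2 := by
    intro i j
    unfold Quat.tenM
    simp only [Fin.sum_univ_three]
    ring
  simp only [Fin.sum_univ_three] at h0
  simp only [h0, bl, Fin.sum_univ_three, Finset.sum_add_distrib, Finset.sum_sub_distrib,
    ← Finset.mul_sum, ← Finset.sum_div, mul_ite, mul_one, mul_zero, Finset.sum_ite_eq,
    Finset.mem_univ, if_true]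
  ring

variable {D : Data n} {be : Fin 3 → ℝ → ℝ} {g K : Field n}

/-- the normal direction -/
def nv (D : Data n) (be : Fin 3 → ℝ → ℝ) (i : Fin n) (x : E n) : ℝ :=
  x i - ∑ a, be a (len x) * D.Q.Y a x i

/-- the tangential part of the inverse metric -/
def Wt (D : Data n) (x : E n) (i j : Fin n) : ℝ :=
  1 / D.al (len x) * D.Q.Pi x i j +
    (∑ a, ∑ b, D.iq (len x) a b * D.Q.Y a x i * D.Q.Y b x j) / len x ^ 2

theorem Wt_eq (h : FitsM D be g K) {x : E n} (hx : D.R ≤ len x) (i j : Fin n) :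
    up g i j x - nv D be i x * nv D be j x / (D.p (len x) * len x ^ 2) = Wt D x i j := by
  have hr : 0 < len x := lt_of_lt_of_le D.hR hx
  have hp := D.p_pos _ hx
  rw [up_eqM h hx]
  unfold Data.UM nv Wt
  rw [D.Q.ten_eq]
  simp only [Fin.sum_univ_three]
  field_simp
  ring

theorem Wt_symm (D : Data n) (x : E n) (i j : Fin n) : Wt D x i j = Wt D x j i := by
  unfold Wt
  rw [D.Q.Pi_symm x i j]
  have : ∀ a b, D.iq (len x) a b = D.iq (len x) b a := D.iq_symm_apply _
  simp only [Fin.sum_univ_three, this 1 0, this 2 0, this 2 1]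
  ring

/-- the form of `Wt` applied to `Y_b` -/
theorem bl_Y {x : E n} (hx : x ≠ 0) (b : Fin 3) (u : Fin n → ℝ) :
    bl (Wt D x) u (D.Q.Y b x) = ∑ a, D.iq (len x) a b * ∑ i, D.Q.Y a x i * u i := by
  have hr : len x ≠ 0 := by simp [len, hx]
  have h1 : ∀ i, ∑ j, Wt D x i j * (u i * D.Q.Y b x j) =
      ∑ a, D.iq (len x) a b * (D.Q.Y a x i * u i) := by
    intro i
    have h2 : ∀ j, Wt D x i j * (u i * D.Q.Y b x j) =
        u i / D.al (len x) * (D.Q.Pi x i j * D.Q.Y b x j) +
        ∑ a, ∑ c, D.iq (len x) a c * D.Q.Y a x i * u i / len x ^ 2 *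
          (D.Q.Y c x j * D.Q.Y b x j) := by
      intro j
      unfold Wt
      simp only [Fin.sum_univ_three]
      ring
    simp only [h2, Finset.sum_add_distrib]
    rw [← Finset.mul_sum, D.Q.Pi_Y hx, mul_zero, zero_add, Finset.sum_comm]
    refine Finset.sum_congr rfl fun a _ => ?_
    rw [Finset.sum_comm]
    simp only [← Finset.mul_sum, D.Q.Y_Y, mul_ite, mul_zero, Finset.sum_ite_eq', Finset.mem_univ,
      if_true]
    field_simp
  unfold bl
  simp only [h1]
  rw [Finset.sum_comm]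
  simp only [Finset.mul_sum]

theorem bl_x {x : E n} (hx : x ≠ 0) (u : Fin n → ℝ) : bl (Wt D x) u x = 0 := by
  unfold bl
  refine Finset.sum_eq_zero fun i _ => ?_
  have h2 : ∀ j, Wt D x i j * (u i * x j) =
      u i / D.al (len x) * (D.Q.Pi x i j * x j) +
      ∑ a, ∑ c, D.iq (len x) a c * D.Q.Y a x i * u i / len x ^ 2 * (D.Q.Y c x j * x j) := by
    intro j
    unfold Wt
    simp only [Fin.sum_univ_three]
    ring
  simp only [h2, Finset.sum_add_distrib]
  rw [← Finset.mul_sum, D.Q.Pi_x hx, mul_zero, zero_add, Finset.sum_comm]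
  refine Finset.sum_eq_zero fun a _ => ?_
  rw [Finset.sum_comm]
  simp only [← Finset.mul_sum, D.Q.Y_x, mul_zero, Finset.sum_const_zero]

theorem tr_Wt {x : E n} (hx : x ≠ 0) :
    ∑ i, Wt D x i i = ((n : ℝ) - 4) / D.al (len x) + ∑ a, D.iq (len x) a a := by
  have hr : len x ≠ 0 := by simp [len, hx]
  have h2 : ∀ i, Wt D x i i = 1 / D.al (len x) * D.Q.Pi x i i +
      ∑ a, ∑ c, D.iq (len x) a c / len x ^ 2 * (D.Q.Y a x i * D.Q.Y c x i) := by
    intro i
    unfold Wt
    simp only [Fin.sum_univ_three]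
    ring
  simp only [h2, Finset.sum_add_distrib]
  rw [← Finset.mul_sum, D.Q.trace_Pi hx, Finset.sum_comm]
  congr 1
  · ring
  · refine Finset.sum_congr rfl fun a _ => ?_
    rw [Finset.sum_comm]
    simp only [← Finset.mul_sum, D.Q.Y_Y, mul_ite, mul_zero, Finset.sum_ite_eq, Finset.mem_univ,
      if_true]
    field_simp

theorem bl_YY {x : E n} (hx : x ≠ 0) (a b : Fin 3) :
    bl (Wt D x) (D.Q.Y a x) (D.Q.Y b x) = len x ^ 2 * D.iq (len x) a b := by
  rw [bl_Y hx]
  simp only [D.Q.Y_Y, mul_ite, mul_zero, Finset.sum_ite_eq', Finset.mem_univ, if_true]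
  ring

theorem bl_Zx {x : E n} (hx : x ≠ 0) (a : Fin 3) (be : Fin 3 → ℝ → ℝ) (u : Fin n → ℝ) :
    bl (Wt D x) (D.Q.Z be a x) u = bl (Wt D x) (D.Q.Y a x) u := by
  have h1 : D.Q.Z be a x = fun i => D.Q.Y a x i + be a (len x) * x i := rfl
  rw [h1, bl_add_left, bl_smul_left, bl_comm (Wt_symm D x) x u, bl_x hx]
  ring

/-- trace of an invariant tensor over the sphere -/
theorem ct_Wt_tenM {x : E n} (hx : x ≠ 0) (f u : ℝ → ℝ) (w : Fin 3 → ℝ → ℝ)
    (s : Fin 3 → Fin 3 → ℝ → ℝ) :
    ∑ i, ∑ j, Wt D x i j * D.Q.tenM be f u w s x i j =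
      D.b * (f (len x) / D.al (len x)) + ∑ a, ∑ b, D.iq (len x) a b * s a b (len x) := by
  have hr : len x ≠ 0 := by simp [len, hx]
  rw [ct_tenM]
  have e1 : ∀ a b, bl (Wt D x) (D.Q.Z be a x) (D.Q.Z be b x) = len x ^ 2 * D.iq (len x) a b := by
    intro a b
    rw [bl_Zx hx, bl_comm (Wt_symm D x), bl_Zx hx, bl_comm (Wt_symm D x), bl_YY hx]
  have e2 : ∀ u : Fin n → ℝ, bl (Wt D x) x u = 0 := fun u => by
    rw [bl_comm (Wt_symm D x), bl_x hx]
  simp only [e1, e2, bl_x hx, bl_YY hx, tr_Wt hx]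
  unfold Data.b
  simp only [Fin.sum_univ_three]
  field_simp
  ring

/-! ### the normal direction -/

theorem nv_x {x : E n} : ∑ i, nv D be i x * x i = len x ^ 2 := by
  have h0 : ∀ i, nv D be i x * x i = x i * x i - ∑ a, be a (len x) * (D.Q.Y a x i * x i) := by
    intro i
    unfold nv
    simp only [Fin.sum_univ_three]
    ring
  simp only [h0, Finset.sum_sub_distrib, Quat.sum_sq]
  rw [Finset.sum_comm]
  simp only [← Finset.mul_sum, D.Q.Y_x, mul_zero, Finset.sum_const_zero, sub_zero]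

theorem nv_Y {x : E n} (c : Fin 3) :
    ∑ i, D.Q.Y c x i * nv D be i x = -(be c (len x) * len x ^ 2) := by
  have h0 : ∀ i, D.Q.Y c x i * nv D be i x = D.Q.Y c x i * x i -
      ∑ a, be a (len x) * (D.Q.Y c x i * D.Q.Y a x i) := by
    intro i
    unfold nv
    simp only [Fin.sum_univ_three]
    ring
  simp only [h0, Finset.sum_sub_distrib, D.Q.Y_x]
  rw [Finset.sum_comm]
  simp only [← Finset.mul_sum, D.Q.Y_Y, mul_ite, mul_zero, Finset.sum_ite_eq, Finset.mem_univ,
    if_true]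
  ring

theorem nv_sq {x : E n} :
    ∑ i, nv D be i x ^ 2 = (1 + ∑ a, be a (len x) ^ 2) * len x ^ 2 := by
  have h0 : ∀ i, nv D be i x ^ 2 = nv D be i x * x i -
      ∑ a, be a (len x) * (D.Q.Y a x i * nv D be i x) := by
    intro i
    conv_lhs => rw [sq]; arg 2; unfold nv
    simp only [Fin.sum_univ_three]
    ring
  simp only [h0, Finset.sum_sub_distrib, nv_x]
  rw [Finset.sum_comm]
  simp only [← Finset.mul_sum, nv_Y]
  simp only [Fin.sum_univ_three]
  ring

/-- the vector `J_a v` -/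
theorem Y_nv {x : E n} (v : E n) (hv : ∀ i, v i = nv D be i x) (c a : Fin 3) :
    ∑ i, D.Q.Y c x i * D.Q.Y a v i =
      len x ^ 2 * ((if c = a then 1 else 0) - ∑ d, eps a d c * be d (len x)) := by
  have h1 : ∀ i, D.Q.Y a v i = D.Q.Y a x i - ∑ d, be d (len x) * ((if a = d then -x i else 0) +
      ∑ e, eps a d e * D.Q.Y e x i) := by
    intro i
    have h2 : D.Q.Y a v i = ∑ j, D.Q.J a i j * v j := rfl
    have h3 : ∀ j, D.Q.J a i j * v j = D.Q.J a i j * x j -
        ∑ d, be d (len x) * (D.Q.J a i j * D.Q.Y d x j) := by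
      intro j
      rw [hv]
      unfold nv
      simp only [Fin.sum_univ_three]
      ring
    rw [h2]
    simp only [h3, Finset.sum_sub_distrib]
    rw [Finset.sum_comm]
    simp only [← Finset.mul_sum, D.Q.J_Y]
    rfl
  have h4 : ∀ i, D.Q.Y c x i * D.Q.Y a v i = D.Q.Y c x i * D.Q.Y a x i -
      ∑ d, be d (len x) * ((if a = d then -(D.Q.Y c x i * x i) else 0) +
      ∑ e, eps a d e * (D.Q.Y c x i * D.Q.Y e x i)) := by
    intro i
    rw [h1]
    rw [mul_sub, Finset.mul_sum]
    congr 1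
    refine Finset.sum_congr rfl fun d _ => ?_
    rw [Finset.sum_congr rfl (fun e _ => mul_left_comm (eps a d e) (D.Q.Y c x i) (D.Q.Y e x i)),
      ← Finset.mul_sum]
    split_ifs <;> ring
  simp only [h4, Finset.sum_sub_distrib, D.Q.Y_Y]
  rw [Finset.sum_comm]
  have h5 : ∀ d, ∑ i, be d (len x) * ((if a = d then -(D.Q.Y c x i * x i) else 0) +
      ∑ e, eps a d e * (D.Q.Y c x i * D.Q.Y e x i)) = be d (len x) * (eps a d c * len x ^ 2) := by
    intro d
    rw [← Finset.mul_sum]
    congr 1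
    rw [Finset.sum_add_distrib]
    have h6 : ∑ i, (if a = d then -(D.Q.Y c x i * x i) else 0) = 0 := by
      split_ifs
      · rw [Finset.sum_neg_distrib, D.Q.Y_x, neg_zero]
      · simp
    rw [h6, zero_add, Finset.sum_comm]
    simp only [← Finset.mul_sum, D.Q.Y_Y, mul_ite, mul_zero, Finset.sum_ite_eq, Finset.mem_univ,
      if_true]
  simp only [h5]
  split_ifs
  · rw [mul_sub, mul_one, Finset.mul_sum]
    congr 1
    exact Finset.sum_congr rfl fun d _ => by ring
  · rw [zero_sub, zero_sub, mul_neg, Finset.mul_sum]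
    congr 1
    exact Finset.sum_congr rfl fun d _ => by ring

/-! ### the derivative of the metric in the normal direction -/

theorem Y_add_smul (Q : Quat n) (a : Fin 3) (x v : E n) (t : ℝ) :
    Q.Y a (x + t • v) = fun i => Q.Y a x i + t * Q.Y a v i := by
  funext i
  unfold Quat.Y
  rw [Finset.mul_sum, ← Finset.sum_add_distrib]
  exact Finset.sum_congr rfl fun j _ => by simp; ring

theorem len_line_deriv {x v : E n} (hx : x ≠ 0) (hxv : inner ℝ x v = len x ^ 2) :
    HasDerivAt (fun t : ℝ => len (x + t • v)) (len x) 0 := by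
  have hr : 0 < len x := by unfold len; positivity
  have h1 : HasFDerivAt (fun y : E n => len y) ((len x)⁻¹ • (innerSL ℝ x)) (x + (0 : ℝ) • v) := by
    rw [zero_smul, add_zero]
    exact hasFDerivAt_len hx
  have h2 : HasDerivAt (fun t : ℝ => x + t • v) v 0 := by
    exact (((hasDerivAt_id (0 : ℝ)).smul_const v).const_add x).congr_deriv (one_smul _ _)
  have h3 := h1.comp_hasDerivAt 0 h2
  refine h3.congr_deriv ?_
  simp only [smul_apply, innerSL_apply_apply, smul_eq_mul, hxv]
  field_simp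

theorem sum_eps_symm {M : Fin 3 → Fin 3 → ℝ} (hM : ∀ a b, M a b = M b a) (v : Fin 3 → ℝ) :
    ∑ a, ∑ c, M c a * ∑ d, eps a d c * v d = 0 := by
  simp only [Fin.sum_univ_three, hM 1 0, hM 2 0, hM 2 1, eps]
  simp
  ring

theorem Dv_trace (h : FitsM D be g K) {x : E n} (hx : D.R ≤ len x) :
    ∑ i, ∑ j, Wt D x i j * (∑ l, nv D be l x * pd l (fun z => g z i j) x) =
      len x * (D.b * (deriv D.al (len x) / D.al (len x)) +
        ∑ a, ∑ b, D.iq (len x) a b * deriv (D.q a b) (len x)) -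
      2 * ∑ a, be a (len x) ^ 2 := by
  have h0 : x ≠ 0 := len_pos_of hx
  have hr : 0 < len x := lt_of_lt_of_le D.hR hx
  have hal := D.al_pos _ hx
  set v : E n := WithLp.toLp 2 fun i => nv D be i x with hv
  have hvi : ∀ i, v i = nv D be i x := fun i => rfl
  have hxv : inner ℝ x v = len x ^ 2 := by
    rw [← nv_x (D := D) (be := be)]
    simp only [PiLp.inner_apply, RCLike.inner_apply, conj_trivial]
    exact Finset.sum_congr rfl fun i _ => by rw [hvi]
  set r := len x with hrdef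
  set B := bl (Wt D x) with hB
  have hBs : ∀ u w, B u w = B w u := fun u w => bl_comm (Wt_symm D x) u w
  have hBx : ∀ u, B u x = 0 := fun u => bl_x h0 u
  have hxB : ∀ u, B x u = 0 := fun u => by rw [hBs, hBx]
  -- the line
  set ρ : ℝ → ℝ := fun t => len (x + t • v) with hρ
  have hρ0 : ρ 0 = r := by simp [hρ, hrdef]
  have hρd : HasDerivAt ρ r 0 := len_line_deriv h0 hxv
  have hcomp : ∀ {f : ℝ → ℝ}, ContDiff ℝ ∞ f → HasDerivAt (fun t => f (ρ t)) (deriv f r * r) 0 := by
    intro f hf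
    have h1 : HasDerivAt f (deriv f r) (ρ 0) := by
      rw [hρ0]; exact (hf.differentiable (by norm_num) r).hasDerivAt
    exact h1.comp 0 hρd
  set U : Fin 3 → Fin n → ℝ := fun a => D.Q.Y a v with hU
  set yy : ℝ → ℝ := fun t => t ^ 2 * B v v with hyy
  set YY : Fin 3 → ℝ → ℝ := fun a t => B (D.Q.Y a x) (D.Q.Y a x) +
    t * (B (U a) (D.Q.Y a x) + B (D.Q.Y a x) (U a)) + t ^ 2 * B (U a) (U a) with hYY
  set ZZ : Fin 3 → Fin 3 → ℝ → ℝ := fun a b t => B (D.Q.Y a x) (D.Q.Y b x) +
    t * (B (U a) (D.Q.Y b x) + be a (ρ t) * B v (D.Q.Y b x) + B (D.Q.Y a x) (U b) +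
      be b (ρ t) * B (D.Q.Y a x) v) +
    t ^ 2 * (B (U a) (U b) + be b (ρ t) * B (U a) v + be a (ρ t) * B v (U b) +
      be a (ρ t) * be b (ρ t) * B v v) with hZZ
  have hadd : ∀ u u' w, B (fun i => u i + u' i) w = B u w + B u' w := bl_add_left _
  have hadd' : ∀ u w w', B u (fun i => w i + w' i) = B u w + B u w' := bl_add_right _
  have hsm : ∀ c u w, B (fun i => c * u i) w = c * B u w := bl_smul_left _
  have hsm' : ∀ c u w, B u (fun i => c * w i) = c * B u w := bl_smul_right _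
  have hyv : ∀ t : ℝ, (fun i => (x + t • v) i) = fun i => x i + t * v i := by
    intro t; funext i; simp
  have e1 : ∀ t : ℝ, B (fun i => (x + t • v) i) (fun i => (x + t • v) i) = yy t := by
    intro t
    rw [hyv, hadd, hadd', hadd', hsm, hsm', hsm, hsm', hBx, hxB, hBx, hyy]
    ring
  have e2 : ∀ a t, B (D.Q.Y a (x + t • v)) (D.Q.Y a (x + t • v)) = YY a t := by
    intro a t
    rw [Y_add_smul, hadd, hadd', hadd', hsm, hsm', hsm, hsm', hYY]
    ring
  have e3 : ∀ a b t, B (D.Q.Z be a (x + t • v)) (D.Q.Z be b (x + t • v)) = ZZ a b t := by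
    intro a b t
    have hZ : ∀ a, D.Q.Z be a (x + t • v) = fun i => (D.Q.Y a x i + t * U a i) +
        be a (ρ t) * (x i + t * v i) := by
      intro a
      funext i
      unfold Quat.Z
      rw [Y_add_smul]
      simp only [PiLp.add_apply, PiLp.smul_apply, smul_eq_mul]
      rfl
    rw [hZ, hZ]
    simp only [hadd, hadd', hsm, hsm', hBx, hxB, hZZ]
    ring
  set φ : ℝ → ℝ := fun t =>
    D.al (ρ t) * ((∑ i, Wt D x i i) - (yy t + ∑ a, YY a t) / ρ t ^ 2) +
    (D.p (ρ t) * yy t + ∑ a, ∑ b, D.q a b (ρ t) * ZZ a b t) / ρ t ^ 2 with hφ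
  have hφt : ∀ t : ℝ, 0 ≤ t → D.R ≤ len (x + t • v) →
      ∑ i, ∑ j, Wt D x i j * g (x + t • v) i j = φ t := by
    intro t _ ht
    simp only [h.hg _ ht]
    rw [ct_tenM]
    simp only [zero_mul, Finset.sum_const_zero, add_zero]
    rw [hφ]
    simp only [← e1, ← e2, ← e3]
    rfl
  -- derivatives
  have dyy : HasDerivAt yy 0 0 := by
    have := ((hasDerivAt_pow 2 (0 : ℝ)).mul_const (B v v))
    simpa using this
  have dlin : ∀ {f : ℝ → ℝ} {c f' : ℝ}, f 0 = c → HasDerivAt f f' 0 →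
      HasDerivAt (fun t => t * f t) c 0 := by
    intro f c f' hc hf
    have := (hasDerivAt_id (0 : ℝ)).fun_mul hf
    refine this.congr_deriv ?_
    simp [hc]
  have dsq : ∀ {f : ℝ → ℝ} {f' : ℝ}, HasDerivAt f f' 0 →
      HasDerivAt (fun t => t ^ 2 * f t) 0 0 := by
    intro f f' hf
    have := (hasDerivAt_pow 2 (0 : ℝ)).fun_mul hf
    refine this.congr_deriv ?_
    simp
  have dYY : ∀ a, HasDerivAt (YY a) (B (U a) (D.Q.Y a x) + B (D.Q.Y a x) (U a)) 0 := by
    intro a
    have h1 := ((hasDerivAt_const (0 : ℝ) (B (D.Q.Y a x) (D.Q.Y a x))).fun_add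
      (dlin (f := fun _ => B (U a) (D.Q.Y a x) + B (D.Q.Y a x) (U a)) rfl
        (hasDerivAt_const _ _))).fun_add (dsq (hasDerivAt_const (0 : ℝ) (B (U a) (U a))))
    refine h1.congr_deriv ?_
    ring
  have dbe : ∀ a, HasDerivAt (fun t => be a (ρ t)) (deriv (be a) r * r) 0 := fun a =>
    hcomp (h.be_smooth a)
  have dZZ : ∀ a b, HasDerivAt (ZZ a b) (B (U a) (D.Q.Y b x) + be a r * B v (D.Q.Y b x) +
      B (D.Q.Y a x) (U b) + be b r * B (D.Q.Y a x) v) 0 := by
    intro a b
    have h1 := ((hasDerivAt_const (0 : ℝ) (B (D.Q.Y a x) (D.Q.Y b x))).fun_add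
      (dlin (f := fun t => B (U a) (D.Q.Y b x) + be a (ρ t) * B v (D.Q.Y b x) +
        B (D.Q.Y a x) (U b) + be b (ρ t) * B (D.Q.Y a x) v)
        (c := B (U a) (D.Q.Y b x) + be a r * B v (D.Q.Y b x) +
          B (D.Q.Y a x) (U b) + be b r * B (D.Q.Y a x) v) (by simp only [hρ0])
        ((((dbe a).mul_const _).const_add _ |>.add_const _).fun_add
          ((dbe b).mul_const _)))).fun_add (dsq (f := fun t => B (U a) (U b) +
            be b (ρ t) * B (U a) v + be a (ρ t) * B v (U b) + be a (ρ t) * be b (ρ t) * B v v)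
        (((((dbe b).mul_const _).const_add _).fun_add ((dbe a).mul_const _)).fun_add
          (((dbe a).fun_mul (dbe b)).mul_const _)))
    refine h1.congr_deriv ?_
    ring
  have yy0 : yy 0 = 0 := by simp [hyy]
  have YY0 : ∀ a, YY a 0 = B (D.Q.Y a x) (D.Q.Y a x) := by intro a; simp [hYY]
  have ZZ0 : ∀ a b, ZZ a b 0 = B (D.Q.Y a x) (D.Q.Y b x) := by intro a b; simp [hZZ]
  have dN1 : HasDerivAt (fun t => yy t + ∑ a, YY a t)
      (0 + ∑ a, (B (U a) (D.Q.Y a x) + B (D.Q.Y a x) (U a))) 0 :=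
    dyy.fun_add (HasDerivAt.fun_sum fun a _ => dYY a)
  have dN2 : HasDerivAt (fun t => D.p (ρ t) * yy t + ∑ a, ∑ b, D.q a b (ρ t) * ZZ a b t)
      ((deriv D.p r * r * yy 0 + D.p (ρ 0) * 0) + ∑ a, ∑ b,
        (deriv (D.q a b) r * r * ZZ a b 0 + D.q a b (ρ 0) *
          (B (U a) (D.Q.Y b x) + be a r * B v (D.Q.Y b x) +
            B (D.Q.Y a x) (U b) + be b r * B (D.Q.Y a x) v))) 0 :=
    ((hcomp D.p_smooth).fun_mul dyy).fun_add (HasDerivAt.fun_sum fun a _ =>
      HasDerivAt.fun_sum fun b _ => (hcomp (D.q_smooth a b)).fun_mul (dZZ a b))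
  have dρ2 : HasDerivAt (fun t => ρ t ^ 2) (2 * r * r) 0 := by
    have := hρd.fun_pow 2
    refine this.congr_deriv ?_
    rw [hρ0]
    norm_num
  have hρne : ρ 0 ^ 2 ≠ 0 := by rw [hρ0]; positivity
  have dφ := ((hcomp D.al_smooth).fun_mul ((dN1.fun_div dρ2 hρne).const_sub
    (∑ i, Wt D x i i))).fun_add (dN2.fun_div dρ2 hρne)
  have key := contract_deriv (g := g) (v := v) hx (by rw [hxv]; positivity) (Wt D x)
    (fun i j => (h.smooth i j).1.differentiable (by norm_num) x) dφ hφt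
  simp only [hvi] at key
  rw [key]
  -- the algebra
  have b1 : ∀ a b, B (D.Q.Y a x) (D.Q.Y b x) = r ^ 2 * D.iq r a b := fun a b => bl_YY h0 a b
  have b2 : ∀ a b, B (U a) (D.Q.Y b x) =
      r ^ 2 * ∑ c, D.iq r c b * ((if c = a then 1 else 0) - ∑ d, eps a d c * be d r) := by
    intro a b
    have : B (U a) (D.Q.Y b x) = _ := bl_Y h0 b (U a)
    rw [this, Finset.mul_sum]
    refine Finset.sum_congr rfl fun c _ => ?_
    have e4 : ∑ i, D.Q.Y c x i * U a i = _ := Y_nv v hvi c a
    rw [e4]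
    ring
  have b3 : ∀ b, B v (D.Q.Y b x) = -(r ^ 2 * ∑ c, D.iq r c b * be c r) := by
    intro b
    have : B v (D.Q.Y b x) = _ := bl_Y h0 b v
    rw [this, Finset.mul_sum, ← Finset.sum_neg_distrib]
    refine Finset.sum_congr rfl fun c _ => ?_
    have e4 : ∑ i, D.Q.Y c x i * v i = -(be c r * r ^ 2) := nv_Y c
    rw [e4]
    ring
  have b4 : ∀ a b, B (D.Q.Y a x) (U b) = B (U b) (D.Q.Y a x) := fun a b => hBs _ _
  have b5 : ∀ a, B (D.Q.Y a x) v = B v (D.Q.Y a x) := fun a => hBs _ _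
  have iqs : ∀ a b, D.iq r a b = D.iq r b a := D.iq_symm_apply r
  have hqi : ∀ a c, ∑ b, D.q a b r * D.iq r b c = if a = c then 1 else 0 := fun a c =>
    D.q_iq hx a c
  -- first part
  have s1 : ∑ a, (B (U a) (D.Q.Y a x) + B (D.Q.Y a x) (U a)) = 2 * r ^ 2 * ∑ a, D.iq r a a := by
    have h1 := sum_eps_symm iqs (fun d => be d r)
    have h2 : ∀ a, B (U a) (D.Q.Y a x) + B (D.Q.Y a x) (U a) =
        2 * r ^ 2 * (D.iq r a a - ∑ c, D.iq r c a * ∑ d, eps a d c * be d r) := by
      intro a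
      rw [b4, b2]
      simp only [mul_sub, Finset.sum_sub_distrib, mul_ite, mul_one, mul_zero,
        Finset.sum_ite_eq', Finset.mem_univ, if_true]
      ring
    simp only [h2]
    rw [← Finset.mul_sum, Finset.sum_sub_distrib, h1, sub_zero]
  have s2 : ∑ a, ∑ b, (deriv (D.q a b) r * r * (r ^ 2 * D.iq r a b) + D.q a b r *
          (B (U a) (D.Q.Y b x) + be a r * B v (D.Q.Y b x) +
            B (D.Q.Y a x) (U b) + be b r * B (D.Q.Y a x) v)) =
      r ^ 3 * (∑ a, ∑ b, D.iq r a b * deriv (D.q a b) r) +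
        2 * r ^ 2 * (3 - ∑ a, be a r ^ 2) := by
    have h1 : ∑ a, ∑ b, (deriv (D.q a b) r * r * (r ^ 2 * D.iq r a b) + D.q a b r *
          (B (U a) (D.Q.Y b x) + be a r * B v (D.Q.Y b x) +
            B (D.Q.Y a x) (U b) + be b r * B (D.Q.Y a x) v)) =
        r ^ 3 * (∑ a, ∑ b, D.iq r a b * deriv (D.q a b) r) +
        ((∑ a, ∑ b, D.q a b r * (B (U a) (D.Q.Y b x) + be a r * B v (D.Q.Y b x))) +
        ∑ a, ∑ b, D.q a b r * (B (U b) (D.Q.Y a x) + be b r * B v (D.Q.Y a x))) := by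
      simp only [b4, b5, Finset.mul_sum, ← Finset.sum_add_distrib]
      exact Finset.sum_congr rfl fun a _ => Finset.sum_congr rfl fun b _ => by ring
    have h2 : ∑ a, ∑ b, D.q a b r * (B (U b) (D.Q.Y a x) + be b r * B v (D.Q.Y a x)) =
        ∑ a, ∑ b, D.q a b r * (B (U a) (D.Q.Y b x) + be a r * B v (D.Q.Y b x)) := by
      rw [Finset.sum_comm]
      exact Finset.sum_congr rfl fun a _ => Finset.sum_congr rfl fun b _ => by
        rw [D.q_symm a b]
    have h3 : ∀ a, ∑ b, D.q a b r * (B (U a) (D.Q.Y b x) + be a r * B v (D.Q.Y b x)) =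
        r ^ 2 * (1 - be a r ^ 2) := by
      intro a
      have h4 : ∑ b, D.q a b r * (B (U a) (D.Q.Y b x) + be a r * B v (D.Q.Y b x)) =
          r ^ 2 * ∑ c, (∑ b, D.q a b r * D.iq r b c) *
            (((if c = a then 1 else 0) - ∑ d, eps a d c * be d r) - be a r * be c r) := by
        have hL : ∀ b, D.q a b r * (B (U a) (D.Q.Y b x) + be a r * B v (D.Q.Y b x)) =
            ∑ c, r ^ 2 * (D.q a b r * D.iq r b c *
              (((if c = a then 1 else 0) - ∑ d, eps a d c * be d r) - be a r * be c r)) := by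
          intro b
          rw [b2, b3]
          generalize hG : (fun c : Fin 3 => ((if c = a then (1 : ℝ) else 0) -
            ∑ d, eps a d c * be d r)) = G
          have hG' : ∀ c, ((if c = a then (1 : ℝ) else 0) - ∑ d, eps a d c * be d r) = G c :=
            fun c => congrFun hG c
          simp only [Fin.sum_univ_three]
          fin_cases b <;> simp [iqs 1 0, iqs 2 0, iqs 2 1] <;> ring
        rw [Finset.sum_congr rfl (fun b _ => hL b), Finset.sum_comm, Finset.mul_sum]
        refine Finset.sum_congr rfl fun c _ => ?_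
        rw [Finset.sum_mul, Finset.mul_sum]
      rw [h4]
      simp only [hqi, ite_mul, one_mul, zero_mul, Finset.sum_ite_eq, Finset.mem_univ, if_true]
      have h5 : ∑ d, eps a d a * be d r = 0 := by
        refine Finset.sum_eq_zero fun d _ => ?_
        have : eps a d a = 0 := by fin_cases a <;> fin_cases d <;> simp [eps]
        rw [this, zero_mul]
      rw [h5]
      ring
    rw [h1, h2]
    simp only [h3, Fin.sum_univ_three]
    ring
  simp only [hρ0, yy0, YY0, ZZ0, b1, mul_zero, zero_add, add_zero, s1, s2, tr_Wt h0]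
  rw [← hrdef]
  unfold Data.b
  have s3 : ∑ a, ∑ b, D.q a b r * (r ^ 2 * D.iq r a b) = r ^ 2 * 3 := by
    have h1 : ∀ a, ∑ b, D.q a b r * (r ^ 2 * D.iq r a b) = r ^ 2 * 1 := by
      intro a
      have h2 := hqi a a
      rw [if_pos rfl] at h2
      rw [← h2, Finset.mul_sum]
      exact Finset.sum_congr rfl fun b _ => by rw [iqs a b]; ring
    simp only [h1, Finset.sum_const, Finset.card_univ, Fintype.card_fin]
    norm_num
    ring
  rw [s3, ← Finset.mul_sum]
  field_simp
  ring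

/-! ### the null expansion of the spheres -/

theorem nv_HP (h : FitsM D be g K) {x : E n} (hx : x ≠ 0) (i k : Fin n) :
    HP k (nv D be i) ((if i = k then 1 else 0) - ∑ a, (deriv (be a) (len x) / len x * x k *
      D.Q.Y a x i + be a (len x) * D.Q.J a i k)) x :=
  (HP.coord k i x).sub (HP.sum _ fun a _ => (HP.radial hx
    ((h.be_smooth a).differentiable (by norm_num) _).hasDerivAt k).mul (HP.Y D.Q a k i x))

theorem div_nv (h : FitsM D be g K) {x : E n} (hx : x ≠ 0) :
    ∑ i, pd i (nv D be i) x = n := by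
  have h0 : ∀ i, pd i (nv D be i) x = 1 - ∑ a, (deriv (be a) (len x) / len x *
      (x i * D.Q.Y a x i) + be a (len x) * D.Q.J a i i) := by
    intro i
    rw [(nv_HP h hx i i).pd, if_pos rfl]
    congr 1
    exact Finset.sum_congr rfl fun a _ => by ring
  simp only [h0, Finset.sum_sub_distrib]
  rw [Finset.sum_comm]
  simp only [Finset.sum_add_distrib, ← Finset.mul_sum, D.Q.x_Y, D.Q.trace_J]
  simp

theorem Z_nv {x : E n} (b : Fin 3) : ∑ j, D.Q.Z be b x j * nv D be j x = 0 := by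
  have h0 : ∀ j, D.Q.Z be b x j * nv D be j x = D.Q.Y b x j * nv D be j x +
      be b (len x) * (nv D be j x * x j) := by
    intro j; unfold Quat.Z; ring
  simp only [h0, Finset.sum_add_distrib, ← Finset.mul_sum, nv_Y, nv_x]
  ring

theorem Pi_nv {x : E n} (hx : x ≠ 0) (i : Fin n) : ∑ j, D.Q.Pi x i j * nv D be j x = 0 := by
  have h0 : ∀ j, D.Q.Pi x i j * nv D be j x = D.Q.Pi x i j * x j -
      ∑ a, be a (len x) * (D.Q.Pi x i j * D.Q.Y a x j) := by
    intro j
    unfold nv
    simp only [Fin.sum_univ_three]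
    ring
  simp only [h0, Finset.sum_sub_distrib, D.Q.Pi_x hx]
  rw [Finset.sum_comm]
  simp only [← Finset.mul_sum, D.Q.Pi_Y hx, mul_zero, Finset.sum_const_zero, sub_zero]

theorem g_nv (h : FitsM D be g K) {x : E n} (hx : D.R ≤ len x) (i : Fin n) :
    ∑ j, g x i j * nv D be j x = D.p (len x) * x i := by
  have h0 : x ≠ 0 := len_pos_of hx
  have hr : 0 < len x := lt_of_lt_of_le D.hR hx
  have h1 : ∀ j, g x i j * nv D be j x = D.al (len x) * (D.Q.Pi x i j * nv D be j x) +
      (D.p (len x) * x i * (nv D be j x * x j) + ∑ a, ∑ b, D.q a b (len x) * D.Q.Z be a x i *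
        (D.Q.Z be b x j * nv D be j x)) / len x ^ 2 := by
    intro j
    rw [h.hg x hx]
    unfold Quat.tenM Quat.Pi
    simp only [Fin.sum_univ_three]
    ring
  simp only [h1, Finset.sum_add_distrib, ← Finset.mul_sum, ← Finset.sum_div, Pi_nv h0, nv_x]
  have h2 : ∑ j, ∑ a, ∑ b, D.q a b (len x) * D.Q.Z be a x i *
        (D.Q.Z be b x j * nv D be j x) = 0 := by
    rw [Finset.sum_comm]
    refine Finset.sum_eq_zero fun a _ => ?_
    rw [Finset.sum_comm]
    refine Finset.sum_eq_zero fun b _ => ?_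
    rw [← Finset.mul_sum, Z_nv, mul_zero]
  rw [h2]
  field_simp
  ring

/-- the gauge structure of fitting data -/
theorem gaugeM_of_fits (h : FitsM D be g K) (hpos : ∀ y, D.R ≤ len y → (mat g y).PosDef) :
    GaugeM g D.p (nv D be) D.R where
  hR := D.hR
  smooth := fun i j => (h.smooth i j).1
  symm := fun y hy i j => by
    rw [gM_ten h hy, gM_ten h hy]
    exact D.Q.ten_symm _ _ _ _ D.q_symm y i j
  pos := hpos
  p_diff := fun r _ => D.p_smooth.differentiable (by norm_num) r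
  v_diff := fun y hy l => by
    have h0 : y ≠ 0 := len_pos_of hy
    unfold nv
    refine (diff_coord l y).fun_sub (DifferentiableAt.fun_sum fun a _ => ?_)
    refine (diff_radial h0 ((h.be_smooth a).differentiable (by norm_num) _)).fun_mul ?_
    unfold Quat.Y
    exact DifferentiableAt.fun_sum fun j _ => (diff_coord j y).const_mul _
  xv := fun y _ => nv_x
  gv := fun y hy i => g_nv h hy i

theorem thetaM_eq (h : FitsM D be g K) (hpos : ∀ y, D.R ≤ len y → (mat g y).PosDef) {x : E n}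
    (hx : D.R ≤ len x) : thetaPlus g K len x = D.H (len x) + D.k (len x) := by
  have G := gaugeM_of_fits h hpos
  have h0 : x ≠ 0 := len_pos_of hx
  have hr : 0 < len x := lt_of_lt_of_le D.hR hx
  have hK : trS g K len x = D.k (len x) := by
    rw [G.trS_len hx]
    simp only [Wt_eq h hx, h.hK x hx]
    rw [ct_Wt_tenM h0]
    unfold Data.k Data.S
    congr 1
    simp only [Matrix.trace, Matrix.diag, Matrix.mul_apply, Matrix.of_apply]
    refine Finset.sum_congr rfl fun a _ => Finset.sum_congr rfl fun b _ => ?_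
    rw [D.s_symm b a]
    rfl
  have hD : trS g (fun y i j => ∑ l, nv D be l y * pd l (fun z => g z i j) y) len x =
      len x * (D.b * (deriv D.al (len x) / D.al (len x)) +
        ∑ a, ∑ b, D.iq (len x) a b * deriv (D.q a b) (len x)) -
      2 * ∑ a, be a (len x) ^ 2 := by
    rw [G.trS_len hx]
    simp only [Wt_eq h hx]
    exact Dv_trace h hx
  rw [G.theta_len hx, hK, hD, div_nv h h0, nv_sq, H_formula hx]
  congr 2
  field_simp
  ring

end Vale.Agent.C92

namespace Vale.Agent.P366.T2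
open Vale.Agent.P366.Stmt

variable {n : ℕ}

/-- **Block [MC1]**: at the outermost point of the weakly future trapped boundary the sphere has
nonpositive null expansion. -/
theorem touchM (D : Data n) {be : Fin 3 → ℝ → ℝ} {X : Stmt.Exterior n}
    (h : FitsM D be X.g X.K) (hT : X.Trapped)
    (hR : IsGreatest {r | ∃ x, X.F x = 0 ∧ Stmt.len x = r} D.R) : D.H D.R + D.k D.R ≤ 0 := by
  have hn : 4 ≤ n := by
    apply D.Q.four_le
    obtain ⟨x, -, hx⟩ := hR.1
    rcases Nat.eq_zero_or_pos n with h0 | h0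
    · exfalso
      subst h0
      have : x = 0 := Subsingleton.elim _ _
      have h1 := D.hR
      rw [← hx, this] at h1
      have h2 : Stmt.len (0 : Stmt.E 0) = 0 := norm_zero
      linarith
    · exact h0
  have hout := Vale.Agent.C92.outside_nonneg (by omega) X hR
  have hpos : ∀ y, D.R ≤ Stmt.len y → (Stmt.mat X.g y).PosDef := fun y hy => X.pos y (hout y hy)
  obtain ⟨x0, hF0, hx0⟩ := hR.1
  have h1 := Vale.Agent.C92.theta_compare (g := X.g) (K := X.K) X.dom.1 D.hR hx0
    (X.pos x0 hF0.ge) (X.dom.2.1 x0 hF0) (fun x hx => by rw [hF0]; exact hout x hx)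
  have h2 := hT x0 hF0
  rw [Vale.Agent.C92.thetaM_eq h hpos hx0.ge, hx0] at h1
  exact h1.trans h2

end Vale.Agent.P366.T2
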