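import Vale.Agent.P366.T2.Up
import Vale.Agent.P366.Bdl.B1

/-!
# The momentum of even data vanishes
-/

open MeasureTheory Metric Filter Topology Set
open scoped BigOperators ENNReal ContDiff

noncomputable section
namespace Vale.Agent.P366.T2
open Vale.Agent.P366

variable {n : ℕ}

lemma integral_sph_neg (f : Sph n → ℝ) :
    ∫ θ, f (-θ) ∂(sphM n) = ∫ θ, f θ ∂(sphM n) := by
  have h : MeasurePreserving (fun θ : Sph n => -θ) (sphM n) (sphM n) :=
    ⟨continuous_neg.measurable, sphM_map_neg⟩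
  exact h.integral_comp (Homeomorph.neg (Sph n)).measurableEmbedding f

/-- The flux of an even vector field vanishes. -/
lemma flx_even {W : Fin n → E n → ℝ} {R : ℝ}
    (hW : ∀ x : E n, Stmt.len x = R → ∀ i, W i (-x) = W i x) (hR : 0 ≤ R) :
    Stmt.flx W R = 0 := by
  rw [flx_eq]
  have h0 : sphInt R (fun x => ∑ i, W i x * (x i / ‖x‖)) = 0 := by
    unfold sphInt
    have h1 := integral_sph_neg (n := n)
      (fun θ => (fun x : E n => ∑ i, W i x * (x i / ‖x‖)) (R • (θ : E n)))
    have h2 : ∀ θ : Sph n, (fun x : E n => ∑ i, W i x * (x i / ‖x‖)) (R • ((-θ : Sph n) : E n)) =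
        -(fun x : E n => ∑ i, W i x * (x i / ‖x‖)) (R • (θ : E n)) := by
      intro θ
      have hl : Stmt.len (R • (θ : E n)) = R := by
        unfold Stmt.len
        rw [norm_smul, Real.norm_eq_abs, abs_of_nonneg hR, norm_eq_of_mem_sphere θ, mul_one]
      have e : R • ((-θ : Sph n) : E n) = -(R • (θ : E n)) := by
        rw [coe_neg_sphere, smul_neg]
      simp only [e, norm_neg, PiLp.neg_apply]
      rw [← Finset.sum_neg_distrib]
      refine Finset.sum_congr rfl fun i _ => ?_
      rw [hW _ hl]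
      ring
    simp only [h2, integral_neg] at h1
    have h3 : ∫ θ : Sph n, (fun x : E n => ∑ i, W i x * (x i / ‖x‖)) (R • (θ : E n)) ∂(sphM n) =
        0 := by linarith
    rw [h3, mul_zero]
  rw [h0, zero_div]

lemma Y_neg (Q : Quat n) (a : Fin 3) (x : E n) (i : Fin n) : Q.Y a (-x) i = -Q.Y a x i := by
  unfold Quat.Y
  simp [Finset.sum_neg_distrib]

lemma len_neg (x : E n) : Stmt.len (-x) = Stmt.len x := norm_neg x

lemma ten_neg (Q : Quat n) (f u : ℝ → ℝ) (w : Fin 3 → ℝ → ℝ) (s : Fin 3 → Fin 3 → ℝ → ℝ)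
    (x : E n) (i j : Fin n) : Q.ten f u w s (-x) i j = Q.ten f u w s x i j := by
  unfold Quat.ten
  simp only [len_neg, Y_neg, PiLp.neg_apply, mul_neg, neg_mul, neg_neg]

variable {D : Data n} {g K : Stmt.Field n}

lemma momT_even (h : Fits D g K) {x : E n} (hx : D.R ≤ Stmt.len x) (i j : Fin n) :
    Stmt.momT g K (-x) i j = Stmt.momT g K x i j := by
  have hx' : D.R ≤ Stmt.len (-x) := by rwa [len_neg]
  have hg : ∀ i j, g (-x) i j = g x i j := fun i j => by
    rw [h.hg _ hx', h.hg _ hx, ten_neg]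
  have hK : ∀ i j, K (-x) i j = K x i j := fun i j => by
    rw [h.hK _ hx', h.hK _ hx, ten_neg]
  have hm : Stmt.mat g (-x) = Stmt.mat g x := by
    funext i j; exact hg i j
  have hu : ∀ i j, Stmt.up g i j (-x) = Stmt.up g i j x := fun i j => by
    unfold Stmt.up; rw [hm]
  unfold Stmt.momT Stmt.tr
  simp only [hg, hK, hu]

/-- The momentum vanishes. -/
theorem momentum_zero {X : Stmt.Exterior n} (h : Fits D X.g X.K) {P : Fin n → ℝ}
    (hP : X.IsMomentum P) : P = 0 := by
  funext i
  have h1 : (Stmt.flx fun j x => Stmt.momT X.g X.K x i j) =ᶠ[atTop] fun _ => (0 : ℝ) := by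
    filter_upwards [eventually_ge_atTop D.R] with R hR
    have hR0 : 0 ≤ R := D.hR.le.trans hR
    refine flx_even (fun x hx j => ?_) hR0
    exact momT_even h (by rw [hx]; exact hR) i j
  have h2 := (tendsto_congr' h1).1 (hP i)
  exact tendsto_nhds_unique h2 tendsto_const_nhds

end Vale.Agent.P366.T2
end
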