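import Vale.Agent.P366.T2.E68
import Vale.Agent.P366.T2.P765
import Vale.Agent.P366.T2.MUp

/-!
T2M, block ME: asymptotics without gauge condition.
-/

open MeasureTheory Metric Filter Topology Set Asymptotics
open scoped ContDiff ENNReal

noncomputable section
namespace Vale.Agent.P366.T2

variable {n : ℕ}

namespace EM

variable {D : Data n} {be : Fin 3 → ℝ → ℝ} {g K : Stmt.Field n}

open E68

lemma KM_ten (h : FitsM D be g K) {x : Stmt.E n} (hx : D.R ≤ Stmt.len x) (i j : Fin n) :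
    K x i j = D.Q.ten D.ka
      (fun r => D.kn r + 2 * (∑ a, D.v a r * be a r) + ∑ a, ∑ b, D.s a b r * be a r * be b r)
      (fun a r => D.v a r + ∑ b, D.s a b r * be b r) D.s x i j := by
  rw [h.hK x hx, D.Q.tenM_eq _ _ _ _ _ D.s_symm]

/-! ### the momentum -/

lemma momT_even (h : FitsM D be g K) {x : Stmt.E n} (hx : D.R ≤ Stmt.len x) (i j : Fin n) :
    Stmt.momT g K (-x) i j = Stmt.momT g K x i j := by
  have hx' : D.R ≤ Stmt.len (-x) := by rwa [len_neg]
  have hg : ∀ i j, g (-x) i j = g x i j := fun i j => by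
    rw [gM_ten h hx', gM_ten h hx, ten_neg]
  have hK : ∀ i j, K (-x) i j = K x i j := fun i j => by
    rw [KM_ten h hx', KM_ten h hx, ten_neg]
  have hm : Stmt.mat g (-x) = Stmt.mat g x := by
    funext i j; exact hg i j
  have hu : ∀ i j, Stmt.up g i j (-x) = Stmt.up g i j x := fun i j => by
    unfold Stmt.up; rw [hm]
  unfold Stmt.momT Stmt.tr
  simp only [hg, hK, hu]

/-- The momentum vanishes. -/
theorem momentum_zero {X : Stmt.Exterior n} (h : FitsM D be X.g X.K) {P : Fin n → ℝ}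
    (hP : X.IsMomentum P) : P = 0 := by
  funext i
  have h1 : (Stmt.flx fun j x => Stmt.momT X.g X.K x i j) =ᶠ[atTop] fun _ => (0 : ℝ) := by
    filter_upwards [eventually_ge_atTop D.R] with R hR
    have hR0 : 0 ≤ R := D.hR.le.trans hR
    refine flx_even (fun x hx j => ?_) hR0
    exact momT_even h (by rw [hx]; exact hR) i j
  have h2 := (tendsto_congr' h1).1 (hP i)
  exact tendsto_nhds_unique h2 tendsto_const_nhds

/-! ### decay of the coefficients -/

lemma g_ray (h : FitsM D be g K) (i0 : Fin n) {r : ℝ} (hr : D.R < r) (i j : Fin n) :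
    g (ray i0 r) i j = D.Q.ten D.al (D.pG be) (D.wG be) D.q (ray i0 r) i j :=
  gM_ten h (by rw [len_ray i0 (D.hR.trans hr).le]; exact hr.le) i j

lemma K_ray (h : FitsM D be g K) (i0 : Fin n) {r : ℝ} (hr : D.R < r) (i j : Fin n) :
    K (ray i0 r) i j = D.Q.ten D.ka
      (fun r => D.kn r + 2 * (∑ a, D.v a r * be a r) + ∑ a, ∑ b, D.s a b r * be a r * be b r)
      (fun a r => D.v a r + ∑ b, D.s a b r * be b r) D.s (ray i0 r) i j :=
  KM_ten h (by rw [len_ray i0 (D.hR.trans hr).le]; exact hr.le) i j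

/-- coefficients extracting `w a` -/
def cw (Q : Quat n) (i0 : Fin n) (a : Fin 3) (i j : Fin n) : ℝ := kr i0 i * Q.J a j i0

lemma w_ray (Q : Quat n) (f u : ℝ → ℝ) (w : Fin 3 → ℝ → ℝ) (s : Fin 3 → Fin 3 → ℝ → ℝ)
    (i0 : Fin n) {r : ℝ} (hr : 0 < r) (a : Fin 3) :
    w a r = ∑ i, ∑ j, cw Q i0 a i j * Q.ten f u w s (ray i0 r) i j := by
  have hl := len_ray i0 hr.le
  have h1 : ∀ i, ∑ j, Q.ten f u w s (ray i0 r) i j * Q.J a j i0 =
      w a r * kr i0 i + ∑ c, s c a r * Q.J c i i0 := by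
    intro i
    have h2 := ten_Y Q f u w s (ray i0 r) (by rw [hl]; exact hr.ne') i a
    simp only [ray_apply, Y_ray, hl] at h2
    have h3 : ∑ j, Q.ten f u w s (ray i0 r) i j * (r * Q.J a j i0) =
        r * ∑ j, Q.ten f u w s (ray i0 r) i j * Q.J a j i0 := by
      rw [Finset.mul_sum]
      exact Finset.sum_congr rfl fun j _ => by ring
    rw [h3] at h2
    have h4 : w a r * (r * kr i0 i) + ∑ c, s c a r * (r * Q.J c i i0) =
        r * (w a r * kr i0 i + ∑ c, s c a r * Q.J c i i0) := by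
      simp only [Fin.sum_univ_three]; ring
    rw [h4] at h2
    exact mul_left_cancel₀ hr.ne' h2
  have h5 : ∀ i, ∑ j, cw Q i0 a i j * Q.ten f u w s (ray i0 r) i j =
      kr i0 i * (w a r * kr i0 i + ∑ c, s c a r * Q.J c i i0) := by
    intro i
    unfold cw
    have : ∀ j, kr i0 i * Q.J a j i0 * Q.ten f u w s (ray i0 r) i j =
        kr i0 i * (Q.ten f u w s (ray i0 r) i j * Q.J a j i0) := fun j => by ring
    simp only [this, ← Finset.mul_sum, h1]
  simp only [h5, sum_kr]
  have h6 : kr i0 i0 = 1 := by simp [kr]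
  simp [h6, J_diag]

lemma cw_tr (Q : Quat n) (i0 : Fin n) (a : Fin 3) : ∑ i, cw Q i0 a i i = 0 := by
  unfold cw
  rw [sum_kr, J_diag]

section Dec

variable (h : FitsM D be g K) {q : ℝ} (hq0 : 0 < q)
  (h1 : ∀ i j, Stmt.BigO q (fun x => g x i j - if i = j then 1 else 0))
  (h2 : ∀ i j k, Stmt.BigO (q + 1) (Stmt.pd k fun x => g x i j))
  (h3 : ∀ i j, Stmt.BigO (q + 1) (fun x => K x i j)) (i0 : Fin n)

include h h1 h2 in
lemma pG_dec (i0 : Fin n) : O1 q (fun r => D.pG be r - 1) := by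
  have := (lin_decay (fun i j => (h.smooth i j).1) h1 h2 i0 (cu i0) (f := D.pG be) (R := D.R)
    (fun r hr => by
      simp only [g_ray h i0 hr]
      exact u_ray D.Q D.al (D.pG be) _ D.q i0 (D.hR.trans hr))).1
  rwa [cu_tr] at this

include h h1 h2 in
lemma wG_dec (i0 : Fin n) (a : Fin 3) : O1 q (fun r => D.wG be a r) := by
  have := (lin_decay (fun i j => (h.smooth i j).1) h1 h2 i0 (cw D.Q i0 a) (f := D.wG be a)
    (R := D.R) (fun r hr => by
      simp only [g_ray h i0 hr]
      exact w_ray D.Q D.al (D.pG be) _ D.q i0 (D.hR.trans hr) a)).1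
  rw [cw_tr] at this
  simpa using this

include h h1 h2 in
lemma q_dec (i0 : Fin n) (a b : Fin 3) : O1 q (fun r => D.q a b r - if a = b then 1 else 0) ∧
    O1 q (fun r => r * deriv (D.q a b) r) := by
  have := lin_decay (fun i j => (h.smooth i j).1) h1 h2 i0 (cs D.Q i0 a b) (f := D.q a b)
    (R := D.R) (fun r hr => by
      simp only [g_ray h i0 hr]
      exact s_ray D.Q D.al (D.pG be) _ D.q i0 (D.hR.trans hr) a b)
  rwa [cs_tr] at this

include h h1 h2 in
lemma al_dec (i0 : Fin n) (hb : (n : ℝ) - 4 ≠ 0) : O1 q (fun r => D.al r - 1) ∧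
    O1 q (fun r => r * deriv D.al r) := by
  have := lin_decay (fun i j => (h.smooth i j).1) h1 h2 i0
    (fun i j => ((n : ℝ) - 4)⁻¹ * cf D.Q i0 i j) (f := D.al)
    (R := D.R) (fun r hr => by
      have h4 := f_ray D.Q D.al (D.pG be) (D.wG be) D.q i0 (D.hR.trans hr)
      simp only [g_ray h i0 hr, mul_assoc, ← Finset.mul_sum]
      rw [← h4]
      field_simp)
  rw [← Finset.mul_sum, cf_tr, inv_mul_cancel₀ hb] at this
  exact this

include h h3 in
lemma s_dec (i0 : Fin n) (a b : Fin 3) : O1 q (fun r => r * D.s a b r) :=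
  linK_decay h3 i0 (cs D.Q i0 a b) (R := D.R) (fun r hr => by
    simp only [K_ray h i0 hr]
    exact s_ray D.Q D.ka _ _ D.s i0 (D.hR.trans hr) a b)

include h h3 in
lemma ka_dec (i0 : Fin n) : O1 q (fun r => r * (((n : ℝ) - 4) * D.ka r)) :=
  linK_decay h3 i0 (cf D.Q i0) (f := fun r => ((n : ℝ) - 4) * D.ka r) (R := D.R)
    (fun r hr => by
      simp only [K_ray h i0 hr]
      exact f_ray D.Q D.ka _ _ D.s i0 (D.hR.trans hr))

include h hq0 h1 h2 in
lemma q_lim (i0 : Fin n) (a b : Fin 3) :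
    Tendsto (D.q a b) atTop (𝓝 (if a = b then 1 else 0)) := by
  have := ((q_dec h h1 h2 i0 a b).1.tendsto hq0).add_const (if a = b then (1 : ℝ) else 0)
  simpa using this

include h hq0 h1 h2 in
lemma be_dec (i0 : Fin n) (a : Fin 3) : O1 q (be a) := by
  have e1 : O1 q fun r => ∑ b, D.iq r a b * D.wG be b r :=
    IsBigO.fun_sum fun b _ =>
      (O0.of_tendsto (iq_tendsto (q_lim h hq0 h1 h2 i0) a b)).mul1 (wG_dec h h1 h2 i0 b)
  refine e1.congr' ?_
  filter_upwards [eventually_ge_atTop D.R] with r hr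
  have h5 : ∀ c, ∑ b, D.iq r a b * D.q b c r = if a = c then 1 else 0 := by
    intro c
    have := congrFun (congrFun (D.iq_mul_qm hr) a) c
    rw [Matrix.mul_apply, Matrix.one_apply] at this
    exact this
  unfold Data.wG
  simp only [Finset.mul_sum, ← mul_assoc]
  rw [Finset.sum_comm]
  simp only [← Finset.sum_mul, h5]
  simp

include h hq0 h1 h2 in
lemma p_dec (i0 : Fin n) : O1 q (fun r => D.p r - 1) ∧ O2 q (fun r => D.pG be r - D.p r) := by
  have hbe := be_dec h hq0 h1 h2 i0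
  have e1 : O2 q fun r => ∑ a, ∑ b, D.q a b r * be a r * be b r := by
    refine IsBigO.fun_sum fun a _ => IsBigO.fun_sum fun b _ => ?_
    have e2 := (O0.of_tendsto (q_lim h hq0 h1 h2 i0 a b)).mul2 ((hbe a).mul (hbe b))
    exact O2.congr' e2 (Eventually.of_forall fun r => by ring)
  have e3 : O2 q (fun r => D.pG be r - D.p r) :=
    e1.congr' (Eventually.of_forall fun r => by unfold Data.pG; ring)
  refine ⟨?_, e3⟩
  refine ((pG_dec h h1 h2 i0).sub (e3.o1 hq0)).congr' (Eventually.of_forall fun r => by ring)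

include h h1 h2 in
lemma A1_dec (i0 : Fin n) :
    O1 q (fun r => A1 D r - 1) ∧ O1 q (fun r => r * deriv (A1 D) r) := by
  unfold A1
  by_cases hb : (n : ℝ) - 4 = 0
  · rw [if_pos hb]
    have h0 : O1 q (fun _ => (0 : ℝ)) := isBigO_zero _ _
    constructor
    · simpa using h0
    · simpa using h0
  · rw [if_neg hb]
    exact al_dec h h1 h2 i0 hb

include h hq0 h1 h2 h3 in
lemma k_dec (i0 : Fin n) : O1 q (fun r => r * D.k r) := by
  have hqT := q_lim h hq0 h1 h2 i0
  have hA := (A1_dec h h1 h2 i0).1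
  have hA1 : Tendsto (A1 D) atTop (𝓝 1) := by
    have := (hA.tendsto hq0).add_const 1
    simpa using this
  have hiA : O0 (fun r => (A1 D r)⁻¹) := O0.of_tendsto (by simpa using hA1.inv₀ one_ne_zero)
  have e1 := hiA.mul1 (ka_dec h h3 i0)
  have e2 : O1 q (fun r => ∑ a, ∑ b, D.iq r a b * (r * D.s b a r)) :=
    IsBigO.fun_sum fun a _ => IsBigO.fun_sum fun b _ =>
      (O0.of_tendsto (iq_tendsto hqT a b)).mul1 (s_dec h h3 i0 b a)
  refine (e1.add e2).congr' (Eventually.of_forall fun r => ?_)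
  have e3 : ((n : ℝ) - 4) * (r * D.ka r / A1 D r) = ((n : ℝ) - 4) * (r * D.ka r / D.al r) :=
    b_A1 (fun x _ => (r * D.ka r) / x) D r
  have e4 : (A1 D r)⁻¹ * (r * (((n : ℝ) - 4) * D.ka r)) =
      ((n : ℝ) - 4) * (r * D.ka r / A1 D r) := by ring
  beta_reduce
  rw [e4, e3, Data.k, B68.S_trace, Data.b, mul_add, Finset.mul_sum]
  congr 1
  · ring
  · refine Finset.sum_congr rfl fun a _ => ?_
    rw [Finset.mul_sum]
    exact Finset.sum_congr rfl fun b _ => by ring

end Dec

lemma O2_lim {q s : ℝ} (hq : s < 2 * q) {f : ℝ → ℝ} (hf : O2 q f) :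
    Tendsto (fun r : ℝ => r ^ s * f r) atTop (𝓝 0) := by
  have h1 := IsBigO.mul (isBigO_refl (fun r : ℝ => r ^ s) atTop) hf
  have h2 : (fun r : ℝ => r ^ s * (r ^ (-q) * r ^ (-q))) =ᶠ[atTop]
      fun r : ℝ => r ^ (-(2 * q - s)) := by
    filter_upwards [eventually_gt_atTop 0] with r hr
    rw [← Real.rpow_add hr, ← Real.rpow_add hr]
    congr 1
    ring
  have h3 : Tendsto (fun r : ℝ => r ^ s * (r ^ (-q) * r ^ (-q))) atTop (𝓝 0) :=
    (tendsto_congr' h2).2 (tendsto_rpow_neg_atTop (by linarith))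
  exact IsBigO.trans_tendsto h1 h3

/-! ### the energy -/

lemma pG_smooth (h : FitsM D be g K) : ContDiff ℝ ∞ (D.pG be) := by
  unfold Data.pG
  exact D.p_smooth.add (ContDiff.sum fun a _ => ContDiff.sum fun b _ =>
    ((D.q_smooth a b).mul (h.be_smooth a)).mul (h.be_smooth b))

lemma wG_smooth (h : FitsM D be g K) (a : Fin 3) : ContDiff ℝ ∞ (D.wG be a) := by
  unfold Data.wG
  exact ContDiff.sum fun b _ => (D.q_smooth a b).mul (h.be_smooth b)

lemma gx (h : FitsM D be g K) {x : E n} (hx : D.R ≤ ‖x‖) (i : Fin n) :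
    ∑ j, g x i j * x j = D.pG be ‖x‖ * x i + ∑ a, D.wG be a ‖x‖ * D.Q.Y a x i := by
  have hx0 : Stmt.len x ≠ 0 := (D.hR.trans_le hx).ne'
  have h1 := ten_x D.Q D.al (D.pG be) (D.wG be) D.q x hx0 i
  rw [show D.pG be ‖x‖ = D.pG be (Stmt.len x) from rfl]
  refine Eq.trans ?_ h1
  exact Finset.sum_congr rfl fun j _ => by rw [gM_ten h hx i j]

lemma trg (h : FitsM D be g K) {x : E n} (hx : D.R ≤ ‖x‖) :
    ∑ j, g x j j = tau D ‖x‖ + D.pG be ‖x‖ := by
  have hx0 : Stmt.len x ≠ 0 := (D.hR.trans_le hx).ne'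
  have h1 := ten_tr D.Q D.al (D.pG be) (D.wG be) D.q x hx0
  have h2 : ∑ j, g x j j = ∑ j, D.Q.ten D.al (D.pG be) (D.wG be) D.q x j j :=
    Finset.sum_congr rfl fun j _ => gM_ten h hx j j
  rw [h2, h1]
  unfold tau
  rw [show ‖x‖ = Stmt.len x from rfl]
  ring

lemma g_symm (h : FitsM D be g K) {x : E n} (hx : D.R ≤ ‖x‖) (i j : Fin n) :
    g x i j = g x j i := by
  rw [gM_ten h hx i j, gM_ten h hx j i]
  exact E68.ten_symm _ _ _ _ _ D.q_symm x i j

/-- The ADM energy integrand on the spheres. -/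
lemma energy_pointwise (h : FitsM D be g K) {x : E n} (hx : D.R < ‖x‖) :
    ∑ i, ∑ j, (pd j (fun y => Stmt.mat g y i j) x - pd i (fun y => Stmt.mat g y j j) x) *
      (x i / ‖x‖) = (((n : ℝ) - 1) * D.pG be ‖x‖ - tau D ‖x‖) / ‖x‖ - deriv (tau D) ‖x‖ := by
  have hr : 0 < ‖x‖ := D.hR.trans hx
  have hx0 : x ≠ 0 := norm_pos_iff.mp hr
  have hgd : ∀ i j, DifferentiableAt ℝ (fun y => Stmt.mat g y i j) x := fun i j =>
    ((h.smooth i j).1.differentiable (by norm_num)) x
  have hcd : ∀ i, DifferentiableAt ℝ (fun y : E n => y i) x := fun i =>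
    (EuclideanSpace.proj (𝕜 := ℝ) i).differentiableAt
  have hnear : ∀ᶠ y in 𝓝 x, D.R ≤ ‖y‖ := by
    filter_upwards [(isOpen_outside (n := n) D.R).mem_nhds hx] with y hy
    exact le_of_lt hy
  have hpd : DifferentiableAt ℝ (D.pG be) ‖x‖ := ((pG_smooth h).differentiable (by norm_num)) _
  have hwd : ∀ a, DifferentiableAt ℝ (D.wG be a) ‖x‖ := fun a =>
    ((wG_smooth h a).differentiable (by norm_num)) _
  have htd : DifferentiableAt ℝ (tau D) ‖x‖ := ((tau_smooth D).differentiable (by norm_num)) _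
  have hYd : ∀ a j, DifferentiableAt ℝ (fun y : E n => D.Q.Y a y j) x := fun a j => by
    unfold Quat.Y
    exact DifferentiableAt.fun_sum fun k _ => (hcd k).const_mul _
  have hYp : ∀ a j, pd j (fun y : E n => D.Q.Y a y j) x = 0 := by
    intro a j
    have h5 : pd j (fun y : E n => D.Q.Y a y j) x = D.Q.J a j j := by
      unfold Quat.Y
      rw [pd_sum _ (fun k _ => (hcd k).const_mul _)]
      have : ∀ k, pd j (fun y : E n => D.Q.J a j k * y k) x =
          D.Q.J a j k * (if j = k then 1 else 0) := by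
        intro k
        rw [pd_mul (differentiableAt_const _) (hcd k), pd_coord]
        have : pd j (fun _ : E n => D.Q.J a j k) x = 0 := by
          unfold pd; simp
        rw [this]; ring
      simp only [this]
      simp
    rw [h5, J_diag]
  -- (A)
  have hA : ∀ j, ∑ i, (pd j (fun y => Stmt.mat g y i j) x * x i) + g x j j =
      deriv (D.pG be) ‖x‖ * Nc j x * x j + D.pG be ‖x‖ +
        ∑ a, deriv (D.wG be a) ‖x‖ * Nc j x * D.Q.Y a x j := by
    intro j
    have h1 : (fun y : E n => ∑ i, Stmt.mat g y i j * y i) =ᶠ[𝓝 x] fun y => D.pG be ‖y‖ * y j +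
        ∑ a, D.wG be a ‖y‖ * D.Q.Y a y j := by
      filter_upwards [hnear] with y hy
      rw [← gx h hy j]
      exact Finset.sum_congr rfl fun i _ => by
        rw [show Stmt.mat g y i j = g y i j from rfl, g_symm h hy i j]
    have h2 := pd_congr h1 j
    have hsd : DifferentiableAt ℝ (fun y : E n => ∑ a, D.wG be a ‖y‖ * D.Q.Y a y j) x :=
      DifferentiableAt.fun_sum fun a _ => (differentiableAt_radial hx0 (hwd a)).mul (hYd a j)
    rw [pd_sum (f := fun i y => Stmt.mat g y i j * y i) Finset.univ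
      (fun i _ => (hgd i j).mul (hcd i)),
      pd_add (f := fun y => D.pG be ‖y‖ * y j)
        (h := fun y => ∑ a, D.wG be a ‖y‖ * D.Q.Y a y j)
        ((differentiableAt_radial hx0 hpd).mul (hcd j)) hsd,
      pd_mul (differentiableAt_radial hx0 hpd) (hcd j), Vale.Agent.P366.pd_radial hx0 hpd, pd_coord,
      pd_sum (f := fun a y => D.wG be a ‖y‖ * D.Q.Y a y j) Finset.univ
      (fun a _ => (differentiableAt_radial hx0 (hwd a)).mul (hYd a j))] at h2
    simp only [if_true, mul_one] at h2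
    have h3 : ∀ i, pd j (fun y => Stmt.mat g y i j * y i) x =
        Stmt.mat g x i j * (if j = i then 1 else 0) + pd j (fun y => Stmt.mat g y i j) x * x i := by
      intro i
      rw [pd_mul (hgd i j) (hcd i), pd_coord]
    have h4 : ∀ a, pd j (fun y => D.wG be a ‖y‖ * D.Q.Y a y j) x =
        deriv (D.wG be a) ‖x‖ * Nc j x * D.Q.Y a x j := by
      intro a
      rw [pd_mul (differentiableAt_radial hx0 (hwd a)) (hYd a j), Vale.Agent.P366.pd_radial hx0 (hwd a), hYp]
      ring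
    simp only [h3, h4, Finset.sum_add_distrib, mul_ite, mul_one, mul_zero, Finset.sum_ite_eq,
      Finset.mem_univ, if_true] at h2
    rw [show g x j j = Stmt.mat g x j j from rfl]
    linarith
  -- (B)
  have hB : ∀ i, ∑ j, pd i (fun y => Stmt.mat g y j j) x =
      (deriv (tau D) ‖x‖ + deriv (D.pG be) ‖x‖) * Nc i x := by
    intro i
    have h1 : (fun y : E n => ∑ j, Stmt.mat g y j j) =ᶠ[𝓝 x]
        fun y => tau D ‖y‖ + D.pG be ‖y‖ := by
      filter_upwards [hnear] with y hy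
      exact trg h hy
    have h2 := pd_congr h1 i
    rw [pd_sum _ (fun j _ => hgd j j), pd_add (differentiableAt_radial hx0 htd)
      (differentiableAt_radial hx0 hpd), Vale.Agent.P366.pd_radial hx0 hpd, Vale.Agent.P366.pd_radial hx0 htd] at h2
    rw [h2]; ring
  have hS : ∑ j, (deriv (D.pG be) ‖x‖ * Nc j x * x j + D.pG be ‖x‖ +
        ∑ a, deriv (D.wG be a) ‖x‖ * Nc j x * D.Q.Y a x j) =
      deriv (D.pG be) ‖x‖ * ‖x‖ + n * D.pG be ‖x‖ := by
    have h1 : ∀ j, deriv (D.pG be) ‖x‖ * Nc j x * x j + D.pG be ‖x‖ =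
        deriv (D.pG be) ‖x‖ * ‖x‖ * Nc j x ^ 2 + D.pG be ‖x‖ := by
      intro j
      unfold Nc
      field_simp
    have h5 : ∑ j, ∑ a, deriv (D.wG be a) ‖x‖ * Nc j x * D.Q.Y a x j = 0 := by
      rw [Finset.sum_comm]
      refine Finset.sum_eq_zero fun a _ => ?_
      have h6 : ∀ j, deriv (D.wG be a) ‖x‖ * Nc j x * D.Q.Y a x j =
          deriv (D.wG be a) ‖x‖ / ‖x‖ * (x j * D.Q.Y a x j) := by
        intro j
        unfold Nc
        ring
      simp only [h6, ← Finset.mul_sum]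
      rw [show ∑ j, x j * D.Q.Y a x j = 0 from x_dot_Y D.Q a x, mul_zero]
    rw [Finset.sum_add_distrib, h5, add_zero]
    simp only [h1, Finset.sum_add_distrib]
    rw [← Finset.mul_sum, sum_Nc_sq hx0]
    simp
  have hT : ∑ i, ∑ j, pd j (fun y => Stmt.mat g y i j) x * x i =
      deriv (D.pG be) ‖x‖ * ‖x‖ + n * D.pG be ‖x‖ - (tau D ‖x‖ + D.pG be ‖x‖) := by
    rw [Finset.sum_comm, ← hS, ← trg h hx.le, ← Finset.sum_sub_distrib]
    refine Finset.sum_congr rfl fun j _ => ?_
    have := hA j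
    linarith
  have hU : ∑ i, ∑ j, pd i (fun y => Stmt.mat g y j j) x * x i =
      (deriv (tau D) ‖x‖ + deriv (D.pG be) ‖x‖) * ‖x‖ := by
    have h1 : ∀ i, ∑ j, pd i (fun y => Stmt.mat g y j j) x * x i =
        (deriv (tau D) ‖x‖ + deriv (D.pG be) ‖x‖) * ‖x‖ * Nc i x ^ 2 := by
      intro i
      rw [← Finset.sum_mul, hB i]
      unfold Nc
      field_simp
    simp only [h1]
    rw [← Finset.mul_sum, sum_Nc_sq hx0, mul_one]
  have hV : ∑ i, ∑ j, (pd j (fun y => Stmt.mat g y i j) x - pd i (fun y => Stmt.mat g y j j) x) *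
      (x i / ‖x‖) = (∑ i, ∑ j, pd j (fun y => Stmt.mat g y i j) x * x i -
        ∑ i, ∑ j, pd i (fun y => Stmt.mat g y j j) x * x i) / ‖x‖ := by
    rw [← Finset.sum_sub_distrib, Finset.sum_div]
    refine Finset.sum_congr rfl fun i _ => ?_
    rw [← Finset.sum_sub_distrib, Finset.sum_div]
    refine Finset.sum_congr rfl fun j _ => ?_
    ring
  rw [hV, hT, hU]
  field_simp
  ring

/-- The ADM energy as a limit of a radial expression. -/
lemma energy_lim (hn : 3 ≤ n) {X : Stmt.Exterior n} (h : FitsM D be X.g X.K) {m : ℝ}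
    (hm : X.IsEnergy m) :
    Tendsto (fun r : ℝ => r ^ (n - 1) *
      ((((n : ℝ) - 1) * D.pG be r - tau D r) / r - deriv (tau D) r)) atTop
      (𝓝 (2 * ((n : ℝ) - 1) * m)) := by
  have : Nonempty (Fin n) := ⟨⟨0, by omega⟩⟩
  have : Nontrivial (E n) := inferInstance
  have hn1 : (n : ℝ) - 1 ≠ 0 := by
    have : (3 : ℝ) ≤ n := by exact_mod_cast hn
    intro h; linarith
  have hω : omega n ≠ 0 := omega_pos'.ne'
  have h1 := energy_bridge X hm
  have h2 : Tendsto (fun R : ℝ => R ^ (n - 1) *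
      ((((n : ℝ) - 1) * D.pG be R - tau D R) / R - deriv (tau D) R) / (2 * ((n : ℝ) - 1))) atTop
      (𝓝 m) := by
    refine h1.congr' ?_
    filter_upwards [eventually_gt_atTop D.R] with R hR
    have hR0 : 0 < R := D.hR.trans hR
    have h3 : sphInt R (fun x =>
        ∑ i, ∑ j, (pd j (fun y => Stmt.mat X.g y i j) x - pd i (fun y => Stmt.mat X.g y j j) x) *
          (x i / ‖x‖)) = R ^ (n - 1) * sphI (fun _ : E n =>
          ((((n : ℝ) - 1) * D.pG be R - tau D R) / R - deriv (tau D) R)) R := by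
      unfold sphInt
      congr 1
      refine sphI_congr (u := fun x : E n => ∑ i, ∑ j, (pd j (fun y => Stmt.mat X.g y i j) x -
        pd i (fun y => Stmt.mat X.g y j j) x) * (x i / ‖x‖)) hR0.le fun x hx => ?_
      rw [energy_pointwise h (by rw [hx]; exact hR), hx]
    rw [h3, sphI_const]
    field_simp
  have h4 := h2.const_mul (2 * ((n : ℝ) - 1))
  refine h4.congr fun R => ?_
  field_simp

end EM

/-- **Block [ME]**: the modified Hawking mass tends to twice the energy, spheres far out are not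
trapped, and the momentum vanishes. -/
theorem asymptM (D : Data n) {be : Fin 3 → ℝ → ℝ} {X : Stmt.Exterior n}
    (h : FitsM D be X.g X.K) (hAF : X.IsAF)
    {m : ℝ} {P : Fin n → ℝ} (hm : X.IsEnergy m) (hP : X.IsMomentum P) :
    Tendsto D.mass atTop (𝓝 (2 * m)) ∧ (∀ᶠ r in atTop, |D.k r| < D.H r) ∧ P = 0 := by
  obtain ⟨x0, hx0⟩ := X.bdry
  obtain ⟨i0, -⟩ := X.dom.2.1 x0 hx0
  have hn : 4 ≤ n := D.Q.four_le i0.pos
  have hn' : (4 : ℝ) ≤ n := by exact_mod_cast hn
  obtain ⟨q, hq, hAF⟩ := hAF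
  have hq0 : 0 < q := by linarith
  have h1 : ∀ i j, Stmt.BigO q (fun x => X.g x i j - if i = j then 1 else 0) := fun i j =>
    (hAF i j i0 i0).1
  have h2 : ∀ i j k, Stmt.BigO (q + 1) (Stmt.pd k fun x => X.g x i j) := fun i j k =>
    (hAF i j k i0).2.1
  have h3 : ∀ i j, Stmt.BigO (q + 1) (fun x => X.K x i j) := fun i j =>
    (hAF i j i0 i0).2.2.2.1
  have hqd := fun a b => (EM.q_dec h h1 h2 i0 a b).1
  have hqd' := fun a b => (EM.q_dec h h1 h2 i0 a b).2
  have hp := (EM.p_dec h hq0 h1 h2 i0).1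
  have hA := EM.A1_dec h h1 h2 i0
  have hk := EM.k_dec h hq0 h1 h2 h3 i0
  have ht : E68.O1 q fun r => E68.tt D r - 3 := by
    have e1 := ((hqd 0 0).add (hqd 1 1)).add (hqd 2 2)
    refine e1.congr' (Eventually.of_forall fun r => ?_)
    simp only [E68.tt, Fin.sum_univ_three, if_true]
    ring
  have hd : E68.O2 q fun r => E68.dd D r - 1 - (E68.tt D r - 3) := E68.det_exp hq0 hqd
  have hT1 : E68.O1 q fun r => r * E68.T1 D r := by
    have e1 := ((hqd' 0 0).add (hqd' 1 1)).add (hqd' 2 2)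
    refine e1.congr' (Eventually.of_forall fun r => ?_)
    simp only [E68.T1, Fin.sum_univ_three]
    ring
  have hT : E68.O2 q fun r => r * (E68.TT D r - E68.T1 D r) := by
    have e1 : E68.O2 q fun r => ∑ a, ∑ b, (D.iq r a b - if a = b then 1 else 0) *
        (r * deriv (D.q a b) r) :=
      IsBigO.fun_sum fun a _ => IsBigO.fun_sum fun b _ =>
        (E68.iq_sub hq0 hqd a b).mul (hqd' a b)
    refine e1.congr' (Eventually.of_forall fun r => ?_)
    simp only [E68.TT, E68.T1, Fin.sum_univ_three, if_true,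
      show ¬ ((0 : Fin 3) = 2) by decide, show ¬ ((2 : Fin 3) = 0) by decide,
      show ¬ ((1 : Fin 3) = 2) by decide, show ¬ ((2 : Fin 3) = 1) by decide,
      show ¬ ((1 : Fin 3) = 0) by decide, show ¬ ((0 : Fin 3) = 1) by decide, if_false]
    ring
  have hA1 : Tendsto (E68.A1 D) atTop (𝓝 1) := by
    have := (hA.1.tendsto hq0).add_const 1
    simpa using this
  have hd1 : Tendsto (E68.dd D) atTop (𝓝 1) := by
    have := (((hd.o1 hq0).add ht).tendsto hq0).add_const 1
    simpa using this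
  have hp1 : Tendsto D.p atTop (𝓝 1) := by
    have := (hp.tendsto hq0).add_const 1
    simpa using this
  have hE : Tendsto (fun r : ℝ => r ^ ((n : ℝ) - 1 - 1) *
      (((n : ℝ) - 1) * D.p r - (((n : ℝ) - 4) * E68.A1 D r + E68.tt D r) -
        r * (((n : ℝ) - 4) * deriv (E68.A1 D) r + E68.T1 D r))) atTop
      (𝓝 (2 * ((n : ℝ) - 1) * m)) := by
    have hpp := (EM.p_dec h hq0 h1 h2 i0).2
    have hz : Tendsto (fun r : ℝ => r ^ ((n : ℝ) - 1 - 1) *
        (((n : ℝ) - 1) * (D.pG be r - D.p r))) atTop (𝓝 0) :=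
      EM.O2_lim (by linarith) (hpp.cmul _)
    have hlim := (EM.energy_lim (by omega) h hm).sub hz
    rw [sub_zero] at hlim
    refine hlim.congr' ?_
    filter_upwards [eventually_gt_atTop 0] with r hr
    have e1 : ((n : ℝ) - 4) * E68.A1 D r = ((n : ℝ) - 4) * D.al r :=
      E68.b_A1 (fun x _ => x) D r
    have e2 : ((n : ℝ) - 4) * deriv (E68.A1 D) r = ((n : ℝ) - 4) * deriv D.al r :=
      E68.b_A1 (fun _ y => y) D r
    rw [e1, e2]
    have e3 : deriv (E68.tau D) r = ((n : ℝ) - 4) * deriv D.al r + E68.T1 D r := by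
      have e4 : HasDerivAt (E68.tau D) (deriv D.al r * ((n : ℝ) - 4) +
          ∑ a, deriv (D.q a a) r) r :=
        ((B68.hd D.al_smooth r).mul_const _).add
          (HasDerivAt.fun_sum fun a _ => B68.hd (D.q_smooth a a) r)
      rw [e4.deriv]
      unfold E68.T1
      ring
    rw [e3]
    have e5 : r ^ (n - 1) = r ^ ((n : ℝ) - 1 - 1) * r := by
      rw [← Real.rpow_natCast, ← Real.rpow_add_one hr.ne']
      congr 1
      rw [Nat.cast_sub (by omega)]
      push_cast
      ring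
    rw [e5]
    unfold E68.tau E68.tt
    field_simp
    ring
  have hmain := E68.mass_abs (N := (n : ℝ) - 1) (b := (n : ℝ) - 4) (q := q) (m := m)
    (p := D.p) (a := E68.A1 D) (a1 := deriv (E68.A1 D)) (d := E68.dd D) (t := E68.tt D)
    (T := E68.TT D) (T1 := E68.T1 D) (k := D.k) (κ := E68.kap D) (ℓ := E68.ell D)
    (y := E68.yy D) (M := D.mass) (by ring) (by linarith) hq0 (by linarith)
    hp hA.1 hA.2 ht hd hT1 hT hk hE (Eventually.of_forall fun r => rfl)
    (Eventually.of_forall fun r => rfl) ?_ (E68.kap_tendsto hd1 hA1)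
  · refine ⟨hmain.1, ?_, EM.momentum_zero h hP⟩
    have hy := hmain.2
    have hk0 : Tendsto (fun r => |r * D.k r|) atTop (𝓝 0) := by
      have := (hk.tendsto hq0).abs
      simpa using this
    have hH : Tendsto (fun r => (((n : ℝ) - 1) + E68.yy D r) / √(D.p r)) atTop
        (𝓝 ((n : ℝ) - 1)) := by
      have e1 := (hy.const_add ((n : ℝ) - 1)).div hp1.sqrt (by simp)
      have e2 : Tendsto ((fun r => ((n : ℝ) - 1) + E68.yy D r) / fun r => √(D.p r)) atTop
          (𝓝 ((n : ℝ) - 1)) := by simpa using e1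
      exact e2
    have hlt := hk0.eventually_lt hH (by linarith)
    filter_upwards [hlt, eventually_ge_atTop D.R] with r hr hR
    have hr0 : 0 < r := D.hR.trans_le hR
    have hc : 0 < D.c r := B68.c_pos' hR
    have e1 : D.H r = (((n : ℝ) - 1 + E68.yy D r) / √(D.p r)) / r := by
      have e2 := E68.H_yy hR
      have e3 : √(D.p r) = D.c r := rfl
      rw [e3]
      field_simp
      field_simp at e2
      linarith
    rw [e1, lt_div_iff₀ hr0]
    rw [abs_mul, abs_of_pos hr0] at hr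
    linarith
  · filter_upwards [eventually_ge_atTop D.R] with r hR
    have hr0 : 0 < r := D.hR.trans_le hR
    have hc : 0 < D.c r := B68.c_pos' hR
    have hp0 := D.p_pos r hR
    have hc2 : D.c r ^ 2 = D.p r := Real.sq_sqrt hp0.le
    have e1 : D.H r = ((n : ℝ) - 1 + E68.yy D r) / (r * D.c r) := by
      have e2 := E68.H_yy hR
      field_simp
      field_simp at e2
      linarith
    unfold Data.mass
    rw [E68.rho_kap hn hR, E68.lam_ell hR, e1, ← hc2]
    congr 2
    by_cases hl : E68.ell D r = 0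
    · rw [hl]; simp
    · field_simp

end Vale.Agent.P366.T2
end
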