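import Vale.Agent.P366.T2.MDefs
import Vale.Agent.P366.T2.Inv591
import Mathlib.Analysis.SpecialFunctions.SmoothTransition

/-!
T2M, block MF: `Sp(m)`-invariance determines the form of `g` and `K` (no gauge condition).
-/

open Matrix Filter Topology Set
open scoped ContDiff

noncomputable section
namespace Vale.Agent.P366.T2
open Vale.Agent.P366.Stmt

variable {n : ℕ}

/-- A function which is smooth on a neighbourhood of `[R, ∞)` agrees there with a smooth
function. -/
lemma exists_smooth_ext {f : ℝ → ℝ} {R : ℝ} {U : Set ℝ} (hU : IsOpen U)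
    (hUR : ∀ r, R ≤ r → r ∈ U) (hf : ContDiffOn ℝ ∞ f U) :
    ∃ F : ℝ → ℝ, ContDiff ℝ ∞ F ∧ ∀ r, R ≤ r → F r = f r := by
  obtain ⟨ε, hε, hball⟩ := Metric.isOpen_iff.1 hU R (hUR R le_rfl)
  set δ := ε / 2 with hδ
  have hδ0 : 0 < δ := by positivity
  refine ⟨fun r => Real.smoothTransition ((r - (R - δ)) / δ) * f r, ?_, fun r hr => ?_⟩
  · rw [contDiff_iff_contDiffAt]
    intro r
    by_cases hr : R - ε < r
    · have hrU : r ∈ U := by
        by_cases h : R ≤ r
        · exact hUR r h
        · apply hball
          rw [Metric.mem_ball, Real.dist_eq, abs_lt]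
          push Not at h
          constructor <;> linarith
      refine ContDiffAt.mul ?_ (hf.contDiffAt (hU.mem_nhds hrU))
      exact (Real.smoothTransition.contDiff.comp
        ((contDiff_id.sub contDiff_const).div_const _)).contDiffAt
    · push Not at hr
      have : (fun r => Real.smoothTransition ((r - (R - δ)) / δ) * f r) =ᶠ[𝓝 r] fun _ => 0 := by
        filter_upwards [Iio_mem_nhds (show r < R - δ by linarith)] with t ht
        have ht' : t < R - δ := ht
        rw [Real.smoothTransition.zero_of_nonpos, zero_mul]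
        exact div_nonpos_of_nonpos_of_nonneg (by linarith) hδ0.le
      exact contDiffAt_const.congr_of_eventuallyEq this
  · show Real.smoothTransition ((r - (R - δ)) / δ) * f r = f r
    rw [Real.smoothTransition.one_of_one_le, one_mul]
    rw [one_le_div hδ0]; linarith

lemma det_smooth {k : ℕ} {M : ℝ → Matrix (Fin k) (Fin k) ℝ}
    (hM : ∀ i j, ContDiff ℝ ∞ fun r => M r i j) : ContDiff ℝ ∞ fun r => (M r).det := by
  simp only [Matrix.det_apply]
  refine ContDiff.sum fun σ _ => ?_
  exact ContDiff.const_smul _ (contDiff_prod fun i _ => hM _ _)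

lemma adj_smooth {k : ℕ} {M : ℝ → Matrix (Fin k) (Fin k) ℝ}
    (hM : ∀ i j, ContDiff ℝ ∞ fun r => M r i j) (i j : Fin k) :
    ContDiff ℝ ∞ fun r => (M r).adjugate i j := by
  simp only [Matrix.adjugate_apply]
  refine det_smooth fun a b => ?_
  by_cases h : a = j
  · subst h
    simp only [Matrix.updateRow_self]
    exact contDiff_const
  · simp only [Matrix.updateRow_ne h]
    exact hM a b

/-- **Block MF.** `Sp(m)`-invariant data are given by coefficient functions and a shift. -/
theorem fitsM_of_invariant (hn : 0 < n) (Q : Quat n) {g K : Field n} {R : ℝ} (hR : 0 < R)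
    (hsm : ∀ i j, Smooth (fun x => g x i j) ∧ Smooth (fun x => K x i j))
    (hs : ∀ x i j, g x i j = g x j i ∧ K x i j = K x j i)
    (hpos : ∀ x, R ≤ len x → (mat g x).PosDef)
    (hg : Q.Inv R g) (hK : Q.Inv R K) :
    ∃ (D : Data n) (be : Fin 3 → ℝ → ℝ), D.R = R ∧ D.Q = Q ∧ FitsM D be g K := by
  classical
  set e : Fin n → ℝ := _root_.Pi.single ⟨0, hn⟩ 1 with he_def
  have he : e ⬝ᵥ e = 1 := by simp [he_def]
  have hlen : ∀ r, R ≤ r → R ≤ len (pt e r) := by
    intro r hr
    rw [len_pt he, abs_of_pos (hR.trans_le hr)]; exact hr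
  have hlen' : ∀ r, R ≤ r → len (pt e r) = r := by
    intro r hr
    rw [len_pt he, abs_of_pos (hR.trans_le hr)]
  have hhat : ∀ r, R ≤ r → hat (pt e r) = e := by
    intro r hr
    have hr0 : 0 < r := hR.trans_le hr
    rw [hat, hlen' r hr, pt, smul_smul, inv_mul_cancel₀ hr0.ne', one_smul]
  have hgs := fun i j => (hsm i j).1
  have hKs := fun i j => (hsm i j).2
  have hgy := fun x i j => (hs x i j).1
  have hKy := fun x i j => (hs x i j).2
  have h4 : 4 ≤ n := Q.four_le hn
  -- the fibre matrix
  set q : ℝ → Matrix (Fin 3) (Fin 3) ℝ := fun r => Matrix.of fun a b => Q.cS g e a b r with hq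
  have hqs : ∀ a b, ContDiff ℝ ∞ fun r => q r a b := fun a b => Quat.form_smooth hgs e _ _
  have hqp : ∀ r, R ≤ r → (q r).PosDef := fun r hr => Q.fibre_posDef he (hpos _ (hlen r hr))
  have hqy : ∀ r a b, Q.cS g e a b r = Q.cS g e b a r := by
    intro r a b
    have : (mat g (pt e r))ᵀ = mat g (pt e r) := by ext i j; exact hgy _ j i
    simp only [Quat.cS]
    rw [← Quat.mulVec_dot_symm this, dotProduct_comm]
  set w : Fin 3 → ℝ → ℝ := fun a r => Q.cW g e a r with hw
  have hws : ∀ a, ContDiff ℝ ∞ (w a) := fun a => Quat.form_smooth hgs e _ _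
  -- the shift
  have hbe : ∀ a, ∃ F : ℝ → ℝ, ContDiff ℝ ∞ F ∧ ∀ r, R ≤ r → F r =
      (∑ b, (q r).adjugate a b * w b r) / (q r).det := by
    intro a
    refine exists_smooth_ext (U := {r | (q r).det ≠ 0}) ?_ (fun r hr => (hqp r hr).det_pos.ne') ?_
    · exact (det_smooth hqs).continuous.isOpen_preimage _ isOpen_compl_singleton
    · refine ContDiffOn.div ?_ (det_smooth hqs).contDiffOn fun r hr => hr
      exact (ContDiff.sum fun b _ => (adj_smooth hqs a b).mul (hws b)).contDiffOn
  choose be hbes hbe using hbe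
  have hqb : ∀ r, R ≤ r → ∀ a, ∑ b, Q.cS g e a b r * be b r = w a r := by
    intro r hr a
    have hdet : (q r).det ≠ 0 := (hqp r hr).det_pos.ne'
    have h1 : (fun b => be b r) = (q r)⁻¹ *ᵥ (fun b => w b r) := by
      funext b
      rw [hbe b r hr, Matrix.inv_def, smul_mulVec, Pi.smul_apply, Ring.inverse_eq_inv', smul_eq_mul,
        div_eq_inv_mul]
      rfl
    have h2 : q r *ᵥ (fun b => be b r) = fun b => w b r := by
      rw [h1, mulVec_mulVec, Matrix.mul_nonsing_inv _ (isUnit_iff_ne_zero.2 hdet), one_mulVec]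
    exact congrFun h2 a
  have hqbb : ∀ r, R ≤ r → ∑ a, ∑ b, Q.cS g e a b r * be a r * be b r = ∑ a, be a r * w a r := by
    intro r hr
    refine Finset.sum_congr rfl fun a _ => ?_
    rw [← hqb r hr a, Finset.mul_sum]
    exact Finset.sum_congr rfl fun b _ => by ring
  have hp_eq : ∀ r, R ≤ r → Quat.cU g e r - ∑ a, be a r * w a r =
      (e - ∑ a, be a r • (Q.J a *ᵥ e)) ⬝ᵥ (mat g (pt e r) *ᵥ (e - ∑ a, be a r • (Q.J a *ᵥ e))) := by
    intro r hr
    have hM : (mat g (pt e r))ᵀ = mat g (pt e r) := by ext i j; exact hgy _ j i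
    have h1 : ∀ a, (Q.J a *ᵥ e) ⬝ᵥ (mat g (pt e r) *ᵥ e) = w a r := by
      intro a
      rw [← Quat.mulVec_dot_symm hM, dotProduct_comm]; rfl
    have h2 := hqbb r hr
    simp only [Fin.sum_univ_three] at h2 ⊢
    simp only [mulVec_sub, mulVec_add, mulVec_smul, dotProduct_sub, sub_dotProduct,
      dotProduct_add, add_dotProduct, smul_dotProduct, dotProduct_smul, smul_eq_mul, h1]
    simp only [Quat.cU, Quat.cS, Quat.cW, hw] at h2 ⊢
    linarith
  refine ⟨{ Q := Q, R := R, hR := hR
            al := Q.cF g e, p := fun r => Quat.cU g e r - ∑ a, be a r * w a r, q := Q.cS g e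
            ka := Q.cF K e
            kn := fun r => Quat.cU K e r - 2 * (∑ a, (Q.cW K e a r -
              ∑ b, Q.cS K e a b r * be b r) * be a r) - ∑ a, ∑ b, Q.cS K e a b r * be a r * be b r
            v := fun a r => Q.cW K e a r - ∑ b, Q.cS K e a b r * be b r
            s := Q.cS K e
            al_smooth := Q.cF_smooth hgs e
            p_smooth := ?_
            q_smooth := fun a b => Quat.form_smooth hgs e _ _
            ka_smooth := Q.cF_smooth hKs e
            kn_smooth := ?_
            v_smooth := fun a => ?_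
            s_smooth := fun a b => Quat.form_smooth hKs e _ _
            q_symm := ?_, s_symm := ?_, al_pos := ?_, p_pos := ?_, q_pos := ?_ }, be, rfl, rfl, ?_⟩
  · exact (Quat.form_smooth hgs e _ _).sub (ContDiff.sum fun a _ => (hbes a).mul (hws a))
  · refine (((Quat.form_smooth hKs e _ _).sub (contDiff_const.mul (ContDiff.sum fun a _ =>
      ((Quat.form_smooth hKs e _ _).sub (ContDiff.sum fun b _ =>
        (Quat.form_smooth hKs e _ _).mul (hbes b))).mul (hbes a)))).sub ?_)
    exact ContDiff.sum fun a _ => ContDiff.sum fun b _ =>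
      ((Quat.form_smooth hKs e _ _).mul (hbes a)).mul (hbes b)
  · exact (Quat.form_smooth hKs e _ _).sub (ContDiff.sum fun b _ =>
      (Quat.form_smooth hKs e _ _).mul (hbes b))
  · intro a b
    funext r
    exact hqy r a b
  · intro a b
    funext r
    have : (mat K (pt e r))ᵀ = mat K (pt e r) := by ext i j; exact hKy _ j i
    simp only [Quat.cS]
    rw [← Quat.mulVec_dot_symm this, dotProduct_comm]
  · intro r hr
    by_cases hn4 : n = 4
    · simp only [Quat.cF, hn4, if_true]; norm_num
    · have hn5 : (4 : ℝ) < n := by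
        have : 4 < n := lt_of_le_of_ne h4 (Ne.symm hn4)
        exact_mod_cast this
      have hst := hg.stab hR hgy (hlen r hr)
      rw [hhat r hr] at hst
      obtain ⟨α, hα, hform⟩ := hst.eq he
      have hαp := Quat.StabInv.alpha_pos he (hpos _ (hlen r hr)) hn5 hα
      have htr := hst.trace he hform
      have : Q.cF g e r = α := by
        simp only [Quat.cF, hn4, if_false, Quat.cU, Quat.cS]
        rw [htr]
        have : (n : ℝ) - 4 ≠ 0 := by linarith
        field_simp
        ring
      rw [this]; exact hαp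
  · intro r hr
    show 0 < Quat.cU g e r - ∑ a, be a r * w a r
    rw [hp_eq r hr]
    have hne : e - ∑ a, be a r • (Q.J a *ᵥ e) ≠ 0 := by
      intro h0
      have h1 : e ⬝ᵥ (e - ∑ a, be a r • (Q.J a *ᵥ e)) = 1 := by
        rw [dotProduct_sub, he, dotProduct_sum]
        have : ∀ a, e ⬝ᵥ (be a r • (Q.J a *ᵥ e)) = 0 := by
          intro a
          rw [dotProduct_smul, dotProduct_comm, Q.Jdot_self, smul_zero]
        simp [this]
      rw [h0, dotProduct_zero] at h1
      exact zero_ne_one h1
    have := (hpos _ (hlen r hr)).dotProduct_mulVec_pos hne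
    rwa [star_trivial] at this
  · intro r hr
    exact hqp r hr
  · refine ⟨hsm, hbes, fun x hx i j => ?_, fun x hx i j => ?_⟩
    · rw [hg.ten_form hR hgy he hx i j]
      have h1 := hqb (len x) hx
      have h2 := hqbb (len x) hx
      unfold Quat.ten Quat.tenM Quat.Z
      simp only [Fin.sum_univ_three] at h1 h2 ⊢
      have hw' : ∀ a, Q.cW g e a (len x) = w a (len x) := fun a => rfl
      have s10 := hqy (len x) 1 0
      have s20 := hqy (len x) 2 0
      have s21 := hqy (len x) 2 1
      simp only [hw', ← h1, s10, s20, s21]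
      ring
    · rw [hK.ten_form hR hKy he hx i j]
      have hsy : ∀ a b, Q.cS K e a b (len x) = Q.cS K e b a (len x) := by
        intro a b
        have : (mat K (pt e (len x)))ᵀ = mat K (pt e (len x)) := by ext i j; exact hKy _ j i
        simp only [Quat.cS]
        rw [← Quat.mulVec_dot_symm this, dotProduct_comm]
      have s10 := hsy 1 0
      have s20 := hsy 2 0
      have s21 := hsy 2 1
      unfold Quat.ten Quat.tenM Quat.Z
      simp only [Fin.sum_univ_three, s10, s20, s21]
      ring

end Vale.Agent.P366.T2
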