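import Vale.Agent.P366.T2.MDefs
import Vale.Agent.P366.T2.Key

/-!
T2M, block MD: `keyM`.
-/

open MeasureTheory Metric Filter Topology Set
open scoped ContDiff

noncomputable section
namespace Vale.Agent.P366.T2
namespace Data

variable {n : ℕ} (D : Data n) (be : Fin 3 → ℝ → ℝ)

open Matrix

/-- the skew matrix of the shift -/
def sk (r : ℝ) : Matrix (Fin 3) (Fin 3) ℝ := Matrix.of fun a d => ∑ c, be c r * eps c a d

theorem sk_skew (r : ℝ) : (sk be r)ᵀ = -sk be r := by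
  ext a b
  simp only [sk, transpose_apply, of_apply, Matrix.neg_apply, ← Finset.sum_neg_distrib]
  refine Finset.sum_congr rfl fun c _ => ?_
  have : eps c b a = -eps c a b := by
    fin_cases a <;> fin_cases b <;> fin_cases c <;> simp [eps]
  rw [this]; ring

theorem dqM_eq (r : ℝ) : D.dqM be r =
    D.dqh r - (2 * r) • (sk be r * D.qmK r + D.qmK r * (sk be r)ᵀ) := by
  ext a b
  simp only [dqM, dqh, sk, qmK, of_apply, Matrix.sub_apply, Matrix.smul_apply, Matrix.add_apply,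
    Matrix.mul_apply, transpose_apply, smul_eq_mul, Fin.sum_univ_three]
  ring

theorem qmK_symm (r : ℝ) : (D.qmK r)ᵀ = D.qmK r := by
  ext a b
  simp only [qmK, transpose_apply, of_apply]
  rw [D.q_symm a b]

theorem dqM_symm (r : ℝ) : (D.dqM be r)ᵀ = D.dqM be r := by
  rw [dqM_eq, transpose_sub, transpose_smul, transpose_add, transpose_mul, transpose_mul,
    transpose_transpose, D.qmK_symm, D.dqh_symm, add_comm]

theorem AM_eq (r : ℝ) : D.AM be r = (1 / 2 : ℝ) • ((D.qh r)⁻¹ * D.dqM be r) := rfl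

theorem trace_sk_mul {s : Matrix (Fin 3) (Fin 3) ℝ} (hs : sᵀ = s) (r : ℝ) :
    (sk be r * s).trace = 0 := by
  have h : (sk be r * s).trace = -(sk be r * s).trace := by
    conv_lhs => rw [← Matrix.trace_transpose, transpose_mul, hs, sk_skew, Matrix.mul_neg,
      trace_neg, Matrix.trace_mul_comm]
  linarith

theorem trace_sk (r : ℝ) : (sk be r).trace = 0 := by
  have := trace_sk_mul be (s := 1) (by simp) r
  rwa [Matrix.mul_one] at this

theorem trace_AM {r : ℝ} (hr : D.R ≤ r) : (D.AM be r).trace = (D.A r).trace := by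
  have hr0 := (D.r_pos hr).ne'
  have hq : (D.qmK r).det ≠ 0 := (D.q_pos r hr).det_pos.ne'
  have h : (D.qh r)⁻¹ = (r ^ 2)⁻¹ • (D.qmK r)⁻¹ := by
    rw [qh_eq]
    refine Matrix.inv_eq_right_inv ?_
    rw [Matrix.smul_mul, Matrix.mul_smul, smul_smul, mul_inv_cancel₀ (by positivity), one_smul,
      Matrix.mul_nonsing_inv _ (isUnit_iff_ne_zero.2 hq)]
  rw [AM_eq, dqM_eq, A_eq, trace_smul, trace_smul, Matrix.mul_sub, trace_sub]
  have h2 : ((D.qh r)⁻¹ * ((2 * r) • (sk be r * D.qmK r + D.qmK r * (sk be r)ᵀ))).trace = 0 := by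
    rw [h, Matrix.smul_mul, Matrix.mul_smul, trace_smul, trace_smul, Matrix.mul_add, trace_add,
      Matrix.trace_mul_comm, Matrix.mul_assoc, Matrix.mul_nonsing_inv _ (isUnit_iff_ne_zero.2 hq),
      Matrix.mul_one, ← Matrix.mul_assoc, Matrix.nonsing_inv_mul _ (isUnit_iff_ne_zero.2 hq),
      Matrix.one_mul, trace_transpose, trace_sk]
    simp
  rw [h2, sub_zero]

theorem qh_mul_AM {r : ℝ} (hr : D.R ≤ r) : D.qh r * D.AM be r = (1 / 2 : ℝ) • D.dqM be r := by
  rw [AM_eq, Matrix.mul_smul, ← Matrix.mul_assoc, Matrix.mul_nonsing_inv _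
    (isUnit_iff_ne_zero.2 (D.det_pos hr).ne'), Matrix.one_mul]

theorem trace_qh_AM {r : ℝ} (hr : D.R ≤ r) :
    (D.qh r * D.AM be r).trace = (D.qh r * D.A r).trace := by
  rw [D.qh_mul_AM be hr, D.qh_mul_A hr, dqM_eq, trace_smul, trace_smul, trace_sub, trace_smul,
    trace_add, trace_sk_mul be (D.qmK_symm r), Matrix.trace_mul_comm, sk_skew, Matrix.neg_mul,
    trace_neg, trace_sk_mul be (D.qmK_symm r)]
  simp

theorem IT_M {r : ℝ} (hr : D.R ≤ r) :
    D.IT r = ((D.Tq r * D.AM be r).trace + D.b * D.Tb r * D.yb r) / D.c r := by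
  have : (D.Tq r * D.AM be r).trace = (D.Tq r * D.A r).trace := by
    simp only [Tq, add_mul, Matrix.smul_mul, Matrix.one_mul, trace_add, trace_smul, smul_eq_mul,
      D.trace_qh_AM be hr, D.trace_AM be hr]
  rw [this, IT]

theorem hU_leM (hn : 4 ≤ n) {r : ℝ} (hr : D.R ≤ r) (y : ℝ) :
    0 ≤ D.II2M be r - 2 * y * D.IT r + y ^ 2 * D.L2 r := by
  have hc := D.c_pos hr
  have hp : D.p r = D.c r ^ 2 := (D.c_sq hr).symm
  have h := D.sq_nonneg_of hr hn (M := (1 / D.c r) • D.AM be r - y • D.Tq r)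
    (x := 1 / D.c r * D.yb r - y * D.Tb r)
    (s := (1 / D.c r) • ((1 / 2 : ℝ) • D.dqM be r) -
      y • ((-(1 / D.g r ^ 3)) • (D.qh r * D.qh r) + D.ta r • D.qh r)) (by
      simp only [transpose_sub, transpose_add, transpose_smul, transpose_mul, D.qh_symm r,
        D.dqM_symm be r]) (by
      rw [Matrix.mul_sub, Matrix.mul_smul, Matrix.mul_smul, Matrix.mul_smul, ← AM_eq,
        ← D.Tq_form hr])
  refine h.trans (le_of_eq ?_)
  have e : (((1 / D.c r) • D.AM be r - y • D.Tq r) * ((1 / D.c r) • D.AM be r - y • D.Tq r)).trace =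
      (D.AM be r * D.AM be r).trace / D.c r ^ 2 - 2 * y * (D.Tq r * D.AM be r).trace / D.c r +
        y ^ 2 * (D.Tq r * D.Tq r).trace := by
    simp only [sub_mul, mul_sub, Matrix.smul_mul, Matrix.mul_smul, trace_sub, trace_smul,
      smul_eq_mul, Matrix.trace_mul_comm (D.AM be r) (D.Tq r)]
    field_simp; ring
  rw [e, II2M, D.IT_M be hr, L2, hp]
  field_simp
  ring

theorem KII_leM (hn : 4 ≤ n) {r : ℝ} (hr : D.R ≤ r) (y : ℝ) :
    0 ≤ D.KS2 r - 2 * y * D.IIKM be r + y ^ 2 * D.II2M be r := by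
  have hc := D.c_pos hr
  have hp : D.p r = D.c r ^ 2 := (D.c_sq hr).symm
  have h := D.sq_nonneg_of hr hn (M := D.S r - (y / D.c r) • D.AM be r)
    (x := D.ka r / D.al r - y / D.c r * D.yb r)
    (s := ((r ^ 2) • Matrix.of fun a b => D.s a b r) - (y / D.c r) • ((1 / 2 : ℝ) • D.dqM be r)) (by
      simp only [transpose_sub, transpose_smul, D.dqM_symm be r]
      congr 2
      ext a b
      simp only [transpose_apply, of_apply]
      rw [D.s_symm a b]) (by
      rw [Matrix.mul_sub, ← D.S_eq hr, AM_eq, Matrix.mul_smul, Matrix.mul_smul])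
  refine h.trans (le_of_eq ?_)
  have e : ((D.S r - (y / D.c r) • D.AM be r) * (D.S r - (y / D.c r) • D.AM be r)).trace =
      (D.S r * D.S r).trace - 2 * y * (D.AM be r * D.S r).trace / D.c r +
        y ^ 2 * (D.AM be r * D.AM be r).trace / D.c r ^ 2 := by
    simp only [sub_mul, mul_sub, Matrix.smul_mul, Matrix.mul_smul, trace_sub, trace_smul,
      smul_eq_mul, Matrix.trace_mul_comm (D.S r) (D.AM be r)]
    field_simp; ring
  rw [e, KS2, IIKM, II2M, hp]
  field_simp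
  ring

/-- the differential inequality for `H ^ 2 - k ^ 2` -/
theorem deriv_leM (hn : 4 ≤ n) {r : ℝ} (hr : D.R ≤ r) (hdec : |D.JNM be r| ≤ D.muM be r)
    (hk : |D.k r| < D.H r) :
    2 * D.H r * deriv D.H r - 2 * D.k r * deriv D.k r ≤
      D.c r * (D.H r * D.Rh r - D.H r * (D.H r ^ 2 - D.k r ^ 2) -
        (D.H r ^ 2 - D.k r ^ 2) / D.H r * D.II2M be r) := by
  have hc := D.c_pos hr
  have hH : 0 < D.H r := (abs_nonneg _).trans_lt hk
  have h1 : 0 ≤ D.H r * D.muM be r - D.k r * D.JNM be r := by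
    have h2 : D.k r * D.JNM be r ≤ |D.k r| * |D.JNM be r| := by
      rw [← abs_mul]; exact le_abs_self _
    have h3 : |D.k r| * |D.JNM be r| ≤ D.H r * D.muM be r :=
      mul_le_mul hk.le hdec (abs_nonneg _) hH.le
    linarith
  have hbe := D.be2_nonneg hr
  have hK := D.KII_leM be hn hr (D.k r / D.H r)
  have hK' : 0 ≤ D.H r * (D.KS2 r - 2 * (D.k r / D.H r) * D.IIKM be r +
      (D.k r / D.H r) ^ 2 * D.II2M be r) := mul_nonneg hH.le hK
  have e1 : D.H r * (D.KS2 r - 2 * (D.k r / D.H r) * D.IIKM be r +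
      (D.k r / D.H r) ^ 2 * D.II2M be r) = D.H r * D.KS2 r - 2 * D.k r * D.IIKM be r +
        D.k r ^ 2 / D.H r * D.II2M be r := by field_simp
  rw [e1] at hK'
  have e2 : D.c r * (2 * (D.H r * D.muM be r - D.k r * D.JNM be r)) =
      D.c r * (D.H r * (D.Rh r - D.II2M be r - D.H r ^ 2 + D.k r ^ 2 - D.KS2 r - 2 * D.be2 r) +
        2 * D.k r * D.IIKM be r) - (2 * D.H r * deriv D.H r - 2 * D.k r * deriv D.k r) := by
    rw [muM, JNM, RgM]; field_simp; ring
  have e3 : 0 ≤ D.c r * (2 * (D.H r * D.muM be r - D.k r * D.JNM be r)) := by positivity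
  rw [e2] at e3
  have e4 : D.H r * (D.Rh r - D.II2M be r - D.H r ^ 2 + D.k r ^ 2 - D.KS2 r - 2 * D.be2 r) +
        2 * D.k r * D.IIKM be r ≤ D.H r * D.Rh r - D.H r * (D.H r ^ 2 - D.k r ^ 2) -
        (D.H r ^ 2 - D.k r ^ 2) / D.H r * D.II2M be r := by
    have e5 : (D.H r ^ 2 - D.k r ^ 2) / D.H r * D.II2M be r = D.H r * D.II2M be r -
      D.k r ^ 2 / D.H r * D.II2M be r := by field_simp
    rw [e5]
    have : 0 ≤ D.H r * D.be2 r := mul_nonneg hH.le hbe
    nlinarith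
  have e6 := mul_le_mul_of_nonneg_left e4 hc.le
  linarith

/-- **Block D.** -/
theorem keyM (hn : 4 ≤ n) (hdec : ∀ r, D.R < r → |D.JNM be r| ≤ D.muM be r)
    (h0 : D.H D.R + D.k D.R ≤ 0) (hinf : ∀ᶠ r in atTop, |D.k r| < D.H r) {m : ℝ}
    (hm : Tendsto D.mass atTop (𝓝 (2 * m))) :
    ∃ r, D.R ≤ r ∧ D.rho r ^ ((n : ℝ) - 2) ≤ 2 * m := by
  -- the last radius with `H ≤ |k|`
  obtain ⟨R1, hR1⟩ := (eventually_atTop.1 hinf)
  set S : Set ℝ := {r | D.R ≤ r ∧ D.H r ≤ |D.k r|} with hS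
  have hHc : ContinuousOn D.H (Ici D.R) := fun r hr => (D.H_diff hr).continuousAt.continuousWithinAt
  have hkc : ContinuousOn D.k (Ici D.R) := fun r hr => (D.k_diff hr).continuousAt.continuousWithinAt
  have hSc : IsClosed S := by
    have h1 : ContinuousOn (fun r => |D.k r| - D.H r) (Ici D.R) := hkc.abs.sub hHc
    have h2 := h1.preimage_isClosed_of_isClosed isClosed_Ici (isClosed_Ici (a := (0 : ℝ)))
    convert h2 using 1
    ext r
    simp only [hS, mem_ofPred_eq, mem_inter_iff, mem_Ici, mem_preimage, sub_nonneg]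
  have hSne : S.Nonempty := ⟨D.R, le_rfl, by
    have := neg_le_abs (D.k D.R)
    linarith⟩
  have hSb : BddAbove S := ⟨max D.R R1, fun r hr => by
    by_contra hlt
    push Not at hlt
    have h1 := hR1 r ((le_max_right _ _).trans hlt.le)
    exact absurd hr.2 (not_le.2 h1)⟩
  set r0 := sSup S with hr0
  have hr0S : r0 ∈ S := hSc.csSup_mem hSne hSb
  have hgt : ∀ r, r0 < r → |D.k r| < D.H r := by
    intro r hr
    by_contra hle
    push Not at hle
    exact absurd (le_csSup hSb ⟨hr0S.1.trans hr.le, hle⟩) (not_le.2 hr)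
  have hge : |D.k r0| ≤ D.H r0 := by
    have h1 : Tendsto (fun r => |D.k r|) (𝓝[>] r0) (𝓝 (|D.k r0|)) :=
      ((D.k_diff hr0S.1).continuousAt.abs).mono_left nhdsWithin_le_nhds
    have h2 : Tendsto D.H (𝓝[>] r0) (𝓝 (D.H r0)) :=
      ((D.H_diff hr0S.1).continuousAt).mono_left nhdsWithin_le_nhds
    refine le_of_tendsto_of_tendsto h1 h2 ?_
    filter_upwards [self_mem_nhdsWithin] with r hr using (hgt r hr).le
  have heq : D.H r0 = |D.k r0| := le_antisymm hr0S.2 hge
  have hR : ∀ r, r0 ≤ r → D.R ≤ r := fun r hr => hr0S.1.trans hr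
  have hn4 : (4 : ℝ) ≤ n := by exact_mod_cast hn
  have hN : 1 < (n : ℝ) - 1 := by linarith
  obtain ⟨hmono, hbd⟩ := mono_main2 (N := (n : ℝ) - 1) (r0 := r0) hN (c := D.c) (H := D.H)
    (Y := fun r => D.H r ^ 2 - D.k r ^ 2)
    (Y' := fun r => 2 * D.H r * deriv D.H r - 2 * D.k r * deriv D.k r) (ρ := D.rho) (R := D.Rh)
    (II2 := D.II2M be) (lam := D.lam) (L2 := D.L2) (I := D.IT)
    (fun r hr => D.c_pos (hR r hr.le))
    (fun r hr => (abs_nonneg _).trans_lt (hgt r hr))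
    (by rw [heq, sq_abs, sub_self])
    (fun r hr => by
      have h1 := hgt r hr
      have h2 : D.k r ^ 2 ≤ D.H r ^ 2 := by
        rw [← sq_abs (D.k r)]
        exact pow_le_pow_left₀ (abs_nonneg _) h1.le 2
      linarith)
    (((hHc.mono fun r hr => hR r hr).pow 2).sub ((hkc.mono fun r hr => hR r hr).pow 2))
    (fun r hr => (D.rho_hasDerivAt (hR r hr)).continuousAt.continuousWithinAt)
    (fun r hr => (D.lam_hasDerivAt (hR r hr)).continuousAt.continuousWithinAt)
    (fun r hr => D.rho_pos (hR r hr))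
    (fun r hr => D.lam_pos hn (hR r hr))
    (fun r hr => D.rho_hasDerivAt (hR r hr.le))
    (fun r hr => by
      have h1 := (D.H_diff (hR r hr.le)).hasDerivAt
      have h2 := (D.k_diff (hR r hr.le)).hasDerivAt
      refine ((h1.pow 2).sub (h2.pow 2)).congr_deriv ?_
      simp)
    (fun r hr => D.deriv_leM be hn (hR r hr.le) (hdec r (hr0S.1.trans_lt hr)) (hgt r hr))
    (fun r hr => D.lam_hasDerivAt (hR r hr.le))
    (fun r hr => D.hU_leM be hn (hR r hr.le) _)
    (fun r hr => D.hL_le hn (hR r hr.le))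
    (fun r hr => D.hJ_le hn (hR r hr.le))
  refine ⟨r0, hr0S.1, ?_⟩
  have e : (n : ℝ) - 1 - 1 = (n : ℝ) - 2 := by ring
  rw [e] at hbd
  refine ge_of_tendsto hm ?_
  filter_upwards [eventually_ge_atTop r0] with r hr
  exact hbd r hr

end Data
end Vale.Agent.P366.T2
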