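import Mathlib.Analysis.Calculus.FDeriv.Symmetric
import Vale.Agent.P366.T2.A765.SCStmt

/-!
# The scalar curvature of a pulled back metric

Naturality of the scalar curvature: if `g' = Φ^* g` near `x` and the differential of `Φ` at `x` is
invertible, then `scal g' x = scal g (Φ x)`.
-/

open MeasureTheory Metric Filter Topology Set
open scoped BigOperators ENNReal ContDiff

noncomputable section
namespace Vale.Agent.P366.T2.Pull
open Vale.Agent.P366 Vale.Agent.P366.T2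

variable {n : ℕ}

/-! ### Entrywise calculus -/

/-- Entrywise differentiability. -/
def DA (A : Field n) (x : E n) : Prop := ∀ i j, DifferentiableAt ℝ (fun y => A y i j) x

/-- The entrywise partial derivative. -/
def Dm (k : Fin n) (A : Field n) : Field n :=
  fun x => Matrix.of fun i j => pd k (fun y => A y i j) x

lemma Dm_apply (k : Fin n) (A : Field n) (x : E n) (i j : Fin n) :
    Dm k A x i j = pd k (fun y => A y i j) x := rfl

lemma DA.mul {A C : Field n} {x : E n} (hA : DA A x) (hC : DA C x) :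
    DA (fun y => A y * C y) x := by
  intro i j
  simp only [Matrix.mul_apply]
  exact DifferentiableAt.fun_sum fun l _ => (hA i l).mul (hC l j)

lemma DA.add {A C : Field n} {x : E n} (hA : DA A x) (hC : DA C x) :
    DA (fun y => A y + C y) x := by
  intro i j
  simp only [Matrix.add_apply]
  exact (hA i j).add (hC i j)

lemma DA.congr {A C : Field n} {x : E n} (hA : DA A x) (h : C =ᶠ[𝓝 x] A) : DA C x := by
  intro i j
  refine (hA i j).congr_of_eventuallyEq ?_
  filter_upwards [h] with y hy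
  rw [hy]

lemma Dm_congr {A C : Field n} {x : E n} (h : C =ᶠ[𝓝 x] A) (k : Fin n) :
    Dm k C x = Dm k A x := by
  ext i j
  refine pd_congr ?_ k
  filter_upwards [h] with y hy
  rw [hy]

lemma Dm_mul {A C : Field n} {x : E n} (hA : DA A x) (hC : DA C x) (k : Fin n) :
    Dm k (fun y => A y * C y) x = Dm k A x * C x + A x * Dm k C x := by
  ext i j
  rw [Matrix.add_apply, Matrix.mul_apply, Matrix.mul_apply, ← Finset.sum_add_distrib, Dm_apply]
  have h1 : (fun y => (A y * C y) i j) = fun y => ∑ l, A y i l * C y l j := by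
    funext y
    rw [Matrix.mul_apply]
  have h2 := pd_sum Finset.univ (f := fun l y => A y i l * C y l j) (x := x)
    (fun l _ => (hA i l).mul (hC l j)) k
  rw [h1, h2]
  refine Finset.sum_congr rfl fun l _ => ?_
  rw [pd_mul (hA i l) (hC l j), Dm_apply, Dm_apply]
  ring

lemma Dm_add {A C : Field n} {x : E n} (hA : DA A x) (hC : DA C x) (k : Fin n) :
    Dm k (fun y => A y + C y) x = Dm k A x + Dm k C x := by
  ext i j
  rw [Matrix.add_apply, Dm_apply]
  exact pd_add (hA i j) (hC i j) k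

/-- A linear combination of matrix fields. -/
def comb (c : Fin n → E n → ℝ) (A : Fin n → Field n) : Field n := fun y => ∑ a, c a y • A a y

lemma comb_apply (c : Fin n → E n → ℝ) (A : Fin n → Field n) (y : E n) (i j : Fin n) :
    comb c A y i j = ∑ a, c a y * A a y i j := by
  unfold comb
  rw [Matrix.sum_apply]
  rfl

lemma DA.comb {c : Fin n → E n → ℝ} {A : Fin n → Field n} {x : E n}
    (hc : ∀ a, DifferentiableAt ℝ (c a) x) (hA : ∀ a, DA (A a) x) : DA (comb c A) x := by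
  intro i j
  simp only [comb_apply]
  exact DifferentiableAt.fun_sum fun a _ => (hc a).mul (hA a i j)

lemma Dm_comb {c : Fin n → E n → ℝ} {A : Fin n → Field n} {x : E n}
    (hc : ∀ a, DifferentiableAt ℝ (c a) x) (hA : ∀ a, DA (A a) x) (k : Fin n) :
    Dm k (Pull.comb c A) x = ∑ a, (pd k (c a) x • A a x + c a x • Dm k (A a) x) := by
  ext i j
  rw [Dm_apply, Matrix.sum_apply]
  have h1 : (fun y => Pull.comb c A y i j) = fun y => ∑ a, c a y * A a y i j := by
    funext y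
    rw [comb_apply]
  have h2 := pd_sum Finset.univ (f := fun a y => c a y * A a y i j) (x := x)
    (fun a _ => (hc a).mul (hA a i j)) k
  rw [h1, h2]
  refine Finset.sum_congr rfl fun a _ => ?_
  rw [pd_mul (hc a) (hA a i j), Matrix.add_apply, Matrix.smul_apply, Matrix.smul_apply, smul_eq_mul,
    smul_eq_mul, Dm_apply]
  ring

/-- Chain rule. -/
lemma pd_chain {Φ : E n → E n} {f : E n → ℝ} {x : E n} (hf : DifferentiableAt ℝ f (Φ x))
    (hΦ : DifferentiableAt ℝ Φ x) (k : Fin n) :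
    pd k (fun y => f (Φ y)) x = ∑ a, pd k (fun y => Φ y a) x * pd a f (Φ x) := by
  have h1 : HasFDerivAt (fun z => f (Φ z)) ((fderiv ℝ f (Φ x)).comp (fderiv ℝ Φ x)) x :=
    hf.hasFDerivAt.comp x hΦ.hasFDerivAt
  have h0 : pd k (fun y => f (Φ y)) x =
      fderiv ℝ f (Φ x) (fderiv ℝ Φ x (EuclideanSpace.single k (1 : ℝ))) := by
    unfold pd
    rw [h1.fderiv]
    rfl
  rw [h0, fderiv_eq_sum_pd]
  refine Finset.sum_congr rfl fun a _ => ?_
  have h4 : HasFDerivAt (fun y => Φ y a)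
      ((EuclideanSpace.proj (𝕜 := ℝ) a).comp (fderiv ℝ Φ x)) x :=
    (EuclideanSpace.proj (𝕜 := ℝ) a).hasFDerivAt.comp x hΦ.hasFDerivAt
  have h3 : pd k (fun y => Φ y a) x = (fderiv ℝ Φ x (EuclideanSpace.single k (1 : ℝ))) a := by
    unfold pd
    rw [h4.fderiv]
    rfl
  rw [h3]

lemma DA.chain {Φ : E n → E n} {A : Field n} {x : E n} (hA : DA A (Φ x))
    (hΦ : DifferentiableAt ℝ Φ x) : DA (fun y => A (Φ y)) x := fun i j =>
  ((hA i j).hasFDerivAt.comp x hΦ.hasFDerivAt).differentiableAt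

lemma Dm_chain {Φ : E n → E n} {A : Field n} {x : E n} (hA : DA A (Φ x))
    (hΦ : DifferentiableAt ℝ Φ x) (k : Fin n) :
    Dm k (fun y => A (Φ y)) x = ∑ a, pd k (fun y => Φ y a) x • Dm a A (Φ x) := by
  ext i j
  rw [Dm_apply, Matrix.sum_apply]
  exact pd_chain (f := fun y => A y i j) (hA i j) hΦ k

/-- Equality of mixed partial derivatives. -/
lemma pd_comm {f : E n → ℝ} {x : E n} (hf : ContDiffAt ℝ 2 f x) (i j : Fin n) :
    pd i (pd j f) x = pd j (pd i f) x := by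
  have hf' : DifferentiableAt ℝ (fderiv ℝ f) x :=
    (hf.fderiv_right (m := 1) (by norm_num)).differentiableAt (by norm_num)
  have h : ∀ i j : Fin n, pd i (pd j f) x = fderiv ℝ (fderiv ℝ f) x
      (EuclideanSpace.single i 1) (EuclideanSpace.single j 1) := by
    intro i j
    have h3 : HasFDerivAt (pd j f)
        ((fderiv ℝ (fderiv ℝ f) x).flip (EuclideanSpace.single j 1)) x := by
      have := hf'.hasFDerivAt.clm_apply (hasFDerivAt_const (EuclideanSpace.single j (1 : ℝ)) x)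
      rw [ContinuousLinearMap.comp_zero, zero_add] at this
      exact this
    unfold pd at h3 ⊢
    rw [h3.fderiv]
    rfl
  rw [h, h]
  exact (hf.isSymmSndFDerivAt (by simp)).eq _ _

/-! ### The connection in matrix form -/

/-- The Christoffel symbols `(Γᵢ)ᵏⱼ`. -/
def Gam (G : Field n) (i : Fin n) : Field n := fun x => Matrix.of fun k j => chr G k i j x

/-- The Christoffel symbols of the first kind. -/
def Lw (G : Field n) (i : Fin n) : Field n := fun x => Matrix.of fun l j =>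
  (1 / 2) * (pd i (fun y => G y j l) x + pd j (fun y => G y i l) x - pd l (fun y => G y i j) x)

lemma Gam_eq (G : Field n) (i : Fin n) (x : E n) : Gam G i x = (G x)⁻¹ * Lw G i x := by
  ext k j
  rw [Matrix.mul_apply]
  show (1 / 2) * ∑ l, (G x)⁻¹ k l * (pd i (fun y => G y j l) x + pd j (fun y => G y i l) x -
    pd l (fun y => G y i j) x) = _
  rw [Finset.mul_sum]
  refine Finset.sum_congr rfl fun l _ => ?_
  show _ = (G x)⁻¹ k l * ((1 / 2) * (pd i (fun y => G y j l) x + pd j (fun y => G y i l) x -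
    pd l (fun y => G y i j) x))
  ring

/-- The differential of `Φ`. -/
def Bm (Φ : E n → E n) : Field n := fun y => Matrix.of fun a i => pd i (fun z => Φ z a) y

/-- The situation of a pull-back. -/
structure Ctx (Φ : E n → E n) (G G' : Field n) (U V : Set (E n)) : Prop where
  hU : SmoothMetric G U
  hV : SmoothMetric G' V
  maps : ∀ y ∈ V, Φ y ∈ U
  sm : ∀ y ∈ V, ContDiffAt ℝ 3 Φ y
  det : ∀ y ∈ V, (Bm Φ y).det ≠ 0
  pull : ∀ y ∈ V, G' y = (Bm Φ y).transpose * G (Φ y) * Bm Φ y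

namespace Ctx

variable {Φ : E n → E n} {G G' : Field n} {U V : Set (E n)} (h : Ctx Φ G G' U V) {y : E n}
include h

lemma diffΦ (hy : y ∈ V) : DifferentiableAt ℝ Φ y := (h.sm y hy).differentiableAt (by norm_num)

lemma smc (hy : y ∈ V) (a : Fin n) : ContDiffAt ℝ 3 (fun z => Φ z a) y :=
  ((EuclideanSpace.proj (𝕜 := ℝ) a).contDiff (n := 3)).contDiffAt.comp y (h.sm y hy)

lemma smB (hy : y ∈ V) (a i : Fin n) : ContDiffAt ℝ 2 (fun z => Bm Φ z a i) y := by
  have h1 : ContDiffAt ℝ 2 (fderiv ℝ fun z => Φ z a) y :=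
    (h.smc hy a).fderiv_right (by norm_num)
  exact h1.clm_apply contDiffAt_const

lemma daB (hy : y ∈ V) : DA (Bm Φ) y := fun a i =>
  (h.smB hy a i).differentiableAt (by norm_num)

lemma daDB (hy : y ∈ V) (k : Fin n) : DA (Dm k (Bm Φ)) y := by
  intro a i
  have h1 : ContDiffAt ℝ 1 (fderiv ℝ fun z => Bm Φ z a i) y :=
    (h.smB hy a i).fderiv_right (by norm_num)
  have h2 : ContDiffAt ℝ 1 (fun z => fderiv ℝ (fun z => Bm Φ z a i) z
    (EuclideanSpace.single k (1 : ℝ))) y := h1.clm_apply contDiffAt_const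
  exact h2.differentiableAt (by norm_num)

/-- `∂ᵢ ∂ⱼ Φₐ = ∂ⱼ ∂ᵢ Φₐ` -/
lemma db_symm (hy : y ∈ V) (i a j : Fin n) : Dm i (Bm Φ) y a j = Dm j (Bm Φ) y a i :=
  pd_comm ((h.smc hy a).of_le (by norm_num)) i j

/-- third derivatives -/
lemma ddb_symm (hy : y ∈ V) (k i : Fin n) :
    Dm k (Dm i (Bm Φ)) y = Dm i (Dm k (Bm Φ)) y := by
  ext a j
  exact pd_comm (h.smB hy a j) k i

lemma daG (hy : y ∈ V) : DA G (Φ y) := fun i j =>
  (h.hU.smAt (h.maps y hy) i j).differentiableAt (by norm_num)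

lemma pull_near (hy : y ∈ V) :
    G' =ᶠ[𝓝 y] fun z => (Bm Φ z).transpose * G (Φ z) * Bm Φ z := by
  filter_upwards [h.hV.op.mem_nhds hy] with z hz
  exact h.pull z hz

/-- The three parts of the derivative of the pull-back. -/
def P1 (Φ : E n → E n) (G : Field n) (y : E n) (i j l : Fin n) : ℝ :=
  ∑ a, ∑ b, Dm i (Bm Φ) y a j * Bm Φ y b l * G (Φ y) a b

/-- The three parts of the derivative of the pull-back. -/
def Q1 (Φ : E n → E n) (G : Field n) (y : E n) (i j l : Fin n) : ℝ :=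
  ∑ a, ∑ b, Bm Φ y a j * Dm i (Bm Φ) y b l * G (Φ y) a b

/-- The three parts of the derivative of the pull-back. -/
def R1 (Φ : E n → E n) (G : Field n) (y : E n) (i j l : Fin n) : ℝ :=
  ∑ a, ∑ b, ∑ c, Bm Φ y a j * Bm Φ y b l * (Bm Φ y c i * Dm c G (Φ y) a b)

omit h in
lemma trip (A B C : Field n) (j l : Fin n) (y : E n) :
    ((A y).transpose * B y * C y) j l = ∑ a, ∑ b, A y a j * B y a b * C y b l := by
  rw [Matrix.mul_apply, Finset.sum_comm]
  refine Finset.sum_congr rfl fun b _ => ?_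
  rw [Matrix.mul_apply, Finset.sum_mul]
  rfl

lemma dG' (hy : y ∈ V) (i j l : Fin n) :
    pd i (fun z => G' z j l) y = P1 Φ G y i j l + Q1 Φ G y i j l + R1 Φ G y i j l := by
  have hB := h.daB hy
  have hG : DA (fun z => G (Φ z)) y := (h.daG hy).chain (h.diffΦ hy)
  have h1 : pd i (fun z => G' z j l) y =
      pd i (fun z => ∑ a, ∑ b, Bm Φ z a j * Bm Φ z b l * G (Φ z) a b) y := by
    refine pd_congr ?_ i
    filter_upwards [h.pull_near hy] with z hz
    rw [hz, trip (Bm Φ) (fun z => G (Φ z)) (Bm Φ)]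
    exact Finset.sum_congr rfl fun a _ => Finset.sum_congr rfl fun b _ => by ring
  have hd : ∀ a b, DifferentiableAt ℝ (fun z => Bm Φ z a j * Bm Φ z b l * G (Φ z) a b) y :=
    fun a b => ((hB a j).mul (hB b l)).mul (hG a b)
  have h2 := pd_sum Finset.univ (f := fun a z => ∑ b, Bm Φ z a j * Bm Φ z b l * G (Φ z) a b)
    (x := y) (fun a _ => DifferentiableAt.fun_sum fun b _ => hd a b) i
  rw [h1, h2]
  unfold P1 Q1 R1
  rw [← Finset.sum_add_distrib, ← Finset.sum_add_distrib]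
  refine Finset.sum_congr rfl fun a _ => ?_
  have h3 := pd_sum Finset.univ (f := fun b z => Bm Φ z a j * Bm Φ z b l * G (Φ z) a b)
    (x := y) (fun b _ => hd a b) i
  rw [h3, ← Finset.sum_add_distrib, ← Finset.sum_add_distrib]
  refine Finset.sum_congr rfl fun b _ => ?_
  have h4 := pd_chain (Φ := Φ) (f := fun z => G z a b) (h.daG hy a b) (h.diffΦ hy) i
  have h5 := pd_mul (f := fun z => Bm Φ z a j * Bm Φ z b l) (h := fun z => G (Φ z) a b)
    ((hB a j).mul (hB b l)) (hG a b) i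
  rw [h5, h4, pd_mul (hB a j) (hB b l) i, ← Finset.mul_sum]
  simp only [Dm_apply]
  have h6 : ∀ c, Bm Φ y c i = pd i (fun z => Φ z c) y := fun c => rfl
  simp only [h6]
  ring

lemma G_symm (hy : y ∈ V) (a b : Fin n) : G (Φ y) a b = G (Φ y) b a :=
  (h.hU.symm _ (h.maps y hy)).apply b a

lemma P1_symm (hy : y ∈ V) (i j l : Fin n) : P1 Φ G y i j l = P1 Φ G y j i l := by
  unfold P1
  simp only [h.db_symm hy i _ j]

lemma Q1_symm (hy : y ∈ V) (i j l : Fin n) : Q1 Φ G y i j l = Q1 Φ G y l j i := by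
  unfold Q1
  simp only [h.db_symm hy i _ l]

lemma P1_Q1 (hy : y ∈ V) (i j l : Fin n) : P1 Φ G y i j l = Q1 Φ G y i l j := by
  unfold P1 Q1
  rw [Finset.sum_comm]
  refine Finset.sum_congr rfl fun a _ => Finset.sum_congr rfl fun b _ => ?_
  rw [h.G_symm hy b a]
  ring

lemma Lw_eq (hy : y ∈ V) (i : Fin n) :
    Lw G' i y = (Bm Φ y).transpose * (G (Φ y) * Dm i (Bm Φ) y +
      (∑ a, Bm Φ y a i • Lw G a (Φ y)) * Bm Φ y) := by
  ext l j
  show (1 / 2) * (pd i (fun y => G' y j l) y + pd j (fun y => G' y i l) y -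
    pd l (fun y => G' y i j) y) = _
  rw [h.dG' hy i j l, h.dG' hy j i l, h.dG' hy l i j, h.P1_symm hy j i l, h.P1_Q1 hy l i j,
    h.Q1_symm hy l j i, h.Q1_symm hy l i j]
  have e1 : (1 / 2) * (P1 Φ G y i j l + Q1 Φ G y i j l + R1 Φ G y i j l +
      (P1 Φ G y i j l + Q1 Φ G y j i l + R1 Φ G y j i l) -
      (Q1 Φ G y i j l + Q1 Φ G y j i l + R1 Φ G y l i j)) =
      P1 Φ G y i j l + (1 / 2) * (R1 Φ G y i j l + R1 Φ G y j i l - R1 Φ G y l i j) := by ring
  rw [e1, Matrix.mul_add, Matrix.add_apply]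
  congr 1
  · rw [← Matrix.mul_assoc, trip (Bm Φ) (fun z => G (Φ z)) (Dm i (Bm Φ))]
    unfold P1
    rw [Finset.sum_comm]
    refine Finset.sum_congr rfl fun a _ => Finset.sum_congr rfl fun b _ => ?_
    rw [h.G_symm hy b a]
    ring
  · rw [← Matrix.mul_assoc, trip (Bm Φ) (fun _ => ∑ a, Bm Φ y a i • Lw G a (Φ y)) (Bm Φ)]
    have e2 : R1 Φ G y i j l = ∑ a, ∑ b, ∑ c,
        Bm Φ y a l * Bm Φ y b j * (Bm Φ y c i * Dm c G (Φ y) b a) := by
      unfold R1
      rw [Finset.sum_comm]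
      refine Finset.sum_congr rfl fun a _ => Finset.sum_congr rfl fun b _ =>
        Finset.sum_congr rfl fun c _ => ?_
      ring
    have e3 : R1 Φ G y j i l = ∑ a, ∑ b, ∑ c,
        Bm Φ y a l * Bm Φ y b j * (Bm Φ y c i * Dm b G (Φ y) c a) := by
      unfold R1
      calc ∑ a, ∑ b, ∑ c, Bm Φ y a i * Bm Φ y b l * (Bm Φ y c j * Dm c G (Φ y) a b)
          = ∑ b, ∑ a, ∑ c, Bm Φ y a i * Bm Φ y b l * (Bm Φ y c j * Dm c G (Φ y) a b) :=
            Finset.sum_comm
        _ = ∑ b, ∑ c, ∑ a, Bm Φ y a i * Bm Φ y b l * (Bm Φ y c j * Dm c G (Φ y) a b) :=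
            Finset.sum_congr rfl fun b _ => Finset.sum_comm
        _ = _ := by
            refine Finset.sum_congr rfl fun a _ => Finset.sum_congr rfl fun b _ =>
              Finset.sum_congr rfl fun c _ => ?_
            ring
    have e4 : R1 Φ G y l i j = ∑ a, ∑ b, ∑ c,
        Bm Φ y a l * Bm Φ y b j * (Bm Φ y c i * Dm a G (Φ y) c b) := by
      unfold R1
      calc ∑ a, ∑ b, ∑ c, Bm Φ y a i * Bm Φ y b j * (Bm Φ y c l * Dm c G (Φ y) a b)
          = ∑ a, ∑ c, ∑ b, Bm Φ y a i * Bm Φ y b j * (Bm Φ y c l * Dm c G (Φ y) a b) :=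
            Finset.sum_congr rfl fun a _ => Finset.sum_comm
        _ = ∑ c, ∑ a, ∑ b, Bm Φ y a i * Bm Φ y b j * (Bm Φ y c l * Dm c G (Φ y) a b) :=
            Finset.sum_comm
        _ = ∑ c, ∑ b, ∑ a, Bm Φ y a i * Bm Φ y b j * (Bm Φ y c l * Dm c G (Φ y) a b) :=
            Finset.sum_congr rfl fun b _ => Finset.sum_comm
        _ = _ := by
            refine Finset.sum_congr rfl fun a _ => Finset.sum_congr rfl fun b _ =>
              Finset.sum_congr rfl fun c _ => ?_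
            ring
    rw [e2, e3, e4, ← Finset.sum_add_distrib, ← Finset.sum_sub_distrib, Finset.mul_sum]
    refine Finset.sum_congr rfl fun a _ => ?_
    rw [← Finset.sum_add_distrib, ← Finset.sum_sub_distrib, Finset.mul_sum]
    refine Finset.sum_congr rfl fun b _ => ?_
    rw [← Finset.sum_add_distrib, ← Finset.sum_sub_distrib, Finset.mul_sum, Matrix.sum_apply,
      Finset.mul_sum, Finset.sum_mul]
    refine Finset.sum_congr rfl fun c _ => ?_
    show _ = Bm Φ y a l * (Bm Φ y c i * ((1 / 2) * (Dm c G (Φ y) b a + Dm b G (Φ y) c a -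
      Dm a G (Φ y) c b))) * Bm Φ y b j
    ring

/-- The transformation law of the Christoffel symbols. -/
lemma Gam_law (hy : y ∈ V) (i : Fin n) :
    Bm Φ y * Gam G' i y = Dm i (Bm Φ) y +
      Pull.comb (fun a z => Bm Φ z a i) (fun a z => Gam G a (Φ z)) y * Bm Φ y := by
  have hb : IsUnit (Bm Φ y).det := isUnit_iff_ne_zero.2 (h.det y hy)
  have hbt : IsUnit (Bm Φ y).transpose.det := by rwa [Matrix.det_transpose]
  have hg : (G (Φ y))⁻¹ * G (Φ y) = 1 := h.hU.inv_mul (h.maps y hy)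
  have h1 : Bm Φ y * ((G' y)⁻¹ * (Bm Φ y).transpose) = (G (Φ y))⁻¹ := by
    rw [h.pull y hy, Matrix.mul_inv_rev, Matrix.mul_inv_rev, Matrix.mul_assoc, Matrix.mul_assoc,
      Matrix.nonsing_inv_mul _ hbt, Matrix.mul_one, ← Matrix.mul_assoc,
      Matrix.mul_nonsing_inv _ hb, Matrix.one_mul]
  have h2 : ∀ X : Matrix (Fin n) (Fin n) ℝ, Bm Φ y * ((G' y)⁻¹ * ((Bm Φ y).transpose * X)) =
      (G (Φ y))⁻¹ * X := by
    intro X
    rw [← h1]
    simp only [Matrix.mul_assoc]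
  rw [Gam_eq, h.Lw_eq hy, h2, Matrix.mul_add, ← Matrix.mul_assoc, hg, Matrix.one_mul,
    ← Matrix.mul_assoc]
  congr 2
  unfold Pull.comb
  rw [Matrix.mul_sum]
  refine Finset.sum_congr rfl fun a _ => ?_
  show (G (Φ y))⁻¹ * (Bm Φ y a i • Lw G a (Φ y)) = Bm Φ y a i • Gam G a (Φ y)
  rw [Matrix.mul_smul, Gam_eq]

/-! ### The curvature -/

end Ctx

/-- The curvature `F_{kj} = ∂ₖ Γⱼ - ∂ⱼ Γₖ + Γₖ Γⱼ - Γⱼ Γₖ`. -/
def Fm (G : Field n) (k j : Fin n) (x : E n) : Matrix (Fin n) (Fin n) ℝ :=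
  Dm k (Gam G j) x - Dm j (Gam G k) x + Gam G k x * Gam G j x - Gam G j x * Gam G k x

/-- the algebra of the transformation of the curvature -/
lemma curv_alg {B Γk Γj Ak Aj Bk Bj dΓ dΓ' dA dA' W : Matrix (Fin n) (Fin n) ℝ}
    (h1 : B * Γk = Bk + Ak * B) (h2 : B * Γj = Bj + Aj * B)
    (h3 : Bk * Γj + B * dΓ = W + (dA * B + Aj * Bk))
    (h4 : Bj * Γk + B * dΓ' = W + (dA' * B + Ak * Bj)) :
    B * (dΓ - dΓ' + Γk * Γj - Γj * Γk) = (dA - dA' + Ak * Aj - Aj * Ak) * B := by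
  have e1 : B * dΓ = W + (dA * B + Aj * Bk) - Bk * Γj := eq_sub_of_add_eq' h3
  have e2 : B * dΓ' = W + (dA' * B + Ak * Bj) - Bj * Γk := eq_sub_of_add_eq' h4
  have e3 : B * (Γk * Γj) = Bk * Γj + (Ak * Bj + Ak * Aj * B) := by
    rw [← Matrix.mul_assoc, h1, Matrix.add_mul, Matrix.mul_assoc Ak B Γj, h2, Matrix.mul_add,
      Matrix.mul_assoc]
  have e4 : B * (Γj * Γk) = Bj * Γk + (Aj * Bk + Aj * Ak * B) := by
    rw [← Matrix.mul_assoc, h2, Matrix.add_mul, Matrix.mul_assoc Aj B Γk, h1, Matrix.mul_add,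
      Matrix.mul_assoc]
  rw [Matrix.mul_sub, Matrix.mul_add, Matrix.mul_sub, e1, e2, e3, e4, Matrix.sub_mul,
    Matrix.add_mul, Matrix.sub_mul]
  abel

lemma comb_mul_comb (c d : Fin n → ℝ) (A C : Fin n → Matrix (Fin n) (Fin n) ℝ) :
    (∑ b, c b • A b) * (∑ a, d a • C a) = ∑ b, ∑ a, (c b * d a) • (A b * C a) := by
  rw [Matrix.sum_mul]
  refine Finset.sum_congr rfl fun b _ => ?_
  rw [Matrix.mul_sum]
  refine Finset.sum_congr rfl fun a _ => ?_
  rw [Matrix.smul_mul, Matrix.mul_smul, smul_smul]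

namespace Ctx

variable {Φ : E n → E n} {G G' : Field n} {U V : Set (E n)} (h : Ctx Φ G G' U V) {y : E n}
include h

lemma daGam (hy : y ∈ V) (i : Fin n) : DA (Gam G i) (Φ y) := fun k j =>
  (h.hU.chrAt (h.maps y hy) k i j).differentiableAt (by norm_num)

lemma daGam' (hy : y ∈ V) (i : Fin n) : DA (Gam G' i) y := fun k j =>
  (h.hV.chrAt hy k i j).differentiableAt (by norm_num)

/-- `Aᵢ` -/
def A1 (Φ : E n → E n) (G : Field n) (i : Fin n) : Field n :=
  Pull.comb (fun a z => Bm Φ z a i) (fun a z => Gam G a (Φ z))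

lemma daA (hy : y ∈ V) (i : Fin n) : DA (A1 Φ G i) y :=
  DA.comb (fun a => h.daB hy a i) fun a => (h.daGam hy a).chain (h.diffΦ hy)

lemma dA1 (hy : y ∈ V) (k i : Fin n) : Dm k (A1 Φ G i) y =
    ∑ a, (Dm k (Bm Φ) y a i • Gam G a (Φ y) +
      Bm Φ y a i • ∑ b, Bm Φ y b k • Dm b (Gam G a) (Φ y)) := by
  have h1 := Dm_comb (c := fun a z => Bm Φ z a i) (A := fun a z => Gam G a (Φ z)) (x := y)
    (fun a => h.daB hy a i) (fun a => (h.daGam hy a).chain (h.diffΦ hy)) k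
  refine h1.trans (Finset.sum_congr rfl fun a _ => ?_)
  have h2 := Dm_chain (Φ := Φ) (A := Gam G a) (h.daGam hy a) (h.diffΦ hy) k
  show _ • _ + Bm Φ y a i • Dm k (fun z => Gam G a (Φ z)) y = _
  rw [h2]
  rfl

/-- the derivative of the transformation law -/
lemma law_deriv (hy : y ∈ V) (k j : Fin n) :
    Dm k (Bm Φ) y * Gam G' j y + Bm Φ y * Dm k (Gam G' j) y =
      Dm k (Dm j (Bm Φ)) y + (Dm k (A1 Φ G j) y * Bm Φ y + A1 Φ G j y * Dm k (Bm Φ) y) := by
  have h1 : (fun z => Bm Φ z * Gam G' j z) =ᶠ[𝓝 y]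
      fun z => Dm j (Bm Φ) z + A1 Φ G j z * Bm Φ z := by
    filter_upwards [h.hV.op.mem_nhds hy] with z hz
    exact h.Gam_law hz j
  have h2 := Dm_congr h1 k
  rw [Dm_mul (h.daB hy) (h.daGam' hy j) k,
    Dm_add (h.daDB hy j) ((h.daA hy j).mul (h.daB hy)) k,
    Dm_mul (h.daA hy j) (h.daB hy) k] at h2
  exact h2

lemma curv_law (hy : y ∈ V) (k j : Fin n) :
    Bm Φ y * Fm G' k j y =
      (∑ b, ∑ a, (Bm Φ y b k * Bm Φ y a j) • Fm G b a (Φ y)) * Bm Φ y := by
  have h4 := h.law_deriv hy j k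
  rw [h.ddb_symm hy j k] at h4
  have h5 := curv_alg (h.Gam_law hy k) (h.Gam_law hy j) (h.law_deriv hy k j) h4
  unfold Fm
  rw [h5]
  congr 1
  show Dm k (A1 Φ G j) y - Dm j (A1 Φ G k) y + A1 Φ G k y * A1 Φ G j y -
    A1 Φ G j y * A1 Φ G k y = _
  have e1 : A1 Φ G k y * A1 Φ G j y =
      ∑ b, ∑ a, (Bm Φ y b k * Bm Φ y a j) • (Gam G b (Φ y) * Gam G a (Φ y)) :=
    comb_mul_comb (fun b => Bm Φ y b k) (fun a => Bm Φ y a j) (fun b => Gam G b (Φ y))
      (fun a => Gam G a (Φ y))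
  have e2 : A1 Φ G j y * A1 Φ G k y =
      ∑ b, ∑ a, (Bm Φ y b k * Bm Φ y a j) • (Gam G a (Φ y) * Gam G b (Φ y)) := by
    have := comb_mul_comb (fun b => Bm Φ y b j) (fun a => Bm Φ y a k) (fun b => Gam G b (Φ y))
      (fun a => Gam G a (Φ y))
    refine this.trans ?_
    rw [Finset.sum_comm]
    refine Finset.sum_congr rfl fun a _ => Finset.sum_congr rfl fun b _ => ?_
    rw [mul_comm]
  have e3 : Dm k (A1 Φ G j) y - Dm j (A1 Φ G k) y =
      ∑ b, ∑ a, (Bm Φ y b k * Bm Φ y a j) •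
        (Dm b (Gam G a) (Φ y) - Dm a (Gam G b) (Φ y)) := by
    rw [h.dA1 hy k j, h.dA1 hy j k, Finset.sum_add_distrib, Finset.sum_add_distrib]
    have s1 : ∑ a, Dm j (Bm Φ) y a k • Gam G a (Φ y) = ∑ a, Dm k (Bm Φ) y a j • Gam G a (Φ y) :=
      Finset.sum_congr rfl fun a _ => by rw [h.db_symm hy j a k]
    have s2 : ∑ a, Bm Φ y a j • ∑ b, Bm Φ y b k • Dm b (Gam G a) (Φ y) =
        ∑ b, ∑ a, (Bm Φ y b k * Bm Φ y a j) • Dm b (Gam G a) (Φ y) := by
      rw [Finset.sum_comm]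
      refine Finset.sum_congr rfl fun a _ => ?_
      rw [Finset.smul_sum]
      refine Finset.sum_congr rfl fun b _ => ?_
      rw [smul_smul, mul_comm]
    have s3 : ∑ a, Bm Φ y a k • ∑ b, Bm Φ y b j • Dm b (Gam G a) (Φ y) =
        ∑ b, ∑ a, (Bm Φ y b k * Bm Φ y a j) • Dm a (Gam G b) (Φ y) := by
      refine Finset.sum_congr rfl fun a _ => ?_
      rw [Finset.smul_sum]
      refine Finset.sum_congr rfl fun b _ => ?_
      rw [smul_smul]
    rw [s1, s2, s3, add_sub_add_left_eq_sub, ← Finset.sum_sub_distrib]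
    refine Finset.sum_congr rfl fun b _ => ?_
    rw [← Finset.sum_sub_distrib]
    refine Finset.sum_congr rfl fun a _ => ?_
    rw [smul_sub]
  rw [e1, e2, e3, ← Finset.sum_add_distrib, ← Finset.sum_sub_distrib]
  refine Finset.sum_congr rfl fun b _ => ?_
  rw [← Finset.sum_add_distrib, ← Finset.sum_sub_distrib]
  refine Finset.sum_congr rfl fun a _ => ?_
  rw [← smul_add, ← smul_sub]

end Ctx

/-- The Ricci curvature. -/
def Ric (G : Field n) (x : E n) : Matrix (Fin n) (Fin n) ℝ :=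
  Matrix.of fun i j => ∑ k, Fm G k j x k i

lemma scal_Ric {G : Field n} {U : Set (E n)} (h : SmoothMetric G U) {x : E n} (hx : x ∈ U) :
    scal G x = (((G x)⁻¹).transpose * Ric G x).trace := by
  unfold scal
  rw [Finset.sum_comm]
  unfold Matrix.trace
  refine Finset.sum_congr rfl fun j _ => ?_
  rw [Matrix.diag_apply, Matrix.mul_apply]
  refine Finset.sum_congr rfl fun i _ => ?_
  rw [Matrix.transpose_apply]
  congr 1
  refine Finset.sum_congr rfl fun k _ => ?_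
  have e1 : pd k (chr G k i j) x = Dm k (Gam G j) x k i := by
    refine pd_congr ?_ k
    filter_upwards [h.op.mem_nhds hx] with z hz
    exact h.chr_symm hz k i j
  have e2 : pd j (chr G k i k) x = Dm j (Gam G k) x k i := by
    refine pd_congr ?_ j
    filter_upwards [h.op.mem_nhds hx] with z hz
    exact h.chr_symm hz k i k
  unfold Fm
  rw [Matrix.sub_apply, Matrix.add_apply, Matrix.sub_apply, ← e1, ← e2, Matrix.mul_apply,
    Matrix.mul_apply, Finset.sum_sub_distrib, add_sub_assoc]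
  congr 1
  congr 1
  · refine Finset.sum_congr rfl fun l _ => ?_
    rw [h.chr_symm hx l i j]
    rfl
  · refine Finset.sum_congr rfl fun l _ => ?_
    rw [h.chr_symm hx l i k]
    rfl

namespace Ctx

variable {Φ : E n → E n} {G G' : Field n} {U V : Set (E n)} (h : Ctx Φ G G' U V) {y : E n}
include h

lemma Ric_law (hy : y ∈ V) :
    Ric G' y = (Bm Φ y).transpose * Ric G (Φ y) * Bm Φ y := by
  have hb : IsUnit (Bm Φ y).det := isUnit_iff_ne_zero.2 (h.det y hy)
  have h1 : ∀ k j, Fm G' k j y = (Bm Φ y)⁻¹ *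
      (∑ b, ∑ a, (Bm Φ y b k * Bm Φ y a j) • (Fm G b a (Φ y) * Bm Φ y)) := by
    intro k j
    have h2 := h.curv_law hy k j
    have h3 : Fm G' k j y = (Bm Φ y)⁻¹ * (Bm Φ y * Fm G' k j y) := by
      rw [← Matrix.mul_assoc, Matrix.nonsing_inv_mul _ hb, Matrix.one_mul]
    rw [h3, h2, Matrix.sum_mul]
    congr 1
    refine Finset.sum_congr rfl fun b _ => ?_
    rw [Matrix.sum_mul]
    refine Finset.sum_congr rfl fun a _ => ?_
    rw [Matrix.smul_mul]
  have hbb : ∀ b m, ∑ k, (Bm Φ y) b k * (Bm Φ y)⁻¹ k m = if b = m then 1 else 0 := by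
    intro b m
    rw [← Matrix.mul_apply, Matrix.mul_nonsing_inv _ hb, Matrix.one_apply]
  ext i j
  show ∑ k, Fm G' k j y k i = _
  have h4 : ∀ k, Fm G' k j y k i = ∑ m, ∑ b, ∑ a,
      ((Bm Φ y) b k * (Bm Φ y)⁻¹ k m) * (Bm Φ y a j * (Fm G b a (Φ y) * Bm Φ y) m i) := by
    intro k
    rw [h1, Matrix.mul_apply]
    refine Finset.sum_congr rfl fun m _ => ?_
    rw [Matrix.sum_apply, Finset.mul_sum]
    refine Finset.sum_congr rfl fun b _ => ?_
    rw [Matrix.sum_apply, Finset.mul_sum]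
    refine Finset.sum_congr rfl fun a _ => ?_
    rw [Matrix.smul_apply, smul_eq_mul]
    ring
  simp only [h4]
  have h5 : ∑ k, ∑ m, ∑ b, ∑ a,
      ((Bm Φ y) b k * (Bm Φ y)⁻¹ k m) * (Bm Φ y a j * (Fm G b a (Φ y) * Bm Φ y) m i) =
      ∑ m, ∑ b, ∑ a, (∑ k, (Bm Φ y) b k * (Bm Φ y)⁻¹ k m) *
        (Bm Φ y a j * (Fm G b a (Φ y) * Bm Φ y) m i) := by
    rw [Finset.sum_comm]
    refine Finset.sum_congr rfl fun m _ => ?_
    rw [Finset.sum_comm]
    refine Finset.sum_congr rfl fun b _ => ?_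
    rw [Finset.sum_comm]
    refine Finset.sum_congr rfl fun a _ => ?_
    rw [Finset.sum_mul]
  rw [h5]
  simp only [hbb, ite_mul, one_mul, zero_mul]
  have h6 : ∀ m, ∑ b, ∑ a, (if b = m then Bm Φ y a j * (Fm G b a (Φ y) * Bm Φ y) m i else 0) =
      ∑ a, Bm Φ y a j * (Fm G m a (Φ y) * Bm Φ y) m i := by
    intro m
    rw [Finset.sum_comm]
    refine Finset.sum_congr rfl fun a _ => ?_
    rw [Finset.sum_ite_eq' Finset.univ m]
    simp
  simp only [h6]
  rw [trip (Bm Φ) (fun z => Ric G (Φ z)) (Bm Φ)]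
  show _ = ∑ c, ∑ a, Bm Φ y c i * (∑ k, Fm G k a (Φ y) k c) * Bm Φ y a j
  have h7 : ∀ m a, (Fm G m a (Φ y) * Bm Φ y) m i = ∑ c, Fm G m a (Φ y) m c * Bm Φ y c i :=
    fun m a => Matrix.mul_apply
  simp only [h7]
  calc ∑ m, ∑ a, Bm Φ y a j * ∑ c, Fm G m a (Φ y) m c * Bm Φ y c i
      = ∑ m, ∑ a, ∑ c, Bm Φ y c i * Fm G m a (Φ y) m c * Bm Φ y a j := by
        refine Finset.sum_congr rfl fun m _ => Finset.sum_congr rfl fun a _ => ?_
        rw [Finset.mul_sum]
        exact Finset.sum_congr rfl fun c _ => by ring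
    _ = ∑ m, ∑ c, ∑ a, Bm Φ y c i * Fm G m a (Φ y) m c * Bm Φ y a j :=
        Finset.sum_congr rfl fun m _ => Finset.sum_comm
    _ = ∑ c, ∑ m, ∑ a, Bm Φ y c i * Fm G m a (Φ y) m c * Bm Φ y a j := Finset.sum_comm
    _ = ∑ c, ∑ a, ∑ m, Bm Φ y c i * Fm G m a (Φ y) m c * Bm Φ y a j :=
        Finset.sum_congr rfl fun c _ => Finset.sum_comm
    _ = _ := by
        refine Finset.sum_congr rfl fun c _ => Finset.sum_congr rfl fun a _ => ?_
        rw [Finset.mul_sum, Finset.sum_mul]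

/-- **Naturality of the scalar curvature** -/
lemma scal_law (hy : y ∈ V) : scal G' y = scal G (Φ y) := by
  have hb : IsUnit (Bm Φ y).det := isUnit_iff_ne_zero.2 (h.det y hy)
  have hbt : IsUnit (Bm Φ y).transpose.det := by rwa [Matrix.det_transpose]
  rw [scal_Ric h.hV hy, scal_Ric h.hU (h.maps y hy), h.Ric_law hy]
  have h1 : Bm Φ y * ((G' y)⁻¹ * (Bm Φ y).transpose) = (G (Φ y))⁻¹ := by
    rw [h.pull y hy, Matrix.mul_inv_rev, Matrix.mul_inv_rev, Matrix.mul_assoc, Matrix.mul_assoc,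
      Matrix.nonsing_inv_mul _ hbt, Matrix.mul_one, ← Matrix.mul_assoc,
      Matrix.mul_nonsing_inv _ hb, Matrix.one_mul]
  have h2 : ((G (Φ y))⁻¹).transpose =
      Bm Φ y * (((G' y)⁻¹).transpose * (Bm Φ y).transpose) := by
    rw [← h1, Matrix.transpose_mul, Matrix.transpose_mul, Matrix.transpose_transpose,
      Matrix.mul_assoc]
  rw [h2, ← Matrix.mul_assoc, Matrix.trace_mul_comm]
  simp only [Matrix.mul_assoc]

end Ctx

end Vale.Agent.P366.T2.Pull

namespace Vale.Agent.P366.T2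
open Vale.Agent.P366

variable {n : ℕ}

/-- **Naturality of the scalar curvature.** -/
theorem scal_pull {Φ : E n → E n} {g g' : Stmt.Field n} {x : E n} (hΦ : ContDiffAt ℝ ∞ Φ x)
    (hB : (Matrix.of fun a i => Stmt.pd i (fun y => Φ y a) x).det ≠ 0)
    (hg : ∀ i j, Stmt.Smooth (fun y => g y i j))
    (hs : ∀ᶠ y in 𝓝 (Φ x), ∀ i j, g y i j = g y j i)
    (hd : (Stmt.mat g (Φ x)).det ≠ 0) (hg' : ∀ i j, Stmt.Smooth (fun y => g' y i j))
    (h : ∀ᶠ y in 𝓝 x, ∀ i j, g' y i j = ∑ a, ∑ b, Stmt.pd i (fun z => Φ z a) y *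
      Stmt.pd j (fun z => Φ z b) y * g (Φ y) a b) :
    Stmt.scal g' x = Stmt.scal g (Φ x) := by
  -- the target neighbourhood
  have hcd : ContinuousAt (fun y => (Stmt.mat g y).det) (Φ x) :=
    (Bridge.contDiffAt_det (A := Stmt.mat g) (fun i j => (hg i j).contDiffAt)).continuousAt
  have hU0 : ∀ᶠ y in 𝓝 (Φ x), (∀ i j, g y i j = g y j i) ∧ (Stmt.mat g y).det ≠ 0 :=
    hs.and (hcd.eventually_ne hd)
  obtain ⟨U, hUs, hUo, hxU⟩ := _root_.mem_nhds_iff.1 hU0
  have hU : SmoothMetric (Stmt.mat g) U :=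
    smoothMetric_mat hUo hg (fun y hy => (hUs hy).1) (fun y hy => (hUs hy).2)
  -- the source neighbourhood
  have h3 : ∀ᶠ y in 𝓝 x, ContDiffAt ℝ 3 Φ y :=
    (hΦ.of_le (m := 3) (WithTop.coe_le_coe.2 (le_top (a := (3 : ℕ∞))))).eventually (by norm_num)
  have hpd : ∀ y, ContDiffAt ℝ 3 Φ y → ∀ i a, Stmt.pd i (fun z => Φ z a) y =
      pd i (fun z => Φ z a) y := by
    intro y hy i a
    refine Bridge.pd_eq ?_ i
    have : ContDiffAt ℝ 3 (fun z => Φ z a) y :=
      ((EuclideanSpace.proj (𝕜 := ℝ) a).contDiff (n := 3)).contDiffAt.comp y hy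
    exact this.differentiableAt (by norm_num)
  have hx3 : ContDiffAt ℝ 3 Φ x := h3.self_of_nhds
  have hBx : (Pull.Bm Φ x).det ≠ 0 := by
    have e : Pull.Bm Φ x = Matrix.of fun a i => Stmt.pd i (fun y => Φ y a) x := by
      ext a i
      exact (hpd x hx3 i a).symm
    rwa [e]
  have hcB : ContinuousAt (fun y => (Pull.Bm Φ y).det) x := by
    simp only [Matrix.det_apply']
    refine tendsto_finsetSum _ fun σ _ => ?_
    refine Filter.Tendsto.const_mul _ (tendsto_finsetProd _ fun i _ => ?_)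
    have h1 : ContDiffAt ℝ 3 (fun z => Φ z (σ i)) x :=
      ((EuclideanSpace.proj (𝕜 := ℝ) (σ i)).contDiff (n := 3)).contDiffAt.comp x hx3
    have h2 : ContDiffAt ℝ 2 (fderiv ℝ fun z => Φ z (σ i)) x := h1.fderiv_right (by norm_num)
    have h4 : ContDiffAt ℝ 2 (fun y => fderiv ℝ (fun z => Φ z (σ i)) y
      (EuclideanSpace.single i (1 : ℝ))) x := h2.clm_apply contDiffAt_const
    exact h4.continuousAt
  have hV0 : ∀ᶠ y in 𝓝 x, ContDiffAt ℝ 3 Φ y ∧ (Pull.Bm Φ y).det ≠ 0 ∧ Φ y ∈ U ∧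
      ∀ i j, g' y i j = ∑ a, ∑ b, Stmt.pd i (fun z => Φ z a) y *
        Stmt.pd j (fun z => Φ z b) y * g (Φ y) a b :=
    h3.and ((hcB.eventually_ne hBx).and
      ((hx3.continuousAt.eventually (hUo.mem_nhds hxU)).and h))
  obtain ⟨V, hVs, hVo, hxV⟩ := _root_.mem_nhds_iff.1 hV0
  have hpull : ∀ y ∈ V, Stmt.mat g' y =
      (Pull.Bm Φ y).transpose * Stmt.mat g (Φ y) * Pull.Bm Φ y := by
    intro y hy
    obtain ⟨h1, h2, h4, h5⟩ := hVs hy
    ext i j
    rw [Pull.Ctx.trip (Pull.Bm Φ) (fun z => Stmt.mat g (Φ z)) (Pull.Bm Φ)]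
    show g' y i j = _
    rw [h5 i j]
    refine Finset.sum_congr rfl fun a _ => Finset.sum_congr rfl fun b _ => ?_
    rw [hpd y h1, hpd y h1]
    show pd i (fun z => Φ z a) y * pd j (fun z => Φ z b) y * g (Φ y) a b =
      pd i (fun z => Φ z a) y * g (Φ y) a b * pd j (fun z => Φ z b) y
    ring
  have hV : SmoothMetric (Stmt.mat g') V := by
    refine smoothMetric_mat hVo hg' (fun y hy i j => ?_) (fun y hy => ?_)
    · have h1 := hpull y hy
      have h2 : (Stmt.mat g' y).transpose = Stmt.mat g' y := by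
        have h4 : (Stmt.mat g (Φ y)).transpose = Stmt.mat g (Φ y) := by
          ext a b
          exact (hUs (hVs hy).2.2.1).1 b a
        rw [h1, Matrix.transpose_mul, Matrix.transpose_mul, Matrix.transpose_transpose, h4,
          Matrix.mul_assoc]
      have h5 := congrFun (congrFun h2 j) i
      exact h5
    · rw [hpull y hy, Matrix.det_mul, Matrix.det_mul, Matrix.det_transpose]
      have h1 := (hVs hy).2.1
      have h2 := (hUs (hVs hy).2.2.1).2
      exact mul_ne_zero (mul_ne_zero h1 h2) h1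
  have hc : Pull.Ctx Φ (Stmt.mat g) (Stmt.mat g') U V :=
    ⟨hU, hV, fun y hy => (hVs hy).2.2.1, fun y hy => (hVs hy).1, fun y hy => (hVs hy).2.1, hpull⟩
  rw [Bridge.scal_eq hg (hU.det _ hxU), Bridge.scal_eq hg' (hV.det _ hxV)]
  exact hc.scal_law hxV

end Vale.Agent.P366.T2
end
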