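import Vale.Agent.P366.T2.Up
import Mathlib.Analysis.SpecialFunctions.SmoothTransition

/-! Every set of coefficient functions is realized by smooth fields. -/

open MeasureTheory Metric Filter Topology Set
open scoped ContDiff ENNReal

noncomputable section
namespace Vale.Agent.P366.T2
open Vale.Agent.P366.Stmt

variable {n : ℕ}

/-- a smooth cutoff vanishing on `r ≤ R / 2` and equal to one on `R ≤ r` -/
def cut (R r : ℝ) : ℝ := Real.smoothTransition ((r - R / 2) / (R / 2))

lemma cut_smooth (R : ℝ) : ContDiff ℝ ∞ (cut R) :=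
  Real.smoothTransition.contDiff.comp ((contDiff_id.sub contDiff_const).div_const _)

lemma cut_zero {R r : ℝ} (hR : 0 < R) (hr : r ≤ R / 2) : cut R r = 0 := by
  unfold cut
  exact Real.smoothTransition.zero_of_nonpos
    (div_nonpos_of_nonpos_of_nonneg (by linarith) (by linarith))

lemma cut_one {R r : ℝ} (hR : 0 < R) (hr : R ≤ r) : cut R r = 1 := by
  unfold cut
  refine Real.smoothTransition.one_of_one_le ?_
  rw [one_le_div (by linarith)]
  linarith

lemma contDiffAt_radial {f : ℝ → ℝ} (hf : ContDiff ℝ ∞ f) {x : E n} (hx : x ≠ 0) :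
    ContDiffAt ℝ ∞ (fun y : E n => f (len y)) x :=
  hf.contDiffAt.comp x (contDiffAt_norm ℝ hx)

lemma contDiff_coord (i : Fin n) : ContDiff ℝ ∞ (fun y : E n => y i) :=
  (EuclideanSpace.proj (𝕜 := ℝ) i).contDiff

lemma contDiff_Y (Q : Quat n) (a : Fin 3) (i : Fin n) : ContDiff ℝ ∞ (fun y : E n => Q.Y a y i) := by
  unfold Quat.Y
  exact ContDiff.sum fun j _ => contDiff_const.mul (contDiff_coord j)

lemma contDiffAt_ten (Q : Quat n) {f u : ℝ → ℝ} {w : Fin 3 → ℝ → ℝ} {s : Fin 3 → Fin 3 → ℝ → ℝ}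
    (hf : ContDiff ℝ ∞ f) (hu : ContDiff ℝ ∞ u) (hw : ∀ a, ContDiff ℝ ∞ (w a))
    (hs : ∀ a b, ContDiff ℝ ∞ (s a b)) {x : E n} (hx : x ≠ 0) (i j : Fin n) :
    ContDiffAt ℝ ∞ (fun y => Q.ten f u w s y i j) x := by
  have hr : len x ^ 2 ≠ 0 := pow_ne_zero 2 (by simp [len, hx])
  have h2 : ContDiffAt ℝ ∞ (fun y : E n => len y ^ 2) x := (contDiffAt_norm ℝ hx).pow 2
  have hc : ∀ i, ContDiffAt ℝ ∞ (fun y : E n => y i) x := fun i => (contDiff_coord i).contDiffAt
  have hY : ∀ a i, ContDiffAt ℝ ∞ (fun y : E n => Q.Y a y i) x := fun a i =>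
    (contDiff_Y Q a i).contDiffAt
  unfold Quat.ten
  refine ((contDiffAt_radial hf hx).mul (contDiffAt_const.sub (ContDiffAt.div
    (((hc i).mul (hc j)).add (ContDiffAt.sum fun a _ => (hY a i).mul (hY a j))) h2 hr))).add
    (ContDiffAt.div ?_ h2 hr)
  exact ((((contDiffAt_radial hu hx).mul (hc i)).mul (hc j)).add
    (ContDiffAt.sum fun a _ => (contDiffAt_radial (hw a) hx).mul
      (((hc i).mul (hY a j)).add ((hY a i).mul (hc j))))).add
    (ContDiffAt.sum fun a _ => ContDiffAt.sum fun b _ =>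
      ((contDiffAt_radial (hs a b) hx).mul (hY a i)).mul (hY b j))

lemma smooth_cut_ten (Q : Quat n) {R : ℝ} (hR : 0 < R) {f u : ℝ → ℝ} {w : Fin 3 → ℝ → ℝ}
    {s : Fin 3 → Fin 3 → ℝ → ℝ}
    (hf : ContDiff ℝ ∞ f) (hu : ContDiff ℝ ∞ u) (hw : ∀ a, ContDiff ℝ ∞ (w a))
    (hs : ∀ a b, ContDiff ℝ ∞ (s a b)) (i j : Fin n) :
    Smooth (fun y => cut R (len y) * Q.ten f u w s y i j) := by
  unfold Smooth
  rw [contDiff_iff_contDiffAt]
  intro x
  by_cases hx : x = 0
  · have h1 : (fun y => cut R (len y) * Q.ten f u w s y i j) =ᶠ[𝓝 x] fun _ => 0 := by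
      filter_upwards [Metric.ball_mem_nhds x (show 0 < R / 2 by linarith)] with y hy
      have h2 : len y < R / 2 := by
        rw [hx] at hy
        simpa [len] using hy
      rw [cut_zero hR h2.le, zero_mul]
    exact contDiffAt_const.congr_of_eventuallyEq h1
  · exact (contDiffAt_radial (cut_smooth R) hx).mul (contDiffAt_ten Q hf hu hw hs hx i j)

/-- **Block [N3]**: the coefficient functions are realized by smooth fields. -/
theorem exists_fits (D : Data n) : ∃ g K : Stmt.Field n, Fits D g K := by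
  refine ⟨fun x i j => cut D.R (len x) * D.Q.ten D.al D.p (fun _ _ => 0) D.q x i j,
    fun x i j => cut D.R (len x) * D.Q.ten D.ka D.kn D.v D.s x i j, ?_, ?_, ?_⟩
  · intro i j
    exact ⟨smooth_cut_ten D.Q D.hR D.al_smooth D.p_smooth (fun _ => contDiff_const)
      D.q_smooth i j, smooth_cut_ten D.Q D.hR D.ka_smooth D.kn_smooth D.v_smooth D.s_smooth i j⟩
  · intro x hx i j
    simp only [cut_one D.hR hx, one_mul]
  · intro x hx i j
    simp only [cut_one D.hR hx, one_mul]

end Vale.Agent.P366.T2
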