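import Vale.Agent.P366.T2.N6
import Vale.Agent.P366.T2.N1
import Vale.Agent.P366.T2.N3
import Vale.Agent.P366.T2.A765.Scal

/-!
# The scalar curvature of invariant metrics with shift
-/

open MeasureTheory Metric Filter Topology Set
open scoped ContDiff ENNReal

noncomputable section
namespace Vale.Agent.P366.T2
open Vale.Agent.P366.Stmt

variable {n : ℕ}

/-- **The scalar curvature of `Sp(m)`-invariant metrics, with shift.** -/
theorem scal_eqM (D : Data n) {be : Fin 3 → ℝ → ℝ} {g K : Field n} (h : FitsM D be g K) {x : E n}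
    (hx : D.R < len x) : Stmt.scal g x = D.RgM be (len x) := by
  obtain ⟨D', y0, yv, δ, hQ, hR', hrot, hs0, hsv⟩ := exists_rotData D h.be_smooth hx
  obtain ⟨g', K', h'⟩ := exists_fits D'
  have hx0 : x ≠ 0 := len_pos_of hx.le
  have hr : 0 < len x := D.hR.trans hx
  set Φ : E n → E n := D.Q.Ph y0 yv with hΦdef
  have hΦx : Φ x = x := by
    ext i
    rw [hΦdef, D.Q.Ph_apply, hrot.one]
    simp [hrot.zero]
  have hcont : Continuous (fun y : E n => len y) := continuous_norm
  have hnear : ∀ᶠ y in 𝓝 x, len y ∈ Ioo (len x - δ) (len x + δ) :=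
    hcont.continuousAt.eventually (isOpen_Ioo.mem_nhds hrot.mem)
  have hy0 : ∀ y : E n, len y ∈ Ioo (len x - δ) (len x + δ) → y ≠ 0 := fun y hy =>
    len_pos_of (hrot.hR _ hy).1.le
  have hpd : ∀ y : E n, len y ∈ Ioo (len x - δ) (len x + δ) → ∀ i a,
      Stmt.pd i (fun z => Φ z a) y = D.Q.rt4 (y0 (len y)) (fun a => yv a (len y)) a i -
      (∑ d, be d (len y) * D.Q.Y d (Φ y) a) * y i / len y ^ 2 := fun y hy i a =>
    (D.Q.HP_Ph (fun a => be a (len y)) (hy0 y hy) (hrot.d0 _ hy) (hrot.dv _ hy) i a).pd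
  have hpull : ∀ y : E n, len y ∈ Ioo (len x - δ) (len x + δ) → ∀ i j, g' y i j =
      ∑ a, ∑ b, Stmt.pd i (fun z => Φ z a) y * Stmt.pd j (fun z => Φ z b) y * g (Φ y) a b := by
    intro y hy i j
    have hlen : len (Φ y) = len y :=
      Quat.rt4_len (Q := D.Q) (c := y0 (len y)) (v := fun a => yv a (len y)) (x := y) (y := Φ y)
        (fun i => rfl) (hrot.unit _ hy)
    have h1 : g' y i j = D.Q.ten D.al D.p (fun _ _ => 0) D'.q y i j := by
      rw [h'.hg y (hrot.hR _ hy).2.le, hQ]
      unfold Quat.ten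
      rw [hrot.al _ hy, hrot.p _ hy]
    rw [h1, ← Quat.pull_tenM (Q := D.Q) (c := y0 (len y)) (v := fun a => yv a (len y)) (x := y)
      (y := Φ y) (fun i => rfl) (hrot.unit _ hy) be D.al D.p D.q D'.q (hy0 y hy)
      (fun a b => hrot.q _ hy a b) i j]
    refine Finset.sum_congr rfl fun a _ => Finset.sum_congr rfl fun b _ => ?_
    rw [hpd y hy, hpd y hy, h.hg (Φ y) (by rw [hlen]; exact (hrot.hR _ hy).1.le)]
  have hΦs : ContDiffAt ℝ ∞ Φ x := by
    rw [contDiffAt_euclidean]
    intro i
    have e : (fun y => Φ y i) = fun y => y0 (len y) * y i + ∑ b, yv b (len y) * D.Q.Y b y i := by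
      funext y; exact D.Q.Ph_apply y0 yv y i
    rw [e]
    have hl : ContDiffAt ℝ ∞ (fun y : E n => len y) x := contDiffAt_norm ℝ hx0
    have hc : ∀ i, ContDiffAt ℝ ∞ (fun y : E n => y i) x := fun i => by
      have : ContDiff ℝ ∞ (fun y : E n => y i) := contDiff_piLp_apply (𝕜 := ℝ) (p := 2) (i := i)
      exact this.contDiffAt
    have hY : ∀ b i, ContDiffAt ℝ ∞ (fun y : E n => D.Q.Y b y i) x := fun b i => by
      unfold Quat.Y
      exact ContDiffAt.sum fun j _ => contDiffAt_const.mul (hc j)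
    have hI := isOpen_Ioo.mem_nhds hrot.mem
    have h0 : ContDiffAt ℝ ∞ (fun y : E n => y0 (len y)) x :=
      (hs0.contDiffAt hI).comp x hl
    have hv : ∀ b, ContDiffAt ℝ ∞ (fun y : E n => yv b (len y)) x := fun b =>
      ((hsv b).contDiffAt hI).comp x hl
    exact (h0.mul (hc i)).add (ContDiffAt.sum fun b _ => (hv b).mul (hY b i))
  have hd : (mat g x).det ≠ 0 := by
    have h1 := congrArg Matrix.det (gM_mul_UM h hx.le)
    rw [Matrix.det_mul, Matrix.det_one] at h1
    exact left_ne_zero_of_mul_eq_one h1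
  have hd' : (mat g' x).det ≠ 0 := by
    have h1 := congrArg Matrix.det (g_mul_U h' (by rw [hR']; exact hx.le))
    rw [Matrix.det_mul, Matrix.det_one] at h1
    exact left_ne_zero_of_mul_eq_one h1
  have hB : (Matrix.of fun a i => Stmt.pd i (fun y => Φ y a) x).det ≠ 0 := by
    set B : Matrix (Fin n) (Fin n) ℝ := Matrix.of fun a i => Stmt.pd i (fun y => Φ y a) x with hBd
    have h1 : mat g' x = B.transpose * mat g x * B := by
      ext i j
      rw [Matrix.mul_apply]
      simp only [Matrix.mul_apply, Matrix.transpose_apply, Finset.sum_mul]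
      rw [show mat g' x i j = g' x i j from rfl, hpull x hrot.mem i j, hΦx, Finset.sum_comm]
      refine Finset.sum_congr rfl fun b _ => Finset.sum_congr rfl fun a _ => ?_
      rw [hBd, Matrix.of_apply, Matrix.of_apply, show mat g x a b = g x a b from rfl]
      ring
    intro h0
    apply hd'
    rw [h1, Matrix.det_mul, h0, mul_zero]
  have hsym : ∀ᶠ y in 𝓝 (Φ x), ∀ i j, g y i j = g y j i := by
    rw [hΦx]
    filter_upwards [hnear] with y hy i j
    have hy' := (hrot.hR _ hy).1.le
    rw [gM_ten h hy', gM_ten h hy']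
    exact D.Q.ten_symm _ _ _ _ D.q_symm y i j
  have key := scal_pull (Φ := Φ) (g := g) (g' := g') (x := x) hΦs hB (fun i j => (h.smooth i j).1)
    hsym (by rw [hΦx]; exact hd) (fun i j => (h'.smooth i j).1)
    (by filter_upwards [hnear] with y hy; exact hpull y hy)
  rw [hΦx] at key
  rw [← key, scal_eq D' h' (by rw [hR']; exact hx), hrot.Rg hr.ne']

end Vale.Agent.P366.T2
end
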