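import Vale.Agent.P366.T2.Final
import Vale.Agent.P366.T2.N7
import Vale.Agent.P366.T2.MKey
import Vale.Agent.P366.T2.MB
import Vale.Agent.P366.T2.MC1
import Vale.Agent.P366.T2.MC2
import Vale.Agent.P366.T2.ME
import Vale.Agent.P366.T2.MInv

open MeasureTheory Metric Filter Topology Set
open scoped BigOperators ENNReal ContDiff

noncomputable section
namespace Vale.Agent.P366.T2

variable {n : ℕ}

theorem assembleM (hn : 4 ≤ n) (D : Data n) {be : Fin 3 → ℝ → ℝ} {X : Stmt.Exterior n}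
    (h : FitsM D be X.g X.K)
    (hR : IsGreatest {r | ∃ x, X.F x = 0 ∧ Stmt.len x = r} D.R)
    (hdec : ∀ r, D.R < r → |D.JNM be r| ≤ D.muM be r) (h0 : D.H D.R + D.k D.R ≤ 0)
    (hinf : ∀ᶠ r in atTop, |D.k r| < D.H r) {m : ℝ}
    (hm : Tendsto D.mass atTop (𝓝 (2 * m))) {P : Fin n → ℝ} (hP : P = 0) :
    X.Amin ≠ ⊤ ∧ √(∑ i, P i ^ 2) < m ∧
    (X.Amin.toReal / Stmt.omega n) ^ (((n : ℝ) - 2) / (n - 1)) / 2 ≤
      √(m ^ 2 - ∑ i, P i ^ 2) := by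
  obtain ⟨r, hr, hle⟩ := D.keyM be hn hdec h0 hinf hm
  have hρ : 0 < D.rho r := D.rho_pos hr
  refine conclude (by omega) hP hρ ?_ hle
  have hA := Amin_leM D hn h hR hr
  have hn1 : (n : ℝ) - 1 ≠ 0 := by
    have : (4 : ℝ) ≤ n := by exact_mod_cast hn
    linarith
  have : D.rho r ^ ((n : ℝ) - 1) = D.ar r := by
    unfold Data.rho
    rw [← Real.rpow_mul (D.ar_pos hr).le]
    rw [one_div, inv_mul_cancel₀ hn1, Real.rpow_one]
  rw [this]
  exact hA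

/-- The spacetime Penrose inequality for data given by coefficient functions, with shift, outside a
ball. -/
theorem penrose_fitsM (D : Data n) {be : Fin 3 → ℝ → ℝ} {X : Stmt.Exterior n}
    (h : FitsM D be X.g X.K) (hAF : X.IsAF)
    (hDEC : X.DEC) (hT : X.Trapped) {m : ℝ} {P : Fin n → ℝ} (hm : X.IsEnergy m)
    (hP : X.IsMomentum P) (hR : IsGreatest {r | ∃ x, X.F x = 0 ∧ Stmt.len x = r} D.R) :
    P = 0 ∧ X.Amin ≠ ⊤ ∧ √(∑ i, P i ^ 2) < m ∧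
    (X.Amin.toReal / Stmt.omega n) ^ (((n : ℝ) - 2) / (n - 1)) / 2 ≤
      √(m ^ 2 - ∑ i, P i ^ 2) := by
  obtain ⟨x0, hx0⟩ := X.bdry
  obtain ⟨i0, -⟩ := X.dom.2.1 x0 hx0
  have hn : 4 ≤ n := D.Q.four_le i0.pos
  obtain ⟨h1, h2, h3⟩ := asymptM D h hAF hm hP
  have hout := Vale.Agent.C92.outside_nonneg (by omega) X hR
  refine ⟨h3, assembleM hn D h hR ?_ (touchM D h hT hR) h2 h1 h3⟩
  intro r hr
  have hr0 : 0 < r := D.hR.trans hr
  set x : E n := EuclideanSpace.single ⟨0, by omega⟩ r with hxdef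
  have hx : Stmt.len x = r := by
    rw [hxdef, Stmt.len, PiLp.norm_single, Real.norm_eq_abs, abs_of_pos hr0]
  have hx' : D.R < Stmt.len x := by rw [hx]; exact hr
  have := dec_eqM h hx' (hDEC x (hout x hx'.le)) (scal_eqM D h hx')
  rwa [hx] at this

/-- **The spacetime Penrose inequality for `Sp(m)`-invariant data.** -/
theorem penrose_spM (Q : Quat n) {X : Stmt.Exterior n} (hAF : X.IsAF)
    (hDEC : X.DEC) (hT : X.Trapped) {m : ℝ} {P : Fin n → ℝ} (hm : X.IsEnergy m)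
    (hP : X.IsMomentum P) {R₁ : ℝ} (hR : IsGreatest {r | ∃ x, X.F x = 0 ∧ Stmt.len x = r} R₁)
    (hg : Q.Invariant R₁ X.g) (hK : Q.Invariant R₁ X.K) :
    P = 0 ∧ X.Amin ≠ ⊤ ∧ √(∑ i, P i ^ 2) < m ∧
    (X.Amin.toReal / Stmt.omega n) ^ (((n : ℝ) - 2) / (n - 1)) / 2 ≤
      √(m ^ 2 - ∑ i, P i ^ 2) := by
  obtain ⟨x0, hx0⟩ := X.bdry
  obtain ⟨i0, -⟩ := X.dom.2.1 x0 hx0
  have hn : 4 ≤ n := Q.four_le i0.pos
  have hR1 : 0 < R₁ :=
    (Bridge.toRaw X).R1_pos (by omega) (Bridge.raw_R1 X hR)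
  have hout := Vale.Agent.C92.outside_nonneg (by omega) X hR
  obtain ⟨D, be, rfl, -, hfit⟩ := fitsM_of_invariant (by omega) Q hR1 X.smooth X.symm
    (fun x hx => X.pos x (hout x hx)) hg.inv hK.inv
  exact penrose_fitsM D hfit hAF hDEC hT hm hP hR

end Vale.Agent.P366.T2
end
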