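import Vale.Agent.P366.MathlibUsed
import Mathlib.LinearAlgebra.Matrix.SchurComplement
import Mathlib.LinearAlgebra.Matrix.PosDef

/-! Algebra of matrices `f • 1 + U (S - f • 1) Uᵀ` where the columns of `U` are orthonormal. -/

set_option linter.unusedSectionVars false

noncomputable section
namespace Vale.Agent.C92.Frame

open Matrix

variable {ι κ : Type*} [Fintype ι] [DecidableEq ι] [Fintype κ] [DecidableEq κ]

/-- The symmetric operator that is `S` on the span of the orthonormal frame given by the columns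
of `U` and `f` on its orthogonal complement. -/
def ten (U : Matrix ι κ ℝ) (f : ℝ) (S : Matrix κ κ ℝ) : Matrix ι ι ℝ :=
  f • 1 + U * (S - f • 1) * Uᵀ

variable {U : Matrix ι κ ℝ} (hU : Uᵀ * U = 1)

include hU in
theorem ten_mul (f f' : ℝ) (S S' : Matrix κ κ ℝ) :
    ten U f S * ten U f' S' = ten U (f * f') (S * S') := by
  unfold ten
  have h1 : U * (S - f • (1 : Matrix κ κ ℝ)) * Uᵀ * (U * (S' - f' • (1 : Matrix κ κ ℝ)) * Uᵀ) =
      U * ((S - f • (1 : Matrix κ κ ℝ)) * (S' - f' • (1 : Matrix κ κ ℝ))) * Uᵀ := by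
    calc _ = U * (S - f • (1 : Matrix κ κ ℝ)) * (Uᵀ * U) * (S' - f' • (1 : Matrix κ κ ℝ)) * Uᵀ := by
          simp only [Matrix.mul_assoc]
      _ = _ := by rw [hU, Matrix.mul_one]; simp only [Matrix.mul_assoc]
  rw [add_mul, mul_add, mul_add, h1]
  have h2 : (S * S' - (f * f') • (1 : Matrix κ κ ℝ)) =
      (S - f • (1 : Matrix κ κ ℝ)) * (S' - f' • (1 : Matrix κ κ ℝ)) +
        f • (S' - f' • (1 : Matrix κ κ ℝ)) + f' • (S - f • (1 : Matrix κ κ ℝ)) := by
    simp only [sub_mul, mul_sub, smul_sub, smul_mul_assoc, mul_smul_comm, Matrix.one_mul,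
      Matrix.mul_one, smul_smul]
    rw [mul_comm f' f]
    abel
  rw [h2]
  simp only [Matrix.mul_add, Matrix.add_mul, Matrix.mul_smul, Matrix.smul_mul, Matrix.mul_one,
    Matrix.one_mul, smul_smul]
  rw [mul_comm f' f]
  abel

theorem ten_one : ten U 1 1 = 1 := by
  unfold ten
  simp

theorem ten_add (f f' : ℝ) (S S' : Matrix κ κ ℝ) :
    ten U f S + ten U f' S' = ten U (f + f') (S + S') := by
  unfold ten
  have h2 : (S + S' - (f + f') • (1 : Matrix κ κ ℝ)) =
      (S - f • (1 : Matrix κ κ ℝ)) + (S' - f' • (1 : Matrix κ κ ℝ)) := by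
    rw [add_smul]; abel
  rw [h2, add_smul, Matrix.mul_add, Matrix.add_mul]
  abel

theorem ten_smul (c f : ℝ) (S : Matrix κ κ ℝ) : c • ten U f S = ten U (c * f) (c • S) := by
  unfold ten
  have h2 : (c • S - (c * f) • (1 : Matrix κ κ ℝ)) = c • (S - f • (1 : Matrix κ κ ℝ)) := by
    rw [smul_sub, smul_smul]
  rw [h2, smul_add, smul_smul, Matrix.mul_smul, Matrix.smul_mul]

theorem ten_transpose (f : ℝ) (S : Matrix κ κ ℝ) : (ten U f S)ᵀ = ten U f Sᵀ := by
  unfold ten
  simp only [transpose_add, transpose_smul, transpose_one, transpose_mul, transpose_transpose,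
    transpose_sub, Matrix.mul_assoc]

include hU in
theorem trace_ten (f : ℝ) (S : Matrix κ κ ℝ) :
    (ten U f S).trace = ((Fintype.card ι : ℝ) - Fintype.card κ) * f + S.trace := by
  unfold ten
  rw [trace_add, trace_smul, trace_one, Matrix.trace_mul_comm, ← Matrix.mul_assoc, hU,
    Matrix.one_mul, trace_sub, trace_smul, trace_one]
  simp only [smul_eq_mul]
  ring

include hU in
theorem ten_inv {f : ℝ} {S : Matrix κ κ ℝ} (hf : f ≠ 0) (hS : S.det ≠ 0) :
    (ten U f S)⁻¹ = ten U f⁻¹ S⁻¹ := by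
  apply inv_eq_right_inv
  rw [ten_mul hU, mul_inv_cancel₀ hf, Matrix.mul_nonsing_inv _ (isUnit_iff_ne_zero.2 hS), ten_one]

include hU in
theorem det_ten (f : ℝ) (hf : f ≠ 0) (S : Matrix κ κ ℝ) (m : ℕ)
    (hm : Fintype.card ι = Fintype.card κ + m) :
    (ten U f S).det = f ^ m * S.det := by
  have h1 : ten U f S = f • (1 + U * ((f⁻¹ • S - 1) * Uᵀ)) := by
    unfold ten
    rw [smul_add, ← Matrix.mul_smul, ← Matrix.smul_mul, smul_sub, smul_smul, mul_inv_cancel₀ hf,
      one_smul, Matrix.mul_assoc]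
  rw [h1, det_smul, det_one_add_mul_comm, Matrix.mul_assoc, hU, Matrix.mul_one,
    show (1 + (f⁻¹ • S - 1) : Matrix κ κ ℝ) = f⁻¹ • S by abel, det_smul, hm, pow_add]
  have : f ^ Fintype.card κ * f ^ m * (f⁻¹ ^ Fintype.card κ * S.det) =
    (f * f⁻¹) ^ Fintype.card κ * (f ^ m * S.det) := by rw [mul_pow]; ring
  rw [this, mul_inv_cancel₀ hf, one_pow, one_mul]

end Vale.Agent.C92.Frame
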