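import Mathlib

/-!
T2, block D1: the Hamilton-Jacobi (Hijazi) inequality for `Sp(m)`-invariant leaves.
-/

namespace Vale.Agent.P366.T2

/-- discriminant argument -/
theorem hj_poly {b x E1 E2 E3 : ℝ} (hb : 0 ≤ b) (hx : 0 ≤ x) (h1 : 0 < E1) (h2 : 0 < E2)
    (h3 : 0 < E3) (h12 : 3 * E2 ≤ E1 ^ 2) (h23 : 3 * (E1 * E3) ≤ E2 ^ 2) :
    0 ≤ (b + 12) * E1 + (b + 12) * (E1 * E2 - 15 * E3) * x +
      (16 * E1 ^ 2 + (b - 36) * E2) * E3 * x ^ 2 := by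
  have he : 9 * E3 ≤ E1 * E2 := by
    have h : 9 * E3 * (E1 * E2) ≤ (E1 * E2) * (E1 * E2) := by
      have := mul_le_mul h12 h23 (by positivity) (by positivity)
      nlinarith
    exact le_of_mul_le_mul_right h (by positivity)
  by_cases hc : 15 * E3 ≤ E1 * E2
  · have : 0 ≤ 16 * E1 ^ 2 + (b - 36) * E2 := by nlinarith
    have h4 : 0 ≤ (b + 12) * (E1 * E2 - 15 * E3) * x :=
      mul_nonneg (mul_nonneg (by linarith) (by linarith)) hx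
    positivity
  · push Not at hc
    -- multiply by `4 * C2` and complete the square; lower `C2` first
    have hC2 : (b + 12) * E2 * E3 ≤ (16 * E1 ^ 2 + (b - 36) * E2) * E3 := by
      have : (b + 12) * E2 ≤ 16 * E1 ^ 2 + (b - 36) * E2 := by nlinarith
      exact mul_le_mul_of_nonneg_right this h3.le
    have hx2 : 0 ≤ x ^ 2 := sq_nonneg x
    have hred : (b + 12) * (E1 + (E1 * E2 - 15 * E3) * x + E2 * E3 * x ^ 2) ≤
        (b + 12) * E1 + (b + 12) * (E1 * E2 - 15 * E3) * x +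
      (16 * E1 ^ 2 + (b - 36) * E2) * E3 * x ^ 2 := by
      nlinarith [mul_le_mul_of_nonneg_right hC2 hx2]
    refine le_trans (mul_nonneg (by linarith) ?_) hred
    -- discriminant: (E1 E2 - 15 E3)^2 ≤ 4 E1 E2 E3
    have hdisc : (E1 * E2 - 15 * E3) ^ 2 ≤ 4 * (E1 * (E2 * E3)) := by
      nlinarith [mul_nonneg (sub_nonneg.2 he) (by linarith : (0:ℝ) ≤ 25 * E3 - E1 * E2)]
    have hpos : 0 < E2 * E3 := by positivity
    have : 0 ≤ 4 * (E2 * E3) * (E1 + (E1 * E2 - 15 * E3) * x + E2 * E3 * x ^ 2) := by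
      nlinarith [sq_nonneg (2 * (E2 * E3) * x + (E1 * E2 - 15 * E3))]
    exact nonneg_of_mul_nonneg_right this (by positivity)

/-- the weight (Dirac eigenvalue) of the leaf in terms of the invariants of the root `P` of the
fibre metric and `x = B ^ (-2)` -/
noncomputable def lam (b x E1 E2 E3 : ℝ) : ℝ :=
  (E1 ^ 2 - 2 * E2) / (2 * E3) + b / 12 * (E2 / E3) + b / 12 * x * E1

/-- scalar curvature of the leaf -/
noncomputable def leafScal (b x E1 E2 E3 : ℝ) : ℝ :=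
  b * (b + 8) * x + (2 * (E1 ^ 2 - 2 * E2) ^ 2 -
    4 * (E1 ^ 4 - 4 * E1 ^ 2 * E2 + 2 * E2 ^ 2 + 4 * E1 * E3)) / E3 ^ 2 -
    b * (E1 ^ 2 - 2 * E2) * x ^ 2

/-- squared norm of the full gradient `(Λ, μ)` of the weight -/
noncomputable def gradSq (b x E1 E2 E3 : ℝ) : ℝ :=
  (E1 ^ 4 - 4 * E1 ^ 2 * E2 + 2 * E2 ^ 2 + 4 * E1 * E3) / E3 ^ 2 -
    (E1 ^ 2 - 2 * E2) ^ 2 / (4 * E3 ^ 2) + b ^ 2 / 144 * ((E2 ^ 2 - 2 * E1 * E3) / E3 ^ 2) +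
    b ^ 2 / 144 * x ^ 2 * (E1 ^ 2 - 2 * E2) - b / 6 * (E1 / E3) +
    b / 6 * x / E3 * (E1 ^ 3 - 3 * E1 * E2 + 3 * E3) +
    b / 12 * ((E1 ^ 2 - 2 * E2) / E3) * (E2 / E3) - b / 12 * ((E1 ^ 2 - 2 * E2) / E3) * x * E1 -
    b ^ 2 / 24 * x + b * (x * E1 / 6) ^ 2

theorem hj_identity {b x E1 E2 E3 : ℝ} (h3 : E3 ≠ 0) :
    lam b x E1 E2 E3 ^ 2 - gradSq b x E1 E2 E3 - leafScal b x E1 E2 E3 / 4 =
      b / (72 * E3) * ((b + 12) * E1 + (b + 12) * (E1 * E2 - 15 * E3) * x +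
      (16 * E1 ^ 2 + (b - 36) * E2) * E3 * x ^ 2) := by
  unfold lam gradSq leafScal
  field_simp
  ring

theorem hj {b x E1 E2 E3 : ℝ} (hb : 0 ≤ b) (hx : 0 ≤ x) (h1 : 0 < E1) (h2 : 0 < E2)
    (h3 : 0 < E3) (h12 : 3 * E2 ≤ E1 ^ 2) (h23 : 3 * (E1 * E3) ≤ E2 ^ 2) :
    leafScal b x E1 E2 E3 / 4 + gradSq b x E1 E2 E3 ≤ lam b x E1 E2 E3 ^ 2 := by
  have := hj_identity (b := b) (x := x) (E1 := E1) (E2 := E2) h3.ne'
  have h := hj_poly hb hx h1 h2 h3 h12 h23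
  have h' : 0 ≤ b / (72 * E3) * ((b + 12) * E1 + (b + 12) * (E1 * E2 - 15 * E3) * x +
      (16 * E1 ^ 2 + (b - 36) * E2) * E3 * x ^ 2) := mul_nonneg (by positivity) h
  linarith

end Vale.Agent.P366.T2
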