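import Vale.Agent.P366.T2.MDefs
import Vale.Agent.P366.T2.B68n

open MeasureTheory Metric Filter Topology Set
open scoped ContDiff ENNReal

noncomputable section
namespace Vale.Agent.M68
open Vale.Agent.P366.Stmt Vale.Agent.P366.T2 Vale.Agent.P366.T2.B68

variable {n : ℕ}

variable {D : Data n} {be : Fin 3 → ℝ → ℝ} {g K : Field n}

lemma tenM_nt (Q : Quat n) (be : Fin 3 → ℝ → ℝ) (f u : ℝ → ℝ) (w : Fin 3 → ℝ → ℝ)
    (s : Fin 3 → Fin 3 → ℝ → ℝ) (x : E n) (i j : Fin n) :
    Q.tenM be f u w s x i j = nt Q (f (len x))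
      (u (len x) + 2 * ∑ a, w a (len x) * be a (len x) +
        ∑ a, ∑ b, s a b (len x) * be a (len x) * be b (len x))
      (fun b => w b (len x) + ∑ a, s a b (len x) * be a (len x))
      (fun a => w a (len x) + ∑ b, s a b (len x) * be b (len x))
      (fun a b => s a b (len x)) x i j := by
  unfold Quat.tenM nt Quat.Z Quat.Pi
  simp only [Fin.sum_univ_three]
  ring

lemma nt_one (Q : Quat n) {x : E n} (hx : x ≠ 0) (i j : Fin n) :
    nt Q 1 1 (fun _ => 0) (fun _ => 0) (fun a b => if a = b then 1 else 0) x i j =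
      if i = j then 1 else 0 := by
  have hr : len x ≠ 0 := len_ne hx
  unfold nt Quat.Pi
  simp only [Fin.sum_univ_three, if_true, show ¬ ((0 : Fin 3) = 2) by decide,
    show ¬ ((2 : Fin 3) = 0) by decide,
    show ¬ ((1 : Fin 3) = 2) by decide, show ¬ ((2 : Fin 3) = 1) by decide,
    show ¬ ((1 : Fin 3) = 0) by decide, show ¬ ((0 : Fin 3) = 1) by decide, if_false]
  field_simp
  ring

/-- the inverse metric -/
def UM (D : Data n) (be : Fin 3 → ℝ → ℝ) (x : E n) (i j : Fin n) : ℝ :=
  nt D.Q (1 / D.al (len x)) (1 / D.p (len x)) (fun a => -be a (len x) / D.p (len x))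
    (fun a => -be a (len x) / D.p (len x))
    (fun a b => D.iq (len x) a b + be a (len x) * be b (len x) / D.p (len x)) x i j

lemma g_ntM (h : FitsM D be g K) {x : E n} (hx : D.R ≤ len x) (i j : Fin n) :
    g x i j = nt D.Q (D.al (len x))
      (D.p (len x) + ∑ a, ∑ b, D.q a b (len x) * be a (len x) * be b (len x))
      (fun b => ∑ a, D.q a b (len x) * be a (len x))
      (fun a => ∑ b, D.q a b (len x) * be b (len x))
      (fun a b => D.q a b (len x)) x i j := by
  rw [h.hg x hx, tenM_nt]
  simp only [zero_mul, Finset.sum_const_zero, mul_zero, add_zero, zero_add]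

lemma g_symmM (h : FitsM D be g K) {x : E n} (hx : D.R ≤ len x) (i j : Fin n) :
    g x i j = g x j i := by
  rw [g_ntM h hx, g_ntM h hx j i, nt_transpose]
  have e : ∀ a b, D.q a b (len x) = D.q b a (len x) := fun a b => by rw [D.q_symm a b]
  congr 1
  · funext a
    exact Finset.sum_congr rfl fun b _ => by rw [e a b]
  · funext b
    exact Finset.sum_congr rfl fun a _ => by rw [e a b]
  · funext a b; exact e b a

lemma K_symmM (h : FitsM D be g K) {x : E n} (hx : D.R ≤ len x) (i j : Fin n) :
    K x i j = K x j i := by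
  rw [h.hK x hx, h.hK x hx j i, tenM_nt, tenM_nt, nt_transpose]
  have e : ∀ a b, D.s a b (len x) = D.s b a (len x) := fun a b => by rw [D.s_symm a b]
  congr 1
  · funext a
    congr 1
    exact Finset.sum_congr rfl fun b _ => by rw [e a b]
  · funext b
    congr 1
    exact Finset.sum_congr rfl fun a _ => by rw [e a b]
  · funext a b; exact e b a

lemma g_mul_UM (h : FitsM D be g K) {x : E n} (hx : D.R ≤ len x) :
    mat g x * Matrix.of (UM D be x) = 1 := by
  have hx0 := len_pos_of hx
  have hal := (D.al_pos _ hx).ne'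
  have hp := (D.p_pos _ hx).ne'
  ext i k
  rw [Matrix.mul_apply, Matrix.one_apply, ← nt_one D.Q hx0 i k]
  have h1 : ∀ j, mat g x i j * Matrix.of (UM D be x) j k =
      nt D.Q (D.al (len x))
      (D.p (len x) + ∑ a, ∑ b, D.q a b (len x) * be a (len x) * be b (len x))
      (fun b => ∑ a, D.q a b (len x) * be a (len x))
      (fun a => ∑ b, D.q a b (len x) * be b (len x))
      (fun a b => D.q a b (len x)) x i j *
      nt D.Q (1 / D.al (len x)) (1 / D.p (len x)) (fun a => -be a (len x) / D.p (len x))
        (fun a => -be a (len x) / D.p (len x))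
        (fun a b => D.iq (len x) a b + be a (len x) * be b (len x) / D.p (len x)) x j k := by
    intro j
    rw [show mat g x i j = g x i j from rfl, g_ntM h hx]
    rfl
  simp only [h1, nt_mul D.Q _ _ _ _ _ hx0]
  have e : ∀ a b, D.q a b (len x) = D.q b a (len x) := fun a b => by rw [D.q_symm a b]
  have hq := fun a c => D.q_iq hx a c
  have hqb : ∀ c, ∑ a, (∑ b, D.q b a (len x) * be b (len x)) * D.iq (len x) a c =
      be c (len x) := by
    intro c
    have : ∀ a, (∑ b, D.q b a (len x) * be b (len x)) * D.iq (len x) a c =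
        ∑ b, be b (len x) * (D.q b a (len x) * D.iq (len x) a c) := by
      intro a
      rw [Finset.sum_mul]
      exact Finset.sum_congr rfl fun b _ => by ring
    simp only [this]
    rw [Finset.sum_comm]
    simp only [← Finset.mul_sum, hq]
    simp
  congr 1
  · field_simp
  · simp only [Fin.sum_univ_three]
    field_simp
    ring
  · funext c
    have h2 := hqb c
    simp only [Fin.sum_univ_three] at h2 ⊢
    field_simp
    field_simp at h2
    linear_combination D.p (len x) * h2
  · funext a
    simp only [Fin.sum_univ_three]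
    field_simp
    ring
  · funext a c
    have h2 := hq a c
    rw [← h2]
    simp only [Fin.sum_univ_three]
    field_simp
    ring

lemma up_eqM' (h : FitsM D be g K) {x : E n} (hx : D.R ≤ len x) (i j : Fin n) :
    up g i j x = UM D be x i j := by
  unfold up
  rw [Matrix.inv_eq_right_inv (g_mul_UM h hx)]
  rfl

lemma UM_symm (x : E n) (i j : Fin n) : UM D be x i j = UM D be x j i := by
  unfold UM
  rw [nt_transpose]
  congr 1
  funext a b
  rw [D.iq_symm_apply]
  ring

lemma up_symmM (h : FitsM D be g K) {x : E n} (hx : D.R ≤ len x) (i j : Fin n) :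
    up g i j x = up g j i x := by
  rw [up_eqM' h hx, up_eqM' h hx, UM_symm]

lemma det_neM (h : FitsM D be g K) {x : E n} (hx : D.R ≤ len x) : (mat g x).det ≠ 0 := by
  intro h0
  have h1 := congrArg Matrix.det (g_mul_UM h hx)
  rw [Matrix.det_mul, h0, zero_mul, Matrix.det_one] at h1
  exact zero_ne_one h1

/-- `U T` for a tensor in the adapted form -/
lemma UT (h : FitsM D be g K) {x : E n} (hx : D.R ≤ len x) (f u : ℝ) (w : Fin 3 → ℝ)
    (s : Fin 3 → Fin 3 → ℝ) (hs : ∀ a b, s a b = s b a) (i j : Fin n) :
    ∑ k, up g i k x * nt D.Q f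
      (u + 2 * ∑ a, w a * be a (len x) + ∑ a, ∑ b, s a b * be a (len x) * be b (len x))
      (fun b => w b + ∑ a, s a b * be a (len x))
      (fun a => w a + ∑ b, s a b * be b (len x)) s x k j =
    nt D.Q (f / D.al (len x)) ((u + ∑ a, w a * be a (len x)) / D.p (len x))
      (fun b => w b / D.p (len x))
      (fun a => ∑ b, D.iq (len x) a b * (w b + ∑ c, s b c * be c (len x)) -
        be a (len x) * (u + ∑ c, w c * be c (len x)) / D.p (len x))
      (fun a b => ∑ c, D.iq (len x) a c * s c b - be a (len x) * w b / D.p (len x)) x i j := by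
  have hx0 := len_pos_of hx
  have hp := (D.p_pos _ hx).ne'
  simp only [up_eqM' h hx, UM, nt_mul D.Q _ _ _ _ _ hx0]
  congr 1
  · ring
  · simp only [Fin.sum_univ_three]
    rw [hs 1 0, hs 2 0, hs 2 1]
    field_simp
    ring
  · funext b
    simp only [Fin.sum_univ_three]
    field_simp
    ring
  · funext a
    simp only [Fin.sum_univ_three]
    rw [hs 1 0, hs 2 0, hs 2 1]
    field_simp
    ring
  · funext a b
    simp only [Fin.sum_univ_three]
    field_simp
    ring

end Vale.Agent.M68
end
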