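import Vale.Agent.P366.T2.MomDiv68

/-! The general identity `Xʲ Jⱼ = ∂ₖ Wᵏ + Lₖ Wᵏ - (1/2) πᵏᵐ (L_X g)ₖₘ`, `Wᵏ = πᵏⱼ Xʲ`, for the
momentum density of arbitrary smooth data and an arbitrary vector field `X`. -/

open MeasureTheory Metric Filter Topology Set
open scoped ContDiff ENNReal

noncomputable section
namespace Vale.Agent.Mom68
open Vale.Agent.P366.Stmt Vale.Agent.P366.T2

variable {n : ℕ}

/-- `Wᵏ = gᵏⁱ πᵢⱼ Xʲ` -/
def WX (g K : Field n) (X : Fin n → E n → ℝ) (k : Fin n) (x : E n) : ℝ :=
  ∑ i, up g k i x * ∑ j, momT g K x i j * X j x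

/-- the Lie derivative `(L_X g)ₖₘ` -/
def Lie (g : Field n) (X : Fin n → E n → ℝ) (k m : Fin n) (x : E n) : ℝ :=
  ∑ j, (X j x * pd j (fun y => g y k m) x + g x j m * pd k (X j) x + g x k j * pd m (X j) x)

lemma sum_momX (g K : Field n) (x : E n) (z : Fin n → ℝ) : ∑ j, z j * mom g K j x =
    B68.con g x (fun i k => ∑ j, z j * pd k (fun y => momT g K y i j) x) -
    ∑ i, ∑ k, up g i k x * ∑ l, chr g l k i x * (∑ j, momT g K x l j * z j) -
    ∑ j, z j * ∑ i, ∑ k, up g i k x * ∑ l, chr g l k j x * momT g K x i l := by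
  have e1 : ∀ j, z j * mom g K j x =
      (∑ i, ∑ k, up g i k x * (z j * pd k (fun y => momT g K y i j) x)) -
      (∑ i, ∑ k, up g i k x * ∑ l, chr g l k i x * (momT g K x l j * z j)) -
      z j * ∑ i, ∑ k, up g i k x * ∑ l, chr g l k j x * momT g K x i l := by
    intro j
    unfold mom
    have e2 : ∀ i k, up g i k x * (pd k (fun y => momT g K y i j) x - ∑ l,
        (chr g l k i x * momT g K x l j + chr g l k j x * momT g K x i l)) =
        up g i k x * pd k (fun y => momT g K y i j) x -
        up g i k x * ∑ l, chr g l k i x * momT g K x l j -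
        up g i k x * ∑ l, chr g l k j x * momT g K x i l := by
      intro i k
      rw [Finset.sum_add_distrib]
      ring
    simp only [e2, Finset.sum_sub_distrib, mul_sub]
    congr 2
    · rw [Finset.mul_sum]
      refine Finset.sum_congr rfl fun i _ => ?_
      rw [Finset.mul_sum]
      exact Finset.sum_congr rfl fun k _ => by ring
    · rw [Finset.mul_sum]
      refine Finset.sum_congr rfl fun i _ => ?_
      rw [Finset.mul_sum]
      refine Finset.sum_congr rfl fun k _ => ?_
      rw [Finset.mul_sum, Finset.mul_sum, Finset.mul_sum]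
      exact Finset.sum_congr rfl fun l _ => by ring
  simp only [e1, Finset.sum_sub_distrib]
  congr 2
  · unfold B68.con
    rw [Finset.sum_comm]
    refine Finset.sum_congr rfl fun i _ => ?_
    rw [Finset.sum_comm]
    exact Finset.sum_congr rfl fun k _ => by rw [Finset.mul_sum]
  · rw [Finset.sum_comm]
    refine Finset.sum_congr rfl fun i _ => ?_
    rw [Finset.sum_comm]
    refine Finset.sum_congr rfl fun k _ => ?_
    simp only [Finset.mul_sum]
    rw [Finset.sum_comm]

section

variable {g K : Field n} {U : Set (E n)}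

/-- **Momentum density in the direction of a vector field**, arbitrary data:
`Xʲ Jⱼ = ∂ₖ Wᵏ + Lₖ Wᵏ - (1/2) πᵏᵐ (L_X g)ₖₘ`. -/
theorem mom_X (hU : IsOpen U) (hg : ∀ i j, Smooth (fun x => g x i j))
    (hK : ∀ i j, Smooth (fun x => K x i j))
    (hs : ∀ x ∈ U, ∀ i j, g x i j = g x j i) (hKs : ∀ x ∈ U, ∀ i j, K x i j = K x j i)
    (hd : ∀ x ∈ U, (mat g x).det ≠ 0) {X : Fin n → E n → ℝ} {x : E n} (hx : x ∈ U)
    (hX : ∀ j, DifferentiableAt ℝ (X j) x) :
    ∑ j, X j x * mom g K j x = ∑ k, pd k (WX g K X k) x + ∑ k, Lg g k x * WX g K X k x -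
      (1 / 2) * ∑ k, ∑ m, Pu g K k m x * Lie g X k m x := by
  have hUs := fun i j => up_symm hU hg hs hd hx i j
  have hPs : ∀ i j, momT g K x i j = momT g K x j i := fun i j => by
    show K x i j - tr g K x * g x i j = K x j i - tr g K x * g x j i
    rw [hs x hx i j, hKs x hx i j]
  have hGs : ∀ m i k, pd m (fun y => g y i k) x = pd m (fun y => g y k i) x := by
    intro m i k
    have hgd : HP m (fun y => g y i k) (pd m (fun y => g y i k) x) x :=
      HP.of_diff ((hg i k).differentiable (by norm_num) x)
    have h3 : (fun y => g y k i) =ᶠ[𝓝 x] (fun y => g y i k) := by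
      filter_upwards [hU.mem_nhds hx] with y hy
      exact hs y hy k i
    exact (hgd.congr h3).pd.symm
  -- the derivative of `W`
  have hA : ∀ i k, HP k (fun y => ∑ j, momT g K y i j * X j y)
      (∑ j, (pd k (fun y => momT g K y i j) x * X j x +
        momT g K x i j * pd k (X j) x)) x := fun i k =>
    HP.sum _ fun j _ => (HP.of_diff (diff_momT hU hg hK hs hd hx i j)).mul (HP.of_diff (hX j))
  have hW : ∀ k, pd k (WX g K X k) x = ∑ i, (pd k (up g k i) x * (∑ j, momT g K x i j * X j x) +
      up g k i x * (∑ j, (pd k (fun y => momT g K y i j) x * X j x +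
        momT g K x i j * pd k (X j) x))) := by
    intro k
    have h1 : HP k (WX g K X k) _ x := HP.sum Finset.univ
      (f := fun i y => up g k i y * ∑ j, momT g K y i j * X j y) fun i _ =>
      (HP.of_diff (diff_up hU hg hs hd hx k i)).mul (hA i k)
    exact h1.pd
  have hW2 : ∑ k, pd k (WX g K X k) x =
      ∑ k, ∑ i, pd k (up g k i) x * (∑ j, momT g K x i j * X j x) +
      B68.con g x (fun i k => ∑ j, X j x * pd k (fun y => momT g K y i j) x) +
      ∑ i, ∑ k, up g i k x * ∑ j, momT g K x i j * pd k (X j) x := by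
    simp only [hW]
    have e1 : ∀ k i, pd k (up g k i) x * (∑ j, momT g K x i j * X j x) +
      up g k i x * (∑ j, (pd k (fun y => momT g K y i j) x * X j x +
        momT g K x i j * pd k (X j) x)) =
        pd k (up g k i) x * (∑ j, momT g K x i j * X j x) +
        up g i k x * (∑ j, X j x * pd k (fun y => momT g K y i j) x) +
        up g i k x * ∑ j, momT g K x i j * pd k (X j) x := by
      intro k i
      rw [hUs k i, Finset.sum_add_distrib]
      have e2 : ∑ j, pd k (fun y => momT g K y i j) x * X j x =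
          ∑ j, X j x * pd k (fun y => momT g K y i j) x :=
        Finset.sum_congr rfl fun j _ => mul_comm _ _
      rw [e2]
      ring
    simp only [e1]
    simp only [Finset.sum_add_distrib]
    congr 1
    · congr 1
      unfold B68.con
      exact Finset.sum_comm
    · exact Finset.sum_comm
  have hdU : ∑ k, ∑ i, pd k (up g k i) x * (∑ j, momT g K x i j * X j x) =
      -∑ b, WX g K X b x * ∑ i, ∑ k, up g i k x * pd k (fun y => g y i b) x := by
    have e1 : ∀ k i, pd k (up g k i) x * (∑ j, momT g K x i j * X j x) =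
        -∑ b, ∑ a, (up g b i x * (∑ j, momT g K x i j * X j x)) *
          (up g a k x * pd k (fun y => g y a b) x) := by
      intro k i
      rw [pd_up hU hg hs hd hx, neg_mul]
      congr 1
      rw [Finset.sum_mul, Finset.sum_comm]
      refine Finset.sum_congr rfl fun a _ => ?_
      rw [Finset.sum_mul]
      refine Finset.sum_congr rfl fun b _ => ?_
      rw [hUs k a]
      ring
    simp only [e1, Finset.sum_neg_distrib]
    congr 1
    rw [B68.sum4]
    rw [Finset.sum_comm]
    refine Finset.sum_congr rfl fun b _ => ?_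
    unfold WX
    rw [Finset.sum_mul]
    calc ∑ a, ∑ k, ∑ i, (up g b i x * (∑ j, momT g K x i j * X j x)) *
          (up g a k x * pd k (fun y => g y a b) x)
        = ∑ a, ∑ i, ∑ k, (up g b i x * (∑ j, momT g K x i j * X j x)) *
          (up g a k x * pd k (fun y => g y a b) x) :=
          Finset.sum_congr rfl fun a _ => Finset.sum_comm
      _ = ∑ i, ∑ a, ∑ k, (up g b i x * (∑ j, momT g K x i j * X j x)) *
          (up g a k x * pd k (fun y => g y a b) x) := Finset.sum_comm
      _ = _ := Finset.sum_congr rfl fun i _ => by simp only [Finset.mul_sum]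
  -- `Pu g = U π`
  have hPg : ∀ k j, ∑ m, Pu g K k m x * g x m j = ∑ i, up g k i x * momT g K x i j := by
    intro k j
    have e1 : ∀ m, Pu g K k m x * g x m j =
        ∑ i, ∑ l, up g k i x * momT g K x i l * (up g l m x * g x m j) := by
      intro m
      unfold Pu
      rw [Finset.sum_mul]
      refine Finset.sum_congr rfl fun i _ => ?_
      rw [Finset.mul_sum, Finset.sum_mul]
      refine Finset.sum_congr rfl fun l _ => ?_
      ring
    simp only [e1]
    rw [Finset.sum_comm]
    refine Finset.sum_congr rfl fun i _ => ?_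
    rw [Finset.sum_comm]
    simp only [← Finset.mul_sum, up_g hU hg hs hd hx]
    simp only [mul_ite, mul_one, mul_zero, Finset.sum_ite_eq', Finset.mem_univ, if_true]
  have hPus : ∀ k m, Pu g K k m x = Pu g K m k x := by
    intro k m
    unfold Pu
    simp only [Finset.mul_sum]
    rw [Finset.sum_comm]
    refine Finset.sum_congr rfl fun l _ => Finset.sum_congr rfl fun i _ => ?_
    rw [hUs k i, hUs l m, hPs i l]
    ring
  have hT : ∑ k, ∑ m, Pu g K k m x * (∑ j, g x j m * pd k (X j) x) =
      ∑ i, ∑ k, up g i k x * ∑ j, momT g K x i j * pd k (X j) x := by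
    have e1 : ∀ k, ∑ m, Pu g K k m x * (∑ j, g x j m * pd k (X j) x) =
        ∑ i, up g i k x * ∑ j, momT g K x i j * pd k (X j) x := by
      intro k
      have e2 : ∑ m, Pu g K k m x * (∑ j, g x j m * pd k (X j) x) =
          ∑ j, (∑ m, Pu g K k m x * g x m j) * pd k (X j) x := by
        simp only [Finset.mul_sum, Finset.sum_mul]
        rw [Finset.sum_comm]
        refine Finset.sum_congr rfl fun j _ => Finset.sum_congr rfl fun m _ => ?_
        rw [hs x hx j m]
        ring
      rw [e2]
      simp only [hPg, Finset.sum_mul, Finset.mul_sum]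
      rw [Finset.sum_comm]
      refine Finset.sum_congr rfl fun i _ => Finset.sum_congr rfl fun j _ => ?_
      rw [hUs k i]
      ring
    simp only [e1]
    exact Finset.sum_comm
  have hT' : ∑ k, ∑ m, Pu g K k m x * (∑ j, g x k j * pd m (X j) x) =
      ∑ i, ∑ k, up g i k x * ∑ j, momT g K x i j * pd k (X j) x := by
    rw [← hT, Finset.sum_comm]
    refine Finset.sum_congr rfl fun k _ => Finset.sum_congr rfl fun m _ => ?_
    rw [hPus m k]
    congr 1
    exact Finset.sum_congr rfl fun j _ => by rw [hs x hx m j]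
  -- the connection terms
  have h2 : ∑ i, ∑ k, up g i k x * ∑ l, chr g l k i x * (∑ j, momT g K x l j * X j x) = _ :=
    B68.T2_abs (fun i k => up g i k x) hUs (fun m i k => pd m (fun y => g y i k) x) hGs
      (fun l => ∑ j, momT g K x l j * X j x)
  have h3 : ∑ j, X j x * ∑ i, ∑ k, up g i k x * ∑ l, chr g l k j x * momT g K x i l = _ :=
    B68.T3_abs (fun i k => up g i k x) hUs (fun i k => momT g K x i k) hPs
      (fun m i k => pd m (fun y => g y i k) x) hGs (fun l => X l x)
  rw [sum_momX g K x (fun j => X j x), h2, h3, hW2, hdU]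
  have e1 : ∑ m, (∑ l, up g m l x * ∑ j, momT g K x l j * X j x) *
      (2 * (∑ i, ∑ k, up g i k x * pd k (fun y => g y i m) x) -
        ∑ i, ∑ k, up g i k x * pd m (fun y => g y i k) x) =
      2 * ∑ b, WX g K X b x * (∑ i, ∑ k, up g i k x * pd k (fun y => g y i b) x) -
      2 * ∑ k, Lg g k x * WX g K X k x := by
    rw [Finset.mul_sum, Finset.mul_sum, ← Finset.sum_sub_distrib]
    refine Finset.sum_congr rfl fun m _ => ?_
    unfold WX Lg
    ring
  have e3 : ∑ k, ∑ m, Pu g K k m x * Lie g X k m x =
      ∑ k, ∑ m, (∑ i, up g k i x * ∑ l, momT g K x i l * up g l m x) *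
        ∑ j, X j x * pd j (fun y => g y k m) x +
      2 * ∑ i, ∑ k, up g i k x * ∑ j, momT g K x i j * pd k (X j) x := by
    have e4 : ∀ k m, Pu g K k m x * Lie g X k m x =
        (∑ i, up g k i x * ∑ l, momT g K x i l * up g l m x) *
          ∑ j, X j x * pd j (fun y => g y k m) x +
        Pu g K k m x * (∑ j, g x j m * pd k (X j) x) +
        Pu g K k m x * (∑ j, g x k j * pd m (X j) x) := by
      intro k m
      unfold Lie
      rw [Finset.sum_add_distrib, Finset.sum_add_distrib]
      unfold Pu
      ring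
    simp only [e4, Finset.sum_add_distrib]
    rw [hT, hT']
    ring
  rw [e1, e3]
  ring

end

end Vale.Agent.Mom68
end
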