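import Vale.Agent.P366.T2.M68a
import Vale.Agent.P366.T2.MomX68

open MeasureTheory Metric Filter Topology Set
open scoped ContDiff ENNReal

noncomputable section
namespace Vale.Agent.M68
open Vale.Agent.P366.Stmt Vale.Agent.P366.T2 Vale.Agent.P366.T2.B68

variable {n : ℕ}

variable {D : Data n} {be : Fin 3 → ℝ → ℝ} {g K : Field n}

lemma UK (h : FitsM D be g K) {x : E n} (hx : D.R ≤ len x) (i j : Fin n) :
    ∑ k, up g i k x * K x k j =
    nt D.Q (D.ka (len x) / D.al (len x))
      ((D.kn (len x) + ∑ a, D.v a (len x) * be a (len x)) / D.p (len x))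
      (fun b => D.v b (len x) / D.p (len x))
      (fun a => ∑ b, D.iq (len x) a b * (D.v b (len x) + ∑ c, D.s b c (len x) * be c (len x)) -
        be a (len x) * (D.kn (len x) + ∑ c, D.v c (len x) * be c (len x)) / D.p (len x))
      (fun a b => ∑ c, D.iq (len x) a c * D.s c b (len x) -
        be a (len x) * D.v b (len x) / D.p (len x)) x i j := by
  rw [← UT h hx (D.ka (len x)) (D.kn (len x)) (fun a => D.v a (len x))
    (fun a b => D.s a b (len x)) (fun a b => by rw [D.s_symm a b]) i j]
  refine Finset.sum_congr rfl fun k _ => ?_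
  rw [h.hK x hx, tenM_nt]

theorem tr_eqM' (h : FitsM D be g K) {x : E n} (hx : D.R ≤ len x) :
    tr g K x = D.k (len x) + D.KN (len x) := by
  have hx0 : x ≠ 0 := len_pos_of hx
  have h1 : tr g K x = ∑ i, ∑ k, up g i k x * K x k i := by
    unfold tr
    exact Finset.sum_congr rfl fun i _ => Finset.sum_congr rfl fun j _ => by
      rw [K_symmM h hx i j]
  rw [h1]
  simp only [UK h hx]
  have h2 : ∀ i, nt D.Q (D.ka (len x) / D.al (len x))
      ((D.kn (len x) + ∑ a, D.v a (len x) * be a (len x)) / D.p (len x))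
      (fun b => D.v b (len x) / D.p (len x))
      (fun a => ∑ b, D.iq (len x) a b * (D.v b (len x) + ∑ c, D.s b c (len x) * be c (len x)) -
        be a (len x) * (D.kn (len x) + ∑ c, D.v c (len x) * be c (len x)) / D.p (len x))
      (fun a b => ∑ c, D.iq (len x) a c * D.s c b (len x) -
        be a (len x) * D.v b (len x) / D.p (len x)) x i i = ∑ j,
      nt D.Q (D.ka (len x) / D.al (len x))
      ((D.kn (len x) + ∑ a, D.v a (len x) * be a (len x)) / D.p (len x))
      (fun b => D.v b (len x) / D.p (len x))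
      (fun a => ∑ b, D.iq (len x) a b * (D.v b (len x) + ∑ c, D.s b c (len x) * be c (len x)) -
        be a (len x) * (D.kn (len x) + ∑ c, D.v c (len x) * be c (len x)) / D.p (len x))
      (fun a b => ∑ c, D.iq (len x) a c * D.s c b (len x) -
        be a (len x) * D.v b (len x) / D.p (len x)) x i j *
      nt D.Q 1 1 (fun _ => 0) (fun _ => 0) (fun a b => if a = b then 1 else 0) x j i := by
    intro i
    simp only [nt_one D.Q hx0]
    simp
  simp only [h2, nt_nt D.Q _ _ _ _ _ hx0]
  rw [Data.k, S_trace, Data.KN, Data.b]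
  simp only [Fin.sum_univ_three, if_true, show ¬ ((0 : Fin 3) = 2) by decide,
    show ¬ ((2 : Fin 3) = 0) by decide,
    show ¬ ((1 : Fin 3) = 2) by decide, show ¬ ((2 : Fin 3) = 1) by decide,
    show ¬ ((1 : Fin 3) = 0) by decide, show ¬ ((0 : Fin 3) = 1) by decide, if_false]
  ring

theorem normSq_eqM' (h : FitsM D be g K) {x : E n} (hx : D.R ≤ len x) :
    normSq g K x = D.KS2 (len x) + 2 * D.be2 (len x) + D.KN (len x) ^ 2 := by
  have hx0 : x ≠ 0 := len_pos_of hx
  have hp := (D.p_pos _ hx).ne'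
  have h1 : normSq g K x = ∑ i, ∑ l, (∑ k, up g i k x * K x k l) * (∑ j, up g l j x * K x j i) := by
    unfold normSq
    refine Finset.sum_congr rfl fun i _ => ?_
    have e1 : ∀ l, (∑ k, up g i k x * K x k l) * (∑ j, up g l j x * K x j i) =
        ∑ k, ∑ j, up g i k x * up g j l x * K x i j * K x k l := by
      intro l
      rw [Finset.sum_mul_sum]
      refine Finset.sum_congr rfl fun k _ => Finset.sum_congr rfl fun j _ => ?_
      rw [up_symmM h hx l j, K_symmM h hx j i]
      ring
    simp only [e1]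
    calc ∑ j, ∑ k, ∑ l, up g i k x * up g j l x * K x i j * K x k l
        = ∑ k, ∑ j, ∑ l, up g i k x * up g j l x * K x i j * K x k l := Finset.sum_comm
      _ = ∑ k, ∑ l, ∑ j, up g i k x * up g j l x * K x i j * K x k l :=
          Finset.sum_congr rfl fun k _ => Finset.sum_comm
      _ = ∑ l, ∑ k, ∑ j, up g i k x * up g j l x * K x i j * K x k l := Finset.sum_comm
  rw [h1]
  simp only [UK h hx, nt_nt D.Q _ _ _ _ _ hx0]
  rw [Data.KS2, Data.be2, Data.KN, Data.b]
  have h2 : (D.S (len x) * D.S (len x)).trace =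
      ∑ a, ∑ b, D.S (len x) a b * D.S (len x) b a := by
    rw [Matrix.trace]
    refine Finset.sum_congr rfl fun a _ => ?_
    rw [Matrix.diag_apply, Matrix.mul_apply]
  have h3 : (∑ a, ∑ b, (Matrix.of fun a b => D.q a b (len x))⁻¹ a b * D.v a (len x) *
      D.v b (len x)) = ∑ a, ∑ b, D.iq (len x) a b * D.v a (len x) * D.v b (len x) := rfl
  have s1 : ∀ a b, D.iq (len x) a b = D.iq (len x) b a := D.iq_symm_apply (len x)
  have s2 : ∀ a b, D.s a b (len x) = D.s b a (len x) := fun a b => by rw [D.s_symm a b]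
  rw [h2, h3]
  simp only [S_apply, Fin.sum_univ_three]
  rw [s1 1 0, s1 2 0, s1 2 1, s2 1 0, s2 2 0, s2 2 1]
  field_simp
  ring

end Vale.Agent.M68
end
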