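import Vale.Agent.P366.T2.M68b

open MeasureTheory Metric Filter Topology Set
open scoped ContDiff ENNReal

noncomputable section
namespace Vale.Agent.M68
open Vale.Agent.P366.Stmt Vale.Agent.P366.T2 Vale.Agent.P366.T2.B68

variable {n : ℕ}

variable {D : Data n} {be : Fin 3 → ℝ → ℝ} {g K : Field n}

/-- coefficient of `x x` -/
def BM (D : Data n) (be : Fin 3 → ℝ → ℝ) (r : ℝ) : ℝ :=
  (D.p r + ∑ a, ∑ b, D.q a b r * be a r * be b r - D.al r) / r ^ 2

/-- coefficient of `x Y_a + Y_a x` -/
def MM (D : Data n) (be : Fin 3 → ℝ → ℝ) (a : Fin 3) (r : ℝ) : ℝ :=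
  (∑ b, D.q a b r * be b r) / r ^ 2

lemma g_formM (h : FitsM D be g K) {y : E n} (hy : D.R ≤ len y) (i k : Fin n) :
    g y i k = D.al (len y) * (if i = k then 1 else 0) + BM D be (len y) * (y i * y k) +
      ∑ a, MM D be a (len y) * (y i * D.Q.Y a y k + D.Q.Y a y i * y k) +
      ∑ a, ∑ b, ga D a b (len y) * (D.Q.Y a y i * D.Q.Y b y k) := by
  have hs : ∀ a b, D.q a b (len y) = D.q b a (len y) := fun a b => by rw [D.q_symm a b]
  rw [g_ntM h hy i k]
  unfold nt ga BM MM Quat.Pi
  simp only [Fin.sum_univ_three, if_true,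
    show ¬ ((0 : Fin 3) = 2) by decide, show ¬ ((2 : Fin 3) = 0) by decide,
    show ¬ ((1 : Fin 3) = 2) by decide, show ¬ ((2 : Fin 3) = 1) by decide,
    show ¬ ((1 : Fin 3) = 0) by decide, show ¬ ((0 : Fin 3) = 1) by decide, if_false]
  rw [hs 1 0, hs 2 0, hs 2 1]
  ring

lemma nearM {x : E n} (hx : D.R < len x) : ∀ᶠ y in 𝓝 x, D.R ≤ len y := near hx

/-- derivative of `∑ q be be` -/
def qbb' (D : Data n) (be : Fin 3 → ℝ → ℝ) (r : ℝ) : ℝ :=
  ∑ a, ∑ b, (deriv (D.q a b) r * be a r * be b r + D.q a b r * deriv (be a) r * be b r +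
    D.q a b r * be a r * deriv (be b) r)

lemma BM_hd (h : FitsM D be g K) {r : ℝ} (hr : 0 < r) :
    HasDerivAt (BM D be) ((deriv D.p r + qbb' D be r - deriv D.al r) / r ^ 2 -
      2 * BM D be r / r) r := by
  have hb := fun a => hd (h.be_smooth a) r
  have h0 : HasDerivAt (fun r => D.p r + ∑ a, ∑ b, D.q a b r * be a r * be b r - D.al r)
      (deriv D.p r + qbb' D be r - deriv D.al r) r := by
    refine HasDerivAt.sub (HasDerivAt.add (hd D.p_smooth r) ?_) (hd D.al_smooth r)
    refine HasDerivAt.fun_sum fun a _ => HasDerivAt.fun_sum fun b _ => ?_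
    refine (((hd (D.q_smooth a b) r).mul (hb a)).mul (hb b)).congr_deriv ?_
    simp only [Pi.mul_apply]
    ring
  have h1 := h0.div (hasDerivAt_pow 2 r) (by positivity)
  refine h1.congr_deriv ?_
  unfold BM
  field_simp
  push_cast
  ring

lemma MM_hd (h : FitsM D be g K) (a : Fin 3) {r : ℝ} (hr : 0 < r) :
    HasDerivAt (MM D be a) ((∑ b, (deriv (D.q a b) r * be b r + D.q a b r * deriv (be b) r)) /
      r ^ 2 - 2 * MM D be a r / r) r := by
  have hb := fun a => hd (h.be_smooth a) r
  have h0 : HasDerivAt (fun r => ∑ b, D.q a b r * be b r)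
      (∑ b, (deriv (D.q a b) r * be b r + D.q a b r * deriv (be b) r)) r :=
    HasDerivAt.fun_sum fun b _ => (hd (D.q_smooth a b) r).mul (hb b)
  have h1 := h0.div (hasDerivAt_pow 2 r) (by positivity)
  refine h1.congr_deriv ?_
  unfold MM
  field_simp
  push_cast
  ring

lemma ga_hd (a b : Fin 3) {r : ℝ} (hr : 0 < r) :
    HasDerivAt (ga D a b) ((deriv (D.q a b) r - if a = b then deriv D.al r else 0) / r ^ 2 -
      2 * ga D a b r / r) r := by
  have h0 : HasDerivAt (fun r => D.q a b r - if a = b then D.al r else 0)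
      (deriv (D.q a b) r - if a = b then deriv D.al r else 0) r := by
    refine (hd (D.q_smooth a b) r).sub ?_
    split_ifs
    · exact hd D.al_smooth r
    · exact hasDerivAt_const _ _
  have h1 := h0.div (hasDerivAt_pow 2 r) (by positivity)
  refine h1.congr_deriv ?_
  unfold ga
  field_simp
  push_cast
  ring

/-- the derivative of the metric -/
lemma pd_gM (h : FitsM D be g K) {x : E n} (hx : D.R < len x) (m i k : Fin n) :
    pd m (fun y => g y i k) x =
      deriv D.al (len x) / len x * x m * (if i = k then 1 else 0) +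
      (((deriv D.p (len x) + qbb' D be (len x) - deriv D.al (len x)) / len x ^ 2 -
        2 * BM D be (len x) / len x) / len x * x m * (x i * x k) + BM D be (len x) *
        ((if i = m then 1 else 0) * x k + x i * (if k = m then 1 else 0))) +
      ∑ a, (((∑ b, (deriv (D.q a b) (len x) * be b (len x) + D.q a b (len x) *
        deriv (be b) (len x))) / len x ^ 2 - 2 * MM D be a (len x) / len x) / len x * x m *
        (x i * D.Q.Y a x k + D.Q.Y a x i * x k) + MM D be a (len x) *
        ((if i = m then 1 else 0) * D.Q.Y a x k + x i * D.Q.J a k m +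
          (D.Q.J a i m * x k + D.Q.Y a x i * (if k = m then 1 else 0)))) +
      ∑ a, ∑ b, (((deriv (D.q a b) (len x) - if a = b then deriv D.al (len x) else 0) /
        len x ^ 2 - 2 * ga D a b (len x) / len x) / len x * x m *
        (D.Q.Y a x i * D.Q.Y b x k) +
        ga D a b (len x) * (D.Q.J a i m * D.Q.Y b x k + D.Q.Y a x i * D.Q.J b k m)) := by
  have hr : 0 < len x := len_pos' hx
  have hx0 : x ≠ 0 := len_pos_of hx.le
  have h1 : HP m (fun y => D.al (len y) * (if i = k then (1 : ℝ) else 0) +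
      BM D be (len y) * (y i * y k) +
      ∑ a, MM D be a (len y) * (y i * D.Q.Y a y k + D.Q.Y a y i * y k) +
      ∑ a, ∑ b, ga D a b (len y) * (D.Q.Y a y i * D.Q.Y b y k)) _ x :=
    ((((HP.radial hx0 (hd D.al_smooth (len x)) m).mul (HP.const m _ x)).add
      ((HP.radial hx0 (BM_hd h hr) m).mul ((HP.coord m i x).mul (HP.coord m k x)))).add
      (HP.sum _ fun a _ => (HP.radial hx0 (MM_hd h a hr) m).mul
        (((HP.coord m i x).mul (HP.Y D.Q a m k x)).add
          ((HP.Y D.Q a m i x).mul (HP.coord m k x))))).add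
      (HP.sum _ fun a _ => HP.sum _ fun b _ =>
        (HP.radial hx0 (ga_hd a b hr) m).mul ((HP.Y D.Q a m i x).mul (HP.Y D.Q b m k x)))
  have h2 : (fun y => g y i k) =ᶠ[𝓝 x] (fun y => D.al (len y) * (if i = k then (1 : ℝ) else 0) +
      BM D be (len y) * (y i * y k) +
      ∑ a, MM D be a (len y) * (y i * D.Q.Y a y k + D.Q.Y a y i * y k) +
      ∑ a, ∑ b, ga D a b (len y) * (D.Q.Y a y i * D.Q.Y b y k)) := by
    filter_upwards [nearM hx] with y hy
    exact g_formM h hy i k
  rw [(h1.congr h2).pd]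
  simp only [mul_zero, add_zero]

end Vale.Agent.M68
end
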