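import Vale.Agent.P366.T2.M68c

open MeasureTheory Metric Filter Topology Set
open scoped ContDiff ENNReal

noncomputable section
namespace Vale.Agent.M68
open Vale.Agent.P366.Stmt Vale.Agent.P366.T2 Vale.Agent.P366.T2.B68

variable {n : ℕ} {D : Data n} {be : Fin 3 → ℝ → ℝ} {g K : Field n}

/-- the vector `U x = n / p` -/
def Vx (D : Data n) (be : Fin 3 → ℝ → ℝ) (x : E n) (k : Fin n) : ℝ :=
  (x k - ∑ a, be a (len x) * D.Q.Y a x k) / D.p (len x)

/-- the vector `U Y_c` -/
def VY (D : Data n) (be : Fin 3 → ℝ → ℝ) (c : Fin 3) (x : E n) (k : Fin n) : ℝ :=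
  ∑ a, D.iq (len x) a c * D.Q.Y a x k - be c (len x) * Vx D be x k

section Con

variable (h : FitsM D be g K) {x : E n} (hx : D.R ≤ len x)

include h hx

lemma U_xM (k : Fin n) : ∑ i, up g i k x * x i = Vx D be x k := by
  have h1 : ∀ i, up g i k x * x i = UM D be x k i * x i := fun i => by
    rw [up_eqM' h hx, UM_symm]
  simp only [h1, UM, nt_x D.Q _ _ _ _ _ (len_pos_of hx)]
  unfold Vx
  simp only [Fin.sum_univ_three]
  ring

lemma U_YM (c : Fin 3) (k : Fin n) : ∑ i, up g i k x * D.Q.Y c x i = VY D be c x k := by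
  have h1 : ∀ i, up g i k x * D.Q.Y c x i = UM D be x k i * D.Q.Y c x i := fun i => by
    rw [up_eqM' h hx, UM_symm]
  simp only [h1, UM, nt_Y D.Q _ _ _ _ _ (len_pos_of hx)]
  unfold VY Vx
  simp only [Fin.sum_univ_three]
  ring

omit h in
lemma x_Vx : ∑ k, x k * Vx D be x k = len x ^ 2 / D.p (len x) := by
  have h1 : ∀ k, x k * Vx D be x k = (x k * x k - ∑ a, be a (len x) * (x k * D.Q.Y a x k)) /
      D.p (len x) := by
    intro k
    unfold Vx
    simp only [Fin.sum_univ_three]
    ring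
  simp only [h1, ← Finset.sum_div, Finset.sum_sub_distrib]
  rw [Quat.sum_sq, Finset.sum_comm]
  simp only [← Finset.mul_sum, D.Q.x_Y, mul_zero, Finset.sum_const_zero, sub_zero]

omit h in
lemma Y_Vx (c : Fin 3) : ∑ k, D.Q.Y c x k * Vx D be x k =
    -(be c (len x) * len x ^ 2 / D.p (len x)) := by
  have h1 : ∀ k, D.Q.Y c x k * Vx D be x k = (D.Q.Y c x k * x k -
      ∑ a, be a (len x) * (D.Q.Y c x k * D.Q.Y a x k)) / D.p (len x) := by
    intro k
    unfold Vx
    simp only [Fin.sum_univ_three]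
    ring
  simp only [h1, ← Finset.sum_div, Finset.sum_sub_distrib]
  rw [D.Q.Y_x, Finset.sum_comm]
  simp only [← Finset.mul_sum, D.Q.Y_Y]
  simp
  ring

lemma U_xxM : ∑ i, ∑ k, up g i k x * (x i * x k) = len x ^ 2 / D.p (len x) := by
  rw [Finset.sum_comm, ← x_Vx (D := D) (be := be) hx]
  refine Finset.sum_congr rfl fun k _ => ?_
  rw [← U_xM h hx k, Finset.mul_sum]
  exact Finset.sum_congr rfl fun i _ => by ring

lemma U_xYM (a : Fin 3) : ∑ i, ∑ k, up g i k x * (x i * D.Q.Y a x k) =
    -(be a (len x) * len x ^ 2 / D.p (len x)) := by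
  rw [Finset.sum_comm, ← Y_Vx (D := D) (be := be) hx]
  refine Finset.sum_congr rfl fun k _ => ?_
  rw [← U_xM h hx k, Finset.mul_sum]
  exact Finset.sum_congr rfl fun i _ => by ring

lemma U_YxM (a : Fin 3) : ∑ i, ∑ k, up g i k x * (D.Q.Y a x i * x k) =
    -(be a (len x) * len x ^ 2 / D.p (len x)) := by
  rw [← U_xYM h hx a, Finset.sum_comm]
  refine Finset.sum_congr rfl fun k _ => Finset.sum_congr rfl fun i _ => ?_
  rw [up_symmM h hx]
  ring

lemma U_YYM (a b : Fin 3) : ∑ i, ∑ k, up g i k x * (D.Q.Y a x i * D.Q.Y b x k) =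
    (D.iq (len x) a b + be a (len x) * be b (len x) / D.p (len x)) * len x ^ 2 := by
  rw [Finset.sum_comm]
  have h1 : ∀ k, ∑ i, up g i k x * (D.Q.Y a x i * D.Q.Y b x k) =
      ∑ c, D.iq (len x) c a * (D.Q.Y c x k * D.Q.Y b x k) -
        be a (len x) * (D.Q.Y b x k * Vx D be x k) := by
    intro k
    have : ∀ i, up g i k x * (D.Q.Y a x i * D.Q.Y b x k) =
        (up g i k x * D.Q.Y a x i) * D.Q.Y b x k := fun i => by ring
    simp only [this, ← Finset.sum_mul, U_YM h hx]
    unfold VY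
    rw [sub_mul, Finset.sum_mul]
    congr 1
    · exact Finset.sum_congr rfl fun c _ => by ring
    · ring
  simp only [h1, Finset.sum_sub_distrib]
  rw [Finset.sum_comm, ← Finset.mul_sum, Y_Vx hx]
  simp only [← Finset.mul_sum, D.Q.Y_Y]
  simp only [mul_ite, mul_zero, Finset.sum_ite_eq', Finset.mem_univ, if_true]
  rw [D.iq_symm_apply]
  ring

lemma U_trM : ∑ i, up g i i x = ((n : ℝ) - 4) / D.al (len x) + 1 / D.p (len x) +
    ∑ a, (D.iq (len x) a a + be a (len x) * be a (len x) / D.p (len x)) := by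
  have hx0 := len_pos_of hx
  have hr : len x ≠ 0 := len_ne hx0
  have h1 : ∀ i, up g i i x = ∑ j, UM D be x i j *
      nt D.Q 1 1 (fun _ => 0) (fun _ => 0) (fun a b => if a = b then 1 else 0) x j i := by
    intro i
    simp only [nt_one D.Q hx0]
    rw [up_eqM' h hx]
    simp
  simp only [h1, UM, nt_nt D.Q _ _ _ _ _ hx0]
  simp only [mul_one, mul_zero, Finset.sum_const_zero, add_zero, mul_ite, Finset.sum_ite_eq',
    Finset.sum_ite_eq, Finset.mem_univ, if_true]
  ring

end Con

/-- `J_bᵀ (U x)` -/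
lemma JT_Vx (b : Fin 3) (x : E n) (m : Fin n) : ∑ i, D.Q.J b i m * Vx D be x i =
    (-D.Q.Y b x m - ∑ a, be a (len x) * ((if b = a then x m else 0) -
      ∑ c, eps b a c * D.Q.Y c x m)) / D.p (len x) := by
  have h1 : ∀ i, D.Q.J b i m * Vx D be x i = (D.Q.J b i m * x i -
      ∑ a, be a (len x) * (D.Q.J b i m * D.Q.Y a x i)) / D.p (len x) := by
    intro i
    unfold Vx
    simp only [Fin.sum_univ_three]
    ring
  simp only [h1, ← Finset.sum_div, Finset.sum_sub_distrib]
  rw [D.Q.JT_x, Finset.sum_comm]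
  simp only [← Finset.mul_sum, D.Q.JT_Y]

/-- `J_bᵀ (U Y_c)` -/
lemma JT_VY (b c : Fin 3) (x : E n) (m : Fin n) : ∑ i, D.Q.J b i m * VY D be c x i =
    ∑ a, D.iq (len x) a c * ((if b = a then x m else 0) - ∑ d, eps b a d * D.Q.Y d x m) -
      be c (len x) * ∑ i, D.Q.J b i m * Vx D be x i := by
  have h1 : ∀ i, D.Q.J b i m * VY D be c x i =
      ∑ a, D.iq (len x) a c * (D.Q.J b i m * D.Q.Y a x i) -
        be c (len x) * (D.Q.J b i m * Vx D be x i) := by
    intro i
    unfold VY
    simp only [Fin.sum_univ_three]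
    ring
  simp only [h1, Finset.sum_sub_distrib]
  rw [Finset.sum_comm, ← Finset.mul_sum]
  simp only [← Finset.mul_sum, D.Q.JT_Y]

lemma L_M (h : FitsM D be g K) {x : E n} (hx : D.R < len x) (m : Fin n) :
    ∑ i, ∑ k, up g i k x * pd m (fun y => g y i k) x =
      x m / len x * (Lm D (len x) + deriv D.p (len x) / D.p (len x)) := by
  have hr : 0 < len x := len_pos' hx
  have hal := (D.al_pos _ hx.le).ne'
  have hp := (D.p_pos _ hx.le).ne'
  set r := len x with hrdef
  set B' := (deriv D.p r + qbb' D be r - deriv D.al r) / r ^ 2 - 2 * BM D be r / r with hB'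
  set M' : Fin 3 → ℝ := fun a => (∑ b, (deriv (D.q a b) r * be b r + D.q a b r *
        deriv (be b) r)) / r ^ 2 - 2 * MM D be a r / r with hM'
  set G' : Fin 3 → Fin 3 → ℝ := fun a b => (deriv (D.q a b) r - if a = b then deriv D.al r
    else 0) / r ^ 2 - 2 * ga D a b r / r with hG'
  have h1 : ∀ i k, up g i k x * pd m (fun y => g y i k) x =
      deriv D.al r / r * x m * (up g i k x * (if i = k then 1 else 0)) +
      B' / r * x m * (up g i k x * (x i * x k)) +
      BM D be r * ((up g i k x * x k) * (if i = m then 1 else 0)) +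
      BM D be r * ((up g i k x * x i) * (if k = m then 1 else 0)) +
      ∑ a, M' a / r * x m * (up g i k x * (x i * D.Q.Y a x k)) +
      ∑ a, M' a / r * x m * (up g i k x * (D.Q.Y a x i * x k)) +
      ∑ a, MM D be a r * ((up g i k x * D.Q.Y a x k) * (if i = m then 1 else 0)) +
      ∑ a, MM D be a r * (D.Q.J a k m * (up g i k x * x i)) +
      ∑ a, MM D be a r * (D.Q.J a i m * (up g i k x * x k)) +
      ∑ a, MM D be a r * ((up g i k x * D.Q.Y a x i) * (if k = m then 1 else 0)) +
      ∑ a, ∑ b, G' a b / r * x m * (up g i k x * (D.Q.Y a x i * D.Q.Y b x k)) +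
      ∑ a, ∑ b, ga D a b r * (D.Q.J a i m * (up g i k x * D.Q.Y b x k)) +
      ∑ a, ∑ b, ga D a b r * (D.Q.J b k m * (up g i k x * D.Q.Y a x i)) := by
    intro i k
    rw [pd_gM h hx, ← hrdef]
    simp only [hB', hM', hG', Fin.sum_univ_three]
    ring
  have hdel : ∀ (F : Fin n → Fin n → ℝ), ∑ i, ∑ k, F i k * (if i = m then (1 : ℝ) else 0) =
      ∑ k, F m k := by
    intro F
    rw [Finset.sum_comm]
    refine Finset.sum_congr rfl fun k _ => ?_
    rw [Finset.sum_eq_single m]
    · rw [if_pos rfl, mul_one]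
    · intro i _ hi; rw [if_neg hi, mul_zero]
    · simp
  have hdel' : ∀ (F : Fin n → Fin n → ℝ), ∑ i, ∑ k, F i k * (if k = m then (1 : ℝ) else 0) =
      ∑ i, F i m := by
    intro F
    refine Finset.sum_congr rfl fun i _ => ?_
    rw [Finset.sum_eq_single m]
    · rw [if_pos rfl, mul_one]
    · intro i _ hi; rw [if_neg hi, mul_zero]
    · simp
  have e1 : ∑ i, ∑ k, deriv D.al r / r * x m * (up g i k x * (if i = k then 1 else 0)) =
      deriv D.al r / r * x m * (((n : ℝ) - 4) / D.al r + 1 / D.p r +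
        ∑ a, (D.iq r a a + be a r * be a r / D.p r)) := by
    rw [← U_trM h hx.le, Finset.mul_sum]
    refine Finset.sum_congr rfl fun i _ => ?_
    simp
  have e2 : ∑ i, ∑ k, B' / r * x m * (up g i k x * (x i * x k)) =
      B' / r * x m * (r ^ 2 / D.p r) := by
    rw [← U_xxM h hx.le]
    simp only [Finset.mul_sum]
  have e3 : ∑ i, ∑ k, BM D be r * ((up g i k x * x k) * (if i = m then 1 else 0)) =
      BM D be r * Vx D be x m := by
    simp only [← Finset.mul_sum]
    rw [hdel (fun i k => up g i k x * x k), ← U_xM h hx.le m]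
    congr 1
    exact Finset.sum_congr rfl fun k _ => by rw [up_symmM h hx.le]
  have e4 : ∑ i, ∑ k, BM D be r * ((up g i k x * x i) * (if k = m then 1 else 0)) =
      BM D be r * Vx D be x m := by
    simp only [← Finset.mul_sum]
    rw [hdel' (fun i k => up g i k x * x i), ← U_xM h hx.le m]
  have e5 : ∑ i, ∑ k, ∑ a, M' a / r * x m * (up g i k x * (x i * D.Q.Y a x k)) =
      ∑ a, M' a / r * x m * (-(be a r * r ^ 2 / D.p r)) := by
    have : ∀ i, ∑ k, ∑ a, M' a / r * x m * (up g i k x * (x i * D.Q.Y a x k)) =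
        ∑ a, ∑ k, M' a / r * x m * (up g i k x * (x i * D.Q.Y a x k)) :=
      fun i => Finset.sum_comm
    simp only [this]
    rw [Finset.sum_comm]
    refine Finset.sum_congr rfl fun a _ => ?_
    rw [← U_xYM h hx.le a]
    simp only [Finset.mul_sum]
  have e6 : ∑ i, ∑ k, ∑ a, M' a / r * x m * (up g i k x * (D.Q.Y a x i * x k)) =
      ∑ a, M' a / r * x m * (-(be a r * r ^ 2 / D.p r)) := by
    have : ∀ i, ∑ k, ∑ a, M' a / r * x m * (up g i k x * (D.Q.Y a x i * x k)) =
        ∑ a, ∑ k, M' a / r * x m * (up g i k x * (D.Q.Y a x i * x k)) :=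
      fun i => Finset.sum_comm
    simp only [this]
    rw [Finset.sum_comm]
    refine Finset.sum_congr rfl fun a _ => ?_
    rw [← U_YxM h hx.le a]
    simp only [Finset.mul_sum]
  have e7 : ∑ i, ∑ k, ∑ a, MM D be a r * ((up g i k x * D.Q.Y a x k) *
      (if i = m then 1 else 0)) = ∑ a, MM D be a r * VY D be a x m := by
    have : ∀ i, ∑ k, ∑ a, MM D be a r * ((up g i k x * D.Q.Y a x k) *
      (if i = m then 1 else 0)) = ∑ a, ∑ k, MM D be a r * ((up g i k x * D.Q.Y a x k) *
      (if i = m then 1 else 0)) := fun i => Finset.sum_comm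
    simp only [this]
    rw [Finset.sum_comm]
    refine Finset.sum_congr rfl fun a _ => ?_
    simp only [← Finset.mul_sum]
    rw [hdel (fun i k => up g i k x * D.Q.Y a x k), ← U_YM h hx.le a m]
    congr 1
    exact Finset.sum_congr rfl fun k _ => by rw [up_symmM h hx.le]
  have e8 : ∑ i, ∑ k, ∑ a, MM D be a r * (D.Q.J a k m * (up g i k x * x i)) =
      ∑ a, MM D be a r * ∑ k, D.Q.J a k m * Vx D be x k := by
    have : ∀ i, ∑ k, ∑ a, MM D be a r * (D.Q.J a k m * (up g i k x * x i)) =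
        ∑ a, ∑ k, MM D be a r * (D.Q.J a k m * (up g i k x * x i)) := fun i => Finset.sum_comm
    simp only [this]
    rw [Finset.sum_comm]
    refine Finset.sum_congr rfl fun a _ => ?_
    rw [Finset.sum_comm, Finset.mul_sum]
    refine Finset.sum_congr rfl fun k _ => ?_
    rw [← U_xM h hx.le k]
    simp only [Finset.mul_sum]
  have e9 : ∑ i, ∑ k, ∑ a, MM D be a r * (D.Q.J a i m * (up g i k x * x k)) =
      ∑ a, MM D be a r * ∑ k, D.Q.J a k m * Vx D be x k := by
    have : ∀ i, ∑ k, ∑ a, MM D be a r * (D.Q.J a i m * (up g i k x * x k)) =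
        ∑ a, ∑ k, MM D be a r * (D.Q.J a i m * (up g i k x * x k)) := fun i => Finset.sum_comm
    simp only [this]
    rw [Finset.sum_comm]
    refine Finset.sum_congr rfl fun a _ => ?_
    rw [Finset.mul_sum]
    refine Finset.sum_congr rfl fun i _ => ?_
    rw [← U_xM h hx.le i, Finset.mul_sum, Finset.mul_sum]
    exact Finset.sum_congr rfl fun k _ => by rw [up_symmM h hx.le]
  have e10 : ∑ i, ∑ k, ∑ a, MM D be a r * ((up g i k x * D.Q.Y a x i) *
      (if k = m then 1 else 0)) = ∑ a, MM D be a r * VY D be a x m := by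
    have : ∀ i, ∑ k, ∑ a, MM D be a r * ((up g i k x * D.Q.Y a x i) *
      (if k = m then 1 else 0)) = ∑ a, ∑ k, MM D be a r * ((up g i k x * D.Q.Y a x i) *
      (if k = m then 1 else 0)) := fun i => Finset.sum_comm
    simp only [this]
    rw [Finset.sum_comm]
    refine Finset.sum_congr rfl fun a _ => ?_
    simp only [← Finset.mul_sum]
    rw [hdel' (fun i k => up g i k x * D.Q.Y a x i), ← U_YM h hx.le a m]
  have e11 : ∑ i, ∑ k, ∑ a, ∑ b, G' a b / r * x m *
      (up g i k x * (D.Q.Y a x i * D.Q.Y b x k)) =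
      ∑ a, ∑ b, G' a b / r * x m * ((D.iq r a b + be a r * be b r / D.p r) * r ^ 2) := by
    have : ∀ i, ∑ k, ∑ a, ∑ b, G' a b / r * x m *
        (up g i k x * (D.Q.Y a x i * D.Q.Y b x k)) = ∑ a, ∑ b, ∑ k, G' a b / r * x m *
        (up g i k x * (D.Q.Y a x i * D.Q.Y b x k)) := by
      intro i
      rw [Finset.sum_comm]
      exact Finset.sum_congr rfl fun a _ => Finset.sum_comm
    simp only [this]
    rw [Finset.sum_comm]
    refine Finset.sum_congr rfl fun a _ => ?_
    rw [Finset.sum_comm]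
    refine Finset.sum_congr rfl fun b _ => ?_
    simp only [← Finset.mul_sum, U_YYM h hx.le]
    rfl
  have e12 : ∑ i, ∑ k, ∑ a, ∑ b, ga D a b r * (D.Q.J a i m * (up g i k x * D.Q.Y b x k)) =
      ∑ a, ∑ b, ga D a b r * ∑ i, D.Q.J a i m * VY D be b x i := by
    have : ∀ i, ∑ k, ∑ a, ∑ b, ga D a b r * (D.Q.J a i m * (up g i k x * D.Q.Y b x k)) =
        ∑ a, ∑ b, ga D a b r * (D.Q.J a i m * VY D be b x i) := by
      intro i
      rw [Finset.sum_comm]
      refine Finset.sum_congr rfl fun a _ => ?_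
      rw [Finset.sum_comm]
      refine Finset.sum_congr rfl fun b _ => ?_
      rw [← U_YM h hx.le b i, Finset.mul_sum, Finset.mul_sum]
      exact Finset.sum_congr rfl fun k _ => by rw [up_symmM h hx.le i k]
    simp only [this]
    rw [Finset.sum_comm]
    refine Finset.sum_congr rfl fun a _ => ?_
    rw [Finset.sum_comm]
    refine Finset.sum_congr rfl fun b _ => ?_
    rw [← Finset.mul_sum]
  have hgs : ∀ a b, ga D a b r = ga D b a r := by
    intro a b
    unfold ga
    rw [D.q_symm a b]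
    by_cases hab : a = b
    · subst hab; rfl
    · rw [if_neg hab, if_neg (fun hh => hab hh.symm)]
  have e13 : ∑ i, ∑ k, ∑ a, ∑ b, ga D a b r * (D.Q.J b k m * (up g i k x * D.Q.Y a x i)) =
      ∑ a, ∑ b, ga D a b r * ∑ i, D.Q.J a i m * VY D be b x i := by
    have : ∀ i k, ∑ a, ∑ b, ga D a b r * (D.Q.J b k m * (up g i k x * D.Q.Y a x i)) =
        ∑ a, ∑ b, ga D a b r * (D.Q.J a k m * (up g k i x * D.Q.Y b x i)) := by
      intro i k
      rw [Finset.sum_comm]
      refine Finset.sum_congr rfl fun a _ => Finset.sum_congr rfl fun b _ => ?_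
      rw [hgs b a, up_symmM h hx.le i k]
    simp only [this]
    rw [Finset.sum_comm, e12]
  simp only [h1]
  simp only [Finset.sum_add_distrib]
  rw [e1, e2, e3, e4, e5, e6, e7, e8, e9, e10, e11, e12, e13]
  -- algebra
  have hG : ∀ a c, ∑ b, ga D a b r * D.iq r b c =
      ((if a = c then 1 else 0) - D.al r * D.iq r a c) / r ^ 2 := by
    intro a c
    rw [← D.q_iq hx.le a c]
    unfold ga
    fin_cases a <;> simp only [Fin.sum_univ_three, Fin.zero_eta, Fin.mk_one, Fin.reduceFinMk,
      if_true, show ¬ ((0 : Fin 3) = 2) by decide, show ¬ ((2 : Fin 3) = 0) by decide,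
      show ¬ ((1 : Fin 3) = 2) by decide, show ¬ ((2 : Fin 3) = 1) by decide,
      show ¬ ((1 : Fin 3) = 0) by decide, show ¬ ((0 : Fin 3) = 1) by decide, if_false] <;> ring
  have s1 : ∀ a b, D.iq r a b = D.iq r b a := D.iq_symm_apply r
  have hGs : ∀ a c, ∑ b, ga D a b r * D.iq r b c = ∑ b, ga D c b r * D.iq r b a := by
    intro a c
    rw [hG, hG, s1 c a]
    by_cases hab : a = c
    · subst hab; rfl
    · rw [if_neg hab, if_neg (fun hh => hab hh.symm)]
  have f1 : ∑ a, ∑ b, ga D a b r * ∑ i, D.Q.J a i m * VY D be b x i =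
      x m * (∑ a, ∑ b, ga D a b r * D.iq r b a) -
      ∑ a, (∑ b, ga D a b r * be b r) * ∑ i, D.Q.J a i m * Vx D be x i := by
    have e14 : ∑ a, ∑ b, ga D a b r * ∑ c, D.iq r c b *
        ((if a = c then x m else 0) - ∑ d, eps a c d * D.Q.Y d x m) =
        x m * ∑ a, ∑ b, ga D a b r * D.iq r b a := by
      rw [← epsum (fun a c => ∑ b, ga D a b r * D.iq r b c) hGs (x m)
        (fun d => D.Q.Y d x m)]
      refine Finset.sum_congr rfl fun a _ => ?_
      simp only [Finset.mul_sum, Finset.sum_mul]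
      rw [Finset.sum_comm]
      refine Finset.sum_congr rfl fun c _ => Finset.sum_congr rfl fun b _ => ?_
      rw [s1 c b]
      ring
    rw [← e14, ← Finset.sum_sub_distrib]
    refine Finset.sum_congr rfl fun a _ => ?_
    rw [Finset.sum_mul, ← Finset.sum_sub_distrib]
    refine Finset.sum_congr rfl fun b _ => ?_
    rw [JT_VY, ← hrdef]
    ring
  have f2 : ∀ a, ∑ b, ga D a b r * be b r = MM D be a r - D.al r * be a r / r ^ 2 := by
    intro a
    unfold ga MM
    fin_cases a <;> simp only [Fin.sum_univ_three, Fin.zero_eta, Fin.mk_one, Fin.reduceFinMk,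
      if_true, show ¬ ((0 : Fin 3) = 2) by decide, show ¬ ((2 : Fin 3) = 0) by decide,
      show ¬ ((1 : Fin 3) = 2) by decide, show ¬ ((2 : Fin 3) = 1) by decide,
      show ¬ ((1 : Fin 3) = 0) by decide, show ¬ ((0 : Fin 3) = 1) by decide, if_false] <;> ring
  have f3 : ∀ c, ∑ a, MM D be a r * D.iq r c a = be c r / r ^ 2 := by
    intro c
    have e15 : ∀ a, MM D be a r * D.iq r c a =
        ∑ b, be b r / r ^ 2 * (D.q b a r * D.iq r a c) := by
      intro a
      unfold MM
      rw [Finset.sum_div, Finset.sum_mul]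
      refine Finset.sum_congr rfl fun b _ => ?_
      rw [D.q_symm b a, s1 c a]
      ring
    simp only [e15]
    rw [Finset.sum_comm]
    simp only [← Finset.mul_sum, D.q_iq hx.le]
    simp
  have f4 : ∑ a, MM D be a r * VY D be a x m =
      (∑ c, be c r * D.Q.Y c x m) / r ^ 2 - (∑ a, MM D be a r * be a r) * Vx D be x m := by
    have e16 : ∀ a, MM D be a r * VY D be a x m =
        ∑ c, D.Q.Y c x m * (MM D be a r * D.iq r c a) - MM D be a r * be a r * Vx D be x m := by
      intro a
      unfold VY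
      rw [← hrdef, mul_sub, Finset.mul_sum]
      congr 1
      · exact Finset.sum_congr rfl fun c _ => by ring
      · ring
    simp only [e16, Finset.sum_sub_distrib]
    rw [Finset.sum_comm]
    simp only [← Finset.mul_sum, f3, ← Finset.sum_mul]
    rw [Finset.sum_div]
    congr 1
    exact Finset.sum_congr rfl fun c _ => by ring
  have f5 : ∑ a, be a r * ∑ i, D.Q.J a i m * Vx D be x i =
      -((∑ c, be c r * D.Q.Y c x m) + (∑ c, be c r * be c r) * x m) / D.p r := by
    simp only [JT_Vx, ← hrdef]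
    simp only [Fin.sum_univ_three, eps, Matrix.cons_val, if_true,
      show ¬ ((0 : Fin 3) = 2) by decide, show ¬ ((2 : Fin 3) = 0) by decide,
      show ¬ ((1 : Fin 3) = 2) by decide, show ¬ ((2 : Fin 3) = 1) by decide,
      show ¬ ((1 : Fin 3) = 0) by decide, show ¬ ((0 : Fin 3) = 1) by decide, if_false]
    field_simp
    ring
  have f6 : ∑ a, (∑ b, ga D a b r * be b r) * ∑ i, D.Q.J a i m * Vx D be x i =
      ∑ a, MM D be a r * (∑ i, D.Q.J a i m * Vx D be x i) +
      D.al r / r ^ 2 * (((∑ c, be c r * D.Q.Y c x m) + (∑ c, be c r * be c r) * x m) /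
        D.p r) := by
    simp only [f2, sub_mul, Finset.sum_sub_distrib]
    have : ∀ a, D.al r * be a r / r ^ 2 * ∑ i, D.Q.J a i m * Vx D be x i =
        D.al r / r ^ 2 * (be a r * ∑ i, D.Q.J a i m * Vx D be x i) := fun a => by ring
    simp only [this, ← Finset.mul_sum]
    rw [f5]
    ring
  have f7 : ∑ a, ∑ b, ga D a b r * D.iq r b a = (3 - D.al r * ∑ a, D.iq r a a) / r ^ 2 := by
    simp only [hG, if_true]
    simp only [Fin.sum_univ_three]
    ring
  have f8 : ∑ a, MM D be a r * be a r =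
      (∑ a, ∑ b, D.q a b r * be a r * be b r) / r ^ 2 := by
    unfold MM
    simp only [Fin.sum_univ_three]
    ring
  rw [f1, f6, f7, f4, f8]
  have hBM : BM D be r = (D.p r + (∑ a, ∑ b, D.q a b r * be a r * be b r) - D.al r) / r ^ 2 :=
    rfl
  have hVx : Vx D be x m = (x m - ∑ a, be a r * D.Q.Y a x m) / D.p r := rfl
  rw [hVx]
  have hs : ∀ a b, D.q a b r = D.q b a r := fun a b => by rw [D.q_symm a b]
  have hs' : ∀ a b, deriv (D.q a b) r = deriv (D.q b a) r := fun a b => by rw [D.q_symm a b]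
  have f9 : ∑ a, ∑ b, ga D a b r * (D.iq r a b + be a r * be b r / D.p r) =
      (3 - D.al r * ∑ a, D.iq r a a) / r ^ 2 +
      ((∑ a, ∑ b, D.q a b r * be a r * be b r) - D.al r * ∑ a, be a r * be a r) /
        (D.p r * r ^ 2) := by
    rw [← f7]
    have e17 : ∑ a, ∑ b, ga D a b r * (be a r * be b r / D.p r) =
        ((∑ a, ∑ b, D.q a b r * be a r * be b r) - D.al r * ∑ a, be a r * be a r) /
        (D.p r * r ^ 2) := by
      have : ∀ a, ∑ b, ga D a b r * (be a r * be b r / D.p r) =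
          be a r / D.p r * ∑ b, ga D a b r * be b r := by
        intro a
        rw [Finset.mul_sum]
        exact Finset.sum_congr rfl fun b _ => by ring
      simp only [this, f2]
      unfold MM
      simp only [Fin.sum_univ_three]
      field_simp
      ring
    simp only [mul_add, Finset.sum_add_distrib, e17]
    congr 1
    refine Finset.sum_congr rfl fun a _ => Finset.sum_congr rfl fun b _ => ?_
    rw [s1 a b]
  have f10 : ∑ a, ∑ b, G' a b / r * x m * ((D.iq r a b + be a r * be b r / D.p r) * r ^ 2) =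
      x m / r * (∑ a, ∑ b, (deriv (D.q a b) r - if a = b then deriv D.al r else 0) *
        (D.iq r a b + be a r * be b r / D.p r)) -
      2 * x m * ∑ a, ∑ b, ga D a b r * (D.iq r a b + be a r * be b r / D.p r) := by
    rw [Finset.mul_sum, Finset.mul_sum, ← Finset.sum_sub_distrib]
    refine Finset.sum_congr rfl fun a _ => ?_
    rw [Finset.mul_sum, Finset.mul_sum, ← Finset.sum_sub_distrib]
    refine Finset.sum_congr rfl fun b _ => ?_
    simp only [hG']
    field_simp
  rw [f10, f9]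
  have f11 : ∑ a, M' a / r * x m * (-(be a r * r ^ 2 / D.p r)) =
      -(x m / (r * D.p r)) * (∑ a, (∑ b, (deriv (D.q a b) r * be b r + D.q a b r *
        deriv (be b) r)) * be a r) +
      2 * x m / D.p r * ((∑ a, ∑ b, D.q a b r * be a r * be b r) / r ^ 2) := by
    rw [← f8, Finset.mul_sum, Finset.mul_sum, ← Finset.sum_add_distrib]
    refine Finset.sum_congr rfl fun a _ => ?_
    simp only [hM']
    field_simp
    ring
  rw [f11]
  simp only [hB']
  rw [hBM]
  unfold Lm qbb'
  simp only [Fin.sum_univ_three, if_true,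
    show ¬ ((0 : Fin 3) = 2) by decide, show ¬ ((2 : Fin 3) = 0) by decide,
    show ¬ ((1 : Fin 3) = 2) by decide, show ¬ ((2 : Fin 3) = 1) by decide,
    show ¬ ((1 : Fin 3) = 0) by decide, show ¬ ((0 : Fin 3) = 1) by decide, if_false]
  rw [hs 1 0, hs 2 0, hs 2 1, hs' 1 0, hs' 2 0, hs' 2 1, s1 1 0, s1 2 0, s1 2 1]
  field_simp
  ring

end Vale.Agent.M68
end
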