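import Vale.Agent.P366.T2.Alg

noncomputable section
namespace Vale.Agent.M68
open Vale.Agent.P366.T2

/-- `J_aᵀ Y_c` -/
def HH (xk : ℝ) (yk : Fin 3 → ℝ) (a c : Fin 3) : ℝ := (if a = c then xk else 0) - ∑ d, eps a c d * yk d

/-- `n Y_c` -/
def NN (b : Fin 3 → ℝ) (xk : ℝ) (yk : Fin 3 → ℝ) (c : Fin 3) : ℝ :=
  yk c - ∑ e, b e * ((if c = e then -xk else 0) + ∑ d, eps c e d * yk d)

lemma partA (r al al1 xk xm : ℝ) (b yk ym J : Fin 3 → ℝ) :
    ((-(r * al1) + 2 * al) * (xk * xm) -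
      al * ((xk - ∑ a, b a * yk a) * xm + xk * (xm - ∑ a, b a * ym a))) +
    ∑ a, ((-(r * al1) + 2 * al) * (yk a * ym a) -
      al * (NN b xk yk a * ym a + yk a * NN b xm ym a)) +
    (-(al * (xk * xm)) - ∑ a, al * (yk a * ym a) -
      ∑ a, b a * (al * (xm * yk a) - ∑ c, (al * ym c) * HH xk yk a c)) +
    (-(al * (xk * xm)) - ∑ a, al * (yk a * ym a) -
      ∑ a, b a * (al * (xk * ym a) - ∑ c, (al * yk c) * HH xm ym a c)) =
    -(r * al1 + 2 * al) * (xk * xm + ∑ a, yk a * ym a) := by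
  unfold NN HH
  simp only [Fin.sum_univ_three, eps, Matrix.cons_val, if_true,
    show ¬ ((0 : Fin 3) = 2) by decide, show ¬ ((2 : Fin 3) = 0) by decide,
    show ¬ ((1 : Fin 3) = 2) by decide, show ¬ ((2 : Fin 3) = 1) by decide,
    show ¬ ((1 : Fin 3) = 0) by decide, show ¬ ((0 : Fin 3) = 1) by decide, if_false]
  generalize b 0 = b0
  generalize b 1 = b1
  generalize b 2 = b2
  generalize yk 0 = yk0
  generalize yk 1 = yk1
  generalize yk 2 = yk2
  generalize ym 0 = ym0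
  generalize ym 1 = ym1
  generalize ym 2 = ym2
  ring

lemma partP (r p p1 xk xm : ℝ) (b yk ym : Fin 3 → ℝ) :
    ((r * p1 - 2 * p) * (xk * xm) +
      p * ((xk - ∑ a, b a * yk a) * xm + xk * (xm - ∑ a, b a * ym a))) +
    (p * (xk * xm) - ∑ a, b a * (p * (xm * -yk a))) +
    (p * (xk * xm) - ∑ a, b a * (p * (xk * -ym a))) =
    (r * p1 + 2 * p) * xk * xm := by
  simp only [Fin.sum_univ_three]
  ring

lemma partQ (r xk xm : ℝ) (b b1 yk ym : Fin 3 → ℝ) (q q1 : Fin 3 → Fin 3 → ℝ)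
    (hq : ∀ a c, q a c = q c a) (hq1 : ∀ a c, q1 a c = q1 c a) :
    ((r * (∑ a, ∑ c, (q1 a c * b a * b c + q a c * b1 a * b c + q a c * b a * b1 c)) -
        2 * (∑ a, ∑ c, q a c * b a * b c)) * (xk * xm) +
      (∑ a, ∑ c, q a c * b a * b c) *
        ((xk - ∑ a, b a * yk a) * xm + xk * (xm - ∑ a, b a * ym a))) +
    ∑ a, ((r * (∑ c, (q1 a c * b c + q a c * b1 c)) -
        2 * (∑ c, q a c * b c)) * (xk * ym a + yk a * xm) +
      (∑ c, q a c * b c) * ((xk - ∑ a, b a * yk a) * ym a + xk * NN b xm ym a +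
        (NN b xk yk a * xm + yk a * (xm - ∑ a, b a * ym a)))) +
    ∑ a, ∑ c, ((r * q1 a c - 2 * q a c) * (yk a * ym c) +
      q a c * (NN b xk yk a * ym c + yk a * NN b xm ym c)) +
    (((∑ a, ∑ c, q a c * b a * b c) * (xk * xm) +
        ∑ a, (∑ c, q a c * b c) * (xk * ym a + yk a * xm) +
        ∑ a, ∑ c, q a c * (yk a * ym c)) -
      (r * (∑ a, b1 a * xk * (∑ c, q c a * (ym c + b c * xm))) +
      ∑ a, b a * ((∑ a, ∑ c, q a c * b a * b c) * (xm * -yk a) +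
        ∑ c, (∑ d, q c d * b d) * (xm * HH xk yk a c + ym c * -yk a) +
        ∑ c, (∑ d, q d c * ym d) * HH xk yk a c))) +
    (((∑ a, ∑ c, q a c * b a * b c) * (xk * xm) +
        ∑ a, (∑ c, q a c * b c) * (xk * ym a + yk a * xm) +
        ∑ a, ∑ c, q a c * (yk a * ym c)) -
      (r * (∑ a, b1 a * xm * (∑ c, q c a * (yk c + b c * xk))) +
      ∑ a, b a * ((∑ a, ∑ c, q a c * b a * b c) * (xk * -ym a) +
        ∑ c, (∑ d, q c d * b d) * (xk * HH xm ym a c + yk c * -ym a) +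
        ∑ c, (∑ d, q d c * yk d) * HH xm ym a c))) =
    (∑ a, ∑ c, (2 * q a c + r * q1 a c - 2 * ∑ e, ∑ d, b e *
        (eps e a d * q d c + eps e c d * q a d)) * (yk a + b a * xk) * (ym c + b c * xm)) := by
  unfold NN HH
  simp only [Fin.sum_univ_three, eps, Matrix.cons_val, if_true,
    show ¬ ((0 : Fin 3) = 2) by decide, show ¬ ((2 : Fin 3) = 0) by decide,
    show ¬ ((1 : Fin 3) = 2) by decide, show ¬ ((2 : Fin 3) = 1) by decide,
    show ¬ ((1 : Fin 3) = 0) by decide, show ¬ ((0 : Fin 3) = 1) by decide, if_false]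
  rw [hq 1 0, hq 2 0, hq 2 1, hq1 1 0, hq1 2 0, hq1 2 1]
  generalize b 0 = b0
  generalize b 1 = bb1
  generalize b 2 = b2
  generalize b1 0 = c0
  generalize b1 1 = c1
  generalize b1 2 = c2
  generalize yk 0 = yk0
  generalize yk 1 = yk1
  generalize yk 2 = yk2
  generalize ym 0 = ym0
  generalize ym 1 = ym1
  generalize ym 2 = ym2
  generalize q 0 0 = q00
  generalize q 0 1 = q01
  generalize q 0 2 = q02
  generalize q 1 1 = q11
  generalize q 1 2 = q12
  generalize q 2 2 = q22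
  generalize q1 0 0 = p00
  generalize q1 0 1 = p01
  generalize q1 0 2 = p02
  generalize q1 1 1 = p11
  generalize q1 1 2 = p12
  generalize q1 2 2 = p22
  ring

end Vale.Agent.M68
end
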