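import Vale.Agent.P366.T2.M68c
import Vale.Agent.P366.T2.M68x

open MeasureTheory Metric Filter Topology Set
open scoped ContDiff ENNReal

noncomputable section
namespace Vale.Agent.M68
open Vale.Agent.P366.Stmt Vale.Agent.P366.T2 Vale.Agent.P366.T2.B68 Vale.Agent.Mom68

variable {n : ℕ} {D : Data n} {be : Fin 3 → ℝ → ℝ} {g K : Field n}

/-- the normal direction `x - β_a J_a x` -/
def nX (D : Data n) (be : Fin 3 → ℝ → ℝ) (j : Fin n) (y : E n) : ℝ :=
  y j - ∑ a, be a (len y) * D.Q.Y a y j

lemma nX_HP (h : FitsM D be g K) {x : E n} (hx : x ≠ 0) (k j : Fin n) :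
    HP k (nX D be j) ((if j = k then 1 else 0) - ∑ a, (deriv (be a) (len x) / len x * x k *
      D.Q.Y a x j + be a (len x) * D.Q.J a j k)) x :=
  (HP.coord k j x).sub (HP.sum _ fun a _ =>
    (HP.radial hx (hd (h.be_smooth a) (len x)) k).mul (HP.Y D.Q a k j x))

lemma nX_diff (h : FitsM D be g K) {x : E n} (hx : x ≠ 0) (j : Fin n) :
    DifferentiableAt ℝ (nX D be j) x := by
  unfold nX
  have h1 : DifferentiableAt ℝ (fun y : E n => len y) x := (hasFDerivAt_len hx).differentiableAt
  have h2 : ∀ i, DifferentiableAt ℝ (fun y : E n => y i) x := fun i =>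
    (EuclideanSpace.proj (𝕜 := ℝ) i).differentiableAt
  refine (h2 j).sub (DifferentiableAt.fun_sum fun a _ => ?_)
  refine DifferentiableAt.mul ?_ ?_
  · exact ((hd (h.be_smooth a) (len x)).differentiableAt).comp x h1
  · unfold Quat.Y
    exact DifferentiableAt.fun_sum fun i _ => (h2 i).const_mul _

lemma nX_x (x : E n) : ∑ j, nX D be j x * x j = len x ^ 2 := by
  have h1 : ∀ j, nX D be j x * x j = x j * x j - ∑ a, be a (len x) * (D.Q.Y a x j * x j) := by
    intro j
    unfold nX
    simp only [Fin.sum_univ_three]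
    ring
  simp only [h1, Finset.sum_sub_distrib]
  rw [Quat.sum_sq, Finset.sum_comm]
  simp only [← Finset.mul_sum, D.Q.Y_x, mul_zero, Finset.sum_const_zero, sub_zero]

/-- `n Y_c` -/
def NY (D : Data n) (be : Fin 3 → ℝ → ℝ) (c : Fin 3) (x : E n) (k : Fin n) : ℝ :=
  NN (fun a => be a (len x)) (x k) (fun a => D.Q.Y a x k) c

lemma nX_J (c : Fin 3) (x : E n) (k : Fin n) : ∑ j, D.Q.J c k j * nX D be j x = NY D be c x k := by
  have h1 : ∀ j, D.Q.J c k j * nX D be j x = D.Q.J c k j * x j -
      ∑ a, be a (len x) * (D.Q.J c k j * D.Q.Y a x j) := by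
    intro j
    unfold nX
    simp only [Fin.sum_univ_three]
    ring
  simp only [h1, Finset.sum_sub_distrib]
  rw [D.Q.J_x, Finset.sum_comm]
  simp only [← Finset.mul_sum, D.Q.J_Y]
  rfl

/-- derivative of the metric along `n` -/
lemma Dn_g (h : FitsM D be g K) {x : E n} (hx : D.R < len x) (k m : Fin n) :
    ∑ j, nX D be j x * pd j (fun y => g y k m) x =
      len x * deriv D.al (len x) * (if k = m then 1 else 0) +
      ((len x * (deriv D.p (len x) + qbb' D be (len x) - deriv D.al (len x)) -
        2 * (D.p (len x) + (∑ a, ∑ b, D.q a b (len x) * be a (len x) * be b (len x)) -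
          D.al (len x))) / len x ^ 2 * (x k * x m) + BM D be (len x) *
        (nX D be k x * x m + x k * nX D be m x)) +
      ∑ a, ((len x * (∑ b, (deriv (D.q a b) (len x) * be b (len x) + D.q a b (len x) *
        deriv (be b) (len x))) - 2 * ∑ b, D.q a b (len x) * be b (len x)) / len x ^ 2 *
        (x k * D.Q.Y a x m + D.Q.Y a x k * x m) + MM D be a (len x) *
        (nX D be k x * D.Q.Y a x m + x k * NY D be a x m +
          (NY D be a x k * x m + D.Q.Y a x k * nX D be m x))) +
      ∑ a, ∑ b, ((len x * (deriv (D.q a b) (len x) - if a = b then deriv D.al (len x) else 0) -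
        2 * (D.q a b (len x) - if a = b then D.al (len x) else 0)) /
        len x ^ 2 * (D.Q.Y a x k * D.Q.Y b x m) +
        ga D a b (len x) * (NY D be a x k * D.Q.Y b x m + D.Q.Y a x k * NY D be b x m)) := by
  have hr : 0 < len x := len_pos' hx
  set r := len x with hrdef
  set B' := (deriv D.p r + qbb' D be r - deriv D.al r) / r ^ 2 - 2 * BM D be r / r with hB'
  set M' : Fin 3 → ℝ := fun a => (∑ b, (deriv (D.q a b) r * be b r + D.q a b r *
        deriv (be b) r)) / r ^ 2 - 2 * MM D be a r / r with hM'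
  set G' : Fin 3 → Fin 3 → ℝ := fun a b => (deriv (D.q a b) r - if a = b then deriv D.al r
    else 0) / r ^ 2 - 2 * ga D a b r / r with hG'
  have h1 : ∀ j, nX D be j x * pd j (fun y => g y k m) x =
      (deriv D.al r / r * (if k = m then 1 else 0) + B' / r * (x k * x m) +
        ∑ a, M' a / r * (x k * D.Q.Y a x m + D.Q.Y a x k * x m) +
        ∑ a, ∑ b, G' a b / r * (D.Q.Y a x k * D.Q.Y b x m)) * (nX D be j x * x j) +
      (BM D be r * x m + ∑ a, MM D be a r * D.Q.Y a x m) *
        (nX D be j x * (if k = j then 1 else 0)) +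
      (BM D be r * x k + ∑ a, MM D be a r * D.Q.Y a x k) *
        (nX D be j x * (if m = j then 1 else 0)) +
      ∑ a, (MM D be a r * x k) * (D.Q.J a m j * nX D be j x) +
      ∑ a, (MM D be a r * x m) * (D.Q.J a k j * nX D be j x) +
      ∑ a, (∑ b, ga D a b r * D.Q.Y b x m) * (D.Q.J a k j * nX D be j x) +
      ∑ b, (∑ a, ga D a b r * D.Q.Y a x k) * (D.Q.J b m j * nX D be j x) := by
    intro j
    rw [pd_gM h hx, ← hrdef]
    simp only [hB', hM', hG', Fin.sum_univ_three]
    ring
  have hc : ∀ (F : Fin 3 → ℝ) (H : Fin 3 → Fin n → ℝ), ∑ j, ∑ a, F a * H a j =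
      ∑ a, F a * ∑ j, H a j := by
    intro F H
    rw [Finset.sum_comm]
    simp only [← Finset.mul_sum]
  have hdel : ∀ k : Fin n, ∑ j, nX D be j x * (if k = j then (1 : ℝ) else 0) = nX D be k x := by
    intro k; simp
  simp only [h1, Finset.sum_add_distrib]
  rw [← Finset.mul_sum, ← Finset.mul_sum, ← Finset.mul_sum, nX_x, hdel, hdel, hc, hc, hc, hc]
  simp only [nX_J, ← hrdef]
  have b1 : B' = (r * (deriv D.p r + qbb' D be r - deriv D.al r) -
      2 * (D.p r + (∑ a, ∑ b, D.q a b r * be a r * be b r) - D.al r)) / r ^ 2 / r := by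
    rw [hB']; unfold BM; field_simp
  have b2 : ∀ a, M' a = (r * (∑ b, (deriv (D.q a b) r * be b r + D.q a b r *
        deriv (be b) r)) - 2 * ∑ b, D.q a b r * be b r) / r ^ 2 / r := by
    intro a
    simp only [hM']; unfold MM; field_simp
  have b3 : ∀ a b, G' a b = (r * (deriv (D.q a b) r - if a = b then deriv D.al r else 0) -
        2 * (D.q a b r - if a = b then D.al r else 0)) / r ^ 2 / r := by
    intro a b
    simp only [hG']; unfold ga; field_simp
  simp only [b2, b3]
  rw [b1]
  generalize (r * (deriv D.p r + qbb' D be r - deriv D.al r) -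
      2 * (D.p r + (∑ a, ∑ b, D.q a b r * be a r * be b r) - D.al r)) / r ^ 2 = X1
  generalize (fun a => (r * (∑ b, (deriv (D.q a b) r * be b r + D.q a b r *
        deriv (be b) r)) - 2 * ∑ b, D.q a b r * be b r) / r ^ 2) = X2
  simp only [Fin.sum_univ_three]
  field_simp
  ring

/-- `g J_a` -/
lemma g_J (h : FitsM D be g K) {x : E n} (hx : D.R ≤ len x) (a : Fin 3) (m k : Fin n) :
    ∑ j, g x m j * D.Q.J a j k = D.al (len x) * D.Q.J a m k +
      BM D be (len x) * (x m * (-D.Q.Y a x k)) +
      ∑ c, MM D be c (len x) * (x m * HH (x k) (fun d => D.Q.Y d x k) a c +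
        D.Q.Y c x m * (-D.Q.Y a x k)) +
      ∑ c, (∑ b, ga D b c (len x) * D.Q.Y b x m) * HH (x k) (fun d => D.Q.Y d x k) a c := by
  have h1 : ∀ j, g x m j * D.Q.J a j k =
      D.al (len x) * ((if m = j then 1 else 0) * D.Q.J a j k) +
      (BM D be (len x) * x m + ∑ c, MM D be c (len x) * D.Q.Y c x m) * (D.Q.J a j k * x j) +
      ∑ c, (MM D be c (len x) * x m + ∑ b, ga D b c (len x) * D.Q.Y b x m) *
        (D.Q.J a j k * D.Q.Y c x j) := by
    intro j
    rw [g_formM h hx]
    simp only [Fin.sum_univ_three]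
    ring
  simp only [h1, Finset.sum_add_distrib]
  rw [← Finset.mul_sum, ← Finset.mul_sum, D.Q.JT_x, Finset.sum_comm]
  simp only [← Finset.mul_sum, D.Q.JT_Y]
  have h2 : ∑ j, (if m = j then (1 : ℝ) else 0) * D.Q.J a j k = D.Q.J a m k := by simp
  rw [h2]
  unfold HH
  simp only [Fin.sum_univ_three]
  ring

lemma g_Y (h : FitsM D be g K) {x : E n} (hx : D.R ≤ len x) (c : Fin 3) (m : Fin n) :
    ∑ j, g x m j * D.Q.Y c x j = ∑ a, D.q a c (len x) * (D.Q.Y a x m + be a (len x) * x m) := by
  simp only [g_ntM h hx, nt_Y D.Q _ _ _ _ _ (len_pos_of hx)]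
  simp only [Fin.sum_univ_three]
  ring

lemma Lie_eq (h : FitsM D be g K) {x : E n} (hx : D.R < len x) (k m : Fin n) :
    Lie g (nX D be) k m x = D.Q.tenM be (fun r => r * deriv D.al r + 2 * D.al r)
      (fun r => r * deriv D.p r + 2 * D.p r) (fun _ _ => 0)
      (fun a b r => D.dqM be r a b / r) x k m := by
  have hr : 0 < len x := len_pos' hx
  have hx0 : x ≠ 0 := len_pos_of hx.le
  have hz : ∀ k j, pd k (nX D be j) x = (if j = k then 1 else 0) -
      ∑ a, (deriv (be a) (len x) / len x * x k * D.Q.Y a x j + be a (len x) * D.Q.J a j k) :=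
    fun k j => (nX_HP h hx0 k j).pd
  have h1 : ∀ k m, ∑ j, g x m j * pd k (nX D be j) x = g x m k -
      (len x / len x ^ 2 * ∑ a, deriv (be a) (len x) * x k *
        (∑ c, D.q c a (len x) * (D.Q.Y c x m + be c (len x) * x m)) +
      ∑ a, be a (len x) * ∑ j, g x m j * D.Q.J a j k) := by
    intro k m
    have e1 : ∀ j, g x m j * pd k (nX D be j) x = g x m j * (if j = k then 1 else 0) -
        (∑ a, (deriv (be a) (len x) / len x * x k) * (g x m j * D.Q.Y a x j) +
        ∑ a, be a (len x) * (g x m j * D.Q.J a j k)) := by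
      intro j
      rw [hz]
      simp only [Fin.sum_univ_three]
      ring
    simp only [e1, Finset.sum_sub_distrib, Finset.sum_add_distrib]
    congr 1
    · simp
    · congr 1
      · rw [Finset.sum_comm]
        simp only [← Finset.mul_sum, g_Y h hx.le]
        rw [Finset.mul_sum]
        refine Finset.sum_congr rfl fun a _ => ?_
        have e3 : len x / len x ^ 2 = 1 / len x := by field_simp
        rw [e3]
        ring
      · rw [Finset.sum_comm]
        simp only [← Finset.mul_sum]
  have h2 : Lie g (nX D be) k m x = ∑ j, nX D be j x * pd j (fun y => g y k m) x +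
      ∑ j, g x m j * pd k (nX D be j) x + ∑ j, g x k j * pd m (nX D be j) x := by
    unfold Lie
    simp only [Finset.sum_add_distrib]
    congr 2
    exact Finset.sum_congr rfl fun j _ => by rw [g_symmM h hx.le j m]
  rw [h2, h1 k m, h1 m k, Dn_g h hx, g_symmM h hx.le m k, g_formM h hx.le k m]
  simp only [g_J h hx.le]
  have hJ : ∀ a, D.Q.J a m k = -D.Q.J a k m := fun a => D.Q.skew_apply a k m
  have hs : ∀ a b, D.q a b (len x) = D.q b a (len x) := fun a b => by rw [D.q_symm a b]
  have hs' : ∀ a b, deriv (D.q a b) (len x) = deriv (D.q b a) (len x) := fun a b => by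
    rw [D.q_symm a b]
  have hdq : ∀ a b, D.dqM be (len x) a b / len x = 2 * D.q a b (len x) +
      len x * deriv (D.q a b) (len x) - 2 * ∑ c, ∑ d, be c (len x) *
        (eps c a d * D.q d b (len x) + eps c b d * D.q a d (len x)) := by
    intro a b
    have e1 : deriv (fun t => t ^ 2 * D.q a b t) (len x) = 2 * len x * D.q a b (len x) +
        len x ^ 2 * deriv (D.q a b) (len x) := by
      have hsq : HasDerivAt (fun t : ℝ => t ^ 2) (2 * len x) (len x) := by
        simpa using hasDerivAt_pow 2 (len x)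
      exact (hsq.mul (hd (D.q_smooth a b) (len x))).deriv
    unfold Data.dqM
    rw [Matrix.of_apply, e1]
    field_simp
  have A := partA (len x) (D.al (len x)) (deriv D.al (len x)) (x k) (x m)
    (fun a => be a (len x)) (fun a => D.Q.Y a x k) (fun a => D.Q.Y a x m) (fun _ => 0)
  have P := partP (len x) (D.p (len x)) (deriv D.p (len x)) (x k) (x m)
    (fun a => be a (len x)) (fun a => D.Q.Y a x k) (fun a => D.Q.Y a x m)
  have Q := partQ (len x) (x k) (x m) (fun a => be a (len x)) (fun a => deriv (be a) (len x))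
    (fun a => D.Q.Y a x k) (fun a => D.Q.Y a x m) (fun a b => D.q a b (len x))
    (fun a b => deriv (D.q a b) (len x)) hs hs'
  unfold Quat.tenM
  simp only [hdq]
  unfold NY nX BM MM ga qbb' Quat.Z
  simp only [Fin.sum_univ_three, if_true,
    show ¬ ((0 : Fin 3) = 2) by decide, show ¬ ((2 : Fin 3) = 0) by decide,
    show ¬ ((1 : Fin 3) = 2) by decide, show ¬ ((2 : Fin 3) = 1) by decide,
    show ¬ ((1 : Fin 3) = 0) by decide, show ¬ ((0 : Fin 3) = 1) by decide, if_false]
    at A P Q ⊢
  rw [hJ 0, hJ 1, hJ 2]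
  linear_combination (1 / len x ^ 2) * A + (1 / len x ^ 2) * P + (1 / len x ^ 2) * Q

end Vale.Agent.M68
end
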