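import Vale.Agent.P366.T2.M68d
import Vale.Agent.P366.T2.M68e
import Vale.Agent.P366.T2.Key

open MeasureTheory Metric Filter Topology Set
open scoped ContDiff ENNReal

noncomputable section
namespace Vale.Agent.M68
open Vale.Agent.P366.Stmt Vale.Agent.P366.T2 Vale.Agent.P366.T2.B68 Vale.Agent.Mom68

variable {n : ℕ} {D : Data n} {be : Fin 3 → ℝ → ℝ} {g K : Field n}

/-- fibre part of `π` -/
def sp (D : Data n) (a b : Fin 3) (r : ℝ) : ℝ := D.s a b r - (D.k r + D.KN r) * D.q a b r

lemma sp_symm (a b : Fin 3) (r : ℝ) : sp D a b r = sp D b a r := by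
  unfold sp
  rw [D.s_symm a b, D.q_symm a b]

lemma pi_ntM (h : FitsM D be g K) {x : E n} (hx : D.R ≤ len x) (i j : Fin n) :
    momT g K x i j = nt D.Q (D.ka (len x) - (D.k (len x) + D.KN (len x)) * D.al (len x))
      (-(D.p (len x) * D.k (len x)) + 2 * ∑ a, D.v a (len x) * be a (len x) +
        ∑ a, ∑ b, sp D a b (len x) * be a (len x) * be b (len x))
      (fun b => D.v b (len x) + ∑ a, sp D a b (len x) * be a (len x))
      (fun a => D.v a (len x) + ∑ b, sp D a b (len x) * be b (len x))
      (fun a b => sp D a b (len x)) x i j := by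
  have h1 : momT g K x i j = K x i j - tr g K x * g x i j := rfl
  rw [h1, tr_eqM' h hx, h.hK x hx, tenM_nt, g_ntM h hx, ← KN_mul hx]
  unfold nt sp
  simp only [Fin.sum_univ_three]
  ring

/-- the tensor `U π` -/
lemma Upi (h : FitsM D be g K) {x : E n} (hx : D.R ≤ len x) (i j : Fin n) :
    ∑ k, up g i k x * momT g K x k j =
    nt D.Q ((D.ka (len x) - (D.k (len x) + D.KN (len x)) * D.al (len x)) / D.al (len x))
      ((-(D.p (len x) * D.k (len x)) + ∑ a, D.v a (len x) * be a (len x)) / D.p (len x))
      (fun b => D.v b (len x) / D.p (len x))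
      (fun a => ∑ b, D.iq (len x) a b * (D.v b (len x) + ∑ c, sp D b c (len x) * be c (len x)) -
        be a (len x) * (-(D.p (len x) * D.k (len x)) + ∑ c, D.v c (len x) * be c (len x)) /
          D.p (len x))
      (fun a b => ∑ c, D.iq (len x) a c * sp D c b (len x) -
        be a (len x) * D.v b (len x) / D.p (len x)) x i j := by
  rw [← UT h hx (D.ka (len x) - (D.k (len x) + D.KN (len x)) * D.al (len x))
    (-(D.p (len x) * D.k (len x))) (fun a => D.v a (len x))
    (fun a b => sp D a b (len x)) (fun a b => sp_symm a b _) i j]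
  exact Finset.sum_congr rfl fun k _ => by rw [pi_ntM h hx]

/-- the fibre coefficients of `W` -/
def ph (D : Data n) (be : Fin 3 → ℝ → ℝ) (a : Fin 3) (r : ℝ) : ℝ :=
  (∑ b, D.iq r a b * D.v b r) + D.k r * be a r

lemma WX_eq (h : FitsM D be g K) {x : E n} (hx : D.R ≤ len x) (k : Fin n) :
    WX g K (nX D be) k x = -D.k (len x) * x k + ∑ a, ph D be a (len x) * D.Q.Y a x k := by
  have hp := (D.p_pos _ hx).ne'
  have hx0 := len_pos_of hx
  have h1 : WX g K (nX D be) k x = ∑ j, (∑ i, up g k i x * momT g K x i j) *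
      (x j - ∑ a, be a (len x) * D.Q.Y a x j) := by
    unfold WX nX
    simp only [Finset.mul_sum, Finset.sum_mul]
    rw [Finset.sum_comm]
    exact Finset.sum_congr rfl fun j _ => Finset.sum_congr rfl fun i _ => by ring
  rw [h1]
  simp only [Upi h hx, mul_sub, Finset.sum_sub_distrib]
  rw [nt_x D.Q _ _ _ _ _ hx0]
  have h2 : ∀ (F : Fin n → ℝ), ∑ j, F j * ∑ a, be a (len x) * D.Q.Y a x j =
      ∑ a, be a (len x) * ∑ j, F j * D.Q.Y a x j := by
    intro F
    simp only [Finset.mul_sum]
    rw [Finset.sum_comm]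
    exact Finset.sum_congr rfl fun a _ => Finset.sum_congr rfl fun j _ => by ring
  rw [h2]
  simp only [nt_Y D.Q _ _ _ _ _ hx0]
  unfold ph
  simp only [Fin.sum_univ_three]
  field_simp
  ring

lemma iq_diff {r : ℝ} (hr : D.R ≤ r) (a b : Fin 3) :
    DifferentiableAt ℝ (fun t => D.iq t a b) r := by
  have h1 := differentiableAt_inv3 (M := fun t => D.qm t) (r := r)
    (fun a b => (hd (D.q_smooth a b) r).differentiableAt) (D.qm_det_ne hr)
  exact h1 a b

lemma ph_diff (h : FitsM D be g K) {r : ℝ} (hr : D.R ≤ r) (a : Fin 3) :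
    DifferentiableAt ℝ (ph D be a) r := by
  unfold ph
  refine DifferentiableAt.add (DifferentiableAt.fun_sum fun b _ => ?_) ?_
  · exact (iq_diff hr a b).mul (hd (D.v_smooth b) r).differentiableAt
  · exact (D.k_diff hr).mul (hd (h.be_smooth a) r).differentiableAt

lemma div_W (h : FitsM D be g K) {x : E n} (hx : D.R < len x) :
    ∑ k, pd k (WX g K (nX D be) k) x =
      -(len x * deriv D.k (len x) + n * D.k (len x)) := by
  have hx0 := len_pos_of hx.le
  have hr : 0 < len x := len_pos' hx
  have h1 : ∀ k, pd k (WX g K (nX D be) k) x =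
      -(deriv D.k (len x) / len x * (x k * x k)) - D.k (len x) +
      ∑ a, (deriv (ph D be a) (len x) / len x * (x k * D.Q.Y a x k) +
        ph D be a (len x) * D.Q.J a k k) := by
    intro k
    have h2 : HP k (fun y => -D.k (len y) * y k + ∑ a, ph D be a (len y) * D.Q.Y a y k) _ x :=
      ((HP.radial hx0 (D.k_diff hx.le).hasDerivAt k).neg.mul (HP.coord k k x)).add
        (HP.sum _ fun a _ => (HP.radial hx0 (ph_diff h hx.le a).hasDerivAt k).mul
          (HP.Y D.Q a k k x))
    have h3 : (WX g K (nX D be) k) =ᶠ[𝓝 x]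
        (fun y => -D.k (len y) * y k + ∑ a, ph D be a (len y) * D.Q.Y a y k) := by
      filter_upwards [nearM hx] with y hy
      exact WX_eq h hy k
    rw [(h2.congr h3).pd]
    simp only [if_true, Fin.sum_univ_three]
    ring
  simp only [h1, Finset.sum_add_distrib, Finset.sum_sub_distrib, Finset.sum_neg_distrib]
  rw [← Finset.mul_sum, Quat.sum_sq]
  have h4 : ∑ k, ∑ a, deriv (ph D be a) (len x) / len x * (x k * D.Q.Y a x k) = 0 := by
    rw [Finset.sum_comm]
    simp only [← Finset.mul_sum, D.Q.x_Y, mul_zero, Finset.sum_const_zero]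
  have h5 : ∑ k, ∑ a, ph D be a (len x) * D.Q.J a k k = 0 := by
    simp only [D.Q.diag, mul_zero, Finset.sum_const_zero]
  rw [h4, h5]
  simp
  field_simp
  ring

lemma L_W (h : FitsM D be g K) {x : E n} (hx : D.R < len x) :
    ∑ k, Lg g k x * WX g K (nX D be) k x =
      -(1 / 2) * len x * D.k (len x) * (Lm D (len x) + deriv D.p (len x) / D.p (len x)) := by
  have hr : 0 < len x := len_pos' hx
  have h1 : ∀ k, Lg g k x * WX g K (nX D be) k x =
      (1 / 2) / len x * (Lm D (len x) + deriv D.p (len x) / D.p (len x)) *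
        (-D.k (len x) * (x k * x k) + ∑ a, ph D be a (len x) * (x k * D.Q.Y a x k)) := by
    intro k
    have h2 : Lg g k x = (1 / 2) * (x k / len x *
        (Lm D (len x) + deriv D.p (len x) / D.p (len x))) := by
      rw [← L_M h hx k]
      rfl
    rw [h2, WX_eq h hx.le]
    simp only [Fin.sum_univ_three]
    ring
  simp only [h1, ← Finset.mul_sum, Finset.sum_add_distrib]
  rw [Quat.sum_sq, Finset.sum_comm]
  simp only [← Finset.mul_sum, D.Q.x_Y, mul_zero, Finset.sum_const_zero, add_zero]
  field_simp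

/-- the contraction of `π` with the Lie derivative -/
lemma P_Lie (h : FitsM D be g K) {x : E n} (hx : D.R < len x) :
    ∑ k, ∑ m, Pu g K k m x * Lie g (nX D be) k m x =
      ((n : ℝ) - 4) * ((D.ka (len x) - (D.k (len x) + D.KN (len x)) * D.al (len x)) /
        D.al (len x)) * ((len x * deriv D.al (len x) + 2 * D.al (len x)) / D.al (len x)) -
      D.k (len x) * ((len x * deriv D.p (len x) + 2 * D.p (len x)) / D.p (len x)) +
      ∑ a, ∑ b, (∑ c, D.iq (len x) a c * sp D c b (len x)) *
        (∑ c, D.iq (len x) b c * (D.dqM be (len x) c a / len x)) := by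
  have hx0 := len_pos_of hx.le
  have hp := (D.p_pos _ hx.le).ne'
  have hr : 0 < len x := len_pos' hx
  have hsym : ∀ a b, D.dqM be (len x) a b / len x = D.dqM be (len x) b a / len x := by
    intro a b
    congr 1
    unfold Data.dqM
    simp only [Matrix.of_apply]
    have e : D.q a b = D.q b a := D.q_symm a b
    rw [e]
    congr 2
    refine Finset.sum_congr rfl fun c _ => Finset.sum_congr rfl fun d _ => ?_
    rw [D.q_symm d b, D.q_symm a d]
    ring
  have hL : ∀ k m, Lie g (nX D be) k m x = nt D.Q (len x * deriv D.al (len x) + 2 * D.al (len x))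
      (len x * deriv D.p (len x) + 2 * D.p (len x) + 2 * ∑ a : Fin 3, (0 : ℝ) * be a (len x) +
        ∑ a, ∑ b, D.dqM be (len x) a b / len x * be a (len x) * be b (len x))
      (fun b => (0 : ℝ) + ∑ a, D.dqM be (len x) a b / len x * be a (len x))
      (fun a => (0 : ℝ) + ∑ b, D.dqM be (len x) a b / len x * be b (len x))
      (fun a b => D.dqM be (len x) a b / len x) x k m := by
    intro k m
    rw [Lie_eq h hx, tenM_nt]
  have hLs : ∀ k m, Lie g (nX D be) k m x = Lie g (nX D be) m k x := by
    intro k m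
    rw [hL, hL m k, nt_transpose]
    congr 1
    · funext a
      congr 1
      exact Finset.sum_congr rfl fun b _ => by rw [hsym a b]
    · funext b
      congr 1
      exact Finset.sum_congr rfl fun a _ => by rw [hsym a b]
    · funext a b; exact hsym b a
  have h1 : ∑ k, ∑ m, Pu g K k m x * Lie g (nX D be) k m x =
      ∑ k, ∑ l, (∑ i, up g k i x * momT g K x i l) * (∑ m, up g l m x *
        Lie g (nX D be) m k x) := by
    refine Finset.sum_congr rfl fun k _ => ?_
    unfold Pu
    simp only [Finset.mul_sum, Finset.sum_mul]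
    calc ∑ m, ∑ i, ∑ l, up g k i x * (momT g K x i l * up g l m x) * Lie g (nX D be) k m x
        = ∑ m, ∑ l, ∑ i, up g k i x * (momT g K x i l * up g l m x) * Lie g (nX D be) k m x :=
          Finset.sum_congr rfl fun m _ => Finset.sum_comm
      _ = ∑ l, ∑ m, ∑ i, up g k i x * (momT g K x i l * up g l m x) * Lie g (nX D be) k m x :=
          Finset.sum_comm
      _ = _ := by
        refine Finset.sum_congr rfl fun l _ => Finset.sum_congr rfl fun m _ =>
          Finset.sum_congr rfl fun i _ => ?_
        rw [hLs k m]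
        ring
  rw [h1]
  have h2 : ∀ l k, ∑ m, up g l m x * Lie g (nX D be) m k x = _ := fun l k => by
    simp only [hL]
    exact UT h hx.le (len x * deriv D.al (len x) + 2 * D.al (len x))
      (len x * deriv D.p (len x) + 2 * D.p (len x)) (fun _ => 0)
      (fun a b => D.dqM be (len x) a b / len x) hsym l k
  simp only [h2, Upi h hx.le, nt_nt D.Q _ _ _ _ _ hx0]
  simp only [Fin.sum_univ_three]
  rw [hsym 1 0, hsym 2 0, hsym 2 1]
  generalize D.dqM be (len x) 0 0 / len x = d00
  generalize D.dqM be (len x) 0 1 / len x = d01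
  generalize D.dqM be (len x) 0 2 / len x = d02
  generalize D.dqM be (len x) 1 1 / len x = d11
  generalize D.dqM be (len x) 1 2 / len x = d12
  generalize D.dqM be (len x) 2 2 / len x = d22
  have hss : ∀ a b, D.iq (len x) a b = D.iq (len x) b a := D.iq_symm_apply (len x)
  rw [sp_symm 1 0, sp_symm 2 0, sp_symm 2 1, hss 1 0, hss 2 0, hss 2 1]
  field_simp
  ring

end Vale.Agent.M68
end
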