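import Vale.Agent.P366.T2.M68f
import Vale.Agent.P366.T2.MKey
import Vale.Agent.P366.T2.B68d

open MeasureTheory Metric Filter Topology Set
open scoped ContDiff ENNReal

noncomputable section
namespace Vale.Agent.M68
open Vale.Agent.P366.Stmt Vale.Agent.P366.T2 Vale.Agent.P366.T2.B68 Vale.Agent.Mom68

variable {n : ℕ} {D : Data n} {be : Fin 3 → ℝ → ℝ} {g K : Field n}

lemma AM_form {r : ℝ} (hr : D.R ≤ r) :
    D.iq r * D.dqM be r = (2 * r ^ 2) • D.AM be r := by
  have hr0 : 0 < r := lt_of_lt_of_le D.hR hr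
  have h4 : D.qh r = (r ^ 2) • D.qm r := by
    ext a b; rfl
  have hdet : IsUnit (D.qm r).det := isUnit_iff_ne_zero.2 (D.qm_det_ne hr)
  have h5 : (D.qh r)⁻¹ = (r ^ 2)⁻¹ • D.iq r := by
    rw [h4]
    have : Invertible (r ^ 2) := invertibleOfNonzero (by positivity)
    rw [Matrix.inv_smul _ _ hdet]
    simp [Data.iq]
  unfold Data.AM
  rw [h5, Matrix.smul_mul, smul_smul, smul_smul]
  have : (2 * r ^ 2 * (1 / 2) * (r ^ 2)⁻¹) = 1 := by field_simp
  rw [this, one_smul]

lemma iq_dqM {r : ℝ} (hr : D.R ≤ r) (a b : Fin 3) :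
    ∑ c, D.iq r a c * (D.dqM be r c b / r) = 2 * r * D.AM be r a b := by
  have hr0 : 0 < r := lt_of_lt_of_le D.hR hr
  have h := congrFun (congrFun (AM_form (be := be) hr) a) b
  rw [Matrix.mul_apply, Matrix.smul_apply, smul_eq_mul] at h
  have e : ∑ c, D.iq r a c * (D.dqM be r c b / r) =
      (∑ c, D.iq r a c * D.dqM be r c b) / r := by
    rw [Finset.sum_div]
    exact Finset.sum_congr rfl fun c _ => by ring
  rw [e, h]
  field_simp

lemma iq_sp {r : ℝ} (hr : D.R ≤ r) (a b : Fin 3) :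
    ∑ c, D.iq r a c * sp D c b r = D.S r a b - (D.k r + D.KN r) * (if a = b then 1 else 0) := by
  have h1 : ∑ c, D.iq r a c * D.q c b r = if a = b then 1 else 0 := by
    have h2 := congrFun (congrFun (D.iq_mul_qm hr) a) b
    rw [Matrix.mul_apply, Matrix.one_apply] at h2
    exact h2
  have h3 : D.S r a b = ∑ c, D.iq r a c * D.s c b r := rfl
  rw [h3, ← h1]
  unfold sp
  simp only [Fin.sum_univ_three]
  ring

lemma fib_eq {r : ℝ} (hr : D.R ≤ r) :
    ∑ a, ∑ b, (∑ c, D.iq r a c * sp D c b r) * (∑ c, D.iq r b c * (D.dqM be r c a / r)) =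
      2 * r * ((D.AM be r * D.S r).trace - (D.k r + D.KN r) * (D.AM be r).trace) := by
  simp only [iq_dqM hr, iq_sp hr, Matrix.trace, Matrix.diag_apply, Matrix.mul_apply]
  simp only [Fin.sum_univ_three, if_true, show ¬ ((0 : Fin 3) = 2) by decide,
    show ¬ ((2 : Fin 3) = 0) by decide,
    show ¬ ((1 : Fin 3) = 2) by decide, show ¬ ((2 : Fin 3) = 1) by decide,
    show ¬ ((1 : Fin 3) = 0) by decide, show ¬ ((0 : Fin 3) = 1) by decide, if_false]
  ring

theorem mom_eqM' (h : FitsM D be g K) {x : E n} (hx : D.R < len x) :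
    ∑ j, nX D be j x / len x * mom g K j x = D.c (len x) * D.JNM be (len x) := by
  have hr : 0 < len x := len_pos' hx
  have hc := (c_pos' hx.le).ne'
  have hp := (D.p_pos _ hx.le).ne'
  have hal := (D.al_pos _ hx.le).ne'
  have h1 : ∑ j, nX D be j x / len x * mom g K j x =
      (1 / len x) * ∑ j, nX D be j x * mom g K j x := by
    rw [Finset.mul_sum]
    exact Finset.sum_congr rfl fun j _ => by ring
  have hlen : Continuous fun y : E n => len y := continuous_norm
  have hU : IsOpen {y : E n | D.R < len y} := isOpen_lt continuous_const hlen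
  have h2 := mom_X hU (fun i j => (h.smooth i j).1) (fun i j => (h.smooth i j).2)
    (fun y hy i j => g_symmM h (le_of_lt hy) i j) (fun y hy i j => K_symmM h (le_of_lt hy) i j)
    (fun y hy => det_neM h (le_of_lt hy)) (X := nX D be) (x := x) hx
    (fun j => nX_diff h (len_pos_of hx.le) j)
  have h3 : D.c (len x) * D.JNM be (len x) = D.c (len x) * D.H (len x) * D.KN (len x) -
      D.c (len x) * D.IIKM be (len x) - deriv D.k (len x) := by
    unfold Data.JNM
    field_simp
  have h4 : D.c (len x) * D.IIKM be (len x) =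
      D.b * D.yb (len x) * (D.ka (len x) / D.al (len x)) +
        (D.AM be (len x) * D.S (len x)).trace := by
    unfold Data.IIKM
    rw [mul_div_cancel₀ _ hc]
  have h5 : D.c (len x) * D.H (len x) = D.b * D.yb (len x) + (D.AM be (len x)).trace := by
    unfold Data.H
    rw [mul_div_cancel₀ _ hc, D.trace_AM be hx.le]
  have h6 := cH_form (D := D) hx.le
  rw [h5] at h6
  rw [h1, h2, h3, h4, h5, div_W h hx, L_W h hx, P_Lie h hx, fib_eq hx.le]
  have h7 : Lm D (len x) = 2 * (D.b * D.yb (len x) + (D.AM be (len x)).trace -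
      ((n : ℝ) - 1) / len x) := by linarith
  rw [h7, yb_form hx.le]
  unfold Data.b
  field_simp
  ring

/-- `yᵀ U y` -/
lemma U_wwM (h : FitsM D be g K) {x : E n} (hx : D.R ≤ len x) (w : Fin n → ℝ) :
    (∑ i, nX D be i x * w i) ^ 2 / (D.p (len x) * len x ^ 2) ≤
      ∑ i, ∑ j, up g i j x * w i * w j := by
  have hx0 := len_pos_of hx
  have hr : 0 < len x := D.hR.trans_le hx
  have hp := D.p_pos _ hx
  have hal := D.al_pos _ hx
  have h1 : ∑ i, ∑ j, up g i j x * w i * w j =
      1 / D.al (len x) * (∑ i, ∑ j, D.Q.Pi x i j * (w i * w j)) +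
      (∑ i, nX D be i x * w i) ^ 2 / (D.p (len x) * len x ^ 2) +
      (∑ a, ∑ b, D.iq (len x) a b * ((∑ i, D.Q.Y a x i * w i) * (∑ i, D.Q.Y b x i * w i))) /
        len x ^ 2 := by
    have e1 : ∀ i j, up g i j x * w i * w j =
        1 / D.al (len x) * (D.Q.Pi x i j * (w i * w j)) +
        1 / (D.p (len x) * len x ^ 2) * ((nX D be i x * w i) * (nX D be j x * w j)) +
        ∑ a, ∑ b, D.iq (len x) a b / len x ^ 2 * ((D.Q.Y a x i * w i) * (D.Q.Y b x j * w j)) := by
      intro i j
      rw [up_eqM' h hx, UM, nt]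
      unfold nX
      simp only [Fin.sum_univ_three]
      field_simp
      ring
    simp only [e1, Finset.sum_add_distrib]
    congr 1
    · congr 1
      · simp only [Finset.mul_sum]
      · rw [sq (∑ i, nX D be i x * w i), Finset.sum_mul_sum, Finset.sum_div]
        refine Finset.sum_congr rfl fun i _ => ?_
        rw [Finset.sum_div]
        exact Finset.sum_congr rfl fun j _ => by ring
    · have e2 : ∀ i, ∑ j, ∑ a, ∑ b, D.iq (len x) a b / len x ^ 2 *
          ((D.Q.Y a x i * w i) * (D.Q.Y b x j * w j)) = ∑ a, ∑ b, ∑ j,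
          D.iq (len x) a b / len x ^ 2 * ((D.Q.Y a x i * w i) * (D.Q.Y b x j * w j)) := by
        intro i
        rw [Finset.sum_comm]
        exact Finset.sum_congr rfl fun a _ => Finset.sum_comm
      simp only [e2]
      rw [Finset.sum_comm, Finset.sum_div]
      refine Finset.sum_congr rfl fun a _ => ?_
      rw [Finset.sum_comm, Finset.sum_div]
      refine Finset.sum_congr rfl fun b _ => ?_
      rw [Finset.sum_mul_sum, Finset.mul_sum, Finset.sum_div]
      refine Finset.sum_congr rfl fun i _ => ?_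
      rw [Finset.mul_sum, Finset.sum_div]
      exact Finset.sum_congr rfl fun j _ => by ring
  rw [h1]
  have h2 := Pi_nonneg D.Q hx0 w
  have h3 := iq_nonneg (D := D) hx (fun a => ∑ i, D.Q.Y a x i * w i)
  have h4 : 0 ≤ 1 / D.al (len x) * (∑ i, ∑ j, D.Q.Pi x i j * (w i * w j)) := by positivity
  have h5 : 0 ≤ (∑ a, ∑ b, D.iq (len x) a b *
      ((∑ i, D.Q.Y a x i * w i) * (∑ i, D.Q.Y b x i * w i))) / len x ^ 2 :=
    div_nonneg h3 (by positivity)
  linarith

theorem mu_eqM' (h : FitsM D be g K) {x : E n} (hx : D.R ≤ len x)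
    (hs : scal g x = D.RgM be (len x)) : Vale.Agent.P366.Stmt.mu g K x = D.muM be (len x) := by
  unfold Vale.Agent.P366.Stmt.mu Data.muM
  rw [hs, tr_eqM' h hx, normSq_eqM' h hx]
  ring

theorem dec_eqM' (h : FitsM D be g K) {x : E n} (hx : D.R < len x)
    (hD : covNorm g (mom g K) x ≤ Vale.Agent.P366.Stmt.mu g K x) (hs : scal g x = D.RgM be (len x)) :
    |D.JNM be (len x)| ≤ D.muM be (len x) := by
  have hr : 0 < len x := len_pos' hx
  have hp := D.p_pos _ hx.le
  have hc := c_pos' hx.le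
  rw [← mu_eqM' h hx.le hs]
  refine le_trans ?_ hD
  unfold covNorm
  refine Real.abs_le_sqrt ?_
  refine le_trans (le_of_eq ?_) (U_wwM h hx.le (fun j => mom g K j x))
  have h1 := mom_eqM' h hx
  have h2 : ∑ j, nX D be j x * mom g K j x = len x * (D.c (len x) * D.JNM be (len x)) := by
    rw [← h1, Finset.mul_sum]
    refine Finset.sum_congr rfl fun j _ => ?_
    field_simp
  rw [h2]
  have h3 : D.c (len x) ^ 2 = D.p (len x) := Real.sq_sqrt hp.le
  rw [← h3]
  field_simp

end Vale.Agent.M68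
end
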