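import Vale.Agent.P366.T2.C92d

/-! Null expansion of the centred spheres for a metric with `g v = p x` (with shift). -/

open MeasureTheory Metric Filter Topology Set
open scoped ContDiff ENNReal MatrixOrder

noncomputable section
namespace Vale.Agent.C92
open Vale.Agent.P366.Stmt

variable {n : ℕ}

/-- Hypotheses: a symmetric positive definite metric outside a ball with `g v = p x`, where the
vector field `v` satisfies `⟨v, x⟩ = |x|²`. -/
structure GaugeM (g : Field n) (p : ℝ → ℝ) (v : Fin n → E n → ℝ) (R : ℝ) : Prop where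
  hR : 0 < R
  smooth : ∀ i j, Smooth (fun y => g y i j)
  symm : ∀ y, R ≤ len y → ∀ i j, g y i j = g y j i
  pos : ∀ y, R ≤ len y → (mat g y).PosDef
  p_diff : ∀ r, R ≤ r → DifferentiableAt ℝ p r
  v_diff : ∀ y, R ≤ len y → ∀ l, DifferentiableAt ℝ (v l) y
  xv : ∀ y, R ≤ len y → ∑ i, v i y * y i = len y ^ 2
  gv : ∀ y, R ≤ len y → ∀ i, ∑ j, g y i j * v j y = p (len y) * y i

namespace GaugeM

variable {g : Field n} {p : ℝ → ℝ} {v : Fin n → E n → ℝ} {R : ℝ} (G : GaugeM g p v R)
include G

theorem ne_zero {x : E n} (hx : R ≤ len x) : x ≠ 0 := by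
  intro h
  have := G.hR
  rw [h] at hx
  have h0 : len (0 : E n) = 0 := norm_zero
  linarith

theorem len_pos {x : E n} (hx : R ≤ len x) : 0 < len x := lt_of_lt_of_le G.hR hx

theorem p_pos {x : E n} (hx : R ≤ len x) : 0 < p (len x) := by
  have hr := G.len_pos hx
  have h1 := (G.pos x hx).dotProduct_mulVec_pos (x := fun i => v i x) (by
    intro h
    have h2 := G.xv x hx
    have h3 : ∑ i, v i x * x i = 0 := Finset.sum_eq_zero fun i _ => by
      rw [show v i x = 0 from congrFun h i, zero_mul]
    rw [h3] at h2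
    have : 0 < len x ^ 2 := by positivity
    linarith)
  have h2 : star (fun i => v i x) ⬝ᵥ (mat g x).mulVec (fun i => v i x) =
      p (len x) * len x ^ 2 := by
    simp only [dotProduct, Matrix.mulVec, star_trivial]
    rw [← G.xv x hx, Finset.mul_sum]
    refine Finset.sum_congr rfl fun i _ => ?_
    have : ∑ j, mat g x i j * v j x = p (len x) * x i := G.gv x hx i
    rw [this]; ring
  rw [h2] at h1
  have h3 : 0 < len x ^ 2 := by positivity
  exact pos_of_mul_pos_left h1 h3.le

theorem up_symm {x : E n} (hx : R ≤ len x) (i j : Fin n) : up g i j x = up g j i x := by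
  have h1 : (mat g x).transpose = mat g x := by
    ext i j; exact G.symm x hx j i
  have h2 : ((mat g x)⁻¹).transpose = (mat g x)⁻¹ := by
    rw [Matrix.transpose_nonsing_inv, h1]
  have := congrFun (congrFun h2 j) i
  exact this

theorem up_g {x : E n} (hx : R ≤ len x) (i k : Fin n) :
    ∑ j, up g i j x * g x j k = if i = k then 1 else 0 := by
  have h := Matrix.nonsing_inv_mul (mat g x) (isUnit_iff_ne_zero.2 (G.pos x hx).det_pos.ne')
  have := congrFun (congrFun h i) k
  rw [Matrix.mul_apply, Matrix.one_apply] at this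
  exact this

theorem up_x {x : E n} (hx : R ≤ len x) (i : Fin n) :
    ∑ j, up g i j x * x j = v i x / p (len x) := by
  have hp := (G.p_pos hx).ne'
  have h1 : p (len x) * ∑ j, up g i j x * x j = v i x := by
    have h2 : ∀ j, p (len x) * (up g i j x * x j) = ∑ k, up g i j x * g x j k * v k x := by
      intro j
      have := G.gv x hx j
      rw [show p (len x) * (up g i j x * x j) = up g i j x * (p (len x) * x j) by ring, ← this,
        Finset.mul_sum]
      exact Finset.sum_congr rfl fun k _ => by ring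
    rw [Finset.mul_sum]
    simp only [h2]
    rw [Finset.sum_comm]
    simp only [← Finset.sum_mul, G.up_g hx]
    simp
  field_simp
  linarith

theorem cov_len {x : E n} (hx : R ≤ len x) :
    covNorm g (fun j => pd j len) x = 1 / √(p (len x)) := by
  have hp := G.p_pos hx
  have hr := G.len_pos hx
  have h0 := G.ne_zero hx
  unfold covNorm
  have h1 : ∑ i, ∑ j, up g i j x * pd i len x * pd j len x = 1 / p (len x) := by
    have h2 : ∀ i, ∑ j, up g i j x * pd i len x * pd j len x =
        v i x * x i / (p (len x) * len x ^ 2) := by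
      intro i
      have h3 : ∑ j, up g i j x * pd i len x * pd j len x =
        x i / len x ^ 2 * ∑ j, up g i j x * x j := by
        rw [Finset.mul_sum]
        refine Finset.sum_congr rfl fun j _ => ?_
        rw [pd_len h0, pd_len h0]
        field_simp
      rw [h3, G.up_x hx]
      field_simp
    simp only [h2, ← Finset.sum_div, G.xv x hx]
    field_simp
  rw [h1, Real.sqrt_div zero_le_one, Real.sqrt_one]

theorem nrm_len {x : E n} (hx : R ≤ len x) (i : Fin n) :
    nrm g len i x = v i x / (len x * √(p (len x))) := by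
  have hp := G.p_pos hx
  have hr := G.len_pos hx
  have h0 := G.ne_zero hx
  unfold nrm
  have h3 : ∑ j, up g i j x * pd j len x = v i x / (p (len x) * len x) := by
    have h4 : ∑ j, up g i j x * pd j len x = (∑ j, up g i j x * x j) / len x := by
      rw [Finset.sum_div]
      refine Finset.sum_congr rfl fun j _ => ?_
      rw [pd_len h0]; ring
    rw [h4, G.up_x hx]
    field_simp
  rw [h3, G.cov_len hx]
  have hs : 0 < √(p (len x)) := Real.sqrt_pos.2 hp
  have hs2 : √(p (len x)) ^ 2 = p (len x) := Real.sq_sqrt hp.le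
  field_simp
  rw [hs2]

theorem trS_len {x : E n} (hx : R ≤ len x) (T : Field n) :
    trS g T len x =
      ∑ i, ∑ j, (up g i j x - v i x * v j x / (p (len x) * len x ^ 2)) * T x i j := by
  rw [trS_def]
  have hp := G.p_pos hx
  have hr := G.len_pos hx
  have hs2 : √(p (len x)) ^ 2 = p (len x) := Real.sq_sqrt hp.le
  have hs : 0 < √(p (len x)) := Real.sqrt_pos.2 hp
  refine Finset.sum_congr rfl fun i _ => Finset.sum_congr rfl fun j _ => ?_
  rw [G.nrm_len hx, G.nrm_len hx]
  have : v i x / (len x * √(p (len x))) * (v j x / (len x * √(p (len x)))) =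
      v i x * v j x / (√(p (len x)) ^ 2 * len x ^ 2) := by field_simp
  rw [this, hs2]

theorem diff_g (x : E n) (i j : Fin n) : DifferentiableAt ℝ (fun y => g y i j) x :=
  (G.smooth i j).differentiable (by norm_num) x

/-- derivative of `g v = p x` -/
theorem dgv {x : E n} (hx : R ≤ len x) (i j : Fin n) :
    ∑ l, pd i (fun y => g y j l) x * v l x =
      deriv p (len x) * (x i / len x) * x j + p (len x) * (if i = j then 1 else 0) -
        ∑ l, g x j l * pd i (v l) x := by
  have h0 := G.ne_zero hx
  have hpd := G.p_diff (len x) hx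
  have hd1 : ∀ l, DifferentiableAt ℝ (fun y : E n => g y j l * v l y) x :=
    fun l => (G.diff_g x j l).mul (G.v_diff x hx l)
  have h1 := pd_congr_outside hx (u := fun y => ∑ l, g y j l * v l y)
    (v := fun y => p (len y) * y j) (DifferentiableAt.fun_sum fun l _ => hd1 l)
    ((diff_radial h0 hpd).mul (diff_coord j x)) (fun y hy => G.gv y hy j) i
  rw [pd_sum _ (fun l _ => hd1 l), pd_mul (diff_radial h0 hpd) (diff_coord j x),
    pd_radial h0 hpd, pd_coord] at h1
  have h2 : ∀ l, pd i (fun y => g y j l * v l y) x = pd i (fun y => g y j l) x * v l x +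
      g x j l * pd i (v l) x := by
    intro l
    rw [pd_mul (G.diff_g x j l) (G.v_diff x hx l)]
  simp only [h2, Finset.sum_add_distrib] at h1
  linarith

/-- derivative of `⟨v, x⟩ = |x|²` -/
theorem dxv {x : E n} (hx : R ≤ len x) (i : Fin n) :
    ∑ l, pd i (v l) x * x l = 2 * x i - v i x := by
  have h0 := G.ne_zero hx
  have hd1 : ∀ l, DifferentiableAt ℝ (fun y : E n => v l y * y l) x :=
    fun l => (G.v_diff x hx l).mul (diff_coord l x)
  have hsq : DifferentiableAt ℝ (fun r : ℝ => r ^ 2) (len x) := by fun_prop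
  have h1 := pd_congr_outside hx (u := fun y => ∑ l, v l y * y l)
    (v := fun y => len y ^ 2) (DifferentiableAt.fun_sum fun l _ => hd1 l)
    (diff_radial (f := fun r => r ^ 2) h0 hsq) (fun y hy => G.xv y hy) i
  have h3 := pd_radial (f := fun r => r ^ 2) h0 hsq i
  have hr := G.len_pos hx
  have h4 : deriv (fun r : ℝ => r ^ 2) (len x) = 2 * len x := by simp
  rw [h4] at h3
  rw [pd_sum _ (fun l _ => hd1 l), h3] at h1
  have h2 : ∀ l, pd i (fun y => v l y * y l) x = pd i (v l) x * x l +
      v l x * (if i = l then 1 else 0) := by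
    intro l
    rw [pd_mul (G.v_diff x hx l) (diff_coord l x), pd_coord]
  simp only [h2, Finset.sum_add_distrib] at h1
  have h5 : ∑ l, v l x * (if i = l then (1 : ℝ) else 0) = v i x := by simp
  rw [h5] at h1
  have h6 : 2 * len x * (x i / len x) = 2 * x i := by field_simp
  linarith

/-- the covariant Hessian of the length -/
theorem hess_len {x : E n} (hx : R ≤ len x) (i j : Fin n) :
    hess g len x i j = - (1 / len x + deriv p (len x) / p (len x)) * (x i * x j / len x ^ 2) +
      (∑ l, g x j l * pd i (v l) x + ∑ l, g x i l * pd j (v l) x +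
        ∑ l, v l x * pd l (fun y => g y i j) x) / (2 * len x * p (len x)) := by
  have h0 := G.ne_zero hx
  have hp := G.p_pos hx
  have hr := G.len_pos hx
  have h1 : ∑ k, chr g k i j x * pd k len x = (1 / (2 * p (len x) * len x)) *
      ∑ l, v l x * (pd i (fun y => g y j l) x + pd j (fun y => g y i l) x
        - pd l (fun y => g y i j) x) := by
    unfold chr
    have h2 : ∀ k, (∑ l, up g k l x * (pd i (fun y => g y j l) x + pd j (fun y => g y i l) x
        - pd l (fun y => g y i j) x)) / 2 * pd k len x =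
        ∑ l, (1 / (2 * len x)) * (up g l k x * x k * (pd i (fun y => g y j l) x +
          pd j (fun y => g y i l) x - pd l (fun y => g y i j) x)) := by
      intro k
      rw [Finset.sum_div, Finset.sum_mul]
      refine Finset.sum_congr rfl fun l _ => ?_
      rw [pd_len h0, G.up_symm hx k l]
      field_simp
    simp only [h2]
    rw [Finset.sum_comm, Finset.mul_sum]
    refine Finset.sum_congr rfl fun l _ => ?_
    rw [← Finset.mul_sum, ← Finset.sum_mul, G.up_x hx]
    field_simp
  have h5 : ∑ l, v l x * (pd i (fun y => g y j l) x + pd j (fun y => g y i l) x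
        - pd l (fun y => g y i j) x) =
      (∑ l, pd i (fun y => g y j l) x * v l x) + (∑ l, pd j (fun y => g y i l) x * v l x) -
      ∑ l, v l x * pd l (fun y => g y i j) x := by
    rw [← Finset.sum_add_distrib, ← Finset.sum_sub_distrib]
    refine Finset.sum_congr rfl fun l _ => ?_
    ring
  unfold hess
  rw [h1, h5, G.dgv hx, G.dgv hx, pd_pd_len h0]
  by_cases hij : i = j
  · subst hij
    simp only [if_true]
    field_simp
    ring
  · simp only [hij, Ne.symm hij, if_false]
    field_simp
    ring

/-- the tangential part of the inverse metric -/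
theorem tan_x {x : E n} (hx : R ≤ len x) (i : Fin n) :
    ∑ j, (up g i j x - v i x * v j x / (p (len x) * len x ^ 2)) * x j = 0 := by
  have hp := G.p_pos hx
  have hr := G.len_pos hx
  have h1 : ∑ j, (up g i j x - v i x * v j x / (p (len x) * len x ^ 2)) * x j =
      (∑ j, up g i j x * x j) - v i x / (p (len x) * len x ^ 2) * ∑ j, v j x * x j := by
    rw [Finset.mul_sum, ← Finset.sum_sub_distrib]
    exact Finset.sum_congr rfl fun j _ => by ring
  rw [h1, G.up_x hx, G.xv x hx]
  field_simp
  ring

theorem tan_g {x : E n} (hx : R ≤ len x) (i l : Fin n) :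
    ∑ j, (up g i j x - v i x * v j x / (p (len x) * len x ^ 2)) * g x j l =
      (if i = l then 1 else 0) - v i x * x l / len x ^ 2 := by
  have hp := G.p_pos hx
  have hr := G.len_pos hx
  have h1 : ∑ j, (up g i j x - v i x * v j x / (p (len x) * len x ^ 2)) * g x j l =
      (∑ j, up g i j x * g x j l) - v i x / (p (len x) * len x ^ 2) * ∑ j, g x l j * v j x := by
    rw [Finset.mul_sum, ← Finset.sum_sub_distrib]
    refine Finset.sum_congr rfl fun j _ => ?_
    rw [G.symm x hx l j]
    ring
  rw [h1, G.up_g hx, G.gv x hx]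
  field_simp

/-- trace of `g (∂ v)` over the sphere -/
theorem tan_gdv {x : E n} (hx : R ≤ len x) :
    ∑ i, ∑ j, (up g i j x - v i x * v j x / (p (len x) * len x ^ 2)) *
      (∑ l, g x j l * pd i (v l) x) =
      (∑ i, pd i (v i) x) - 2 + (∑ i, v i x ^ 2) / len x ^ 2 := by
  have hp := G.p_pos hx
  have hr := G.len_pos hx
  have h1 : ∀ i, ∑ j, (up g i j x - v i x * v j x / (p (len x) * len x ^ 2)) *
      (∑ l, g x j l * pd i (v l) x) = pd i (v i) x - v i x * (2 * x i - v i x) / len x ^ 2 := by
    intro i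
    have h2 : ∑ j, (up g i j x - v i x * v j x / (p (len x) * len x ^ 2)) *
      (∑ l, g x j l * pd i (v l) x) = ∑ l, (∑ j, (up g i j x - v i x * v j x /
        (p (len x) * len x ^ 2)) * g x j l) * pd i (v l) x := by
      simp only [Finset.mul_sum, Finset.sum_mul]
      rw [Finset.sum_comm]
      exact Finset.sum_congr rfl fun l _ => Finset.sum_congr rfl fun j _ => by ring
    rw [h2, Finset.sum_congr rfl (fun l _ => by rw [G.tan_g hx i l])]
    simp only [sub_mul, Finset.sum_sub_distrib, ite_mul, one_mul, zero_mul,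
      Finset.sum_ite_eq, Finset.mem_univ, if_true]
    congr 1
    rw [← G.dxv hx i, Finset.mul_sum, Finset.sum_div]
    exact Finset.sum_congr rfl fun l _ => by ring
  simp only [h1, Finset.sum_sub_distrib]
  have h3 : ∑ i, v i x * (2 * x i - v i x) / len x ^ 2 =
      2 - (∑ i, v i x ^ 2) / len x ^ 2 := by
    rw [← Finset.sum_div]
    have h4 : ∑ i, v i x * (2 * x i - v i x) = 2 * len x ^ 2 - ∑ i, v i x ^ 2 := by
      rw [← G.xv x hx, Finset.mul_sum, ← Finset.sum_sub_distrib]
      exact Finset.sum_congr rfl fun i _ => by ring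
    rw [h4]
    field_simp
  rw [h3]
  ring

/-- **Null expansion of the centred spheres.** -/
theorem theta_len {K : Field n} {x : E n} (hx : R ≤ len x) :
    thetaPlus g K len x = (((∑ i, pd i (v i) x) - 2 + (∑ i, v i x ^ 2) / len x ^ 2) / len x +
      trS g (fun y i j => ∑ l, v l y * pd l (fun z => g z i j) y) len x / (2 * len x)) /
        √(p (len x)) + trS g K len x := by
  have hp := G.p_pos hx
  have hr := G.len_pos hx
  unfold thetaPlus
  rw [G.cov_len hx]
  have h1 : trS g (hess g len) len x =
      (((∑ i, pd i (v i) x) - 2 + (∑ i, v i x ^ 2) / len x ^ 2) / len x +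
      trS g (fun y i j => ∑ l, v l y * pd l (fun z => g z i j) y) len x / (2 * len x)) /
        p (len x) := by
    rw [G.trS_len hx (hess g len), G.trS_len hx]
    set W : Fin n → Fin n → ℝ := fun i j =>
      up g i j x - v i x * v j x / (p (len x) * len x ^ 2) with hW
    have hWs : ∀ i j, W i j = W j i := by
      intro i j
      simp only [hW]
      rw [G.up_symm hx i j]
      ring
    have h2 : ∀ i j, W i j * hess g len x i j =
        (- (1 / len x + deriv p (len x) / p (len x)) / len x ^ 2) * (x i * (W i j * x j)) +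
        (1 / (2 * len x * p (len x))) *
          (W i j * (∑ l, g x j l * pd i (v l) x)) +
        (1 / (2 * len x * p (len x))) *
          (W j i * (∑ l, g x i l * pd j (v l) x)) +
        (1 / (2 * len x * p (len x))) *
          (W i j * (∑ l, v l x * pd l (fun y => g y i j) x)) := by
      intro i j
      rw [G.hess_len hx, hWs j i]
      ring
    have h3 : ∑ i, ∑ j, W i j * hess g len x i j = (∑ i, ∑ j,
        (- (1 / len x + deriv p (len x) / p (len x)) / len x ^ 2) * (x i * (W i j * x j))) +
        (∑ i, ∑ j, (1 / (2 * len x * p (len x))) *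
          (W i j * (∑ l, g x j l * pd i (v l) x))) +
        (∑ i, ∑ j, (1 / (2 * len x * p (len x))) *
          (W j i * (∑ l, g x i l * pd j (v l) x))) +
        (∑ i, ∑ j, (1 / (2 * len x * p (len x))) *
          (W i j * (∑ l, v l x * pd l (fun y => g y i j) x))) := by
      simp only [h2, Finset.sum_add_distrib]
    have h4 : ∑ i, ∑ j,
        (- (1 / len x + deriv p (len x) / p (len x)) / len x ^ 2) * (x i * (W i j * x j)) = 0 := by
      simp only [← Finset.mul_sum]
      have : ∀ i, ∑ j, W i j * x j = 0 := G.tan_x hx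
      simp [this]
    have h5 : ∑ i, ∑ j, (1 / (2 * len x * p (len x))) *
          (W j i * (∑ l, g x i l * pd j (v l) x)) =
        ∑ i, ∑ j, (1 / (2 * len x * p (len x))) *
          (W i j * (∑ l, g x j l * pd i (v l) x)) := Finset.sum_comm
    have h6 : ∑ i, ∑ j, W i j * (∑ l, g x j l * pd i (v l) x) =
      (∑ i, pd i (v i) x) - 2 + (∑ i, v i x ^ 2) / len x ^ 2 := G.tan_gdv hx
    have h7 : ∑ i, ∑ j, (up g i j x - v i x * v j x / (p (len x) * len x ^ 2)) *
        (∑ l, v l x * pd l (fun z => g z i j) x) =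
        ∑ i, ∑ j, W i j * (∑ l, v l x * pd l (fun y => g y i j) x) := rfl
    have h8 : ∑ i, ∑ j, (up g i j x - v i x * v j x / (p (len x) * len x ^ 2)) *
        hess g len x i j = ∑ i, ∑ j, W i j * hess g len x i j := rfl
    rw [h7, h8, h3, h4, h5]
    simp only [← Finset.mul_sum]
    rw [h6]
    field_simp
    ring
  rw [h1]
  have hs : 0 < √(p (len x)) := Real.sqrt_pos.2 hp
  have hs2 : √(p (len x)) ^ 2 = p (len x) := Real.sq_sqrt hp.le
  congr 1
  rw [div_div_eq_mul_div, div_one]
  conv_lhs => rw [← hs2]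
  rw [Real.sqrt_sq hs.le]
  field_simp

end GaugeM

/-- directional derivatives contracted with a constant matrix, computed along an outgoing line -/
theorem contract_deriv {g : Field n} {x v : E n} {R : ℝ} (hx : R ≤ len x)
    (hxv : 0 ≤ inner ℝ x v) (W : Fin n → Fin n → ℝ)
    (hd : ∀ i j, DifferentiableAt ℝ (fun y => g y i j) x) {φ : ℝ → ℝ} {φ' : ℝ}
    (hφ : HasDerivAt φ φ' 0)
    (h : ∀ t : ℝ, 0 ≤ t → R ≤ len (x + t • v) → ∑ i, ∑ j, W i j * g (x + t • v) i j = φ t) :
    ∑ i, ∑ j, W i j * (∑ l, v l * pd l (fun z => g z i j) x) = φ' := by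
  set F : E n → ℝ := fun y => ∑ i, ∑ j, W i j * g y i j with hF
  have hFd : DifferentiableAt ℝ F x := DifferentiableAt.fun_sum fun i _ =>
    DifferentiableAt.fun_sum fun j _ => (hd i j).const_mul _
  have h1 : fderiv ℝ F x v = ∑ i, ∑ j, W i j * (∑ l, v l * pd l (fun z => g z i j) x) := by
    rw [hF, fderiv_fun_sum fun i _ => DifferentiableAt.fun_sum fun j _ => (hd i j).const_mul _]
    simp only [sum_apply]
    refine Finset.sum_congr rfl fun i _ => ?_
    rw [fderiv_fun_sum fun j _ => (hd i j).const_mul _]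
    simp only [sum_apply]
    refine Finset.sum_congr rfl fun j _ => ?_
    rw [fderiv_const_mul (hd i j), sum_pd_mul (hd i j)]
    rfl
  rw [← h1]
  set γ : ℝ → E n := fun t => x + t • v with hγ
  have hγd : HasDerivAt γ v 0 := by
    exact (((hasDerivAt_id (0 : ℝ)).smul_const v).const_add x).congr_deriv (one_smul _ _)
  have hγ0 : γ 0 = x := by simp [hγ]
  have hw' : HasFDerivAt F (fderiv ℝ F x) (γ 0) := by rw [hγ0]; exact hFd.hasFDerivAt
  have h2 := (hw'.comp_hasDerivAt 0 hγd).hasDerivWithinAt (s := Ici (0 : ℝ))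
  have hnorm : ∀ t, 0 ≤ t → R ≤ len (γ t) := by
    intro t ht
    have h2 : ‖γ t‖ ^ 2 = ‖x‖ ^ 2 + 2 * (t * inner ℝ x v) + t ^ 2 * ‖v‖ ^ 2 := by
      rw [hγ]
      simp only
      rw [@norm_add_sq_real, inner_smul_right, norm_smul]
      simp only [Real.norm_eq_abs, mul_pow, sq_abs]
    have h3 : ‖x‖ ^ 2 ≤ ‖γ t‖ ^ 2 := by
      rw [h2]
      have := mul_nonneg ht hxv
      nlinarith [sq_nonneg (t * ‖v‖)]
    have h4 : ‖x‖ ≤ ‖γ t‖ := (abs_le_of_sq_le_sq' h3 (norm_nonneg _)).2
    exact hx.trans h4
  have h6 : HasDerivWithinAt (F ∘ γ) φ' (Ici (0 : ℝ)) 0 := by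
    refine hφ.hasDerivWithinAt.congr ?_ ?_
    · intro t ht
      exact h t ht (hnorm t ht)
    · exact h 0 le_rfl (hnorm 0 le_rfl)
  exact (uniqueDiffWithinAt_Ici 0).eq_deriv _ h2 h6

end Vale.Agent.C92
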