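import Vale.Agent.P366.T2.Alg

/-!
# `Sp(m)`-invariant data without gauge condition (lapse `√p`, shift `be`)
-/

open MeasureTheory Metric Filter Topology Set
open scoped ContDiff ENNReal

noncomputable section
namespace Vale.Agent.P366.T2
open Vale.Agent.P366.Stmt

variable {n : ℕ}

/-- The covector `J_a x + β_a x`, which annihilates the normal direction `x - β_b J_b x`. -/
def Quat.Z (Q : Quat n) (be : Fin 3 → ℝ → ℝ) (a : Fin 3) (x : E n) (i : Fin n) : ℝ :=
  Q.Y a x i + be a (len x) * x i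

/-- The `Sp(m)`-invariant symmetric 2-tensor with coefficients `f`, `u`, `w`, `s` with respect to
the coframe `x / |x|`, `(J_a x + β_a x) / |x|`. -/
def Quat.tenM (Q : Quat n) (be : Fin 3 → ℝ → ℝ) (f u : ℝ → ℝ) (w : Fin 3 → ℝ → ℝ)
    (s : Fin 3 → Fin 3 → ℝ → ℝ) (x : E n) (i j : Fin n) : ℝ :=
  f (len x) * ((if i = j then 1 else 0) - (x i * x j + ∑ a, Q.Y a x i * Q.Y a x j) / len x ^ 2) +
    (u (len x) * x i * x j + ∑ a, w a (len x) * (x i * Q.Z be a x j + Q.Z be a x i * x j) +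
      ∑ a, ∑ b, s a b (len x) * Q.Z be a x i * Q.Z be b x j) / len x ^ 2

/-- The fields `g`, `K` are smooth and given by the coefficient functions and the shift `be` on
`R ≤ |x|`. -/
structure FitsM (D : Data n) (be : Fin 3 → ℝ → ℝ) (g K : Field n) : Prop where
  smooth : ∀ i j, Smooth (fun x => g x i j) ∧ Smooth (fun x => K x i j)
  be_smooth : ∀ a, ContDiff ℝ ∞ (be a)
  hg : ∀ x, D.R ≤ len x → ∀ i j, g x i j = D.Q.tenM be D.al D.p (fun _ _ => 0) D.q x i j
  hK : ∀ x, D.R ≤ len x → ∀ i j, K x i j = D.Q.tenM be D.ka D.kn D.v D.s x i j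

namespace Data

variable (D : Data n) (be : Fin 3 → ℝ → ℝ)

/-- derivative of the fibre metric `r² q` along the unit-speed-in-`r` normal direction -/
def dqM (r : ℝ) : Matrix (Fin 3) (Fin 3) ℝ := Matrix.of fun a b =>
  deriv (fun t => t ^ 2 * D.q a b t) r -
    2 * r * ∑ c, ∑ d, be c r * (eps c a d * D.q d b r + eps c b d * D.q a d r)

def AM (r : ℝ) : Matrix (Fin 3) (Fin 3) ℝ := (1 / 2 : ℝ) • ((D.qh r)⁻¹ * D.dqM be r)

/-- squared norm of the second fundamental form -/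
def II2M (r : ℝ) : ℝ := (D.b * D.yb r ^ 2 + (D.AM be r * D.AM be r).trace) / D.p r

def IIKM (r : ℝ) : ℝ :=
  (D.b * D.yb r * (D.ka r / D.al r) + (D.AM be r * D.S r).trace) / D.c r

/-- scalar curvature of `g` -/
def RgM (r : ℝ) : ℝ := D.Rh r - D.II2M be r - D.H r ^ 2 - 2 * deriv D.H r / D.c r

/-- energy density -/
def muM (r : ℝ) : ℝ :=
  (D.RgM be r + D.k r ^ 2 + 2 * D.k r * D.KN r - D.KS2 r - 2 * D.be2 r) / 2

/-- radial momentum density -/
def JNM (r : ℝ) : ℝ := D.H r * D.KN r - D.IIKM be r - deriv D.k r / D.c r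

end Data

end Vale.Agent.P366.T2
end
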