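import Vale.Agent.P366.T2.A765.SCStmt
import Vale.Agent.P366.T2.B68n

/-! The general identity `xʲ Jⱼ = ∂ₖ Wᵏ + Lₖ Wᵏ - (1/2) πᵏᵐ (L_x g)ₖₘ` for the momentum density
of arbitrary smooth data in coordinates. -/

open MeasureTheory Metric Filter Topology Set
open scoped ContDiff ENNReal

noncomputable section
namespace Vale.Agent.Mom68
open Vale.Agent.P366.Stmt Vale.Agent.P366.T2

variable {n : ℕ}

/-- `Wᵏ = gᵏⁱ πᵢⱼ xⱼ` -/
def Wg (g K : Field n) (k : Fin n) (x : E n) : ℝ :=
  ∑ i, up g k i x * ∑ j, momT g K x i j * x j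

/-- `πᵏᵐ` -/
def Pu (g K : Field n) (k m : Fin n) (x : E n) : ℝ :=
  ∑ i, up g k i x * ∑ l, momT g K x i l * up g l m x

section

variable {g K : Field n} {U : Set (E n)}

lemma diff_up (hU : IsOpen U) (hg : ∀ i j, Smooth (fun x => g x i j))
    (hs : ∀ x ∈ U, ∀ i j, g x i j = g x j i) (hd : ∀ x ∈ U, (mat g x).det ≠ 0)
    {x : E n} (hx : x ∈ U) (i j : Fin n) : DifferentiableAt ℝ (up g i j) x :=
  ((smoothMetric_mat hU hg hs hd).invAt hx i j).differentiableAt (by norm_num)

lemma up_symm (hU : IsOpen U) (hg : ∀ i j, Smooth (fun x => g x i j))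
    (hs : ∀ x ∈ U, ∀ i j, g x i j = g x j i) (hd : ∀ x ∈ U, (mat g x).det ≠ 0)
    {x : E n} (hx : x ∈ U) (i j : Fin n) : up g i j x = up g j i x :=
  (smoothMetric_mat hU hg hs hd).inv_symm hx i j

lemma up_g (hU : IsOpen U) (hg : ∀ i j, Smooth (fun x => g x i j))
    (hs : ∀ x ∈ U, ∀ i j, g x i j = g x j i) (hd : ∀ x ∈ U, (mat g x).det ≠ 0)
    {x : E n} (hx : x ∈ U) (i k : Fin n) :
    ∑ j, up g i j x * g x j k = if i = k then 1 else 0 := by
  have h1 := (smoothMetric_mat hU hg hs hd).inv_mul hx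
  have h2 := congrFun (congrFun h1 i) k
  rw [Matrix.mul_apply, Matrix.one_apply] at h2
  exact h2

lemma pd_up (hU : IsOpen U) (hg : ∀ i j, Smooth (fun x => g x i j))
    (hs : ∀ x ∈ U, ∀ i j, g x i j = g x j i) (hd : ∀ x ∈ U, (mat g x).det ≠ 0)
    {x : E n} (hx : x ∈ U) (k a b : Fin n) :
    pd k (up g a b) x =
      -∑ i, ∑ j, up g a i x * pd k (fun y => g y i j) x * up g j b x := by
  have h := smoothMetric_mat hU hg hs hd
  have hpg : ∀ i j k, pd k (fun y => g y i j) x =
      Vale.Agent.P366.pd k (fun y => mat g y i j) x :=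
    fun i j k => Vale.Agent.P366.Bridge.pd_eq ((hg i j).differentiable (by norm_num) x) k
  have h1 : pd k (up g a b) x = Vale.Agent.P366.pd k (fun y => (mat g y)⁻¹ a b) x :=
    Vale.Agent.P366.Bridge.pd_eq (diff_up hU hg hs hd hx a b) k
  rw [h1, h.pd_inv hx]
  simp only [hpg]
  rfl

lemma diff_tr (hU : IsOpen U) (hg : ∀ i j, Smooth (fun x => g x i j))
    (hK : ∀ i j, Smooth (fun x => K x i j))
    (hs : ∀ x ∈ U, ∀ i j, g x i j = g x j i) (hd : ∀ x ∈ U, (mat g x).det ≠ 0)
    {x : E n} (hx : x ∈ U) : DifferentiableAt ℝ (tr g K) x := by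
  unfold tr
  exact DifferentiableAt.fun_sum fun i _ => DifferentiableAt.fun_sum fun j _ =>
    (diff_up hU hg hs hd hx i j).mul ((hK i j).differentiable (by norm_num) x)

lemma diff_momT (hU : IsOpen U) (hg : ∀ i j, Smooth (fun x => g x i j))
    (hK : ∀ i j, Smooth (fun x => K x i j))
    (hs : ∀ x ∈ U, ∀ i j, g x i j = g x j i) (hd : ∀ x ∈ U, (mat g x).det ≠ 0)
    {x : E n} (hx : x ∈ U) (i j : Fin n) : DifferentiableAt ℝ (fun y => momT g K y i j) x := by
  have h1 : (fun y => momT g K y i j) = fun y => K y i j - tr g K y * g y i j := rfl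
  rw [h1]
  exact ((hK i j).differentiable (by norm_num) x).sub
    ((diff_tr hU hg hK hs hd hx).mul ((hg i j).differentiable (by norm_num) x))

/-- **Radial momentum density** of arbitrary data:
`xʲ Jⱼ = ∂ₖ Wᵏ + Lₖ Wᵏ - (1/2) πᵏᵐ (xʲ ∂ⱼ gₖₘ + 2 gₖₘ)`. -/
theorem mom_div (hU : IsOpen U) (hg : ∀ i j, Smooth (fun x => g x i j))
    (hK : ∀ i j, Smooth (fun x => K x i j))
    (hs : ∀ x ∈ U, ∀ i j, g x i j = g x j i) (hKs : ∀ x ∈ U, ∀ i j, K x i j = K x j i)
    (hd : ∀ x ∈ U, (mat g x).det ≠ 0) {x : E n} (hx : x ∈ U) :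
    ∑ j, x j * mom g K j x = ∑ k, pd k (Wg g K k) x + ∑ k, Lg g k x * Wg g K k x -
      (1 / 2) * ∑ k, ∑ m, Pu g K k m x *
        (∑ j, x j * pd j (fun y => g y k m) x + 2 * g x k m) := by
  have hUs := fun i j => up_symm hU hg hs hd hx i j
  have hPs : ∀ i j, momT g K x i j = momT g K x j i := fun i j => by
    show K x i j - tr g K x * g x i j = K x j i - tr g K x * g x j i
    rw [hs x hx i j, hKs x hx i j]
  have hGs : ∀ m i k, pd m (fun y => g y i k) x = pd m (fun y => g y k i) x := by
    intro m i k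
    have hgd : HP m (fun y => g y i k) (pd m (fun y => g y i k) x) x :=
      HP.of_diff ((hg i k).differentiable (by norm_num) x)
    have h3 : (fun y => g y k i) =ᶠ[𝓝 x] (fun y => g y i k) := by
      filter_upwards [hU.mem_nhds hx] with y hy
      exact hs y hy k i
    exact (hgd.congr h3).pd.symm
  -- the derivative of `W`
  have hA : ∀ i k, HP k (fun y => ∑ j, momT g K y i j * y j)
      (∑ j, (pd k (fun y => momT g K y i j) x * x j +
        momT g K x i j * (if j = k then 1 else 0))) x := fun i k =>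
    HP.sum _ fun j _ => (HP.of_diff (diff_momT hU hg hK hs hd hx i j)).mul (HP.coord k j x)
  have hW : ∀ k, pd k (Wg g K k) x = ∑ i, (pd k (up g k i) x * (∑ j, momT g K x i j * x j) +
      up g k i x * (∑ j, (pd k (fun y => momT g K y i j) x * x j +
        momT g K x i j * (if j = k then 1 else 0)))) := by
    intro k
    have h1 : HP k (Wg g K k) _ x := HP.sum Finset.univ
      (f := fun i y => up g k i y * ∑ j, momT g K y i j * y j) fun i _ =>
      (HP.of_diff (diff_up hU hg hs hd hx k i)).mul (hA i k)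
    exact h1.pd
  have hW2 : ∑ k, pd k (Wg g K k) x =
      ∑ k, ∑ i, pd k (up g k i) x * (∑ j, momT g K x i j * x j) +
      B68.con g x (fun i k => ∑ j, x j * pd k (fun y => momT g K y i j) x) +
      ∑ i, ∑ k, up g i k x * momT g K x i k := by
    simp only [hW]
    have e1 : ∀ k i, pd k (up g k i) x * (∑ j, momT g K x i j * x j) +
      up g k i x * (∑ j, (pd k (fun y => momT g K y i j) x * x j +
        momT g K x i j * (if j = k then 1 else 0))) =
        pd k (up g k i) x * (∑ j, momT g K x i j * x j) +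
        up g i k x * (∑ j, x j * pd k (fun y => momT g K y i j) x) +
        up g i k x * momT g K x i k := by
      intro k i
      rw [hUs k i, Finset.sum_add_distrib]
      have : ∑ j, momT g K x i j * (if j = k then (1 : ℝ) else 0) = momT g K x i k := by simp
      rw [this]
      have e2 : ∑ j, pd k (fun y => momT g K y i j) x * x j =
          ∑ j, x j * pd k (fun y => momT g K y i j) x :=
        Finset.sum_congr rfl fun j _ => mul_comm _ _
      rw [e2]
      ring
    simp only [e1]
    simp only [Finset.sum_add_distrib]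
    congr 1
    · congr 1
      unfold B68.con
      exact Finset.sum_comm
    · exact Finset.sum_comm
  have hdU : ∑ k, ∑ i, pd k (up g k i) x * (∑ j, momT g K x i j * x j) =
      -∑ b, Wg g K b x * ∑ i, ∑ k, up g i k x * pd k (fun y => g y i b) x := by
    have e1 : ∀ k i, pd k (up g k i) x * (∑ j, momT g K x i j * x j) =
        -∑ b, ∑ a, (up g b i x * (∑ j, momT g K x i j * x j)) *
          (up g a k x * pd k (fun y => g y a b) x) := by
      intro k i
      rw [pd_up hU hg hs hd hx, neg_mul]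
      congr 1
      rw [Finset.sum_mul, Finset.sum_comm]
      refine Finset.sum_congr rfl fun a _ => ?_
      rw [Finset.sum_mul]
      refine Finset.sum_congr rfl fun b _ => ?_
      rw [hUs k a]
      ring
    simp only [e1, Finset.sum_neg_distrib]
    congr 1
    rw [B68.sum4]
    rw [Finset.sum_comm]
    refine Finset.sum_congr rfl fun b _ => ?_
    unfold Wg
    rw [Finset.sum_mul]
    have e2 : ∀ a k i, (up g b i x * (∑ j, momT g K x i j * x j)) *
          (up g a k x * pd k (fun y => g y a b) x) =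
        (up g b i x * (∑ j, momT g K x i j * x j)) *
          (up g a k x * pd k (fun y => g y a b) x) := fun _ _ _ => rfl
    calc ∑ a, ∑ k, ∑ i, (up g b i x * (∑ j, momT g K x i j * x j)) *
          (up g a k x * pd k (fun y => g y a b) x)
        = ∑ a, ∑ i, ∑ k, (up g b i x * (∑ j, momT g K x i j * x j)) *
          (up g a k x * pd k (fun y => g y a b) x) :=
          Finset.sum_congr rfl fun a _ => Finset.sum_comm
      _ = ∑ i, ∑ a, ∑ k, (up g b i x * (∑ j, momT g K x i j * x j)) *
          (up g a k x * pd k (fun y => g y a b) x) := Finset.sum_comm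
      _ = _ := Finset.sum_congr rfl fun i _ => by simp only [Finset.mul_sum]
  have hPg : ∑ k, ∑ m, Pu g K k m x * g x k m = ∑ i, ∑ k, up g i k x * momT g K x i k := by
    refine Finset.sum_congr rfl fun k _ => ?_
    have e1 : ∀ m, Pu g K k m x * g x k m =
        ∑ i, ∑ l, up g k i x * momT g K x i l * (up g l m x * g x m k) := by
      intro m
      unfold Pu
      rw [Finset.sum_mul]
      refine Finset.sum_congr rfl fun i _ => ?_
      rw [Finset.mul_sum, Finset.sum_mul]
      refine Finset.sum_congr rfl fun l _ => ?_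
      rw [hs x hx m k]
      ring
    simp only [e1]
    rw [Finset.sum_comm]
    refine Finset.sum_congr rfl fun i _ => ?_
    rw [Finset.sum_comm]
    simp only [← Finset.mul_sum, up_g hU hg hs hd hx]
    simp only [mul_ite, mul_one, mul_zero, Finset.sum_ite_eq', Finset.mem_univ, if_true]
    rw [hPs i k, hPs k i]
  -- the connection terms
  have h2 : ∑ i, ∑ k, up g i k x * ∑ l, chr g l k i x * (∑ j, momT g K x l j * x j) = _ :=
    B68.T2_abs (fun i k => up g i k x) hUs (fun m i k => pd m (fun y => g y i k) x) hGs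
      (fun l => ∑ j, momT g K x l j * x j)
  have h3 : ∑ j, x j * ∑ i, ∑ k, up g i k x * ∑ l, chr g l k j x * momT g K x i l = _ :=
    B68.T3_abs (fun i k => up g i k x) hUs (fun i k => momT g K x i k) hPs
      (fun m i k => pd m (fun y => g y i k) x) hGs (fun l => x l)
  rw [B68.sum_mom, h2, h3, hW2, hdU]
  have e1 : ∑ m, (∑ l, up g m l x * ∑ j, momT g K x l j * x j) *
      (2 * (∑ i, ∑ k, up g i k x * pd k (fun y => g y i m) x) -
        ∑ i, ∑ k, up g i k x * pd m (fun y => g y i k) x) =
      2 * ∑ b, Wg g K b x * (∑ i, ∑ k, up g i k x * pd k (fun y => g y i b) x) -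
      2 * ∑ k, Lg g k x * Wg g K k x := by
    rw [Finset.mul_sum, Finset.mul_sum, ← Finset.sum_sub_distrib]
    refine Finset.sum_congr rfl fun m _ => ?_
    unfold Wg Lg
    ring
  have e3 : ∑ k, ∑ m, (∑ i, up g k i x * ∑ l, momT g K x i l * up g l m x) *
      ∑ j, x j * pd j (fun y => g y k m) x =
      ∑ k, ∑ m, Pu g K k m x * (∑ j, x j * pd j (fun y => g y k m) x + 2 * g x k m) -
      2 * ∑ i, ∑ k, up g i k x * momT g K x i k := by
    rw [← hPg, Finset.mul_sum, ← Finset.sum_sub_distrib]
    refine Finset.sum_congr rfl fun k _ => ?_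
    rw [Finset.mul_sum, ← Finset.sum_sub_distrib]
    refine Finset.sum_congr rfl fun m _ => ?_
    unfold Pu
    ring
  rw [e1, e3]
  ring

end

end Vale.Agent.Mom68
end
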