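import Mathlib

/-!
T2, block D2: the monotone quantity `ρ ^ (N - 1) (1 - Y / (4 λ ^ 2))`.
-/

namespace Vale.Agent.P366.T2

open Set Filter Topology

/-- A function whose derivative is nonnegative wherever the function is nonnegative, and which
starts at a positive value, is nondecreasing. -/
theorem monotone_of_deriv_nonneg_of_nonneg {f f' : ℝ → ℝ} {r0 : ℝ}
    (hf : ContinuousOn f (Ici r0)) (hd : ∀ r, r0 < r → HasDerivAt f (f' r) r)
    (hp : ∀ r, r0 < r → 0 ≤ f r → 0 ≤ f' r) (h0 : 0 < f r0) :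
    MonotoneOn f (Ici r0) ∧ ∀ r, r0 ≤ r → f r0 ≤ f r := by
  have mono_on : ∀ a b, r0 ≤ a → a ≤ b → (∀ r ∈ Icc a b, 0 ≤ f r) → MonotoneOn f (Icc a b) := by
    intro a b ha hab hpos
    refine monotoneOn_of_deriv_nonneg (convex_Icc a b) (hf.mono fun x hx => ha.trans hx.1) ?_ ?_
    · intro x hx
      rw [interior_Icc] at hx
      exact (hd x (ha.trans_lt hx.1)).differentiableAt.differentiableWithinAt
    · intro x hx
      rw [interior_Icc] at hx
      rw [(hd x (ha.trans_lt hx.1)).deriv]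
      exact hp x (ha.trans_lt hx.1) (hpos x ⟨hx.1.le, hx.2.le⟩)
  have key : ∀ r1, r0 ≤ r1 → f r0 ≤ f r1 := by
    intro r1 hr1
    by_contra hlt
    push Not at hlt
    set S : Set ℝ := Icc r0 r1 ∩ f ⁻¹' (Ici (f r0)) with hS
    have hfc : ContinuousOn f (Icc r0 r1) := hf.mono fun x hx => hx.1
    have hSc : IsClosed S := hfc.preimage_isClosed_of_isClosed isClosed_Icc isClosed_Ici
    have hne : S.Nonempty := ⟨r0, ⟨le_refl _, hr1⟩, le_refl (f r0)⟩
    have hcomp : IsCompact S := isCompact_Icc.of_isClosed_subset hSc inter_subset_left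
    obtain ⟨c, hcS, hcmax⟩ := hcomp.exists_isGreatest hne
    have hc1 : c < r1 := by
      rcases lt_or_eq_of_le hcS.1.2 with h | h
      · exact h
      · exfalso
        have : f r0 ≤ f c := hcS.2
        rw [h] at this
        linarith
    have hcpos : 0 < f c := h0.trans_le hcS.2
    have hcont : ContinuousWithinAt f (Icc r0 r1) c := hfc c hcS.1
    have hev : ∀ᶠ x in 𝓝[Icc r0 r1] c, 0 < f x := hcont.eventually (lt_mem_nhds hcpos)
    obtain ⟨ε, hε, hball⟩ := Metric.mem_nhdsWithin_iff.1 hev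
    set d := min (c + ε / 2) r1 with hd'
    have hcd : c < d := lt_min (by linarith) hc1
    have hdr : d ≤ r1 := min_le_right _ _
    have hpos : ∀ r ∈ Icc c d, 0 ≤ f r := by
      intro r hr
      have h1 : r ∈ Metric.ball c ε := by
        rw [Metric.mem_ball, Real.dist_eq, abs_lt]
        have : r ≤ c + ε / 2 := hr.2.trans (min_le_left _ _)
        constructor <;> linarith [hr.1]
      exact (hball ⟨h1, hcS.1.1.trans hr.1, hr.2.trans hdr⟩ : 0 < f r).le
    have hmono := mono_on c d hcS.1.1 hcd.le hpos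
    have h2 : f c ≤ f d := hmono ⟨le_refl _, hcd.le⟩ ⟨hcd.le, le_refl _⟩ hcd.le
    have h3 : d ∈ S := ⟨⟨hcS.1.1.trans hcd.le, hdr⟩, (show f r0 ≤ f c from hcS.2).trans h2⟩
    exact absurd (hcmax h3) (not_le.2 hcd)
  refine ⟨?_, key⟩
  intro a ha b hb hab
  exact mono_on a b ha hab (fun r hr => h0.le.trans (key r (le_trans ha hr.1)))
    ⟨le_refl _, hab⟩ ⟨hab, le_refl _⟩ hab

/-- Pointwise inequality behind the monotonicity.  `u = Y / (4 λ ^ 2)`, `L2` the full squared
gradient of `λ`, `T2 = |II₀|²`, `q = ⟨Λ₀, II₀⟩`. -/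
theorem pointwise {N H lam u R L2 T2 q : ℝ} (hN : 0 < N) (hH : 0 < H) (hlam : 0 < lam)
    (hu : 0 ≤ u) (hu1 : u ≤ 1) (hJ : R / 4 + L2 ≤ lam ^ 2) (hT : 0 ≤ T2)
    (hq : q ^ 2 ≤ (L2 - lam ^ 2 / N) * T2) (hL : lam ^ 2 / N ≤ L2) :
    0 ≤ H * (1 - 1 / N) - H * R / (4 * lam ^ 2) + u * (T2 / H + 2 * q / lam) := by
  set A := (L2 - lam ^ 2 / N) / lam ^ 2 with hA
  have hl2 : 0 < lam ^ 2 := by positivity
  have hA0 : 0 ≤ A := div_nonneg (by linarith) hl2.le
  have hAl : A * lam ^ 2 = L2 - lam ^ 2 / N := by rw [hA]; field_simp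
  -- `T2 / H + 2 q / lam ≥ - H A`
  have h1 : -(H * A) ≤ T2 / H + 2 * q / lam := by
    have h2 : 0 ≤ (T2 / H + 2 * q / lam + H * A) := by
      have hq' : (q / lam) ^ 2 ≤ A * T2 := by
        rw [div_pow, div_le_iff₀ hl2]
        calc q ^ 2 ≤ (L2 - lam ^ 2 / N) * T2 := hq
          _ = A * T2 * lam ^ 2 := by rw [← hAl]; ring
      have h3 : 2 * q / lam = 2 * (q / lam) := by ring
      rw [h3]
      -- AM-GM: T2/H + H A ≥ 2 sqrt (A T2) ≥ 2 |q/lam|
      have h4 : (2 * (q / lam)) ^ 2 ≤ (T2 / H + H * A) ^ 2 := by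
        have : 4 * (A * T2) ≤ (T2 / H + H * A) ^ 2 := by
          have h5 : A * T2 = (T2 / H) * (H * A) := by field_simp
          rw [h5]
          nlinarith [sq_nonneg (T2 / H - H * A)]
        nlinarith
      have h6 : 0 ≤ T2 / H + H * A := by positivity
      have := abs_le_of_sq_le_sq h4 h6
      linarith [(abs_le.1 this).1]
    linarith
  have h7 : R / (4 * lam ^ 2) ≤ 1 - 1 / N - A := by
    rw [div_le_iff₀ (by positivity)]
    have : (1 - 1 / N - A) * (4 * lam ^ 2) = 4 * (lam ^ 2 - lam ^ 2 / N - A * lam ^ 2) := by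
      field_simp
    rw [this, hAl]
    linarith
  have h8 : H * R / (4 * lam ^ 2) ≤ H * (1 - 1 / N - A) := by
    rw [mul_div_assoc]
    exact mul_le_mul_of_nonneg_left h7 hH.le
  have h9 : u * -(H * A) ≤ u * (T2 / H + 2 * q / lam) := mul_le_mul_of_nonneg_left h1 hu
  have h10 : 0 ≤ H * A * (1 - u) := by
    have : 0 ≤ 1 - u := by linarith
    positivity
  nlinarith

/-- **Block D, abstract form.**  `c` lapse, `v = ρ ^ N` volume factor, `H`, `k` mean curvature and
trace of `K` over the leaves, `Y = H ^ 2 - k ^ 2`, `R` scalar curvature of the leaves,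
`T2 = |II₀|²`, `lam` the weight, `L2` its full squared gradient, `q = λ' / c + (H / N) λ`.
The function `ρ ^ (N - 1) (1 - Y / (4 λ ^ 2))` is nondecreasing and at least
`ρ(r0) ^ (N - 1)`. -/
theorem mono_main {N r0 : ℝ} (hN : 1 < N) {c H Y Y' ρ R T2 lam L2 q : ℝ → ℝ}
    (hc : ∀ r, r0 < r → 0 < c r) (hH : ∀ r, r0 < r → 0 < H r)
    (hY0 : Y r0 = 0) (hY : ∀ r, r0 < r → 0 ≤ Y r)
    (hYc : ContinuousOn Y (Ici r0)) (hρc : ContinuousOn ρ (Ici r0))
    (hlc : ContinuousOn lam (Ici r0))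
    (hρ : ∀ r, r0 ≤ r → 0 < ρ r) (hlam : ∀ r, r0 ≤ r → 0 < lam r)
    (hρd : ∀ r, r0 < r → HasDerivAt ρ (ρ r * (c r * H r / N)) r)
    (hYd : ∀ r, r0 < r → HasDerivAt Y (Y' r) r)
    (hYle : ∀ r, r0 < r → Y' r ≤ c r * (H r * R r - H r * Y r * (1 + 1 / N) -
      Y r / H r * T2 r))
    (hld : ∀ r, r0 < r → HasDerivAt lam (c r * (q r - H r / N * lam r)) r)
    (hT : ∀ r, r0 < r → 0 ≤ T2 r)
    (hq : ∀ r, r0 < r → q r ^ 2 ≤ (L2 r - lam r ^ 2 / N) * T2 r)
    (hL : ∀ r, r0 < r → lam r ^ 2 / N ≤ L2 r)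
    (hJ : ∀ r, r0 < r → R r / 4 + L2 r ≤ lam r ^ 2) :
    MonotoneOn (fun r => ρ r ^ (N - 1) * (1 - Y r / (4 * lam r ^ 2))) (Ici r0) ∧
      ∀ r, r0 ≤ r → ρ r0 ^ (N - 1) ≤ ρ r ^ (N - 1) * (1 - Y r / (4 * lam r ^ 2)) := by
  set f : ℝ → ℝ := fun r => ρ r ^ (N - 1) * (1 - Y r / (4 * lam r ^ 2)) with hf
  set u : ℝ → ℝ := fun r => Y r / (4 * lam r ^ 2) with hu
  have hN0 : 0 < N := by linarith
  have hfc : ContinuousOn f (Ici r0) := by
    refine ContinuousOn.mul ?_ ?_
    · exact hρc.rpow_const fun x hx => Or.inl (hρ x hx).ne'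
    · refine continuousOn_const.sub (hYc.div ?_ ?_)
      · exact continuousOn_const.mul (hlc.pow 2)
      · intro x hx
        have := hlam x hx
        positivity
  have hfd : ∀ r, r0 < r → HasDerivAt f
      ((ρ r * (c r * H r / N)) * (N - 1) * ρ r ^ (N - 1 - 1) * (1 - Y r / (4 * lam r ^ 2)) +
        ρ r ^ (N - 1) * (0 - (Y' r * (4 * lam r ^ 2) -
          Y r * (4 * (2 * lam r ^ 1 * (c r * (q r - H r / N * lam r))))) /
            (4 * lam r ^ 2) ^ 2)) r := by
    intro r hr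
    have hlp := hlam r hr.le
    have h1 : HasDerivAt (fun r => ρ r ^ (N - 1))
        ((ρ r * (c r * H r / N)) * (N - 1) * ρ r ^ (N - 1 - 1)) r :=
      (hρd r hr).rpow_const (Or.inl (hρ r hr.le).ne')
    have h2 : HasDerivAt (fun r => 4 * lam r ^ 2)
        (4 * (2 * lam r ^ 1 * (c r * (q r - H r / N * lam r)))) r := by
      have := ((hld r hr).pow 2).const_mul 4
      simpa using this
    have h3 : HasDerivAt (fun r => Y r / (4 * lam r ^ 2))
        ((Y' r * (4 * lam r ^ 2) - Y r * (4 * (2 * lam r ^ 1 *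
          (c r * (q r - H r / N * lam r))))) / (4 * lam r ^ 2) ^ 2) r :=
      (hYd r hr).div h2 (by positivity)
    exact h1.mul ((hasDerivAt_const r (1 : ℝ)).sub h3)
  have hf0 : f r0 = ρ r0 ^ (N - 1) := by simp [hf, hY0]
  have hpos0 : 0 < f r0 := by
    rw [hf0]; exact Real.rpow_pos_of_pos (hρ r0 le_rfl) _
  obtain ⟨hm, hge⟩ := monotone_of_deriv_nonneg_of_nonneg hfc hfd (by
    intro r hr hfr
    have hcr := hc r hr
    have hHr := hH r hr
    have hlr := hlam r hr.le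
    have hρr := hρ r hr.le
    have hρp : 0 < ρ r ^ (N - 1) := Real.rpow_pos_of_pos hρr _
    have hu1 : u r ≤ 1 := by
      have : 0 ≤ 1 - Y r / (4 * lam r ^ 2) := by
        by_contra hneg
        push Not at hneg
        exact absurd hfr (not_le.2 (mul_neg_of_pos_of_neg hρp hneg))
      simp only [hu]; linarith
    have hu0 : 0 ≤ u r := div_nonneg (hY r hr) (by positivity)
    have hpw := pointwise hN0 hHr hlr hu0 hu1 (hJ r hr) (hT r hr) (hq r hr) (hL r hr)
    have hρ1 : ρ r * ρ r ^ (N - 1 - 1) = ρ r ^ (N - 1) := by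
      conv_lhs => rw [← Real.rpow_one (ρ r)]
      rw [← Real.rpow_mul hρr.le, one_mul, ← Real.rpow_add hρr]
      congr 1; ring
    have hYr : Y r = u r * (4 * lam r ^ 2) := by
      simp only [hu]; field_simp
    have hYle' := hYle r hr
    have key : 0 ≤ ρ r ^ (N - 1) * (c r * (H r * (1 - 1 / N) - H r * R r / (4 * lam r ^ 2) +
        u r * (T2 r / H r + 2 * q r / lam r))) := by positivity
    refine key.trans ?_
    have e1 : (ρ r * (c r * H r / N)) * (N - 1) * ρ r ^ (N - 1 - 1) *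
        (1 - Y r / (4 * lam r ^ 2)) =
        ρ r ^ (N - 1) * (c r * H r / N * (N - 1) * (1 - u r)) := by
      rw [← hρ1]; simp only [hu]; ring
    rw [e1, ← mul_add]
    refine mul_le_mul_of_nonneg_left ?_ hρp.le
    have e2 : (Y' r * (4 * lam r ^ 2) - Y r * (4 * (2 * lam r ^ 1 *
          (c r * (q r - H r / N * lam r))))) / (4 * lam r ^ 2) ^ 2 =
        Y' r / (4 * lam r ^ 2) - 2 * u r * (c r * (q r / lam r - H r / N)) := by
      rw [hYr]; field_simp
    rw [e2]
    have e3 : Y' r / (4 * lam r ^ 2) ≤ c r * (H r * R r / (4 * lam r ^ 2) -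
        H r * u r * (1 + 1 / N) - u r / H r * T2 r) := by
      rw [div_le_iff₀ (by positivity)]
      refine hYle'.trans (le_of_eq ?_)
      rw [hYr]; field_simp
    have e4 : c r * (H r * (1 - 1 / N) - H r * R r / (4 * lam r ^ 2) +
        u r * (T2 r / H r + 2 * q r / lam r)) =
        c r * H r / N * (N - 1) * (1 - u r) + (0 - (c r * (H r * R r / (4 * lam r ^ 2) -
        H r * u r * (1 + 1 / N) - u r / H r * T2 r) -
          2 * u r * (c r * (q r / lam r - H r / N)))) := by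
      field_simp; ring
    rw [e4]; linarith) hpos0
  exact ⟨hm, fun r hr => hf0 ▸ hge r hr⟩

end Vale.Agent.P366.T2
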