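import Vale.Agent.P366.T2.Alg
import Mathlib.Analysis.ODE.ExistUnique
import Mathlib.Analysis.SpecialFunctions.SmoothTransition

/-! Local solutions of linear systems and the rotation which removes the shift. -/

open MeasureTheory Metric Filter Topology Set
open scoped ContDiff ENNReal

noncomputable section
namespace Vale.Agent.P366.T2
open Vale.Agent.P366.Stmt

/-- a smooth reparametrization into a small interval which is the identity near its centre -/
lemma exists_reparam (r0 : ℝ) {ε : ℝ} (hε : 0 < ε) : ∃ φ : ℝ → ℝ, ContDiff ℝ ∞ φ ∧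
    (∀ r, φ r ∈ Ioo (r0 - ε) (r0 + ε)) ∧ ∀ᶠ r in 𝓝 r0, φ r = r := by
  -- `χ = 1` for `|r - r0| ≤ ε / 4` and `χ = 0` for `|r - r0| ≥ ε / 2`
  set χ : ℝ → ℝ := fun r => Real.smoothTransition (2 - (2 * (r - r0) / ε) ^ 2 * 4) with hχ
  have h0 : ∀ r, 0 ≤ χ r := fun r => Real.smoothTransition.nonneg _
  have h1 : ∀ r, χ r ≤ 1 := fun r => Real.smoothTransition.le_one _
  refine ⟨fun r => r0 + χ r * (r - r0), ?_, ?_, ?_⟩
  · refine contDiff_const.add (ContDiff.mul ?_ (contDiff_id.sub contDiff_const))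
    refine Real.smoothTransition.contDiff.comp (contDiff_const.sub (ContDiff.mul ?_ contDiff_const))
    exact ((contDiff_const.mul (contDiff_id.sub contDiff_const)).div_const _).pow 2
  · intro r
    have h2 : |χ r * (r - r0)| < ε := by
      by_cases hr : |r - r0| < ε
      · rw [abs_mul, abs_of_nonneg (h0 r)]
        calc χ r * |r - r0| ≤ 1 * |r - r0| := mul_le_mul_of_nonneg_right (h1 r) (abs_nonneg _)
          _ < ε := by rw [one_mul]; exact hr
      · push Not at hr
        have h3 : χ r = 0 := by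
          apply Real.smoothTransition.zero_of_nonpos
          have h4 : (ε) ^ 2 ≤ (r - r0) ^ 2 := by
            rw [← sq_abs (r - r0)]
            exact pow_le_pow_left₀ hε.le hr 2
          have h5 : (2 * (r - r0) / ε) ^ 2 = 4 * (r - r0) ^ 2 / ε ^ 2 := by ring
          rw [h5]
          have h6 : 1 ≤ (r - r0) ^ 2 / ε ^ 2 := by
            rw [le_div_iff₀ (by positivity)]; linarith
          have h7 : 4 * (r - r0) ^ 2 / ε ^ 2 = 4 * ((r - r0) ^ 2 / ε ^ 2) := by ring
          rw [h7]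
          linarith
        rw [h3, zero_mul, abs_zero]
        exact hε
    rw [abs_lt] at h2
    constructor <;> simp only <;> linarith [h2.1, h2.2]
  · have h2 : ∀ᶠ r in 𝓝 r0, (1 : ℝ) < 2 - (2 * (r - r0) / ε) ^ 2 * 4 := by
      have h3 : ContinuousAt (fun r => 2 - (2 * (r - r0) / ε) ^ 2 * 4) r0 := by fun_prop
      refine h3.eventually (lt_mem_nhds ?_)
      simp
    filter_upwards [h2] with r hr
    have : χ r = 1 := Real.smoothTransition.one_of_one_le hr.le
    rw [this]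
    ring

/-- local solutions of linear systems with smooth coefficients -/
theorem exists_linear {ι : Type} [Fintype ι] {M : ι → ι → ℝ → ℝ}
    (hM : ∀ A B, ContDiffOn ℝ ∞ (M A B) (Ioi 0)) {r0 : ℝ} (hr0 : 0 < r0) (y0 : ι → ℝ) :
    ∃ ε > 0, ε < r0 ∧ ∃ y : ℝ → ι → ℝ, y r0 = y0 ∧
      ContDiffOn ℝ ∞ y (Ioo (r0 - ε) (r0 + ε)) ∧
      ∀ r ∈ Ioo (r0 - ε) (r0 + ε), HasDerivAt y (fun A => ∑ B, M A B r * y r B) r := by
  set F : ℝ × (ι → ℝ) → ℝ × (ι → ℝ) := fun z => (1, fun A => ∑ B, M A B z.1 * z.2 B) with hF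
  have hFs : ContDiffAt ℝ 1 F (r0, y0) := by
    refine contDiffAt_const.prodMk (contDiffAt_pi.2 fun A => ContDiffAt.sum fun B _ => ?_)
    refine ContDiffAt.mul ?_ ?_
    · have h1 : ContDiffAt ℝ 1 (M A B) ((r0, y0) : ℝ × (ι → ℝ)).1 :=
        ((hM A B).contDiffAt (Ioi_mem_nhds hr0)).of_le (by norm_cast)
      exact h1.comp (r0, y0) contDiffAt_fst
    · exact ((contDiff_apply ℝ ℝ B).contDiffAt).comp (r0, y0) contDiffAt_snd
  obtain ⟨α, hα0, ε, hε, hα⟩ :=
    hFs.exists_forall_mem_closedBall_exists_eq_forall_mem_Ioo_hasDerivAt₀ r0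
  have hr0I : r0 ∈ Ioo (r0 - ε) (r0 + ε) := ⟨by linarith, by linarith⟩
  -- the first component is the time
  have hfst : ∀ t ∈ Ioo (r0 - ε) (r0 + ε), (α t).1 = t := by
    intro t ht
    have hd : ∀ s ∈ Ioo (r0 - ε) (r0 + ε), HasDerivAt (fun s => (α s).1 - s) 0 s := by
      intro s hs
      have h1 : HasDerivAt (fun s => (α s).1) 1 s := by
        have := (hα s hs).fst
        exact this
      exact (h1.sub (hasDerivAt_id s)).congr_deriv (sub_self 1)
    have h2 := isOpen_Ioo.is_const_of_deriv_eq_zero (s := Ioo (r0 - ε) (r0 + ε))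
      isPreconnected_Ioo (fun s hs => (hd s hs).differentiableAt.differentiableWithinAt)
      (fun s hs => (hd s hs).deriv) ht hr0I
    have h3 : (α r0).1 = r0 := by rw [hα0]
    simp only [h3, sub_self] at h2
    linarith
  set y : ℝ → ι → ℝ := fun t => (α t).2 with hy
  have hyd : ∀ t ∈ Ioo (r0 - ε) (r0 + ε), HasDerivAt y (fun A => ∑ B, M A B t * y t B) t := by
    intro t ht
    have h1 : HasDerivAt y (fun A => ∑ B, M A B (α t).1 * (α t).2 B) t := (hα t ht).snd
    rw [hfst t ht] at h1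
    exact h1
  set ε' := min ε r0 / 2 with hε'
  have hm : 0 < min ε r0 := lt_min hε hr0
  have hε'0 : 0 < ε' := by positivity
  have hε'1 : ε' < ε := by
    have : min ε r0 ≤ ε := min_le_left _ _
    rw [hε']; linarith
  have hε'2 : ε' < r0 := by
    have : min ε r0 ≤ r0 := min_le_right _ _
    rw [hε']; linarith
  refine ⟨ε', hε'0, hε'2, y, by simp only [hy, hα0], ?_, ?_⟩
  · have h1 : ContDiffOn ℝ ∞ y (Icc (r0 - ε') (r0 + ε')) := by
      refine ODE.contDiffOn_enat_Icc_of_hasDerivWithinAt (n := ⊤)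
        (f := fun t z => fun A => ∑ B, M A B t * z B) (u := univ) ?_ ?_ (fun _ _ => mem_univ _)
      · refine contDiffOn_pi.2 fun A => ContDiffOn.sum fun B _ => ?_
        refine ContDiffOn.mul ?_ ?_
        · refine (hM A B).comp contDiffOn_fst ?_
          rintro ⟨t, z⟩ ⟨ht, -⟩
          have : 0 < t := by
            have := ht.1
            simp only at this
            linarith
          exact this
        · exact ((contDiff_apply ℝ ℝ B).comp contDiff_snd).contDiffOn
      · intro t ht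
        exact (hyd t ⟨by linarith [ht.1], by linarith [ht.2]⟩).hasDerivWithinAt
    exact h1.mono Ioo_subset_Icc_self
  · intro t ht
    exact hyd t ⟨by linarith [ht.1], by linarith [ht.2]⟩

/-- **Block [N2]**: a curve of unit quaternions `z + y_a J_a` with derivative
`-(1/r) (β_a J_a) (z + y_c J_c)` near `r0`. -/
theorem exists_rot {be : Fin 3 → ℝ → ℝ} (hbe : ∀ a, ContDiff ℝ ∞ (be a)) {r0 : ℝ}
    (hr0 : 0 < r0) :
    ∃ (z : ℝ → ℝ) (y : Fin 3 → ℝ → ℝ), ContDiff ℝ ∞ z ∧ (∀ a, ContDiff ℝ ∞ (y a)) ∧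
      (∀ r, z r ^ 2 + ∑ a, y a r ^ 2 = 1) ∧ z r0 = 1 ∧ (∀ a, y a r0 = 0) ∧
      ∀ᶠ r in 𝓝 r0, HasDerivAt z ((∑ a, be a r * y a r) / r) r ∧
        ∀ d, HasDerivAt (y d) (-(be d r * z r + ∑ a, ∑ c, eps a c d * be a r * y c r) / r) r := by
  set M : (Unit ⊕ Fin 3) → (Unit ⊕ Fin 3) → ℝ → ℝ := fun A B r =>
    Sum.elim (fun _ => Sum.elim (fun _ => 0) (fun a => be a r / r) B)
      (fun d => Sum.elim (fun _ => -(be d r) / r)
        (fun c => -(∑ a, eps a c d * be a r) / r) B) A with hM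
  have hdiv : ∀ {f : ℝ → ℝ}, ContDiff ℝ ∞ f → ContDiffOn ℝ ∞ (fun r => f r / r) (Ioi 0) := by
    intro f hf
    exact hf.contDiffOn.div contDiff_id.contDiffOn fun r (hr : 0 < r) => hr.ne'
  have hMs : ∀ A B, ContDiffOn ℝ ∞ (M A B) (Ioi 0) := by
    rintro (_ | d) (_ | c)
    · exact contDiffOn_const
    · exact hdiv (hbe c)
    · exact hdiv (hbe d).neg
    · exact hdiv (ContDiff.sum fun a _ => contDiff_const.mul (hbe a)).neg
  obtain ⟨ε, hε, hεr, Y, hY0, hYs, hYd⟩ := exists_linear hMs hr0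
    (fun A => Sum.elim (fun _ => (1 : ℝ)) (fun _ => 0) A)
  have hr0I : r0 ∈ Ioo (r0 - ε) (r0 + ε) := ⟨by linarith, by linarith⟩
  -- components
  have hz : ∀ r ∈ Ioo (r0 - ε) (r0 + ε), HasDerivAt (fun r => Y r (Sum.inl ()))
      ((∑ a, be a r * Y r (Sum.inr a)) / r) r := by
    intro r hr
    refine (hasDerivAt_pi.1 (hYd r hr) (Sum.inl ())).congr_deriv ?_
    simp only [Fintype.sum_sum_type, Finset.univ_unique, Finset.sum_singleton, hM, Sum.elim_inl,
      Sum.elim_inr, zero_mul, zero_add, Finset.sum_div]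
    exact Finset.sum_congr rfl fun a _ => by ring
  have hy : ∀ r ∈ Ioo (r0 - ε) (r0 + ε), ∀ d, HasDerivAt (fun r => Y r (Sum.inr d))
      (-(be d r * Y r (Sum.inl ()) + ∑ a, ∑ c, eps a c d * be a r * Y r (Sum.inr c)) / r) r := by
    intro r hr d
    refine (hasDerivAt_pi.1 (hYd r hr) (Sum.inr d)).congr_deriv ?_
    simp only [Fintype.sum_sum_type, Finset.univ_unique, Finset.sum_singleton, hM, Sum.elim_inl,
      Sum.elim_inr, Fin.sum_univ_three]
    simp only [PUnit.default_eq_unit]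
    ring
  have hnorm : ∀ r ∈ Ioo (r0 - ε) (r0 + ε),
      Y r (Sum.inl ()) ^ 2 + ∑ a, Y r (Sum.inr a) ^ 2 = 1 := by
    intro r hr
    have hd : ∀ s ∈ Ioo (r0 - ε) (r0 + ε),
        HasDerivAt (fun r => Y r (Sum.inl ()) ^ 2 + ∑ a, Y r (Sum.inr a) ^ 2) 0 s := by
      intro s hs
      have h1 := ((hz s hs).fun_pow 2).fun_add
        (HasDerivAt.fun_sum fun a (_ : a ∈ Finset.univ) => (hy s hs a).fun_pow 2)
      refine h1.congr_deriv ?_
      simp only [Fin.sum_univ_three, eps]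
      simp
      ring
    have h2 := isOpen_Ioo.is_const_of_deriv_eq_zero (s := Ioo (r0 - ε) (r0 + ε))
      isPreconnected_Ioo (fun s hs => (hd s hs).differentiableAt.differentiableWithinAt)
      (fun s hs => (hd s hs).deriv) hr hr0I
    rw [h2, hY0]
    simp
  obtain ⟨φ, hφs, hφI, hφe⟩ := exists_reparam r0 hε
  have hφ0 : φ r0 = r0 := hφe.self_of_nhds
  have hcs : ∀ A, ContDiff ℝ ∞ (fun r => Y (φ r) A) := by
    intro A
    rw [contDiff_iff_contDiffAt]
    intro r
    have h1 : ContDiffAt ℝ ∞ (fun r => Y r A) (φ r) :=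
      ((contDiffOn_pi.1 hYs A).contDiffAt (Ioo_mem_nhds (hφI r).1 (hφI r).2))
    exact h1.comp r hφs.contDiffAt
  refine ⟨fun r => Y (φ r) (Sum.inl ()), fun a r => Y (φ r) (Sum.inr a), hcs _,
    fun a => hcs _, fun r => hnorm _ (hφI r), ?_, ?_, ?_⟩
  · simp only [hφ0, hY0]
    rfl
  · intro a
    simp only [hφ0, hY0]
    rfl
  · have h1 := hφe.eventually_nhds
    have h2 := Ioo_mem_nhds hr0I.1 hr0I.2
    filter_upwards [h1, h2] with r hr hrI
    have h3 : φ r = r := hr.self_of_nhds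
    refine ⟨?_, fun d => ?_⟩
    · have h4 : (fun r => Y (φ r) (Sum.inl ())) =ᶠ[𝓝 r] fun r => Y r (Sum.inl ()) := by
        filter_upwards [hr] with s hs
        rw [hs]
      refine ((hz r hrI).congr_of_eventuallyEq h4).congr_deriv ?_
      simp only [h3]
    · have h4 : (fun r => Y (φ r) (Sum.inr d)) =ᶠ[𝓝 r] fun r => Y r (Sum.inr d) := by
        filter_upwards [hr] with s hs
        rw [hs]
      refine ((hy r hrI d).congr_of_eventuallyEq h4).congr_deriv ?_
      simp only [h3]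

end Vale.Agent.P366.T2
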