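import Vale.Agent.P366.T2.N4
import Mathlib.Analysis.ODE.ExistUnique
import Mathlib.Analysis.ODE.PicardLindelof

/-!
# The rotation that removes the shift: a linear ordinary differential equation
-/

open MeasureTheory Metric Filter Topology Set
open scoped ContDiff ENNReal

noncomputable section
namespace Vale.Agent.P366.T2

/-- the vector field of the (autonomous form of the) equation -/
def odeF (be : Fin 3 → ℝ → ℝ) (p : ℝ × (ℝ × (Fin 3 → ℝ))) : ℝ × (ℝ × (Fin 3 → ℝ)) :=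
  (1, ((∑ a, be a p.1 * p.2.2 a) / p.1,
    fun a => -(be a p.1 * p.2.1 + ∑ b, ∑ d, be b p.1 * p.2.2 d * eps b d a) / p.1))

lemma odeF_smooth {be : Fin 3 → ℝ → ℝ} (hbe : ∀ a, ContDiff ℝ ∞ (be a))
    {p : ℝ × (ℝ × (Fin 3 → ℝ))} (hp : p.1 ≠ 0) : ContDiffAt ℝ ∞ (odeF be) p := by
  have h1 : ∀ a, ContDiffAt ℝ ∞ (fun p : ℝ × (ℝ × (Fin 3 → ℝ)) => be a p.1) p := fun a =>
    (hbe a).contDiffAt.comp p contDiffAt_fst
  have h2 : ∀ a, ContDiffAt ℝ ∞ (fun p : ℝ × (ℝ × (Fin 3 → ℝ)) => p.2.2 a) p := fun a => by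
    have : ContDiff ℝ ∞ (fun p : ℝ × (ℝ × (Fin 3 → ℝ)) => p.2.2 a) := by fun_prop
    exact this.contDiffAt
  have h3 : ContDiffAt ℝ ∞ (fun p : ℝ × (ℝ × (Fin 3 → ℝ)) => p.2.1) p := by
    have : ContDiff ℝ ∞ (fun p : ℝ × (ℝ × (Fin 3 → ℝ)) => p.2.1) := by fun_prop
    exact this.contDiffAt
  have h4 : ContDiffAt ℝ ∞ (fun p : ℝ × (ℝ × (Fin 3 → ℝ)) => p.1) p := contDiffAt_fst
  refine contDiffAt_const.prodMk (ContDiffAt.prodMk ?_ ?_)
  · exact (ContDiffAt.sum fun a _ => (h1 a).mul (h2 a)).div h4 hp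
  · rw [contDiffAt_pi]
    intro a
    refine ContDiffAt.div (ContDiffAt.neg (((h1 a).mul h3).add ?_)) h4 hp
    exact ContDiffAt.sum fun b _ => ContDiffAt.sum fun d _ =>
      ((h1 b).mul (h2 d)).mul contDiffAt_const

/-- Local solution of the rotation equation. -/
theorem exists_rotE (be : Fin 3 → ℝ → ℝ) (hbe : ∀ a, ContDiff ℝ ∞ (be a)) {r0 : ℝ} (h0 : 0 < r0) :
    ∃ (c : ℝ → ℝ) (v : Fin 3 → ℝ → ℝ) (ε : ℝ), 0 < ε ∧ ε < r0 ∧ c r0 = 1 ∧ (∀ a, v a r0 = 0) ∧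
      ContDiffOn ℝ ∞ c (Ioo (r0 - ε) (r0 + ε)) ∧
      (∀ a, ContDiffOn ℝ ∞ (v a) (Ioo (r0 - ε) (r0 + ε))) ∧
      ∀ t ∈ Ioo (r0 - ε) (r0 + ε), c t ^ 2 + ∑ a, v a t ^ 2 = 1 ∧
        HasDerivAt c ((∑ a, be a t * v a t) / t) t ∧
        ∀ a, HasDerivAt (v a)
          (-(be a t * c t + ∑ b, ∑ d, be b t * v d t * eps b d a) / t) t := by
  obtain ⟨α, hα0, ε0, hε0, hα⟩ :=
    ContDiffAt.exists_forall_mem_closedBall_exists_eq_forall_mem_Ioo_hasDerivAt₀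
      (f := odeF be) (x₀ := ((r0, (1, 0)) : ℝ × (ℝ × (Fin 3 → ℝ))))
      ((odeF_smooth hbe (by simpa using h0.ne')).of_le (by norm_num)) r0
  set ε1 := min ε0 r0 / 2 with hε1
  have hmin : 0 < min ε0 r0 := lt_min hε0 h0
  have hε1p : 0 < ε1 := by positivity
  have hle1 : ε1 < ε0 := by
    have := min_le_left ε0 r0
    rw [hε1]; linarith
  have hle2 : ε1 < r0 := by
    have := min_le_right ε0 r0
    rw [hε1]; linarith
  have hsub : Icc (r0 - ε1) (r0 + ε1) ⊆ Ioo (r0 - ε0) (r0 + ε0) := fun t ht =>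
    ⟨by linarith [ht.1], by linarith [ht.2]⟩
  -- components
  have hd : ∀ t ∈ Icc (r0 - ε1) (r0 + ε1), HasDerivAt α (odeF be (α t)) t := fun t ht =>
    hα t (hsub ht)
  have hτd : ∀ t ∈ Icc (r0 - ε1) (r0 + ε1), HasDerivAt (fun t => (α t).1) 1 t := fun t ht =>
    (hd t ht).fst
  have hmem0 : r0 ∈ Icc (r0 - ε1) (r0 + ε1) := ⟨by linarith, by linarith⟩
  have hτ : ∀ t ∈ Icc (r0 - ε1) (r0 + ε1), (α t).1 = t := by
    intro t ht
    have hc : ∀ s ∈ Icc (r0 - ε1) (r0 + ε1), HasDerivWithinAt (fun t => (α t).1 - t) 0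
        (Icc (r0 - ε1) (r0 + ε1)) s := fun s hs => by
      have h1 : HasDerivAt (fun t => (α t).1 - t) (1 - 1) s := (hτd s hs).fun_sub (hasDerivAt_id' s)
      rw [sub_self] at h1
      exact h1.hasDerivWithinAt
    have hcv : Convex ℝ (Icc (r0 - ε1) (r0 + ε1)) := convex_Icc _ _
    have h := hcv.norm_image_sub_le_of_norm_hasDerivWithin_le (C := 0) (fun s hs => hc s hs)
      (fun s _ => by simp) hmem0 ht
    have h2 : (α t).1 - t - ((α r0).1 - r0) = 0 := by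
      simpa using h
    rw [hα0] at h2
    simp only at h2
    linarith
  have hpos : ∀ t ∈ Icc (r0 - ε1) (r0 + ε1), 0 < t := fun t ht => by linarith [ht.1]
  have hsm : ContDiffOn ℝ ∞ α (Icc (r0 - ε1) (r0 + ε1)) := by
    refine ODE.contDiffOn_enat_Icc_of_hasDerivWithinAt (n := ⊤) (f := fun _ p => odeF be p)
      (u := {p | 0 < p.1}) ?_ (fun t ht => (hd t ht).hasDerivWithinAt) ?_
    · intro q hq
      have h1 : ContDiffAt ℝ ∞ (odeF be) q.2 := odeF_smooth hbe (ne_of_gt hq.2)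
      exact (h1.comp q contDiffAt_snd).contDiffWithinAt
    · intro t ht
      change 0 < (α t).1
      rw [hτ t ht]; exact hpos t ht
  have hcd : ∀ t ∈ Icc (r0 - ε1) (r0 + ε1), HasDerivAt (fun t => (α t).2.1)
      ((∑ a, be a t * (α t).2.2 a) / t) t := fun t ht => by
    have := (hd t ht).snd.fst
    simp only [odeF, hτ t ht] at this
    exact this
  have hvd : ∀ t ∈ Icc (r0 - ε1) (r0 + ε1), ∀ a, HasDerivAt (fun t => (α t).2.2 a)
      (-(be a t * (α t).2.1 + ∑ b, ∑ d, be b t * (α t).2.2 d * eps b d a) / t) t :=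
    fun t ht a => by
    have h1 := (hd t ht).snd.snd
    have h2 := (hasDerivAt_pi.1 h1) a
    simp only [odeF, hτ t ht] at h2
    exact h2
  have hunit : ∀ t ∈ Icc (r0 - ε1) (r0 + ε1), (α t).2.1 ^ 2 + ∑ a, (α t).2.2 a ^ 2 = 1 := by
    intro t ht
    have hc : ∀ s ∈ Icc (r0 - ε1) (r0 + ε1), HasDerivWithinAt
        (fun t => (α t).2.1 ^ 2 + ∑ a, (α t).2.2 a ^ 2) 0 (Icc (r0 - ε1) (r0 + ε1)) s := by
      intro s hs
      have h1 := ((hcd s hs).fun_pow 2).add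
        (HasDerivAt.fun_sum (u := Finset.univ) fun a _ => (hvd s hs a).fun_pow 2)
      refine (h1.congr_deriv ?_).hasDerivWithinAt
      have hs0 := (hpos s hs).ne'
      simp only [Fin.sum_univ_three]
      simp [eps]
      field_simp
      ring
    have hcv : Convex ℝ (Icc (r0 - ε1) (r0 + ε1)) := convex_Icc _ _
    have h := hcv.norm_image_sub_le_of_norm_hasDerivWithin_le (C := 0) (fun s hs => hc s hs)
      (fun s _ => by simp) hmem0 ht
    have h2 : ((α t).2.1 ^ 2 + ∑ a, (α t).2.2 a ^ 2) -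
        ((α r0).2.1 ^ 2 + ∑ a, (α r0).2.2 a ^ 2) = 0 := by
      simpa using h
    rw [hα0] at h2
    simp at h2
    linarith
  have hio : Ioo (r0 - ε1) (r0 + ε1) ⊆ Icc (r0 - ε1) (r0 + ε1) := Ioo_subset_Icc_self
  refine ⟨fun t => (α t).2.1, fun a t => (α t).2.2 a, ε1, hε1p, hle2, ?_, ?_, ?_, ?_, ?_⟩
  · simp only [hα0]
  · intro a; simp [hα0]
  · exact (contDiff_fst.comp contDiff_snd).comp_contDiffOn (hsm.mono hio)
  · intro a
    have : ContDiff ℝ ∞ (fun p : ℝ × (ℝ × (Fin 3 → ℝ)) => p.2.2 a) := by fun_prop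
    exact this.comp_contDiffOn (hsm.mono hio)
  · intro t ht
    exact ⟨hunit t (hio ht), hcd t (hio ht), hvd t (hio ht)⟩

end Vale.Agent.P366.T2
end
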