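import Vale.Agent.P366.T2.MUp
import Vale.Agent.P366.T2.Calc

/-!
# Removing the shift by a rotation of the fibres: the pointwise identity
-/

open MeasureTheory Metric Filter Topology Set
open scoped ContDiff ENNReal

noncomputable section
namespace Vale.Agent.P366.T2
open Vale.Agent.P366.Stmt

variable {n : ℕ}

/-- The matrix of the quaternion `c + v` acting on `ℝⁿ`. -/
def Quat.rt4 (Q : Quat n) (c : ℝ) (v : Fin 3 → ℝ) : Matrix (Fin n) (Fin n) ℝ :=
  c • (1 : Matrix (Fin n) (Fin n) ℝ) + ∑ a, v a • Q.J a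

/-- The rotation `J_a ↦ A⁻¹ J_a A`. -/
def Rm (c : ℝ) (v : Fin 3 → ℝ) (a b : Fin 3) : ℝ :=
  (if a = b then c ^ 2 - ∑ d, v d ^ 2 else 0) + 2 * v a * v b + 2 * c * ∑ d, eps a d b * v d

lemma Rm_orth (c : ℝ) (v : Fin 3 → ℝ) (a b : Fin 3) :
    ∑ d, Rm c v d a * Rm c v d b = if a = b then (c ^ 2 + ∑ d, v d ^ 2) ^ 2 else 0 := by
  fin_cases a <;> fin_cases b <;> simp [Rm, eps, Fin.sum_univ_three] <;> ring

lemma Rm_orth' (c : ℝ) (v : Fin 3 → ℝ) (a b : Fin 3) :
    ∑ d, Rm c v a d * Rm c v b d = if a = b then (c ^ 2 + ∑ d, v d ^ 2) ^ 2 else 0 := by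
  fin_cases a <;> fin_cases b <;> simp [Rm, eps, Fin.sum_univ_three] <;> ring

namespace Quat

variable (Q : Quat n) (c : ℝ) (v : Fin 3 → ℝ)

lemma rt4_T : (Q.rt4 c v).transpose = Q.rt4 c (fun a => -v a) := by
  unfold rt4
  simp only [Matrix.transpose_add, Matrix.transpose_smul, Matrix.transpose_one,
    Matrix.transpose_sum, Q.skew, smul_neg, neg_smul]

lemma rt4_T_mul : (Q.rt4 c v).transpose * Q.rt4 c v =
    (c ^ 2 + ∑ d, v d ^ 2) • (1 : Matrix (Fin n) (Fin n) ℝ) := by
  rw [rt4_T]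
  unfold rt4
  simp only [Fin.sum_univ_three, Matrix.add_mul, Matrix.mul_add, Matrix.smul_mul,
    Matrix.mul_smul, Matrix.one_mul, Matrix.mul_one, Q.sq, Q.h01, Q.h12, Q.h20, Q.h10, Q.h21,
    Q.h02]
  module

lemma rt4_conj (a : Fin 3) : (Q.rt4 c v).transpose * Q.J a * Q.rt4 c v =
    ∑ b, Rm c v a b • Q.J b := by
  rw [rt4_T]
  unfold rt4
  fin_cases a <;>
  · simp [Fin.sum_univ_three, Matrix.add_mul, Matrix.mul_add, Matrix.smul_mul,
      Matrix.mul_smul, Matrix.one_mul, Matrix.mul_one, Q.sq, Q.h01, Q.h12, Q.h20, Q.h10, Q.h21,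
      Q.h02, Rm, eps]
    module

/-- entries of the products -/
lemma rt4_entry1 (hu : c ^ 2 + ∑ d, v d ^ 2 = 1) (i j : Fin n) :
    ∑ a, Q.rt4 c v a i * Q.rt4 c v a j = if i = j then 1 else 0 := by
  have h := congrFun (congrFun (Q.rt4_T_mul c v) i) j
  rw [hu, one_smul, Matrix.mul_apply, Matrix.one_apply] at h
  simpa [Matrix.transpose_apply] using h

section point

variable {Q c v}
variable {x y : E n} (hy : ∀ i, y i = ∑ j, Q.rt4 c v i j * x j)
  (hu : c ^ 2 + ∑ d, v d ^ 2 = 1)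

include hy hu

lemma rt4_pull_x (i : Fin n) : ∑ a, Q.rt4 c v a i * y a = x i := by
  simp only [hy, Finset.mul_sum]
  rw [Finset.sum_comm]
  have : ∀ j, ∑ a, Q.rt4 c v a i * (Q.rt4 c v a j * x j) = (if i = j then 1 else 0) * x j := by
    intro j
    rw [← Q.rt4_entry1 c v hu i j, Finset.sum_mul]
    exact Finset.sum_congr rfl fun a _ => by ring
  simp only [this, ite_mul, one_mul, zero_mul, Finset.sum_ite_eq, Finset.mem_univ, if_true]

lemma rt4_len : len y = len x := by
  have h1 : ∑ a, y a * y a = ∑ i, x i * x i := by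
    have : ∀ i, x i * x i = ∑ a, Q.rt4 c v a i * y a * x i := by
      intro i
      rw [← Finset.sum_mul, rt4_pull_x hy hu]
    rw [Finset.sum_congr rfl fun i _ => this i, Finset.sum_comm]
    refine Finset.sum_congr rfl fun a _ => ?_
    conv_lhs => rw [hy a, Finset.sum_mul]
    exact Finset.sum_congr rfl fun j _ => by rw [← hy a]; ring
  rw [sum_sq, sum_sq] at h1
  have h2 : 0 ≤ len y := norm_nonneg _
  have h3 : 0 ≤ len x := norm_nonneg _
  nlinarith [sq_nonneg (len y - len x)]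

lemma rt4_pull_Y (d : Fin 3) (i : Fin n) :
    ∑ a, Q.rt4 c v a i * Q.Y d y a = ∑ b, Rm c v d b * Q.Y b x i := by
  have h := fun j => congrFun (congrFun (Q.rt4_conj c v d) i) j
  have e1 : ∀ j, ∑ a, ∑ b, Q.rt4 c v a i * Q.J d a b * Q.rt4 c v b j =
      ∑ b, Rm c v d b * Q.J b i j := by
    intro j
    have h1 := h j
    rw [Matrix.mul_apply, Matrix.sum_apply] at h1
    simp only [Matrix.mul_apply, Matrix.transpose_apply, Matrix.smul_apply, smul_eq_mul,
      Finset.sum_mul] at h1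
    rw [Finset.sum_comm] at h1
    exact h1
  have e2 : ∑ a, Q.rt4 c v a i * Q.Y d y a =
      ∑ j, (∑ a, ∑ b, Q.rt4 c v a i * Q.J d a b * Q.rt4 c v b j) * x j := by
    simp only [Quat.Y, hy, Finset.mul_sum, Finset.sum_mul]
    calc ∑ a, ∑ b, ∑ j, Q.rt4 c v a i * (Q.J d a b * (Q.rt4 c v b j * x j))
        = ∑ a, ∑ j, ∑ b, Q.rt4 c v a i * (Q.J d a b * (Q.rt4 c v b j * x j)) :=
          Finset.sum_congr rfl fun a _ => Finset.sum_comm
      _ = ∑ j, ∑ a, ∑ b, Q.rt4 c v a i * (Q.J d a b * (Q.rt4 c v b j * x j)) :=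
          Finset.sum_comm
      _ = _ := Finset.sum_congr rfl fun j _ => Finset.sum_congr rfl fun a _ =>
          Finset.sum_congr rfl fun b _ => by ring
  rw [e2]
  simp only [e1, Quat.Y, Finset.mul_sum, Finset.sum_mul]
  rw [Finset.sum_comm]
  exact Finset.sum_congr rfl fun b _ => Finset.sum_congr rfl fun j _ => by ring

/-- the Jacobian of the rotation with the radial derivative determined by the shift -/
lemma pull_x (be : Fin 3 → ℝ) (r2 : ℝ) (i : Fin n) :
    ∑ a, (Q.rt4 c v a i - (∑ d, be d * Q.Y d y a) * x i / r2) * y a = x i := by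
  have h1 : ∀ a, (Q.rt4 c v a i - (∑ d, be d * Q.Y d y a) * x i / r2) * y a =
      Q.rt4 c v a i * y a - x i / r2 * ∑ d, be d * (Q.Y d y a * y a) := by
    intro a
    have : ∑ d, be d * (Q.Y d y a * y a) = (∑ d, be d * Q.Y d y a) * y a := by
      rw [Finset.sum_mul]; exact Finset.sum_congr rfl fun d _ => by ring
    rw [this]; ring
  simp only [h1, Finset.sum_sub_distrib, ← Finset.mul_sum, rt4_pull_x hy hu]
  rw [Finset.sum_comm]
  simp only [← Finset.mul_sum, Q.Y_x]
  simp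

lemma pull_Y (be : Fin 3 → ℝ) (hx : x ≠ 0) (e : Fin 3) (i : Fin n) :
    ∑ a, (Q.rt4 c v a i - (∑ d, be d * Q.Y d y a) * x i / len x ^ 2) * Q.Y e y a =
      (∑ b, Rm c v e b * Q.Y b x i) - be e * x i := by
  have hr : len x ≠ 0 := by simp [len, hx]
  have h1 : ∀ a, (Q.rt4 c v a i - (∑ d, be d * Q.Y d y a) * x i / len x ^ 2) * Q.Y e y a =
      Q.rt4 c v a i * Q.Y e y a - x i / len x ^ 2 * ∑ d, be d * (Q.Y d y a * Q.Y e y a) := by
    intro a
    have : ∑ d, be d * (Q.Y d y a * Q.Y e y a) = (∑ d, be d * Q.Y d y a) * Q.Y e y a := by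
      rw [Finset.sum_mul]; exact Finset.sum_congr rfl fun d _ => by ring
    rw [this]; ring
  simp only [h1, Finset.sum_sub_distrib, ← Finset.mul_sum, rt4_pull_Y hy hu]
  rw [Finset.sum_comm]
  simp only [← Finset.mul_sum, Q.Y_Y, rt4_len hy hu]
  simp
  field_simp

lemma pull_pull (be : Fin 3 → ℝ) (hx : x ≠ 0) (i j : Fin n) :
    ∑ a, (Q.rt4 c v a i - (∑ d, be d * Q.Y d y a) * x i / len x ^ 2) *
      (Q.rt4 c v a j - (∑ d, be d * Q.Y d y a) * x j / len x ^ 2) =
      (if i = j then 1 else 0) - ((∑ d, be d * ∑ b, Rm c v d b * Q.Y b x i) * x j +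
        (∑ d, be d * ∑ b, Rm c v d b * Q.Y b x j) * x i) / len x ^ 2 +
        (∑ d, be d ^ 2) * (x i * x j) / len x ^ 2 := by
  have hr : len x ≠ 0 := by simp [len, hx]
  have h0 : ∀ i, ∑ a, Q.rt4 c v a i * (∑ d, be d * Q.Y d y a) =
      ∑ d, be d * ∑ b, Rm c v d b * Q.Y b x i := by
    intro i
    simp only [Finset.mul_sum]
    rw [Finset.sum_comm]
    refine Finset.sum_congr rfl fun d _ => ?_
    rw [← Finset.mul_sum, ← rt4_pull_Y hy hu, Finset.mul_sum]
    exact Finset.sum_congr rfl fun a _ => by ring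
  have h2 : ∑ a, (∑ d, be d * Q.Y d y a) * (∑ d, be d * Q.Y d y a) =
      (∑ d, be d ^ 2) * len x ^ 2 := by
    simp only [Finset.sum_mul_sum]
    rw [Finset.sum_comm]
    have : ∀ d, ∑ a, ∑ e, be d * Q.Y d y a * (be e * Q.Y e y a) = be d ^ 2 * len x ^ 2 := by
      intro d
      rw [Finset.sum_comm]
      have : ∀ e, ∑ a, be d * Q.Y d y a * (be e * Q.Y e y a) =
          be d * be e * (if d = e then len y ^ 2 else 0) := by
        intro e
        rw [← Q.Y_Y d e y, Finset.mul_sum]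
        exact Finset.sum_congr rfl fun a _ => by ring
      simp only [this, rt4_len hy hu, mul_ite, mul_zero, Finset.sum_ite_eq, Finset.mem_univ,
        if_true]
      ring
    simp only [this, Finset.sum_mul]
  have h3 : ∀ a, (Q.rt4 c v a i - (∑ d, be d * Q.Y d y a) * x i / len x ^ 2) *
      (Q.rt4 c v a j - (∑ d, be d * Q.Y d y a) * x j / len x ^ 2) =
      Q.rt4 c v a i * Q.rt4 c v a j -
        x j / len x ^ 2 * (Q.rt4 c v a i * (∑ d, be d * Q.Y d y a)) -
        x i / len x ^ 2 * (Q.rt4 c v a j * (∑ d, be d * Q.Y d y a)) +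
        x i * x j / (len x ^ 2) ^ 2 * ((∑ d, be d * Q.Y d y a) * (∑ d, be d * Q.Y d y a)) := by
    intro a
    field_simp
    ring
  simp only [h3, Finset.sum_add_distrib, Finset.sum_sub_distrib, ← Finset.mul_sum, h0, h2,
    Q.rt4_entry1 c v hu]
  field_simp
  ring

/-- **Pull-back of an invariant tensor with shift by the rotation: the shift disappears.** -/
theorem pull_tenM (be : Fin 3 → ℝ → ℝ) (f u : ℝ → ℝ) (s s' : Fin 3 → Fin 3 → ℝ → ℝ)
    (hx : x ≠ 0)
    (hs' : ∀ a b, s' a b (len x) = ∑ d, ∑ e, Rm c v d a * Rm c v e b * s d e (len x))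
    (i j : Fin n) :
    ∑ a, ∑ b, (Q.rt4 c v a i - (∑ d, be d (len x) * Q.Y d y a) * x i / len x ^ 2) *
      (Q.rt4 c v b j - (∑ d, be d (len x) * Q.Y d y b) * x j / len x ^ 2) *
      Q.tenM be f u (fun _ _ => 0) s y a b = Q.ten f u (fun _ _ => 0) s' x i j := by
  have hr : len x ≠ 0 := by simp [len, hx]
  have hlen := rt4_len hy hu
  set B : Fin n → Fin n → ℝ := fun a i =>
    Q.rt4 c v a i - (∑ d, be d (len x) * Q.Y d y a) * x i / len x ^ 2 with hB
  set RY : Fin 3 → Fin n → ℝ := fun d i => ∑ b, Rm c v d b * Q.Y b x i with hRY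
  have hYY : ∑ d, RY d i * RY d j = ∑ b, Q.Y b x i * Q.Y b x j := by
    have ho : ∀ a b, ∑ d, Rm c v d a * Rm c v d b = if a = b then 1 else 0 := by
      intro a b
      rw [Rm_orth, hu]; simp
    have : ∀ d, RY d i * RY d j = ∑ a, ∑ b, Rm c v d a * Rm c v d b * (Q.Y a x i * Q.Y b x j) := by
      intro d
      simp only [hRY, Finset.sum_mul_sum]
      exact Finset.sum_congr rfl fun a _ => Finset.sum_congr rfl fun b _ => by ring
    simp only [this]
    calc ∑ d, ∑ a, ∑ b, Rm c v d a * Rm c v d b * (Q.Y a x i * Q.Y b x j)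
        = ∑ a, ∑ b, ∑ d, Rm c v d a * Rm c v d b * (Q.Y a x i * Q.Y b x j) := by
          rw [Finset.sum_comm]
          exact Finset.sum_congr rfl fun a _ => Finset.sum_comm
      _ = ∑ a, ∑ b, (if a = b then 1 else 0) * (Q.Y a x i * Q.Y b x j) := by
          simp only [← Finset.sum_mul, ho]
      _ = _ := by simp
  have hsYY : ∑ d, ∑ e, s d e (len x) * (RY d i * RY e j) =
      ∑ a, ∑ b, s' a b (len x) * Q.Y a x i * Q.Y b x j := by
    have : ∀ d e, s d e (len x) * (RY d i * RY e j) = ∑ a, ∑ b,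
        Rm c v d a * Rm c v e b * s d e (len x) * (Q.Y a x i * Q.Y b x j) := by
      intro d e
      rw [hRY]
      simp only [Finset.sum_mul_sum]
      rw [Finset.mul_sum]
      refine Finset.sum_congr rfl fun a _ => ?_
      rw [Finset.mul_sum]
      exact Finset.sum_congr rfl fun b _ => by ring
    simp only [this]
    calc ∑ d, ∑ e, ∑ a, ∑ b, Rm c v d a * Rm c v e b * s d e (len x) * (Q.Y a x i * Q.Y b x j)
        = ∑ d, ∑ a, ∑ e, ∑ b,
            Rm c v d a * Rm c v e b * s d e (len x) * (Q.Y a x i * Q.Y b x j) :=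
          Finset.sum_congr rfl fun d _ => Finset.sum_comm
      _ = ∑ a, ∑ d, ∑ e, ∑ b,
            Rm c v d a * Rm c v e b * s d e (len x) * (Q.Y a x i * Q.Y b x j) := Finset.sum_comm
      _ = ∑ a, ∑ b, ∑ d, ∑ e,
            Rm c v d a * Rm c v e b * s d e (len x) * (Q.Y a x i * Q.Y b x j) := by
          refine Finset.sum_congr rfl fun a _ => ?_
          rw [Finset.sum_comm' (t' := Finset.univ) (s' := fun _ => Finset.univ) (by simp)]
          rw [Finset.sum_comm]
          calc ∑ d, ∑ e, ∑ b, Rm c v d a * Rm c v e b * s d e (len x) * (Q.Y a x i * Q.Y b x j)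
              = ∑ d, ∑ b, ∑ e,
                  Rm c v d a * Rm c v e b * s d e (len x) * (Q.Y a x i * Q.Y b x j) :=
                Finset.sum_congr rfl fun d _ => Finset.sum_comm
            _ = _ := Finset.sum_comm
      _ = _ := by
          refine Finset.sum_congr rfl fun a _ => Finset.sum_congr rfl fun b _ => ?_
          rw [hs']
          simp only [← Finset.sum_mul]
          ring
  have hBx : ∀ i, ∑ a, B a i * y a = x i := fun i =>
    pull_x hy hu (fun d => be d (len x)) (len x ^ 2) i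
  have hBY : ∀ e i, ∑ a, B a i * Q.Y e y a = RY e i - be e (len x) * x i :=
    fun e i => pull_Y hy hu (fun d => be d (len x)) hx e i
  have hBB : ∑ a, B a i * B a j = (if i = j then 1 else 0) -
      ((∑ d, be d (len x) * RY d i) * x j + (∑ d, be d (len x) * RY d j) * x i) / len x ^ 2 +
        (∑ d, be d (len x) ^ 2) * (x i * x j) / len x ^ 2 :=
    pull_pull hy hu (fun d => be d (len x)) hx i j
  have hBZ : ∀ e i, ∑ a, B a i * Q.Z be e y a = RY e i := by
    intro e i
    unfold Quat.Z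
    simp only [mul_add, Finset.sum_add_distrib]
    have : ∑ a, B a i * (be e (len y) * y a) = be e (len y) * ∑ a, B a i * y a := by
      rw [Finset.mul_sum]; exact Finset.sum_congr rfl fun a _ => by ring
    rw [this, hBx, hBY, hlen]
    ring
  change ∑ a, ∑ b, B a i * B b j * Q.tenM be f u (fun _ _ => 0) s y a b = _
  clear_value RY B
  have hdelta : ∑ a, ∑ b, f (len x) * (B a i * B b j * (if a = b then 1 else 0)) =
      f (len x) * ∑ a, B a i * B a j := by
    rw [Finset.mul_sum]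
    exact Finset.sum_congr rfl fun a _ => by simp
  have hprod : ∀ (k : ℝ) (p q : Fin n → ℝ), ∑ a, ∑ b, k * (p a * q b) =
      k * ((∑ a, p a) * (∑ b, q b)) := by
    intro k p q
    rw [Finset.sum_mul_sum, Finset.mul_sum]
    exact Finset.sum_congr rfl fun a _ => by rw [Finset.mul_sum]
  have h0 : ∀ a b, B a i * B b j * Q.tenM be f u (fun _ _ => 0) s y a b =
      f (len x) * (B a i * B b j * (if a = b then 1 else 0)) +
      (u (len x) - f (len x)) / len x ^ 2 * ((B a i * y a) * (B b j * y b)) +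
      ∑ d, (-f (len x) / len x ^ 2) * ((B a i * Q.Y d y a) * (B b j * Q.Y d y b)) +
      ∑ d, ∑ e, s d e (len x) / len x ^ 2 * ((B a i * Q.Z be d y a) * (B b j * Q.Z be e y b)) := by
    intro a b
    unfold tenM
    rw [hlen]
    simp only [Fin.sum_univ_three]
    field_simp
    ring
  simp only [h0, Finset.sum_add_distrib, hdelta]
  simp only [Fin.sum_univ_three, Finset.sum_add_distrib, hprod, hBx, hBY, hBZ]
  rw [hBB]
  unfold ten
  simp only [Fin.sum_univ_three] at hYY hsYY ⊢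
  have e1 : ((s' 0 0 (len x) * Q.Y 0 x i * Q.Y 0 x j + s' 0 1 (len x) * Q.Y 0 x i * Q.Y 1 x j +
      s' 0 2 (len x) * Q.Y 0 x i * Q.Y 2 x j) + (s' 1 0 (len x) * Q.Y 1 x i * Q.Y 0 x j +
      s' 1 1 (len x) * Q.Y 1 x i * Q.Y 1 x j + s' 1 2 (len x) * Q.Y 1 x i * Q.Y 2 x j) +
      (s' 2 0 (len x) * Q.Y 2 x i * Q.Y 0 x j + s' 2 1 (len x) * Q.Y 2 x i * Q.Y 1 x j +
      s' 2 2 (len x) * Q.Y 2 x i * Q.Y 2 x j)) = _ := hsYY.symm
  rw [e1, ← hYY]
  field_simp
  ring

end point

end Quat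

end Vale.Agent.P366.T2
end
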