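import Vale.Agent.P366.T2.N4

/-!
# The Jacobian of the fibre rotation
-/

open MeasureTheory Metric Filter Topology Set
open scoped ContDiff ENNReal

noncomputable section
namespace Vale.Agent.P366.T2
open Vale.Agent.P366.Stmt

variable {n : ℕ}

/-- the map `x ↦ (c(|x|) + v(|x|)) x` -/
def Quat.Ph (Q : Quat n) (c : ℝ → ℝ) (v : Fin 3 → ℝ → ℝ) (x : E n) : E n :=
  WithLp.toLp 2 (fun i => ∑ j, Q.rt4 (c (len x)) (fun a => v a (len x)) i j * x j)

lemma Quat.Ph_apply (Q : Quat n) (c : ℝ → ℝ) (v : Fin 3 → ℝ → ℝ) (x : E n) (i : Fin n) :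
    Q.Ph c v x i = c (len x) * x i + ∑ b, v b (len x) * Q.Y b x i := by
  change ∑ j, Q.rt4 (c (len x)) (fun a => v a (len x)) i j * x j = _
  unfold Quat.rt4 Quat.Y
  simp only [Matrix.add_apply, Matrix.smul_apply, Matrix.sum_apply, Matrix.one_apply, smul_eq_mul,
    add_mul, Finset.sum_add_distrib, Finset.sum_mul, Finset.mul_sum]
  congr 1
  · simp
  · rw [Finset.sum_comm]
    exact Finset.sum_congr rfl fun b _ => Finset.sum_congr rfl fun j _ => by ring

lemma Quat.rt4_apply (Q : Quat n) (c : ℝ) (v : Fin 3 → ℝ) (i j : Fin n) :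
    Q.rt4 c v i j = c * (if i = j then 1 else 0) + ∑ b, v b * Q.J b i j := by
  unfold Quat.rt4
  simp only [Matrix.add_apply, Matrix.smul_apply, Matrix.sum_apply, Matrix.one_apply, smul_eq_mul]

/-- The Jacobian of the rotation whose radial derivative is determined by the shift. -/
theorem Quat.HP_Ph (Q : Quat n) {c : ℝ → ℝ} {v : Fin 3 → ℝ → ℝ} (be : Fin 3 → ℝ) {x : E n}
    (hx : x ≠ 0) (hc : HasDerivAt c ((∑ a, be a * v a (len x)) / len x) (len x))
    (hv : ∀ a, HasDerivAt (v a)
      (-(be a * c (len x) + ∑ b, ∑ d, be b * v d (len x) * eps b d a) / len x) (len x))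
    (i a : Fin n) :
    HP i (fun z => Q.Ph c v z a) (Q.rt4 (c (len x)) (fun a => v a (len x)) a i -
      (∑ d, be d * Q.Y d (Q.Ph c v x) a) * x i / len x ^ 2) x := by
  have hr := len_ne hx
  have h1 : (fun z => Q.Ph c v z a) = fun z => c (len z) * z a + ∑ b, v b (len z) * Q.Y b z a := by
    funext z; exact Q.Ph_apply c v z a
  rw [h1]
  have h2 := ((HP.radial hx hc i).mul (HP.coord i a x)).add
    (HP.sum (k := i) (x := x) Finset.univ (fun b _ => (HP.radial hx (hv b) i).mul
      (HP.Y Q b i a x)))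
  have hYP : ∀ d, Q.Y d (Q.Ph c v x) a = c (len x) * Q.Y d x a +
      ∑ b, v b (len x) * ((if d = b then -x a else 0) + ∑ e, eps d b e * Q.Y e x a) := by
    intro d
    rw [Quat.Y]
    simp only [Q.Ph_apply, mul_add, Finset.sum_add_distrib, Finset.mul_sum]
    congr 1
    · rw [Quat.Y, Finset.mul_sum]
      exact Finset.sum_congr rfl fun j _ => by ring
    · rw [Finset.sum_comm, ← Finset.sum_add_distrib]
      refine Finset.sum_congr rfl fun b _ => ?_
      have h3 := Q.J_Y d b x a
      have h4 : ∑ j, Q.J d a j * (v b (len x) * Q.Y b x j) =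
          v b (len x) * ∑ j, Q.J d a j * Q.Y b x j := by
        rw [Finset.mul_sum]; exact Finset.sum_congr rfl fun j _ => by ring
      rw [h4, h3, mul_add, Finset.mul_sum]
  rw [Q.rt4_apply]
  have e : (∑ a, be a * v a (len x)) / len x / len x * x i * x a + c (len x) *
      (if a = i then 1 else 0) + ∑ b, (-(be b * c (len x) + ∑ b_1, ∑ d, be b_1 * v d (len x) *
        eps b_1 d b) / len x / len x * x i * Q.Y b x a + v b (len x) * Q.J b a i) =
      c (len x) * (if a = i then 1 else 0) + ∑ b, v b (len x) * Q.J b a i -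
      (∑ d, be d * Q.Y d (Q.Ph c v x) a) * x i / len x ^ 2 := by
    simp only [hYP, Fin.sum_univ_three]
    simp [eps]
    field_simp
    ring
  rw [e] at h2
  exact h2

end Vale.Agent.P366.T2
end
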