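import Vale.Agent.P366.T2.MKey

/-! Rotating the fibre metric by a curve of unit quaternions. -/

open MeasureTheory Metric Filter Topology Set
open scoped ContDiff ENNReal

noncomputable section
namespace Vale.Agent.P366.T2
open Vale.Agent.P366.Stmt

variable {n : ℕ}

/-- `Aᵀ J_a A = ∑ b, rot z y a b • J_b` for `A = z + y_c J_c`. -/
def rot (z : ℝ) (y : Fin 3 → ℝ) (a b : Fin 3) : ℝ :=
  (z ^ 2 - ∑ c, y c ^ 2) * (if a = b then 1 else 0) + 2 * y a * y b +
    2 * z * ∑ c, eps a c b * y c

/-- the rotation matrix -/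
def rotM (z : ℝ) (y : Fin 3 → ℝ) : Matrix (Fin 3) (Fin 3) ℝ := Matrix.of fun a b => rot z y a b

theorem rotM_orth {z : ℝ} {y : Fin 3 → ℝ} (h : z ^ 2 + ∑ a, y a ^ 2 = 1) :
    (rotM z y).transpose * rotM z y = 1 := by
  rw [Fin.sum_univ_three] at h
  ext a b
  rw [Matrix.mul_apply, Matrix.one_apply]
  simp only [Matrix.transpose_apply, rotM, Matrix.of_apply, rot, Fin.sum_univ_three]
  fin_cases a <;> fin_cases b <;> simp [eps]
  · linear_combination (z ^ 2 + (y 0 ^ 2 + y 1 ^ 2 + y 2 ^ 2) + 1) * h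
  · ring
  · ring
  · ring
  · linear_combination (z ^ 2 + (y 0 ^ 2 + y 1 ^ 2 + y 2 ^ 2) + 1) * h
  · ring
  · ring
  · ring
  · linear_combination (z ^ 2 + (y 0 ^ 2 + y 1 ^ 2 + y 2 ^ 2) + 1) * h

theorem rotM_one : rotM 1 (fun _ => 0) = 1 := by
  ext a b
  simp [rotM, rot, Matrix.one_apply]

namespace Data

variable (D : Data n) {z : ℝ → ℝ} {y : Fin 3 → ℝ → ℝ}

/-- the data with rotated fibre metric `Rᵀ q R` -/
def turn (hz : ContDiff ℝ ∞ z) (hy : ∀ a, ContDiff ℝ ∞ (y a))
    (h : ∀ r, z r ^ 2 + ∑ a, y a r ^ 2 = 1) : Data n where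
  Q := D.Q
  R := D.R
  hR := D.hR
  al := D.al
  p := D.p
  q := fun b c r => ∑ a, ∑ d, rot (z r) (fun e => y e r) a b * D.q a d r *
    rot (z r) (fun e => y e r) d c
  ka := D.ka
  kn := D.kn
  v := D.v
  s := D.s
  al_smooth := D.al_smooth
  p_smooth := D.p_smooth
  q_smooth := fun b c => by
    have hr : ∀ a b, ContDiff ℝ ∞ (fun r => rot (z r) (fun e => y e r) a b) := by
      intro a b
      unfold rot
      exact (((hz.pow 2).sub (ContDiff.sum fun c _ => (hy c).pow 2)).mul contDiff_const).add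
        ((contDiff_const.mul (hy a)).mul (hy b)) |>.add
        ((contDiff_const.mul hz).mul (ContDiff.sum fun c _ => contDiff_const.mul (hy c)))
    exact ContDiff.sum fun a _ => ContDiff.sum fun d _ =>
      ((hr a b).mul (D.q_smooth a d)).mul (hr d c)
  ka_smooth := D.ka_smooth
  kn_smooth := D.kn_smooth
  v_smooth := D.v_smooth
  s_smooth := D.s_smooth
  q_symm := fun b c => by
    funext r
    rw [Finset.sum_comm]
    exact Finset.sum_congr rfl fun a _ => Finset.sum_congr rfl fun d _ => by
      rw [D.q_symm d a]; ring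
  s_symm := D.s_symm
  al_pos := D.al_pos
  p_pos := D.p_pos
  q_pos := fun r hr => by
    have h1 : (Matrix.of fun b c => ∑ a, ∑ d, rot (z r) (fun e => y e r) a b * D.q a d r *
        rot (z r) (fun e => y e r) d c) = (rotM (z r) (fun e => y e r)).transpose *
        (Matrix.of fun a b => D.q a b r) * rotM (z r) (fun e => y e r) := by
      ext b c
      simp only [Matrix.of_apply, Matrix.mul_apply, Matrix.transpose_apply, rotM,
        Finset.sum_mul]
      rw [Finset.sum_comm]
    rw [h1]
    have h2 := rotM_orth (h r)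
    have h3 : Function.Injective (rotM (z r) (fun e => y e r)).mulVec := by
      intro u v huv
      have := congrArg ((rotM (z r) (fun e => y e r)).transpose.mulVec) huv
      simpa only [Matrix.mulVec_mulVec, h2, Matrix.one_mulVec] using this
    have h4 := (D.q_pos r hr).conjTranspose_mul_mul_same h3
    rwa [Matrix.conjTranspose_eq_transpose_of_trivial] at h4

variable (hz : ContDiff ℝ ∞ z) (hy : ∀ a, ContDiff ℝ ∞ (y a))
    (h : ∀ r, z r ^ 2 + ∑ a, y a r ^ 2 = 1)

theorem turn_qh (r : ℝ) : (D.turn hz hy h).qh r =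
    (rotM (z r) (fun e => y e r)).transpose * D.qh r * rotM (z r) (fun e => y e r) := by
  ext b c
  simp only [qh, turn, Matrix.of_apply, Matrix.mul_apply, Matrix.transpose_apply, rotM,
    Finset.sum_mul, Finset.mul_sum]
  rw [Finset.sum_comm]
  exact Finset.sum_congr rfl fun a _ => Finset.sum_congr rfl fun d _ => by ring

theorem turn_det (r : ℝ) : ((D.turn hz hy h).qh r).det = (D.qh r).det := by
  rw [turn_qh, Matrix.det_mul, Matrix.det_mul]
  have h1 := congrArg Matrix.det (rotM_orth (h r))
  rw [Matrix.det_mul, Matrix.det_one] at h1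
  linear_combination (D.qh r).det * h1

theorem turn_trA {r : ℝ} (hr : D.R ≤ r) : ((D.turn hz hy h).A r).trace = (D.A r).trace := by
  have h1 := (D.turn hz hy h).det_hasDerivAt (r := r) hr
  have h2 := D.det_hasDerivAt hr
  have h3 : (fun t => ((D.turn hz hy h).qh t).det) = fun t => (D.qh t).det := by
    funext t; exact D.turn_det hz hy h t
  rw [h3, D.turn_det hz hy h r] at h1
  have h4 := h1.unique h2
  have h5 := (D.det_pos hr).ne'
  field_simp at h4
  linarith

theorem turn_H {r : ℝ} (hr : D.R ≤ r) : (D.turn hz hy h).H r = D.H r := by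
  have h1 := D.turn_trA hz hy h hr
  unfold H
  rw [h1]
  rfl

theorem turn_dH {r : ℝ} (hr : D.R < r) : deriv (D.turn hz hy h).H r = deriv D.H r := by
  apply Filter.EventuallyEq.deriv_eq
  filter_upwards [Ioi_mem_nhds hr] with t ht
  exact D.turn_H hz hy h (le_of_lt ht)

/-- **Block [N5]**: the scalar curvature expression of the rotated data at the point where the
rotation is trivial. -/
theorem Rg_turn {be : Fin 3 → ℝ → ℝ} {r0 : ℝ} (hr : D.R < r0) (hz0 : z r0 = 1)
    (hy0 : ∀ a, y a r0 = 0)
    (hdz : HasDerivAt z ((∑ a, be a r0 * y a r0) / r0) r0)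
    (hdy : ∀ d, HasDerivAt (y d)
      (-(be d r0 * z r0 + ∑ a, ∑ c, eps a c d * be a r0 * y c r0) / r0) r0) :
    (D.turn hz hy h).Rg r0 = D.RgM be r0 := by
  have hr0 : 0 < r0 := D.hR.trans hr
  have hrot : rotM (z r0) (fun e => y e r0) = 1 := by
    rw [hz0]; simp only [hy0]; exact rotM_one
  have hqh : (D.turn hz hy h).qh r0 = D.qh r0 := by
    rw [turn_qh, hrot]; simp
  -- derivative of the rotation
  have hdz' : HasDerivAt z 0 r0 := hdz.congr_deriv (by simp [hy0])
  have hdy' : ∀ d, HasDerivAt (y d) (-(be d r0) / r0) r0 := fun d =>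
    (hdy d).congr_deriv (by simp [hy0, hz0])
  have hdrot : ∀ a b, HasDerivAt (fun r => rot (z r) (fun e => y e r) a b)
      (2 * ∑ c, eps a c b * (-(be c r0) / r0)) r0 := by
    intro a b
    have h1 := ((((hdz'.fun_pow 2).fun_sub (HasDerivAt.fun_sum fun c (_ : c ∈ Finset.univ) =>
      (hdy' c).fun_pow 2)).mul_const (if a = b then (1 : ℝ) else 0)).fun_add
      (((hdy' a).const_mul 2).fun_mul (hdy' b))).fun_add
      ((hdz'.const_mul 2).fun_mul (HasDerivAt.fun_sum fun c (_ : c ∈ Finset.univ) =>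
        (hdy' c).const_mul (eps a c b)))
    refine h1.congr_deriv ?_
    simp [hy0, hz0]
  have hrot1 : ∀ a b, rot (z r0) (fun e => y e r0) a b = if a = b then 1 else 0 := by
    intro a b
    have := congrFun (congrFun hrot a) b
    rw [Matrix.one_apply] at this
    exact this
  -- derivative of the rotated fibre metric
  have hdq : ∀ b c, deriv (fun t => t ^ 2 * (D.turn hz hy h).q b c t) r0 = D.dqM be r0 b c := by
    intro b c
    have h1 : HasDerivAt (fun t => t ^ 2 * (D.turn hz hy h).q b c t)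
        (∑ a, ∑ d, ((2 * ∑ e, eps a e b * (-(be e r0) / r0)) * D.qh r0 a d *
          rot (z r0) (fun e => y e r0) d c +
          rot (z r0) (fun e => y e r0) a b * D.dqh r0 a d * rot (z r0) (fun e => y e r0) d c +
          rot (z r0) (fun e => y e r0) a b * D.qh r0 a d *
            (2 * ∑ e, eps d e c * (-(be e r0) / r0)))) r0 := by
      have h2 : (fun t => t ^ 2 * (D.turn hz hy h).q b c t) = fun t =>
          ∑ a, ∑ d, rot (z t) (fun e => y e t) a b * D.qh t a d * rot (z t) (fun e => y e t) d c := by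
        funext t
        simp only [turn, qh, Matrix.of_apply, Finset.mul_sum]
        exact Finset.sum_congr rfl fun a _ => Finset.sum_congr rfl fun d _ => by ring
      rw [h2]
      refine (HasDerivAt.fun_sum fun a _ => HasDerivAt.fun_sum fun d _ =>
        ((hdrot a b).fun_mul (D.qh_hasDerivAt r0 a d)).fun_mul (hdrot d c)).congr_deriv ?_
      exact Finset.sum_congr rfl fun a _ => Finset.sum_congr rfl fun d _ => by ring
    rw [h1.deriv]
    have h3 : D.dqM be r0 b c = D.dqh r0 b c -
      2 * r0 * ∑ e, ∑ d, be e r0 * (eps e b d * D.q d c r0 + eps e c d * D.q b d r0) := rfl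
    rw [h3]
    simp only [hrot1, qh, Matrix.of_apply]
    fin_cases b <;> fin_cases c <;> simp [Fin.sum_univ_three, eps] <;> field_simp <;> ring
  have hA : (D.turn hz hy h).A r0 = D.AM be r0 := by
    unfold A AM
    rw [hqh]
    congr 2
    ext b c
    simp only [Matrix.of_apply]
    exact hdq b c
  have hII : (D.turn hz hy h).II2 r0 = D.II2M be r0 := by
    unfold II2 II2M
    rw [hA]
    rfl
  have hRh : (D.turn hz hy h).Rh r0 = D.Rh r0 := by
    unfold Rh
    rw [hqh]
    rfl
  unfold Rg RgM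
  rw [hII, hRh, D.turn_H hz hy h hr.le, D.turn_dH hz hy h hr]
  rfl

end Data

end Vale.Agent.P366.T2
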