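import Vale.Agent.P366.T2.N4b
import Vale.Agent.P366.T2.Key

/-!
# The reduced functions after the rotation
-/

open MeasureTheory Metric Filter Topology Set
open scoped ContDiff ENNReal

noncomputable section
namespace Vale.Agent.P366.T2
open Vale.Agent.P366.Stmt

variable {n : ℕ}

/-- `D'` is obtained from `D` near `r0` by the rotation `y0 + yv`. -/
structure RotData (D D' : Data n) (be : Fin 3 → ℝ → ℝ) (y0 : ℝ → ℝ) (yv : Fin 3 → ℝ → ℝ)
    (r0 δ : ℝ) : Prop where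
  hδ : 0 < δ
  hR : ∀ t ∈ Ioo (r0 - δ) (r0 + δ), D.R < t ∧ D'.R < t
  one : y0 r0 = 1
  zero : ∀ a, yv a r0 = 0
  unit : ∀ t ∈ Ioo (r0 - δ) (r0 + δ), y0 t ^ 2 + ∑ a, yv a t ^ 2 = 1
  d0 : ∀ t ∈ Ioo (r0 - δ) (r0 + δ), HasDerivAt y0 ((∑ a, be a t * yv a t) / t) t
  dv : ∀ t ∈ Ioo (r0 - δ) (r0 + δ), ∀ a, HasDerivAt (yv a)
    (-(be a t * y0 t + ∑ b, ∑ d, be b t * yv d t * eps b d a) / t) t
  al : ∀ t ∈ Ioo (r0 - δ) (r0 + δ), D'.al t = D.al t
  p : ∀ t ∈ Ioo (r0 - δ) (r0 + δ), D'.p t = D.p t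
  q : ∀ t ∈ Ioo (r0 - δ) (r0 + δ), ∀ a b, D'.q a b t =
    ∑ d, ∑ e, Rm (y0 t) (fun a => yv a t) d a * Rm (y0 t) (fun a => yv a t) e b * D.q d e t

namespace RotData

variable {D D' : Data n} {be : Fin 3 → ℝ → ℝ} {y0 : ℝ → ℝ} {yv : Fin 3 → ℝ → ℝ} {r0 δ : ℝ}
  (h : RotData D D' be y0 yv r0 δ)

/-- the rotation matrix -/
def Rt (y0 : ℝ → ℝ) (yv : Fin 3 → ℝ → ℝ) (t : ℝ) : Matrix (Fin 3) (Fin 3) ℝ :=
  Matrix.of fun a b => Rm (y0 t) (fun a => yv a t) a b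

include h

lemma mem : r0 ∈ Ioo (r0 - δ) (r0 + δ) := ⟨by linarith [h.hδ], by linarith [h.hδ]⟩

lemma Rt_orth {t : ℝ} (ht : t ∈ Ioo (r0 - δ) (r0 + δ)) :
    (Rt y0 yv t).transpose * Rt y0 yv t = 1 := by
  ext a b
  rw [Matrix.mul_apply]
  simp only [Matrix.transpose_apply, Rt, Matrix.of_apply]
  rw [Rm_orth, h.unit t ht, Matrix.one_apply]
  simp

lemma Rt_orth' {t : ℝ} (ht : t ∈ Ioo (r0 - δ) (r0 + δ)) :
    Rt y0 yv t * (Rt y0 yv t).transpose = 1 :=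
  mul_eq_one_comm.1 (h.Rt_orth ht)

lemma qh {t : ℝ} (ht : t ∈ Ioo (r0 - δ) (r0 + δ)) :
    D'.qh t = (Rt y0 yv t).transpose * D.qh t * Rt y0 yv t := by
  ext a b
  rw [Matrix.mul_apply]
  simp only [Matrix.mul_apply, Matrix.transpose_apply, Rt, Matrix.of_apply, Data.qh, h.q t ht,
    Finset.mul_sum, Finset.sum_mul]
  rw [Finset.sum_comm]
  exact Finset.sum_congr rfl fun d _ => Finset.sum_congr rfl fun e _ => by ring

lemma det {t : ℝ} (ht : t ∈ Ioo (r0 - δ) (r0 + δ)) : (D'.qh t).det = (D.qh t).det := by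
  rw [h.qh ht, Matrix.det_mul, Matrix.det_mul]
  have h1 := congrArg Matrix.det (h.Rt_orth ht)
  rw [Matrix.det_mul, Matrix.det_one] at h1
  linear_combination (D.qh t).det * h1

lemma Yh {t : ℝ} (ht : t ∈ Ioo (r0 - δ) (r0 + δ)) : D'.Yh t = D.Yh t := by
  unfold Data.Yh
  rw [h.al t ht]

lemma ev {f g : ℝ → ℝ} (hfg : ∀ t ∈ Ioo (r0 - δ) (r0 + δ), f t = g t) {t : ℝ}
    (ht : t ∈ Ioo (r0 - δ) (r0 + δ)) : f =ᶠ[𝓝 t] g := by
  filter_upwards [isOpen_Ioo.mem_nhds ht] with s hs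
  exact hfg s hs

lemma yb {t : ℝ} (ht : t ∈ Ioo (r0 - δ) (r0 + δ)) : D'.yb t = D.yb t := by
  unfold Data.yb
  rw [(h.ev (fun t ht => h.Yh ht) ht).deriv_eq, h.Yh ht]

lemma c {t : ℝ} (ht : t ∈ Ioo (r0 - δ) (r0 + δ)) : D'.c t = D.c t := by
  unfold Data.c
  rw [h.p t ht]

lemma trA {t : ℝ} (ht : t ∈ Ioo (r0 - δ) (r0 + δ)) : (D'.A t).trace = (D.A t).trace := by
  have h1 := D'.det_hasDerivAt (h.hR t ht).2.le
  have h2 := D.det_hasDerivAt (h.hR t ht).1.le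
  have h3 := h1.congr_of_eventuallyEq (h.ev (fun t ht => (h.det ht).symm) ht)
  have h4 := h3.unique h2
  rw [h.det ht] at h4
  have h5 := (D.det_pos (h.hR t ht).1.le).ne'
  have h6 : 2 * (D.qh t).det ≠ 0 := mul_ne_zero two_ne_zero h5
  exact mul_left_cancel₀ h6 h4

lemma H {t : ℝ} (ht : t ∈ Ioo (r0 - δ) (r0 + δ)) : D'.H t = D.H t := by
  unfold Data.H
  rw [h.yb ht, h.trA ht, h.c ht]
  rfl

lemma dH : deriv D'.H r0 = deriv D.H r0 :=
  (h.ev (fun _ ht => h.H ht) h.mem).deriv_eq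

lemma Rm0 (a b : Fin 3) : Rm (y0 r0) (fun a => yv a r0) a b = if a = b then 1 else 0 := by
  unfold Rm
  simp only [h.one, h.zero]
  simp

lemma qh0 : D'.qh r0 = D.qh r0 := by
  ext a b
  simp only [Data.qh, Matrix.of_apply, h.q r0 h.mem, h.Rm0]
  simp

lemma dRm (hr : r0 ≠ 0) (a b : Fin 3) :
    HasDerivAt (fun t => Rm (y0 t) (fun a => yv a t) a b)
      (-(2 / r0) * ∑ d, eps a d b * be d r0) r0 := by
  have h0 := h.d0 r0 h.mem
  have hv := h.dv r0 h.mem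
  have h0' : HasDerivAt y0 0 r0 := by
    refine h0.congr_deriv ?_
    simp [h.zero]
  have hv' : ∀ a, HasDerivAt (yv a) (-be a r0 / r0) r0 := by
    intro a
    refine (hv a).congr_deriv ?_
    simp [h.zero, h.one]
  have h1 : HasDerivAt (fun t => if a = b then y0 t ^ 2 - ∑ d, yv d t ^ 2 else 0) 0 r0 := by
    split_ifs
    · have h2 := (h0'.fun_pow 2).fun_sub (HasDerivAt.fun_sum (u := Finset.univ)
        fun d _ => (hv' d).fun_pow 2)
      refine h2.congr_deriv ?_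
      simp [h.zero]
    · exact hasDerivAt_const _ _
  have h3 := ((hv' a).const_mul 2).fun_mul (hv' b)
  have h4 := (h0'.const_mul 2).fun_mul (HasDerivAt.fun_sum (u := Finset.univ)
    fun d _ => (hv' d).const_mul (eps a d b))
  have h5 := (h1.fun_add h3).fun_add h4
  refine (h5.congr_deriv ?_)
  simp only [h.zero, h.one, Fin.sum_univ_three]
  field_simp
  ring

lemma dqh0 (hr : r0 ≠ 0) (a b : Fin 3) :
    deriv (fun t => t ^ 2 * D'.q a b t) r0 = D.dqM be r0 a b := by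
  have e1 : (fun t => t ^ 2 * D'.q a b t) =ᶠ[𝓝 r0] fun t => ∑ d, ∑ e,
      Rm (y0 t) (fun a => yv a t) d a * Rm (y0 t) (fun a => yv a t) e b * (t ^ 2 * D.q d e t) := by
    filter_upwards [isOpen_Ioo.mem_nhds h.mem] with t ht
    rw [h.q t ht, Finset.mul_sum]
    refine Finset.sum_congr rfl fun d _ => ?_
    rw [Finset.mul_sum]
    exact Finset.sum_congr rfl fun e _ => by ring
  rw [e1.deriv_eq]
  have e2 : HasDerivAt (fun t => ∑ d, ∑ e,
      Rm (y0 t) (fun a => yv a t) d a * Rm (y0 t) (fun a => yv a t) e b * (t ^ 2 * D.q d e t))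
      (∑ d, ∑ e, ((-(2 / r0) * ∑ f, eps d f a * be f r0) * (if e = b then 1 else 0) +
        (if d = a then 1 else 0) * (-(2 / r0) * ∑ f, eps e f b * be f r0)) *
          (r0 ^ 2 * D.q d e r0) + ∑ d, ∑ e, (if d = a then 1 else 0) * (if e = b then 1 else 0) *
          deriv (fun t => t ^ 2 * D.q d e t) r0) r0 := by
    have h1 := HasDerivAt.fun_sum (u := Finset.univ) fun d (_ : d ∈ Finset.univ) =>
      HasDerivAt.fun_sum (u := Finset.univ) fun e (_ : e ∈ Finset.univ) =>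
        ((h.dRm hr d a).fun_mul (h.dRm hr e b)).fun_mul (D.qh_hasDerivAt r0 d e)
    refine h1.congr_deriv ?_
    rw [← Finset.sum_add_distrib]
    refine Finset.sum_congr rfl fun d _ => ?_
    rw [← Finset.sum_add_distrib]
    refine Finset.sum_congr rfl fun e _ => ?_
    simp only [h.Rm0, Data.dqh, Data.qh, Matrix.of_apply]
  rw [e2.deriv]
  unfold Data.dqM
  rw [Matrix.of_apply]
  simp only [Fin.sum_univ_three]
  have hs := D.q_symm
  fin_cases a <;> fin_cases b <;> simp [eps] <;> field_simp <;>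
    (try simp only [hs 1 0, hs 2 0, hs 2 1]) <;> ring

lemma A0 (hr : r0 ≠ 0) : D'.A r0 = D.AM be r0 := by
  unfold Data.A Data.AM
  rw [h.qh0]
  congr 2
  ext a b
  exact h.dqh0 hr a b

/-- the scalar curvature functions agree -/
theorem Rg (hr : r0 ≠ 0) : D'.Rg r0 = D.RgM be r0 := by
  unfold Data.Rg Data.RgM Data.Rh Data.II2 Data.II2M
  rw [h.qh0, h.Yh h.mem, h.A0 hr, h.yb h.mem, h.p r0 h.mem, h.H h.mem, h.dH, h.c h.mem]
  rfl

end RotData

end Vale.Agent.P366.T2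
end
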