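import Vale.Agent.P366.T2.N5e
import Vale.Agent.P366.T2.N2e
import Mathlib.Analysis.Calculus.BumpFunction.FiniteDimension

/-!
# Existence of the rotated data
-/

open MeasureTheory Metric Filter Topology Set
open scoped ContDiff ENNReal

noncomputable section
namespace Vale.Agent.P366.T2
open Vale.Agent.P366.Stmt

variable {n : ℕ}

lemma Rm_smooth {c : ℝ → ℝ} {v : Fin 3 → ℝ → ℝ} (hc : ContDiff ℝ ∞ c)
    (hv : ∀ a, ContDiff ℝ ∞ (v a)) (a b : Fin 3) :
    ContDiff ℝ ∞ fun t => Rm (c t) (fun a => v a t) a b := by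
  unfold Rm
  have h1 : ContDiff ℝ ∞ fun t => if a = b then c t ^ 2 - ∑ d, v d t ^ 2 else 0 := by
    split_ifs
    · exact (hc.pow 2).sub (ContDiff.sum fun d _ => (hv d).pow 2)
    · exact contDiff_const
  exact (h1.add ((contDiff_const.mul (hv a)).mul (hv b))).add
    ((contDiff_const.mul hc).mul (ContDiff.sum fun d _ => contDiff_const.mul (hv d)))

lemma rot_posDef {M : Matrix (Fin 3) (Fin 3) ℝ} (hM : M.PosDef) {c : ℝ} {v : Fin 3 → ℝ}
    (hu : c ^ 2 + ∑ a, v a ^ 2 = 1) :
    (Matrix.of fun a b => ∑ d, ∑ e, Rm c v d a * Rm c v e b * M d e).PosDef := by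
  set R : Matrix (Fin 3) (Fin 3) ℝ := Matrix.of fun a b => Rm c v a b with hR
  have h1 : (Matrix.of fun a b => ∑ d, ∑ e, Rm c v d a * Rm c v e b * M d e) =
      R.conjTranspose * M * R := by
    ext a b
    rw [Matrix.mul_apply]
    simp only [Matrix.mul_apply, Matrix.conjTranspose_apply, hR, Matrix.of_apply, star_trivial,
      Finset.sum_mul]
    rw [Finset.sum_comm]
    exact Finset.sum_congr rfl fun d _ => Finset.sum_congr rfl fun e _ => by ring
  rw [h1]
  refine hM.conjTranspose_mul_mul_same ?_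
  have h2 : R.transpose * R = 1 := by
    ext a b
    rw [Matrix.mul_apply]
    simp only [Matrix.transpose_apply, hR, Matrix.of_apply]
    rw [Rm_orth, hu, Matrix.one_apply]
    simp
  intro x y hxy
  have := congrArg (fun w => R.transpose.mulVec w) hxy
  simpa [Matrix.mulVec_mulVec, h2] using this

theorem exists_clampN (r0 ε : ℝ) (hε : 0 < ε) : ∃ χ : ℝ → ℝ, ContDiff ℝ ∞ χ ∧
    (∀ t, χ t ∈ Ioo (r0 - ε) (r0 + ε)) ∧ ∃ δ, 0 < δ ∧ δ < ε ∧ ∀ t, |t - r0| < δ → χ t = t := by
  let f : ContDiffBump r0 := ⟨ε / 3, ε / 2, by linarith, by linarith⟩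
  refine ⟨fun t => r0 + f t * (t - r0), ?_, ?_, ε / 3, by linarith, by linarith, ?_⟩
  · exact contDiff_const.add (f.contDiff.mul (contDiff_id.sub contDiff_const))
  · intro t
    by_cases ht : dist t r0 < ε / 2
    · have h1 : |f t * (t - r0)| < ε := by
        rw [abs_mul, abs_of_nonneg f.nonneg]
        rw [Real.dist_eq] at ht
        have h2 := f.le_one (x := t)
        have h3 := f.nonneg (x := t)
        nlinarith [abs_nonneg (t - r0)]
      rw [abs_lt] at h1
      exact ⟨by linarith [h1.1], by linarith [h1.2]⟩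
    · have h1 : f t = 0 := f.zero_of_le_dist (not_lt.1 ht)
      simp only [h1, zero_mul, add_zero]
      exact ⟨by linarith, by linarith⟩
  · intro t ht
    have h1 : f t = 1 := f.one_of_mem_closedBall (by
      rw [mem_closedBall, Real.dist_eq]; exact ht.le)
    simp only [h1, one_mul]
    ring

theorem exists_rotData (D : Data n) {be : Fin 3 → ℝ → ℝ} (hbe : ∀ a, ContDiff ℝ ∞ (be a))
    {r0 : ℝ} (h0 : D.R < r0) :
    ∃ (D' : Data n) (y0 : ℝ → ℝ) (yv : Fin 3 → ℝ → ℝ) (δ : ℝ), D'.Q = D.Q ∧ D'.R = D.R ∧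
      RotData D D' be y0 yv r0 δ ∧ ContDiffOn ℝ ∞ y0 (Ioo (r0 - δ) (r0 + δ)) ∧
      ∀ a, ContDiffOn ℝ ∞ (yv a) (Ioo (r0 - δ) (r0 + δ)) := by
  obtain ⟨c, v, ε, hε, hεr, hc0, hv0, hcs, hvs, hode⟩ := exists_rotE be hbe (D.hR.trans h0)
  set ε2 := min ε (r0 - D.R) with hε2
  have hε2p : 0 < ε2 := lt_min hε (by linarith)
  have hε2a : ε2 ≤ ε := min_le_left _ _
  have hε2b : ε2 ≤ r0 - D.R := min_le_right _ _
  obtain ⟨χ, hχ, hχI, δ, hδ, hδε, hχδ⟩ := exists_clampN r0 ε2 hε2p
  have hsub : Ioo (r0 - ε2) (r0 + ε2) ⊆ Ioo (r0 - ε) (r0 + ε) :=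
    Ioo_subset_Ioo (by linarith) (by linarith)
  have hχI' : ∀ t, χ t ∈ Ioo (r0 - ε) (r0 + ε) := fun t => hsub (hχI t)
  have hχR : ∀ t, D.R < χ t := fun t => by linarith [(hχI t).1]
  have hcχ : ContDiff ℝ ∞ fun t => c (χ t) := hcs.comp_contDiff hχ hχI'
  have hvχ : ∀ a, ContDiff ℝ ∞ fun t => v a (χ t) := fun a => (hvs a).comp_contDiff hχ hχI'
  let D' : Data n :=
    { Q := D.Q
      R := D.R
      hR := D.hR
      al := fun t => D.al (χ t)
      p := fun t => D.p (χ t)
      q := fun a b t => ∑ d, ∑ e, Rm (c (χ t)) (fun a => v a (χ t)) d a *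
        Rm (c (χ t)) (fun a => v a (χ t)) e b * D.q d e (χ t)
      ka := fun _ => 0
      kn := fun _ => 0
      v := fun _ _ => 0
      s := fun _ _ _ => 0
      al_smooth := D.al_smooth.comp hχ
      p_smooth := D.p_smooth.comp hχ
      q_smooth := fun a b => ContDiff.sum fun d _ => ContDiff.sum fun e _ =>
        ((Rm_smooth hcχ hvχ d a).mul (Rm_smooth hcχ hvχ e b)).mul ((D.q_smooth d e).comp hχ)
      ka_smooth := contDiff_const
      kn_smooth := contDiff_const
      v_smooth := fun _ => contDiff_const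
      s_smooth := fun _ _ => contDiff_const
      q_symm := fun a b => by
        funext t
        rw [Finset.sum_comm]
        refine Finset.sum_congr rfl fun d _ => Finset.sum_congr rfl fun e _ => ?_
        rw [D.q_symm e d]; ring
      s_symm := fun _ _ => rfl
      al_pos := fun t _ => D.al_pos _ (hχR t).le
      p_pos := fun t _ => D.p_pos _ (hχR t).le
      q_pos := fun t _ => rot_posDef (D.q_pos _ (hχR t).le) (hode _ (hχI' t)).1 }
  have hIδ : ∀ t ∈ Ioo (r0 - δ) (r0 + δ), χ t = t := fun t ht =>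
    hχδ t (by rw [abs_lt]; exact ⟨by linarith [ht.1], by linarith [ht.2]⟩)
  have hsubδ : Ioo (r0 - δ) (r0 + δ) ⊆ Ioo (r0 - ε) (r0 + ε) :=
    (Ioo_subset_Ioo (by linarith) (by linarith)).trans hsub
  refine ⟨D', c, v, δ, rfl, rfl, ?_, hcs.mono hsubδ, fun a => (hvs a).mono hsubδ⟩
  exact
    { hδ := hδ
      hR := fun t ht => by
        have : D.R < t := by linarith [ht.1]
        exact ⟨this, this⟩
      one := hc0
      zero := hv0
      unit := fun t ht => (hode t (hsubδ ht)).1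
      d0 := fun t ht => (hode t (hsubδ ht)).2.1
      dv := fun t ht => (hode t (hsubδ ht)).2.2
      al := fun t ht => by change D.al (χ t) = _; rw [hIδ t ht]
      p := fun t ht => by change D.p (χ t) = _; rw [hIδ t ht]
      q := fun t ht a b => by
        change ∑ d, ∑ e, Rm (c (χ t)) (fun a => v a (χ t)) d a *
          Rm (c (χ t)) (fun a => v a (χ t)) e b * D.q d e (χ t) = _
        rw [hIδ t ht] }

end Vale.Agent.P366.T2
end
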