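import Vale.Agent.P366.T2.Defs
import Mathlib.LinearAlgebra.Matrix.Kronecker

/-!
The standard quaternionic structure on `ℝ^(4 m)`.
-/

open Matrix
open scoped Kronecker

noncomputable section
namespace Vale.Agent.P366.T2

/-- left multiplications by `i`, `j`, `k` on the quaternions -/
def quatL : Fin 3 → Matrix (Fin 4) (Fin 4) ℝ :=
  ![!![0, -1, 0, 0; 1, 0, 0, 0; 0, 0, 0, -1; 0, 0, 1, 0],
    !![0, 0, -1, 0; 0, 0, 0, 1; 1, 0, 0, 0; 0, -1, 0, 0],
    !![0, 0, 0, -1; 0, 0, -1, 0; 0, 1, 0, 0; 1, 0, 0, 0]]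

lemma quatL_skew (a : Fin 3) : (quatL a)ᵀ = -quatL a := by
  fin_cases a <;> ext i j <;> fin_cases i <;> fin_cases j <;> simp [quatL]

lemma quatL_sq (a : Fin 3) : quatL a * quatL a = -1 := by
  fin_cases a <;> ext i j <;> fin_cases i <;> fin_cases j <;>
    simp [quatL, Matrix.mul_apply, Fin.sum_univ_four]

lemma quatL_01 : quatL 0 * quatL 1 = quatL 2 := by
  ext i j; fin_cases i <;> fin_cases j <;> simp [quatL, Matrix.mul_apply, Fin.sum_univ_four]

lemma quatL_12 : quatL 1 * quatL 2 = quatL 0 := by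
  ext i j; fin_cases i <;> fin_cases j <;> simp [quatL, Matrix.mul_apply, Fin.sum_univ_four]

lemma quatL_20 : quatL 2 * quatL 0 = quatL 1 := by
  ext i j; fin_cases i <;> fin_cases j <;> simp [quatL, Matrix.mul_apply, Fin.sum_univ_four]

/-- The block matrix with `m` copies of `L` on the diagonal. -/
def blk (m : ℕ) (L : Matrix (Fin 4) (Fin 4) ℝ) : Matrix (Fin (m * 4)) (Fin (m * 4)) ℝ :=
  ((1 : Matrix (Fin m) (Fin m) ℝ) ⊗ₖ L).submatrix finProdFinEquiv.symm finProdFinEquiv.symm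

lemma blk_mul (m : ℕ) (A B : Matrix (Fin 4) (Fin 4) ℝ) : blk m A * blk m B = blk m (A * B) := by
  unfold blk
  rw [Matrix.submatrix_mul_equiv, ← Matrix.mul_kronecker_mul, Matrix.one_mul]

lemma blk_neg (m : ℕ) (A : Matrix (Fin 4) (Fin 4) ℝ) : blk m (-A) = -blk m A := by
  ext i j
  simp [blk, Matrix.kroneckerMap_apply]

lemma blk_one (m : ℕ) : blk m 1 = 1 := by
  unfold blk
  rw [Matrix.one_kronecker_one, Matrix.submatrix_one_equiv]

lemma blk_transpose (m : ℕ) (A : Matrix (Fin 4) (Fin 4) ℝ) : (blk m A)ᵀ = blk m Aᵀ := by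
  unfold blk
  rw [Matrix.transpose_submatrix]
  congr 1
  rw [← Matrix.kroneckerMap_transpose, Matrix.transpose_one]

/-- The standard quaternionic structure on `ℝ^(4 m)`. -/
def quatStd (m : ℕ) : Quat (m * 4) where
  J a := blk m (quatL a)
  skew a := by rw [blk_transpose, quatL_skew, blk_neg]
  sq a := by rw [blk_mul, quatL_sq, blk_neg, blk_one]
  h01 := by rw [blk_mul, quatL_01]
  h12 := by rw [blk_mul, quatL_12]
  h20 := by rw [blk_mul, quatL_20]

end Vale.Agent.P366.T2
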