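import Vale.Agent.P366.Stmt

open scoped ContDiff

noncomputable section
namespace Vale.Agent.P366.T2
open Vale.Agent.P366.Stmt

variable {n : ℕ}

/-- A quaternionic structure on Euclidean `n`-space (so `n = 4m`). -/
structure Quat (n : ℕ) where
  J : Fin 3 → Matrix (Fin n) (Fin n) ℝ
  skew : ∀ a, (J a).transpose = -J a
  sq : ∀ a, J a * J a = -1
  h01 : J 0 * J 1 = J 2
  h12 : J 1 * J 2 = J 0
  h20 : J 2 * J 0 = J 1

/-- The vector `J_a x`. -/
def Quat.Y (Q : Quat n) (a : Fin 3) (x : E n) (i : Fin n) : ℝ := ∑ j, Q.J a i j * x j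

/-- The tensor field `T` is invariant, on `R ≤ |x|`, under `Sp(m)`: the orthogonal matrices that
commute with the quaternionic structure. -/
def Quat.Invariant (Q : Quat n) (R : ℝ) (T : Field n) : Prop :=
  ∀ A : Matrix (Fin n) (Fin n) ℝ, A.transpose * A = 1 → (∀ a, A * Q.J a = Q.J a * A) →
    ∀ x y : E n, R ≤ len x → (∀ i, y i = ∑ j, A i j * x j) →
      ∀ i j, ∑ k, ∑ l, A k i * T y k l * A l j = T x i j

end Vale.Agent.P366.T2
end
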